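import Vale.Agent.P218M1.Defs

/-!
# P218M1: the statements of the rows

Every row proves one of these propositions from the ones listed in the row.
See notes/P218/Mult1.md and notes/P218/Mult1Rows.md.
-/

open MeasureTheory Metric Filter Topology Set
open scoped ContDiff RealInnerProductSpace ENNReal

noncomputable section

namespace Vale.Agent.P218M1

/-! ### calculus -/

/-- **FS**: sums over transversal zeros -/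
def FS : Prop := ∀ (Y V : Type) [NormedAddCommGroup Y] [NormedSpace ℝ Y] [CompleteSpace Y]
  [NormedAddCommGroup V] [NormedSpace ℝ V] (F : Y × ℝ → ℝ) (f : Y × ℝ → V) (y₀ : Y) (a b : ℝ)
  (k : ℕ), (∀ d ∈ Icc a b, ContDiffAt ℝ ∞ F (y₀, d)) →
  (∀ᶠ y in 𝓝 y₀, ∀ d, F (y, d) = 0 → d ∉ Icc a b → f (y, d) = 0) →
  (∀ d, F (y₀, d) = 0 → (d ∈ Icc a b ∧ fderiv ℝ F (y₀, d) (0, 1) ≠ 0 ∧ ContDiffAt ℝ k f (y₀, d)) ∨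
    f =ᶠ[𝓝 (y₀, d)] 0) →
  ContDiffAt ℝ k (fun y => ∑ᶠ (d : ℝ) (_ : F (y, d) = 0), f (y, d)) y₀ ∧
  (1 ≤ k → ∀ v, fderiv ℝ (fun y => ∑ᶠ (d : ℝ) (_ : F (y, d) = 0), f (y, d)) y₀ v =
    ∑ᶠ (d : ℝ) (_ : F (y₀, d) = 0), fderiv ℝ f (y₀, d)
      (v, -(fderiv ℝ F (y₀, d) (v, 0) / fderiv ℝ F (y₀, d) (0, 1))))

/-- **CA**: regularity and integrability of the sums over the hits -/
structure CA : Prop where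
  rsk : ∀ (S : Sf) (π : Par) (k : ℕ) (f : Q → ℝ) (x θ : E), S.Ok → π.Rg → S.Cl π k f → S.g x ≠ 0 →
    ContDiffAt ℝ k (fun p : E × E => S.RS f p.1 p.2) (x, θ) ∧
    (1 ≤ k → ∀ e r, fderiv ℝ (fun p : E × E => S.RS f p.1 p.2) (x, θ) (e, r) =
      S.RS (fun z => fderiv ℝ f z (e, r, -⟪S.p2 z, e + z.2.2 • r⟫)) x θ)
  iu : ∀ (S : Sf) (π : Par) (f : Q → ℝ) (x : E), S.Ok → π.Rg → S.Cl π 0 f → S.g x ≠ 0 →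
    Integrable fun u => gam u * (|S.cc x (un u)| * S.RS f x (un u))
  ix : ∀ (S : Sf) (π : Par) (f : Q → ℝ), S.Ok → π.Rg → S.Cl π 0 f →
    Integrable (fun p : E × E => gam p.2 * (|S.cc p.1 (un p.2)| * S.RS f p.1 (un p.2)))
      (S.μ.prod volume)
  avc : ∀ (S : Sf) (π : Par) (f : Q → ℝ) (x : E), S.Ok → π.Rg → S.Cl π 0 f → S.g x ≠ 0 →
    ContinuousAt (S.AV f) x
  avi : ∀ (S : Sf) (π : Par) (f : Q → ℝ), S.Ok → π.Rg → S.Cl π 0 f → Integrable (S.AV f) S.μ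

/-- **LIN**: the area measure, seen from the lines in the direction `θ` -/
def LIN : Prop := ∀ (S : Sf) (θ : E) (h : E → ℝ) (R : ℝ), S.Ok → ‖θ‖ = 1 →
  (∀ x, S.w x = 0 → (‖x‖ ≤ R ∧ S.s x θ ≠ 0 ∧ ContDiffAt ℝ 0 h x) ∨ h =ᶠ[𝓝 x] 0) →
  Integrable (fun p => bet ⟪p, θ⟫ * S.LS h p θ) ∧
    ∫ x, |S.cc x θ| * h x ∂S.μ = ∫ p, bet ⟪p, θ⟫ * S.LS h p θ

/-- **RAD**: the area measure, seen from the rays through a point -/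
def RAD : Prop := ∃ c : ℝ, 0 < c ∧ ∀ (S : Sf) (π : Par) (f : Q → ℝ) (x : E), S.Ok → π.Rg →
  S.Cl π 0 f → S.g x ≠ 0 → ∫ u, gam u * S.RS f x (un u) =
    c * ∫ y, f (x, un (y - x), ‖y - x‖) * |S.cc y (un (y - x))| / ‖y - x‖ ^ 2 ∂S.μ

/-- **SWP**: the second point as base point -/
def SWP : Prop := ∀ (S : Sf) (π : Par) (f : Q → ℝ), S.Ok → π.Rg → S.Cl π 0 f →
  Integrable (fun p : E × E => gam p.2 * (|S.cc p.1 (un p.2)| * S.RB f p.1 (un p.2)))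
      (S.μ.prod volume) ∧
    S.II f = ∫ y, (∫ u, gam u * (|S.cc y (un u)| * S.RB f y (un u))) ∂S.μ

/-- **BYD**: integration by parts, translations -/
def BYD : Prop := ∀ (S : Sf) (π : Par) (f : Q → ℝ) (e : E), S.Ok → π.Rg → S.Cl π 1 f →
  S.II (S.D e f) = 0

/-- **BYR**: integration by parts, rotations -/
def BYR : Prop := ∀ (S : Sf) (π : Par) (f : Q → ℝ) (τ ν x : E), S.Ok → π.Rg → S.Cl π 1 f →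
  S.g x ≠ 0 → S.AV (fun z => S.R τ ν f z + ⟪S.p1 z, rot τ ν z.2.1⟫ * f z) x = 0

/-- **AVS**: the tangential derivative of an average -/
def AVS : Prop := ∀ (S : Sf) (π : Par) (f : Q → ℝ) (x : E), S.Ok → π.Rg → S.Cl π 1 f →
  S.g x ≠ 0 → ContDiffAt ℝ 1 (S.AV f) x ∧ ∀ τ, ⟪S.g x, τ⟫ = 0 →
    fderiv ℝ (S.AV f) x τ = S.AV (fun z => S.D τ f z + ⟪τ, S.lv z⟫ * f z) x

/-- **DT**: the time derivative -/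
def DT : Prop := ∀ (S : ℝ → Sf) (I : Set ℝ) (π : Par) (f : ℝ × Q → ℝ) (τ : ℝ), Fam S I → τ ∈ I →
  π.Rg → (∀ σ ∈ I, ∀ z ∈ (S σ).O, ContDiffAt ℝ 1 f (σ, z)) →
  (∀ σ ∈ I, ∀ z, (S σ).g z.1 ≠ 0 → (S σ).g (yy z) ≠ 0 → ¬ (S σ).Box π z → f (σ, z) = 0) →
  HasDerivAt (fun σ => (S σ).II fun z => f (σ, z))
    ((S τ).II fun z => fderiv ℝ f (τ, z) (1, (S τ).VT (wd S τ) z)) τ

/-- **NSC**: the sum over the hits between the two points -/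
structure NSC : Prop where
  sm : ∀ (S : Sf) (π : Par) (k : ℕ) (f : Q → ℝ), S.Ok → π.Rg → S.Cn π k f → S.Sm k (S.NS π f)
  dD : ∀ (S : Sf) (π : Par) (Λ : ℝ) (f : Q → ℝ) (z : Q) (e : E), Good S π Λ → S.Cn π 1 f →
    S.Hit z → S.Box π z → S.D e (S.NS π f) z = S.NS π (S.D e f) z
  dR : ∀ (S : Sf) (π : Par) (Λ : ℝ) (f : Q → ℝ) (z : Q) (τ ν : E), Good S π Λ → S.Cn π 1 f →
    S.Hit z → S.Box π z → S.R τ ν (S.NS π f) z = S.NS π (S.R τ ν f) z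

/-- **CON**: volumes of cones of directions, and of a tube of lines -/
structure CON : Prop where
  up : ∃ C : ℝ, 0 < C ∧ ∀ (n : E) (β : ℝ), ‖n‖ = 1 →
    ∫ u, gam u * indicator {u | 1 - ⟪n, un u⟫ ^ 2 ≤ β ^ 2} 1 u ≤ C * β ^ 2
  lo : ∃ c : ℝ, 0 < c ∧ ∀ (n : E) (β : ℝ), ‖n‖ = 1 → 0 ≤ β → β ≤ 1 →
    c * β ^ 2 ≤ ∫ u, gam u * indicator {u | 1 - ⟪n, un u⟫ ^ 2 ≤ β ^ 2} 1 u
  mm : ∃ c C : ℝ, 0 < c ∧ ∀ π : Par, π.Rg → c * π.α ^ 2 ≤ π.mm ∧ π.mm ≤ C * π.α ^ 2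
  inv : ∀ (π : Par) (n : E), ‖n‖ = 1 →
    ∫ u, gam u * (|⟪n, un u⟫| * π.B0 (⟪n, un u⟫ ^ 2) ^ 2) = π.mm
  half : ∀ (π : Par) (n : E) (σ : ℝ), π.Rg → ‖n‖ = 1 → σ = 1 ∨ σ = -1 →
    ∫ u, gam u * (|⟪n, un u⟫| * (hv σ ⟪n, un u⟫ * π.B0 (⟪n, un u⟫ ^ 2) ^ 2)) = π.mm / 2
  hom : ∃ C : ℝ, 0 < C ∧ ∀ F : E → ℝ, (∀ θ, 0 ≤ F θ) → Integrable (fun u => gam u * F (un u)) →
    IntegrableOn (fun u => F (un u)) {u | 1 / 2 ≤ ‖u‖ ∧ ‖u‖ ≤ 2} ∧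
    ∫ u in {u | 1 / 2 ≤ ‖u‖ ∧ ‖u‖ ≤ 2}, F (un u) ≤ C * ∫ u, gam u * F (un u)
  cyl : ∀ (z θ : E) (r : ℝ), ‖θ‖ = 1 → 0 < r →
    Integrable (fun p => bet ⟪p, θ⟫ * indicator {p | ∃ l : ℝ, p + l • θ ∈ ball z r} 1 p) ∧
    ∫ p, bet ⟪p, θ⟫ * indicator {p | ∃ l : ℝ, p + l • θ ∈ ball z r} 1 p ≤ Real.pi * r ^ 2

/-! ### geometry -/

/-- **GD**: the derivatives of the ingredients -/
structure GD : Prop where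
  Dx : ∀ (S : Sf) (z : Q) (e : E) (f : E → ℝ), z ∈ S.O → DifferentiableAt ℝ f z.1 →
    S.D e (fun z => f z.1) z = fderiv ℝ f z.1 (S.Pi z.1 z.2.1 e)
  Dy : ∀ (S : Sf) (z : Q) (e : E) (f : E → ℝ), z ∈ S.O → DifferentiableAt ℝ f (yy z) →
    S.D e (fun z => f (yy z)) z = fderiv ℝ f (yy z) (S.Pi (yy z) z.2.1 e)
  Dd : ∀ (S : Sf) (z : Q) (e : E), S.D e (fun z => z.2.2) z = ⟪S.Pv z, e⟫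
  Dp1 : ∀ (S : Sf) (z : Q) (e : E), S.Ok → z ∈ S.O → S.D e S.p1 z = -S.X1 z e
  Dp2 : ∀ (S : Sf) (z : Q) (e : E), S.Ok → z ∈ S.O → S.D e S.p2 z = -S.X2 z e
  DPv : ∀ (S : Sf) (z : Q) (e : E), S.Ok → z ∈ S.O → S.D e S.Pv z = S.Z z e
  Dsq : ∀ (S : Sf) (z : Q) (e : E), S.Ok → z ∈ S.O → S.D e S.sq z = 2 * ⟪S.Z z (S.Pv z), e⟫
  Dc1 : ∀ (S : Sf) (z : Q) (e : E), S.Ok → z ∈ S.O → S.D e S.cs1 z = 2 * S.cs1 z * ⟪S.lv z, e⟫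
  Dc2 : ∀ (S : Sf) (z : Q) (e : E), S.Ok → z ∈ S.O →
    S.D e S.cs2 z = 2 * S.cs2 z ^ 2 * ⟪S.X2 z (S.p2 z), e⟫
  Dcc : ∀ (S : Sf) (z : Q) (e : E), S.Ok → z ∈ S.O →
    S.D e (fun z => S.cc z.1 z.2.1) z = S.cc z.1 z.2.1 * ⟪S.lv z, e⟫
  Dk : ∀ (S : Sf) (z : Q) (e : E), S.Ok → z ∈ S.O → S.D e S.kk z = S.kk z * ⟪S.lv z, e⟫
  Dt : ∀ (S : Sf) (π : Par) (z : Q) (e : E), S.Ok → z ∈ S.O →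
    S.D e (S.tt π) z = ⟪S.gt π z, e⟫
  Dn : ∀ (S : Sf) (z : Q) (e : E), S.Ok → z ∈ S.O →
    S.D e (fun z => S.n z.1) z = -S.A z.1 (S.Pi z.1 z.2.1 e)
  DD : ∀ (S : Sf) (z : Q) (e e' : E) (f : Q → ℝ), S.Ok → z ∈ S.O → ContDiffAt ℝ 2 f z →
    S.D e (S.D e' f) z = S.D e' (S.D e f) z
  Rx : ∀ (S : Sf) (z : Q) (τ ν : E) (V : Type) [NormedAddCommGroup V] [NormedSpace ℝ V]
    (f : E → V), S.R τ ν (fun z => f z.1) z = 0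
  Rd : ∀ (S : Sf) (z : Q) (τ ν : E),
    S.R τ ν (fun z => z.2.2) z = -(z.2.2 * ⟪S.p2 z, rot τ ν z.2.1⟫)
  Rp1 : ∀ (S : Sf) (z : Q) (τ ν : E), S.Ok → z ∈ S.O →
    S.R τ ν S.p1 z = -(⟪S.p1 z, rot τ ν z.2.1⟫ • S.p1 z)
  Rp2 : ∀ (S : Sf) (z : Q) (τ ν : E), S.Ok → z ∈ S.O →
    S.R τ ν S.p2 z = -(z.2.2 • S.X2 z (rot τ ν z.2.1)) - ⟪S.p2 z, rot τ ν z.2.1⟫ • S.p2 z
  Rsq : ∀ (S : Sf) (z : Q) (τ ν : E), S.Ok → z ∈ S.O →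
    S.R τ ν S.sq z = 2 * (z.2.2 * ⟪S.X2 z (S.Pv z), rot τ ν z.2.1⟫ -
      S.sq z * ⟪S.p1 z, rot τ ν z.2.1⟫ - ⟪S.Pv z, S.p2 z⟫ * ⟪S.Pv z, rot τ ν z.2.1⟫)
  Rc1 : ∀ (S : Sf) (z : Q) (τ ν : E), S.Ok → z ∈ S.O →
    S.R τ ν S.cs1 z = 2 * S.cs1 z * ⟪S.p1 z, rot τ ν z.2.1⟫
  Rc2 : ∀ (S : Sf) (z : Q) (τ ν : E), S.Ok → z ∈ S.O →
    S.R τ ν S.cs2 z = 2 * S.cs2 z ^ 2 * (z.2.2 * ⟪S.X2 z (S.p2 z), rot τ ν z.2.1⟫) +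
      2 * S.cs2 z * ⟪S.p2 z, rot τ ν z.2.1⟫
  Rcc : ∀ (S : Sf) (z : Q) (τ ν : E), S.Ok → z ∈ S.O →
    S.R τ ν (fun z => S.cc z.1 z.2.1) z = S.cc z.1 z.2.1 * ⟪S.p1 z, rot τ ν z.2.1⟫
  Rt : ∀ (S : Sf) (π : Par) (z : Q) (τ ν : E), S.Ok → z ∈ S.O →
    S.R τ ν (S.tt π) z = S.tt π z * ⟪S.Pv z, rot τ ν z.2.1⟫
  Rg : ∀ (S : Sf) (π : Par) (z : Q) (τ ν e : E), S.Ok → z ∈ S.O → ⟪S.g z.1, e⟫ = 0 →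
    ⟪S.R τ ν (S.gt π) z, e⟫ = S.tt π z * ⟪S.Z z (rot τ ν z.2.1), e⟫ +
      ⟪S.Pv z, rot τ ν z.2.1⟫ * ⟪S.gt π z, e⟫

/-- **GX**: derived identities and bounds -/
structure GX : Prop where
  vv : ∀ (S : Sf) (z : Q), S.Ok → z ∈ S.O → S.vs (yy z) z.2.1 - S.vs z.1 z.2.1 =
    trc (S.P z.1 ∘L S.Z z) + trc ((S.P (yy z) - S.P z.1) ∘L S.X2 z) + (z.2.2 - ⟪z.1, S.Pv z⟫) / 2
  pp : ∀ (S : Sf) (z : Q), S.Ok → z ∈ S.O → ‖z.2.1‖ = 1 → 1 / 2 ≤ S.cs1 z →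
    trc ((S.P (yy z) - S.P z.1) ∘L S.X2 z) ^ 2 ≤
      100 * (1 - S.cs1 z + S.sq z) * S.sq z * hs (S.X2 z)
  tz : ∀ (S : Sf) (z : Q), S.Ok → z ∈ S.O → ‖z.2.1‖ = 1 → 9 / 10 ≤ S.cs1 z → 1 / 4 ≤ S.cs2 z →
    trc (S.Z z) ^ 2 ≤ hs (S.Z z) / 10 + 10 ^ 7 * (S.φ z.1 ^ 2 + S.φ (yy z) ^ 2 +
      S.sq z * S.A2 (yy z) + z.2.2 ^ 2 + ‖z.1‖ ^ 2 * S.sq z)
  dU : ∀ (S : Sf) (π : Par) (z : Q), S.Ok → z ∈ S.O → ‖z.2.1‖ = 1 → 1 / 2 ≤ S.cs1 z →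
    (∑ i, S.D (ee i) (fun z => S.P z.1 (S.Uv π z) i) z -
      (S.kk z / π.ε * trc (S.P z.1 ∘L S.Z z) + ⟪S.P z.1 (S.lv z), S.Uv π z⟫)) ^ 2 ≤
      100 * (1 - S.cs1 z) * S.A2 z.1 * ‖S.Uv π z‖ ^ 2
  nl : ∀ (S : Sf) (z : Q) (ps : ℝ → ℝ), S.Ok → z ∈ S.O → ContDiff ℝ ∞ ps →
    ∑ i, S.D (ee i) (fun z => ps (S.sq z) * (trc (S.Z z) • S.Pv z - S.Z z (S.Pv z)) i) z =
      (ps (S.sq z) + S.sq z * deriv ps (S.sq z)) * (trc (S.Z z) ^ 2 - hs (S.Z z))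

/-! ### multiplicities and transfers -/

/-- **UNQ**: uniqueness of the partner, and bounds for the occlusion -/
structure UNQ : Prop where
  xi1 : ∀ (S : Sf) (π : Par) (Λ : ℝ) (z : Q), Good S π Λ → S.Hit z → S.Box π z →
    2 * π.ρ ≤ z.2.2 ∧ π.xi z.2.2 = 1 ∧ deriv π.xi z.2.2 = 0
  ns : ∀ (S : Sf) (π : Par) (Λ : ℝ) (z : Q), Good S π Λ → S.Hit z → S.Box π z →
    ∃ T : Finset ℝ, (∀ l, l ∈ T ↔ 0 < l ∧ l < z.2.2 ∧ S.w (z.1 + l • z.2.1) = 0 ∧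
      π.η ^ 2 / 2 ≤ S.cs2 (z.1, z.2.1, l)) ∧
      ∀ f : Q → ℝ, (∀ z', S.g (yy z') ≠ 0 → S.cs2 z' < π.η ^ 2 / 2 → f z' = 0) →
        S.NS π f z = ∑ l ∈ T, f (z.1, z.2.1, l)
  u1 : ∀ (S : Sf) (π : Par) (Λ : ℝ) (x θ : E) (d d' : ℝ), Good S π Λ → S.Hit (x, θ, d) →
    S.Hit (x, θ, d') → S.Box π (x, θ, d') → d < d' → 1 / 4 ≤ S.cs2 (x, θ, d) →
    1 ≤ S.N π (x, θ, d') ∧ (9 / 10 ≤ S.cs2 (x, θ, d) → 100 ≤ S.N π (x, θ, d'))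
  mono : ∀ (S : Sf) (π : Par) (Λ : ℝ) (x θ : E) (d d' : ℝ), Good S π Λ → S.Hit (x, θ, d) →
    S.Box π (x, θ, d) → S.Hit (x, θ, d') → S.Box π (x, θ, d') → d ≤ d' →
    S.N π (x, θ, d) ≤ S.N π (x, θ, d')
  u2 : ∀ (S : Sf) (π : Par) (Λ : ℝ) (x θ : E) (T : Finset ℝ), Good S π Λ →
    (∀ d ∈ T, S.Hit (x, θ, d) ∧ S.Box π (x, θ, d) ∧ S.N π (x, θ, d) ≤ 4) →
    ∑ d ∈ T, π.sgb (S.cs2 (x, θ, d)) ≤ 261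
  nb1 : ∀ (S : Sf) (π : Par) (Λ : ℝ) (z : Q), Good S π Λ → S.Hit z → S.Box π z →
    S.NS π (fun z' => π.sgb (S.cs2 z')) z ≤ S.N π z + π.ε ^ 2
  nb0 : ∀ (S : Sf) (π : Par) (Λ : ℝ) (z : Q), Good S π Λ → S.Hit z → S.Box π z →
    0 ≤ S.N π z ∧ S.N π z ≤ S.NS π (fun z' => π.sgb (S.cs2 z') / S.cs2 z') z

/-- **NB**: the derivatives of the occlusion -/
def NB : Prop := ∃ C : ℝ, 0 < C ∧ ∀ (S : Sf) (π : Par) (Λ : ℝ) (z : Q), Good S π Λ → S.Hit z →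
  S.Box π z → S.N π z ≤ 4 →
  ‖S.DG (S.N π) z‖ ^ 2 ≤ C * S.NS π (fun z' => π.cu (S.cs2 z') * S.A2 (yy z')) z ∧
  ∃ a b : ℝ, 0 ≤ a ∧ 0 ≤ b ∧ (∀ τ ν, |S.R τ ν (S.N π) z| ≤ ‖rot τ ν z.2.1‖ * (a + b)) ∧
    a ^ 2 ≤ C * S.NS π (fun z' => π.cu (S.cs2 z') * (z'.2.2 ^ 2 * S.A2 (yy z'))) z ∧
    b ^ 2 ≤ C * S.NS π (fun z' => π.sgb (S.cs2 z') / S.cs2 z') z ∧
    ∀ t, 0 < t → b ≤ C * (1 / t + t ^ 5 * S.NS π (fun z' => π.cu (S.cs2 z') * S.cs2 z') z)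

/-- **TR**: transfer to the first point, the second point, the points in between -/
def TR : Prop := ∃ C : ℝ, 0 < C ∧ ∀ (S : Sf) (π : Par) (Λ β : ℝ) (h : Q → ℝ) (f₁ f₂ f₃ : E → ℝ),
  Good S π Λ → 0 < β → S.Cl π 0 h → S.Cg f₁ → S.Cg f₂ → S.Cg f₃ →
  (∀ z, S.Hit z → S.Box π z → 0 < h z → S.Sp π z ∧ 1 - S.cs2 z ≤ β ^ 2 ∧
    h z ≤ S.cs2 z ^ 4 * (f₁ z.1 + S.NS π (fun z' => π.cu (S.cs2 z') * f₃ (yy z')) z) + f₂ (yy z)) →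
  S.II h ≤ C * (π.α ^ 2 * S.IB π f₁ + β ^ 2 * S.IB π f₂ + S.IB π f₃)

/-- **GN**: the Gagliardo-Nirenberg type bound, and the total energy of the weight -/
def GN : Prop := ∃ C : ℝ, 0 < C ∧ ∀ (S : Sf) (π : Par) (Λ : ℝ), Good S π Λ →
  S.II (S.ig π) ≤ C * S.AA π ∧ S.II (fun z => ‖S.DG (S.za π) z‖ ^ 2) ≤ C * S.AA π

/-- **FVN**: the first variation formula for fields which are defined near the surface -/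
def FVN : Prop := ∀ (S : Sf) (Y : E → E), S.Ok → S.Nr 1 Y →
  ∫ x, (trc (S.P x ∘L fderiv ℝ Y x) + S.H x * ⟪S.n x, Y x⟫) ∂S.μ = 0

/-- **MONO**: monotonicity with a weight -/
def MONO : Prop := ∃ C : ℝ, 0 < C ∧ ∀ (S : Sf) (u : E → ℝ) (x : E) (r : ℝ), S.Ok → S.w x = 0 →
  0 < r → (∀ y, S.w y = 0 → ContDiffAt ℝ 1 u y ∧ 0 ≤ u y) →
  ENNReal.ofReal (u x) +
      ∫⁻ y in ball x r, ENNReal.ofReal (u y * ⟪y - x, S.n y⟫ ^ 2 / ‖y - x‖ ^ 4) ∂S.μ ≤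
    ENNReal.ofReal C * ∫⁻ y in ball x (2 * r), ENNReal.ofReal (u y / r ^ 2 +
      ‖S.P y (gradient u y)‖ / ‖y - x‖ + u y * S.H y ^ 2) ∂S.μ

/-- **CUB**: where the energy is small -/
def CUB : Prop := ∃ C : ℝ, 0 < C ∧ ∀ (S : Sf) (π : Par) (Λ e₀ : ℝ) (x : E) (F : E → ℝ),
  Good S π Λ → S.w x = 0 → ‖x‖ ≤ 2 * π.R → ∫ y in ball x (10 * π.ε), S.A2 y ∂S.μ ≤ e₀ →
  Integrable (fun u => gam u * F u) → ∀ a b : ℝ, 0 ≤ a → 0 ≤ b →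
  (∀ u, u ≠ 0 → 0 < F u → 9 / 10 ≤ S.cc x (un u) ^ 2 ∧ ∃ T : Finset ℝ,
    (∀ l ∈ T, S.Hit (x, un u, l) ∧ l ≤ 2 * π.ε ∧ π.η ^ 2 / 2 ≤ S.cs2 (x, un u, l)) ∧
    F u ≤ ∑ l ∈ T, π.cu (S.cs2 (x, un u, l)) *
      (a * (l ^ 2 * S.A2 (x + l • un u)) + b * S.cs2 (x, un u, l))) →
  ∫ u, gam u * F u ≤ C * (a * e₀ + b * (Λ + e₀))

/-- **ME**: the master estimate for integrands which live on proper pairs -/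
def ME : Prop := ∃ C : ℝ, 0 < C ∧ ∀ (S : Sf) (π : Par) (Λ β e₀ a b : ℝ) (h : Q → ℝ)
  (f₁ f₂ f₃ f₄ f₅ : E → ℝ), Good S π Λ → 0 < β → 0 ≤ e₀ → 0 ≤ a → 0 ≤ b → S.Cl π 0 h →
  S.Cg f₁ → S.Cg f₂ → S.Cg f₃ → S.Cg f₄ → S.Cg f₅ →
  (∀ x, S.w x = 0 → ‖x‖ ≤ 2 * π.R → f₄ x ≠ 0 ∨ f₅ x ≠ 0 →
    ∫ y in ball x (10 * π.ε), S.A2 y ∂S.μ ≤ e₀) →
  (∀ z, S.Hit z → S.Box π z → 0 < h z → S.Sq π z ∧ 1 - S.cs2 z ≤ β ^ 2 ∧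
    h z ≤ f₁ z.1 + f₂ (yy z) + S.NS π (fun z' => π.cu (S.cs2 z') * f₃ (yy z')) z +
      a * S.NS π (fun z' => π.sgb (S.cs2 z') / S.cs2 z') z + b * (S.sq z ^ 2 / z.2.2 ^ 2) +
      f₄ z.1 * (z.2.2 ^ 2 * S.A2 (yy z) +
        S.NS π (fun z' => π.cu (S.cs2 z') * (z'.2.2 ^ 2 * S.A2 (yy z'))) z) +
      f₅ z.1 * S.NS π (fun z' => π.cu (S.cs2 z') * S.cs2 z') z) →
  S.II h ≤ C * (π.α ^ 2 * S.IB π f₁ + β ^ 2 * S.IB π f₂ + S.IB π f₃ + a * π.ε ^ 2 * S.AA π +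
    b * S.AA π + e₀ * S.IB π f₄ + (Λ + e₀) * S.IB π f₅)

/-- the tools for the estimates -/
structure Kit : Prop where
  ca : CA
  byd : BYD
  byr : BYR
  avs : AVS
  nsc : NSC
  con : CON
  gd : GD
  gx : GX
  unq : UNQ
  nb : NB
  tr : TR
  gn : GN
  me : ME

/-! ### the main inequality -/

/-- **WIN**: windows exist -/
def WIN : Prop := ∃ C : ℝ, 1 ≤ C ∧ ∀ d₁ L : ℝ, 0 < d₁ → d₁ ≤ 1 / 2 → 1 ≤ L →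
  ∃ th gb ga ch, Win C d₁ (d₁ * Real.exp (-L)) L th gb ga ch

/-- **ETA**: the cutoff round the balls with much energy -/
def ETA : Prop := ∃ C : ℝ, 0 < C ∧ ∀ (S : Sf) (π : Par) (Λ e₀ L : ℝ), Good S π Λ → 0 < e₀ →
  1 ≤ L → ∃ η, S.Eta π e₀ η ∧ S.GE π η ≤ C * Λ * S.AA π / (e₀ * L) ∧
    S.AE π η ≤ C * Λ * S.AA π * π.ε ^ 2 * Real.exp L / e₀

/-- **TB**: the energy in a window -/
def TB : Prop := ∀ Cw : ℝ, ∃ C : ℝ, 0 < C ∧ ∀ (S : Sf) (π : Par) (Λ κ d₁ d₂ L : ℝ)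
  (th gb ga ch : ℝ → ℝ), Good S π Λ → Win Cw d₁ d₂ L th gb ga ch → 0 < κ → κ ≤ 1 →
  S.Tb π κ gb ≤ C * (S.PP π / d₂ ^ 2 + S.AA π * (π.R ^ 2 / L ^ 2 + (2 * π.ε) ^ (2 * κ) / d₂ ^ 2 +
    1 / (L * d₁) + κ / d₂ ^ 4) + S.En π ch)

/-- **BB**: the energy below a window -/
def BB : Prop := ∀ Cw : ℝ, ∃ C : ℝ, 0 < C ∧ ∀ (S : Sf) (π : Par) (Λ e₀ d₁ d₂ L : ℝ) (η : E → ℝ)
  (th gb ga ch : ℝ → ℝ), Good S π Λ → S.Eta π e₀ η → Win Cw d₁ d₂ L th gb ga ch →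
  S.Bb π η th ≤ C * (S.PP π + S.AA π * (d₁ ^ 2 * π.R ^ 2 + π.ε ^ 2 + 1 / L ^ 2) +
    d₁ ^ 2 * S.GE π η + d₁ ^ 2 * S.S2 π η th)

/-- **HW**: the time derivative of the weights -/
def HW : Prop := ∀ R α t : ℝ, 0 < t → ∃ C : ℝ, 0 < C ∧ ∀ (S : Sf) (π : Par) (Λ : ℝ) (v : E → ℝ),
  Good S π Λ → π.R = R → π.α = α → S.Spd v →
  S.II (S.Hw π v) ≤ t * (S.Sg π + S.AA π) + C * S.PP π

/-- **SPL**: removing the static cutoffs -/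
def SPL : Prop := ∃ C : ℝ, 0 < C ∧ ∀ (S : Sf) (π : Par) (Λ d t : ℝ) (η : E → ℝ) (th : ℝ → ℝ),
  Good S π Λ → Cut d η th → 0 < d → d ≤ 1 → 0 < t →
  S.Sg π ≤ 2 * S.S2 π η th + C * (S.AE π η / π.ε ^ 2 + S.AA π / d ^ 4) ∧
  S.II (S.Mm π) ≤ S.M0 π η th + t * (S.AE π η / π.ε ^ 2 + S.AA π / d ^ 4) + C / t * S.PP π

/-- **MA**: the main term -/
def MA : Prop := ∃ C₀ : ℝ, 0 < C₀ ∧ ∀ Cw : ℝ, ∃ C : ℝ, 0 < C ∧ ∀ (S : Sf) (π : Par)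
  (Λ e₀ κ d₁ d₂ L : ℝ) (η : E → ℝ) (th gb ga ch : ℝ → ℝ), Good S π Λ → S.Eta π e₀ η →
  Win Cw d₁ d₂ L th gb ga ch → 0 < κ → κ ≤ 1 →
  S.M0 π η th ≤ -S.S1 π η th - 9 / 10 * S.S2 π η th + S.Et π η th +
    C₀ * Λ * π.α ^ 2 * Real.exp (-π.R ^ 2 / 4) +
    C * ((π.α ^ 4 * π.R ^ 2 + d₁) * S.AA π + π.α ^ 2 * S.GE π η + S.Tb π κ gb)

/-- **MB**: the term with the gradient of the cone weight -/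
def MB : Prop := ∀ Cw : ℝ, ∃ C : ℝ, 0 < C ∧ ∀ (S : Sf) (π : Par) (Λ e₀ t d₁ d₂ L : ℝ) (η : E → ℝ)
  (th gb ga ch : ℝ → ℝ), Good S π Λ → S.Eta π e₀ η → Win Cw d₁ d₂ L th gb ga ch → 0 < t →
  0 ≤ e₀ → e₀ ≤ 1 →
  S.Et π η th ≤ S.S2 π η th / 10 + C * (t * π.α ^ 2 * S.AA π + S.Bb π η th / t +
    (d₁ + π.α ^ 2 / L ^ 2 + e₀ / d₂ ^ 2 + π.α ^ 2 * √π.α * (1 + Λ)) * S.AA π)

/-- **MAIN**: the main inequality -/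
def MAIN : Prop := ∃ C₀ : ℝ, 0 < C₀ ∧ ∀ Λ R de : ℝ, 0 < de → ∃ α₀ : ℝ, 0 < α₀ ∧ ∀ α, 0 < α →
  α ≤ α₀ → ∃ C Ca d ε₀ : ℝ, 0 < C ∧ 0 < Ca ∧ 0 < d ∧ d ≤ 1 ∧ 0 < ε₀ ∧
  ∀ (S : Sf) (π : Par) (v : E → ℝ), Good S π Λ → π.R = R → π.α = α → π.ε ≤ ε₀ → S.Spd v →
    ∃ η th, Cut d η th ∧ S.AE π η ≤ Ca * π.ε ^ 2 * S.AA π ∧
      S.II (S.Hw π v) + S.II (S.Mm π) ≤ -S.S1 π η th - S.S2 π η th / 2 +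
        C₀ * Λ * α ^ 2 * Real.exp (-R ^ 2 / 4) + de * α ^ 2 * S.AA π + C * S.PP π

/-- **PSIT**: the time derivative of the functional -/
def PSIT : Prop := ∀ (S : ℝ → Sf) (I : Set ℝ) (π : Par) (Λ τ : ℝ), RFlow S I → τ ∈ I →
  Good (S τ) π Λ → (S τ).Spd (wd S τ) ∧ HasDerivAt (fun σ => (S σ).FF π)
    ((S τ).II ((S τ).Hw π (wd S τ)) + (S τ).II ((S τ).Mm π)) τ

/-! ### the gain -/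

/-- **POI**: the Poincare inequality on a convex set -/
def POI : Prop := ∀ (K : Set E) (U : E → ℝ) (D : ℝ), Convex ℝ K → IsCompact K →
  (∀ u ∈ K, ∀ v ∈ K, ‖u - v‖ ≤ D) → (∀ u ∈ K, ContDiffAt ℝ 1 U u) →
  ∫ u in K, ∫ v in K, |U u - U v| ≤ 16 * D * volume.real K * ∫ u in K, ‖fderiv ℝ U u‖

/-- **ISO**: the isoperimetric obstruction -/
def ISO : Prop := ∀ Λ : ℝ, ∃ l₀ : ℝ, 0 < l₀ ∧ ∀ l, 0 < l → l ≤ l₀ → ∃ δ : ℝ, 0 < δ ∧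
  ∀ (S : Sf) (π : Par) (u : E → ℝ), S.Ok → S.AR Λ → 7 ≤ π.R →
    (∀ x, S.w x = 0 → ContDiffAt ℝ 1 u x ∧ 0 ≤ u x ∧ u x ≤ 1) →
    l / 4 ≤ ∫ x, π.W x * u x ∂S.μ → ∫ x, π.W x * u x ∂S.μ ≤ 256 * l →
    ∫ x, π.W x * (u x * (1 - u x)) ∂S.μ ≤ δ →
    ∫ x, π.W x * ((1 + ‖x‖) * ‖S.P x (gradient u x)‖) ∂S.μ ≤ δ → S.PP π ≤ δ → False

/-- **DA**: the functional and the fractions -/
def DA : Prop := ∃ C : ℝ, 0 < C ∧ ∀ (S : Sf) (π : Par) (Λ d : ℝ) (η : E → ℝ) (th : ℝ → ℝ),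
  Good S π Λ → Cut d η th → 0 < d → d ≤ 1 →
  (∀ σ, σ = 1 ∨ σ = -1 → (∀ x, S.w x = 0 →
      ContDiffAt ℝ 1 (S.uu π σ) x ∧ 0 ≤ S.uu π σ x ∧ S.uu π σ x ≤ 1) ∧
    π.mm / 2 * ∫ x, π.W x * S.uu π σ x ∂S.μ ≤ 64 * S.FF π) ∧
  S.FF π ≤ π.mm / 2 * (∫ x, π.W x * S.uu π 1 x ∂S.μ + ∫ x, π.W x * S.uu π (-1) x ∂S.μ) +
    C * (S.S1 π η th + S.AE π η + π.ε ^ 2 * S.AA π / d ^ 4)

/-- **DB**: the fraction is close to zero or one -/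
def DB : Prop := ∃ C : ℝ, 0 < C ∧ ∀ α : ℝ, ∃ C' : ℝ, 0 < C' ∧ ∀ (S : Sf) (π : Par) (Λ d t σ : ℝ)
  (η : E → ℝ) (th : ℝ → ℝ), Good S π Λ → π.α = α → Cut d η th → 0 < d → d ≤ 1 → 0 < t → t ≤ 1 →
  σ = 1 ∨ σ = -1 →
  π.mm * ∫ x, π.W x * (S.uu π σ x * (1 - S.uu π σ x)) ∂S.μ ≤ C * S.S1 π η th +
    C' * (S.AE π η + π.ε ^ 2 * S.AA π / d ^ 4 + t * S.AA π + π.ε ^ 2 * S.AA π / t ^ 5)

/-- **DC**: the gradient of the fraction -/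
def DC : Prop := ∃ C : ℝ, 0 < C ∧ ∀ (S : Sf) (π : Par) (Λ d t s σ : ℝ) (η : E → ℝ) (th : ℝ → ℝ),
  Good S π Λ → Cut d η th → 0 < d → d ≤ 1 → 0 < t → t ≤ 1 → 0 < s → σ = 1 ∨ σ = -1 →
  π.mm * ∫ x, π.W x * ((1 + ‖x‖) * ‖S.P x (gradient (S.uu π σ) x)‖) ∂S.μ ≤
    S.S2 π η th / s + C * (s * Λ * π.mm + t * (S.AA π + S.AE π η / π.ε ^ 2 + S.AA π / d ^ 4) +
      (S.AE π η + π.ε ^ 2 * S.AA π / d ^ 4 + π.ε ^ 2 * S.AA π / t ^ 8) / t)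

/-- **DICH**: the gain -/
def DICH : Prop := ∀ Λ : ℝ, ∃ l₀ : ℝ, 0 < l₀ ∧ ∀ l, 0 < l → l ≤ l₀ → ∃ c₁ : ℝ, 0 < c₁ ∧
  ∀ α A₀ Ca d : ℝ, 0 < d → d ≤ 1 → ∃ ε₀ : ℝ, 0 < ε₀ ∧
  ∀ (S : Sf) (π : Par) (η : E → ℝ) (th : ℝ → ℝ), Good S π Λ → 7 ≤ π.R → π.α = α → π.ε ≤ ε₀ →
    Cut d η th → S.AE π η ≤ Ca * π.ε ^ 2 → S.AA π ≤ A₀ → S.PP π ≤ c₁ →
    l * π.mm ≤ S.FF π → S.FF π ≤ 2 * l * π.mm →
    c₁ * π.mm ≤ S.S1 π η th + S.S2 π η th / 2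

/-! ### the two ends of the time interval -/

/-- the misaligned part of a ball -/
def Mis (S : Sf) (z n : E) (r a : ℝ) : Set E :=
  {x | x ∈ ball z r ∧ S.w x = 0 ∧ a ^ 2 ≤ 1 - ⟪S.n x, n⟫ ^ 2}

/-- the tilt energy at the scale `r` -/
def Til (S : Sf) (z : E) (r : ℝ) : ℝ :=
  (∫ y in ball z r, ∫ x in ball z r, ⟪x - y, S.n y⟫ ^ 2 ∂S.μ ∂S.μ) / r ^ 4

/-- **LA**: the tilt energy is small at one of many scales -/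
def LA : Prop := ∀ Λ R₀ H₀ : ℝ, ∃ C : ℝ, 0 < C ∧ ∀ (S : Sf) (r : ℝ) (J : ℕ) (Z : ℕ → Finset E),
  S.Ok → S.AR Λ → 0 < r → r ≤ 1 / 10 → ∫ x in ball 0 (R₀ + 3), S.H x ^ 2 ∂S.μ ≤ H₀ →
  (∀ j ≤ J, (∀ z ∈ Z j, ‖z‖ < R₀) ∧ ∀ z ∈ Z j, ∀ z' ∈ Z j, z ≠ z' → 2 * (r / 2 ^ j) ≤ ‖z - z'‖) →
  ∑ j ∈ Finset.range (J + 1), ∑ z ∈ Z j, Til S z (r / 2 ^ j) ≤ C

/-- **LB**: small tilt energy gives a common normal -/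
def LB : Prop := ∀ Λ : ℝ, ∃ C : ℝ, 0 < C ∧ ∀ (S : Sf) (z : E) (r a : ℝ), S.Ok → S.AR Λ → 0 < r →
  0 < a → Real.pi * r ^ 2 ≤ S.μ.real (ball z r) →
  ∃ n, ‖n‖ = 1 ∧ S.μ.real (Mis S z n r a) ≤ C * Til S z r / a ^ 2

/-- **LC**: much aligned area in a ball gives many pairs -/
def LC : Prop := ∃ c : ℝ, 0 < c ∧ ∀ (S : Sf) (π : Par) (Λ r : ℝ) (z n : E), Good S π Λ →
  ‖n‖ = 1 → 0 < r → 10 * r ≤ π.ε → ‖z‖ + r ≤ π.R →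
  c * π.mm * ((1 - π.α ^ 2) * S.μ.real (ball z r) - Real.pi * r ^ 2 -
      2 * S.μ.real (Mis S z n r (π.α ^ 2 / 100))) ≤
    ∫ x in ball z r, S.AV (fun z => π.pt z.1 ^ 2 * S.o0 π z ^ 2 * G0 (S.tt π z)) x ∂S.μ

/-- **LOW**: the lower bound at the final time -/
def LOW : Prop := ∀ κ m₀ R₀ : ℝ, 0 < κ → 0 < m₀ → 0 < R₀ → ∃ c α₀ : ℝ, 0 < c ∧ 0 < α₀ ∧
  ∀ Λ α H₀ : ℝ, α ≤ α₀ → ∃ J : ℕ, ∀ (S : Sf) (π : Par), Good S π Λ → π.α = α → R₀ + 1 ≤ π.R →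
    ∫ x in ball 0 (R₀ + 3), S.H x ^ 2 ∂S.μ ≤ H₀ →
    (∀ j ≤ J, Thick S κ m₀ R₀ (π.ε / 10 / 2 ^ j)) → c * π.mm ≤ S.FF π

/-- **UP**: the upper bound at the initial time -/
def UP : Prop := ∀ (S : Sf) (π : Par) (Λ R' : ℝ), Good S π Λ → 2 * π.R ≤ R' →
  S.FF π ≤ π.mm * S.μ.real {x | ‖x‖ < R' ∧ S.w x = 0 ∧ S.Pair π.ε x}

/-- **BAR**: the barrier argument -/
def BAR : Prop := ∀ (f f' h : ℝ → ℝ) (a b l : ℝ), a ≤ b → (∀ τ ∈ Icc a b, HasDerivAt f (f' τ) τ) →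
  IntegrableOn h (Icc a b) → (∀ τ ∈ Icc a b, 0 ≤ h τ) →
  (∀ τ ∈ Icc a b, l ≤ f τ → f τ ≤ 2 * l → f' τ ≤ h τ) → f a ≤ l → ∫ τ in a..b, h τ < l →
  f b < 2 * l

/-- **SEPT**: the choice of `η` and `ρ` -/
def SEPT : Prop := ∀ (S : ℝ → Sf) (I : Set ℝ) (a b R α ε : ℝ), Fam S I → Icc a b ⊆ I → 0 < ε →
  ∃ η ρ : ℝ, 0 < η ∧ η ≤ 1 / 10 ∧ 0 < ρ ∧ ∀ τ ∈ Icc a b, Sep (S τ) ⟨R, α, ε, η, ρ⟩

end Vale.Agent.P218M1
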