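import Vale.Agent.P218R.All0
import Vale.Agent.P218R.Slw
import Vale.Agent.P218R.Brk
import Vale.Agent.P218R.Hui
import Vale.Agent.P218M1.Spec
import Vale.Agent.P218E.Defs

/-!
# P218M1: the bridge to the surfaces and flows of P218R
-/

open MeasureTheory Metric Filter Topology Set
open scoped ContDiff RealInnerProductSpace ENNReal
open Vale.Agent.P218R (Srf Flw low' div' fv' rsc rsl_ok rsl_ar rsl_gb sc_grad sc_H)

noncomputable section

namespace Vale.Agent.P218M1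

namespace Br

/-- the surface with its area -/
def toSf (S : Srf) : Sf := ⟨S.w, S.μ⟩

variable {S : Srf} {x : E}

section pt

variable (h : S.Ok) (hx : S.w x = 0)
include h hx

theorem n_eq : (toSf S).n x = S.n x := (h.nrm x hx).self_of_nhds.symm

theorem P_eq : (toSf S).P x = S.P x := by rw [Sf.P, n_eq h hx]; rfl

theorem A_eq : (toSf S).A x = -S.A x := by
  refine ContinuousLinearMap.ext fun v => ?_
  rw [Sf.A, P_eq h hx, neg_apply, h.A_eq hx, ← neg_smul]
  rfl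

theorem H_eq : (toSf S).H x = -S.H x := by
  rw [Sf.H, A_eq h hx]; exact P218R.trc_neg _

theorem A2_eq : (toSf S).A2 x = S.A2 x := by
  rw [Sf.A2, A_eq h hx, Srf.A2, P218R.trc_sq_sym (h.A_sym hx)]
  simp [hs, ee]

theorem φ_eq : (toSf S).φ x = -S.φ x := by
  rw [Sf.φ, H_eq h hx, n_eq h hx, Srf.φ]; ring

end pt

theorem ok (h : S.Ok) : (toSf S).Ok := by
  have := (low' S h).1
  refine ⟨h.sw, h.reg, (inferInstance : IsFiniteMeasureOnCompacts S.μ), h.ae, fun Y h1 h2 => ?_,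
    fun Y h1 h2 => ?_⟩
  · exact (h.int_congr fun x hx => by rw [n_eq h hx]).trans (div' S Y h h1 h2)
  · have i1 : Integrable (S.dv Y) S.μ :=
      (h.cdv h1).integrable_of_hasCompactSupport (Srf.hcs_dv h2)
    have i2 : Integrable (fun x => S.H x * ⟪S.n x, Y x⟫) S.μ :=
      (h.sH.continuous.mul (h.sn.continuous.inner h1.continuous)).integrable_of_hasCompactSupport
        (HasCompactSupport.intro h2 fun x hx => by simp [image_eq_zero_of_notMem_tsupport hx])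
    have e := integral_sub i1 i2
    rw [fv' S Y h h1 h2, sub_self] at e
    refine (h.int_congr fun x hx => ?_).trans e
    rw [P_eq h hx, H_eq h hx, n_eq h hx, Srf.dv, P366W.trc_comm, neg_mul, sub_eq_add_neg]
    rfl

theorem ar {Λ : ℝ} (h : P218R.AR Λ S.μ) : (toSf S).AR |Λ| := fun _ _ hr =>
  (h.mono (le_abs_self _)).real (abs_nonneg _) hr ball_subset_closedBall

theorem intOn (h : S.Ok) {f : E → ℝ} (hf : Continuous f) (r : ℝ) :
    IntegrableOn f (ball 0 r) S.μ := by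
  have := (low' S h).1
  exact (hf.continuousOn.integrableOn_compact (isCompact_closedBall 0 r)).mono_set
    ball_subset_closedBall

theorem int_eq (h : S.Ok) {f g : E → ℝ} (e : ∀ x, S.w x = 0 → f x = g x) (s : Set E) :
    ∫ x in s, f x ∂(toSf S).μ = ∫ x in s, g x ∂S.μ :=
  integral_congr_ae ((h.ae_set s).mono e)

theorem gb {G : ℝ} (h : S.Ok) (hG : S.GBd G) : (toSf S).GBc G := fun r hr => by
  rw [int_eq h (g := S.A2) fun x hx => A2_eq h hx,
    int_eq h (g := fun x => S.H x ^ 2) fun x hx => by rw [H_eq h hx, neg_sq]]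
  refine (hG 0 r hr).trans (mul_le_mul_of_nonneg_left ?_ (hG.nonneg h))
  exact add_le_add_right (setIntegral_mono_set (intOn h (h.sH.continuous.pow 2) (21 * r))
    (Eventually.of_forall fun x => sq_nonneg _)
    (closedBall_subset_ball (x := (0 : E)) (by linarith : 20 * r < 21 * r)).eventuallyLE) 1

theorem phi_int (h : S.Ok) (R : ℝ) :
    ∫ x in ball 0 R, (toSf S).φ x ^ 2 ∂(toSf S).μ = ∫ x in ball 0 R, S.φ x ^ 2 ∂S.μ :=
  int_eq h (fun x hx => by rw [φ_eq h hx, neg_sq]) _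

theorem dsb_eq (h : S.Ok) (R : ℝ) :
    ENNReal.ofReal (∫ x in ball 0 R, S.φ x ^ 2 ∂S.μ) = P218E.dsb S R :=
  ofReal_integral_eq_lintegral_ofReal (intOn h (h.sφ.continuous.pow 2) R)
    (Eventually.of_forall fun _ => sq_nonneg _)

variable {F : Flw} {a b t₀ : ℝ}

theorem adm {σ : ℝ} (h2 : t₀ ≤ b) (h : a < t₀ - Real.exp (-σ)) :
    a < t₀ - Real.exp (-2 * (σ / 2)) ∧ t₀ - Real.exp (-2 * (σ / 2)) < b := by
  rw [show -2 * (σ / 2) = -σ by ring]
  exact ⟨h, by linarith [Real.exp_pos (-σ)]⟩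

theorem w_eq (F : Flw) (x₀ : E) (t₀ σ : ℝ) (x : E) : (F.rsl x₀ t₀ (σ / 2)).w x =
    F.u (t₀ - Real.exp (-σ), x₀ + Real.exp (-σ / 2) • x) := by
  rw [P218R.Hu.rsl_eq, show -2 * (σ / 2) = -σ by ring, neg_div, Real.exp_neg (σ / 2)]
  rfl

theorem rflow (h : F.Ok a b) (x₀ : E) (h2 : t₀ ≤ b) :
    RFlow (fun σ => toSf (F.rsl x₀ t₀ (σ / 2))) {σ | a < t₀ - Real.exp (-σ)} := by
  have m : ∀ σ, a < t₀ - Real.exp (-σ) → t₀ - Real.exp (-σ) ∈ Ioo a b := fun σ hσ =>
    ⟨hσ, by linarith [Real.exp_pos (-σ)]⟩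
  refine ⟨⟨isOpen_lt continuous_const (by fun_prop), fun σ hσ =>
    ok (rsl_ok rsc h (adm h2 hσ).1 (adm h2 hσ).2), ?_⟩, fun σ hσ x hx => ?_⟩
  · have c : ContDiff ℝ ∞ fun p : ℝ × E =>
        (t₀ - Real.exp (-p.1), x₀ + Real.exp (-p.1 / 2) • p.2) := by fun_prop
    exact (h.su.comp c.contDiffOn fun p hp => ⟨m _ hp.1, trivial⟩).congr fun p _ => w_eq F _ _ _ _
  · have hS := rsl_ok (x₀ := x₀) rsc h (adm h2 hσ).1 (adm h2 hσ).2
    have hx' : F.u (t₀ - Real.exp (-σ), x₀ + Real.exp (-σ / 2) • x) = 0 := w_eq F x₀ t₀ σ x ▸ hx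
    set p : ℝ × E := (t₀ - Real.exp (-σ), x₀ + Real.exp (-σ / 2) • x) with hp
    have d0 : DifferentiableAt ℝ F.u p :=
      (h.su.contDiffAt (Flw.mem_dom (m σ hσ) _)).differentiableAt (by simp)
    have d1 : HasDerivAt (fun s : ℝ => (t₀ - Real.exp (-s), x₀ + Real.exp (-s / 2) • x))
        (Real.exp (-σ), (Real.exp (-σ / 2) * (-1 / 2)) • x) σ := by
      refine HasDerivAt.prodMk ?_ ((((hasDerivAt_neg σ).div_const 2).exp.smul_const x).const_add _)
      simpa using (hasDerivAt_neg σ).exp.const_sub t₀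
    have d2 := (d0.hasFDerivAt.comp_hasDerivAt σ d1).deriv
    have e1 := h.eq _ (m σ hσ) _ hx'
    rw [(Flw.deriv_slice d0).deriv] at e1
    have e2 := (h.sl (m σ hσ)).fderiv_w hx' x
    rw [show fderiv ℝ (F.sl _).w _ = _ from Flw.fderiv_slice d0] at e2
    have e3 : (Real.exp (-σ), (Real.exp (-σ / 2) * (-1 / 2)) • x) = Real.exp (-σ) • ((1 : ℝ), (0 : E)) +
        (Real.exp (-σ / 2) * (-1 / 2)) • ((0 : ℝ), x) := by simp
    have e4 : Real.exp (-σ) = Real.exp (-σ / 2) * Real.exp (-σ / 2) := by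
      rw [← Real.exp_add]; ring_nf
    have e5 : (Real.exp (σ / 2))⁻¹ = Real.exp (-σ / 2) := by rw [← Real.exp_neg, neg_div]
    rw [φ_eq hS hx, wd]
    simp only [toSf, w_eq]
    rw [show deriv (fun s => F.u (t₀ - Real.exp (-s), x₀ + Real.exp (-s / 2) • x)) σ = _ from d2,
      e3, map_add, map_smul, map_smul, e1, show fderiv ℝ F.u p (0, x) = _ from e2, Sf.g, Srf.φ,
      P218R.Hu.rsl_eq, show -2 * (σ / 2) = -σ by ring, sc_grad, sc_H, e5, norm_smul,
      Real.norm_of_nonneg (Real.exp_pos _).le, real_inner_comm]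
    simp only [Srf.sc, e5, smul_eq_mul]
    rw [e4]
    ring

theorem meas {Λ τ₁ τ₂ : ℝ} (h : F.OkA a b Λ) (x₀ : E) (h12 : τ₁ ≤ τ₂)
    (h1 : a < t₀ - Real.exp (-2 * τ₁)) (h2 : t₀ ≤ b) (R : ℝ) : AEMeasurable (fun τ =>
      ∫ x in ball 0 R, (F.rsl x₀ t₀ τ).φ x ^ 2 ∂(F.rsl x₀ t₀ τ).μ) (volume.restrict (Icc τ₁ τ₂)) := by
  have hB := P218R.brk div' low'
  have hur := P218R.hur hB (P218R.cnt hB low') fv' low' rsc
  let ψ : ℕ → E → ℝ := fun k x => max 0 (min 1 (k * (R - ‖x‖)))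
  have c1 : ∀ k, Continuous (ψ k) := fun k => by fun_prop
  have c2 : ∀ k, ∀ x ∉ ball (0 : E) R, ψ k x = 0 := fun k x hx => max_eq_left (min_le_of_right_le
    (mul_nonpos_of_nonneg_of_nonpos k.cast_nonneg (by simpa using hx)))
  have c3 : ∀ k x, 0 ≤ ψ k x ∧ ψ k x ≤ 1 := fun k x =>
    ⟨le_max_left _ _, max_le zero_le_one (min_le_left _ _)⟩
  refine aemeasurable_of_tendsto_metrizable_ae' (f := fun k τ =>
    ∫ x, ψ k x * (F.rsl x₀ t₀ τ).φ x ^ 2 ∂(F.rsl x₀ t₀ τ).μ) (fun k => ((hur F a b Λ t₀ τ₁ τ₂ x₀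
      (ψ k) h h12 h1 (by linarith [Real.exp_pos (-2 * τ₂)]) (c1 k) (HasCompactSupport.intro
        (isCompact_closedBall 0 R) fun x hx => c2 k x fun e => hx (ball_subset_closedBall e))
          (c3 k)).1).aemeasurable measurableSet_Icc)
    ((ae_restrict_mem measurableSet_Icc).mono fun τ hτ => ?_)
  have hS := rsl_ok (x₀ := x₀) (τ := τ) rsc h.toOk
    (h1.trans_le (sub_le_sub_left (Real.exp_le_exp.2 (by linarith [hτ.1])) _))
    (by linarith [Real.exp_pos (-2 * τ)])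
  have cφ := hS.sφ.continuous
  rw [← integral_indicator measurableSet_ball]
  refine tendsto_integral_of_dominated_convergence _ (fun k => by fun_prop)
    ((integrable_indicator_iff measurableSet_ball).2 (intOn hS (cφ.pow 2) R))
    (fun k => Eventually.of_forall fun x => ?_) (Eventually.of_forall fun x => ?_)
  · by_cases hx : x ∈ ball (0 : E) R
    · rw [indicator_of_mem hx, Real.norm_of_nonneg (mul_nonneg (c3 k x).1 (sq_nonneg _))]
      exact mul_le_of_le_one_left (sq_nonneg _) (c3 k x).2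
    · simp [c2 k x hx, hx]
  · by_cases hx : x ∈ ball (0 : E) R
    · rw [indicator_of_mem hx]
      have : 0 < R - ‖x‖ := by simpa using hx
      refine tendsto_const_nhds.congr' ?_
      filter_upwards [(tendsto_natCast_atTop_atTop.atTop_mul_const this).eventually_ge_atTop 1]
        with k hk
      simp only [ψ, min_eq_left hk, max_eq_right zero_le_one, one_mul]
    · simp [c2 _ x hx, hx]

end Br

open Br

/-- the statement for the flows of P218R -/
theorem dpr (hD : DP) : P218E.DPR := by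
  intro Λ G κ m₀ R₀ hκ hm
  obtain ⟨R', m', D₀, e₀, J, h1, h2, h3, h4, H⟩ := hD |Λ| G κ m₀ (|R₀| + 1) hκ hm (by positivity)
  refine ⟨R', h1, m', h2, D₀ / 2, half_pos h3, e₀, h4, J,
    fun F a b t₀ τ₁ τ₂ e x₀ hF h12 ha hb he0 he1 hd hp hf => ?_⟩
  have ad : ∀ τ, τ₁ ≤ τ → a < t₀ - Real.exp (-2 * τ) ∧ t₀ - Real.exp (-2 * τ) < b := fun τ hτ =>
    ⟨ha.trans_le (sub_le_sub_left (Real.exp_le_exp.2 (by linarith)) _),
      by linarith [Real.exp_pos (-2 * τ)]⟩
  have hS : ∀ τ, τ₁ ≤ τ → (F.rsl x₀ t₀ τ).Ok := fun τ hτ =>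
    rsl_ok rsc hF.toOk (ad τ hτ).1 (ad τ hτ).2
  set h : ℝ → ℝ := fun τ => ∫ x in ball 0 R', (F.rsl x₀ t₀ τ).φ x ^ 2 ∂(F.rsl x₀ t₀ τ).μ with hh
  have h0 : ∀ τ, 0 ≤ h τ := fun τ => integral_nonneg fun _ => sq_nonneg _
  have hm' : AEMeasurable h _ := meas hF.toOkA x₀ h12 ha hb R'
  rw [← setLIntegral_congr_fun measurableSet_Icc fun τ hτ => dsb_eq (hS τ hτ.1) R'] at hd
  have hi : IntegrableOn h (Icc τ₁ τ₂) := ⟨hm'.aestronglyMeasurable,
    (hasFiniteIntegral_iff_ofReal (Eventually.of_forall h0)).2 (hd.trans_lt ENNReal.ofReal_lt_top)⟩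
  have hI : ∫ τ in τ₁..τ₂, h τ ≤ D₀ / 2 := by
    rw [intervalIntegral.integral_of_le h12, ← integral_Icc_eq_integral_Ioc,
      ← ENNReal.ofReal_le_ofReal_iff (half_pos h3).le,
      ofReal_integral_eq_lintegral_ofReal hi (Eventually.of_forall h0)]
    exact hd
  have e2 : ∀ τ : ℝ, 2 * τ / 2 = τ := fun τ => by ring
  obtain ⟨j, hj, hT⟩ := H _ _ (2 * τ₁) (2 * τ₂) e (fun σ => h (σ / 2)) (rflow hF.toOk x₀ hb)
    (by linarith) (fun σ hσ => by simpa [mul_div_cancel₀] using (ad (σ / 2) (by linarith [hσ.1])).1)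
    (fun σ hσ => by
      have := ad (σ / 2) (by linarith [hσ.1])
      exact ⟨ar (rsl_ar rsc hF.toOkA this.1 this.2),
        gb (hS _ (by linarith [hσ.1])) (rsl_gb rsc hF this.1 this.2)⟩) he0 he1
    (by
      have := ((intervalIntegrable_iff_integrableOn_Icc_of_le h12).2 hi).comp_mul_left (c := 2⁻¹)
      simp only [div_inv_eq_mul, ← div_eq_inv_mul, mul_comm _ (2 : ℝ)] at this
      exact (intervalIntegrable_iff_integrableOn_Icc_of_le (by linarith)).1 this)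
    (fun σ hσ => (phi_int (hS _ (by linarith [hσ.1])) R').le)
    (by rw [intervalIntegral.integral_comp_div h two_ne_zero, mul_div_cancel_left₀ _ two_ne_zero,
      mul_div_cancel_left₀ _ two_ne_zero, smul_eq_mul]; linarith)
    (by
      simp only [e2]
      refine ENNReal.toReal_le_of_le_ofReal h2.le ((measure_mono fun x hx => ?_).trans hp)
      obtain ⟨a1, a2, y, a3, a4⟩ := hx
      rw [n_eq (hS _ le_rfl) a2] at a4
      exact ⟨mem_ball_zero_iff.2 a1, y, a3, a4⟩)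
    (by
      simp only [e2]
      rw [phi_int (hS _ h12), ← ENNReal.ofReal_le_one, dsb_eq (hS _ h12)]
      exact hf)
  refine ⟨j, hj, fun ⟨Z, z1, z2, z3, z4⟩ => hT ⟨Z, fun z hz => ⟨?_, ?_⟩, fun z hz z' hz' hn =>
    dist_eq_norm z z' ▸ z2 hz hz' hn, z3⟩⟩
  · linarith [z1 z hz, le_abs_self R₀]
  · have := (low' _ (hS _ h12)).1
    simp only [e2]
    rw [← mul_assoc]
    exact (ENNReal.ofReal_le_iff_le_toReal
      (measure_ball_lt_top (μ := (F.rsl x₀ t₀ τ₂).μ)).ne).1 (z4 z hz)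

/-- the monotonicity formula for the surfaces of P218R -/
theorem mono32 (hM : MONO) : P218R.MONO := by
  obtain ⟨C, hC, H⟩ := hM
  refine ⟨C, hC, fun S u x r h hu h0 hx hr => ?_⟩
  have := H (toSf S) u x r (ok h) hx hr fun y _ => ⟨hu.contDiffAt, h0 y⟩
  refine le_of_eq_of_le (congrArg _ (lintegral_congr_ae ((h.ae_set _).mono fun y hy => ?_)))
    (this.trans_eq (congrArg _ (lintegral_congr_ae ((h.ae_set _).mono fun y hy => ?_))))
  · simp only [n_eq h hy]
  · simp only [P_eq h hy, H_eq h hy, neg_sq, Srf.tg]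

end Vale.Agent.P218M1
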