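import Vale.Agent.P218M1.Alg

/-!
# P218M1, row GX: derived identities and bounds
-/

open MeasureTheory Metric Filter Topology Set
open scoped ContDiff RealInnerProductSpace ENNReal

noncomputable section

namespace Vale.Agent.P218M1

namespace Gx

open Sf

/-! ### smoothness -/

section sm

variable {S : Sf} {z : Q} {a θ : Q → E}

theorem sm_yy : ContDiff ℝ ∞ yy := by unfold yy; fun_prop

theorem sm_ro (ha : ContDiffAt ℝ ∞ a z) (hθ : ContDiffAt ℝ ∞ θ z) :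
    ContDiffAt ℝ ∞ (fun z => ro (a z) (θ z)) z :=
  (((innerSL ℝ : E →L[ℝ] E →L[ℝ] ℝ).contDiff.contDiffAt).comp z ha).smulRight hθ

theorem sm_s (hS : S.Ok) (ha : ContDiffAt ℝ ∞ a z) (hθ : ContDiffAt ℝ ∞ θ z) :
    ContDiffAt ℝ ∞ (fun z => S.s (a z) (θ z)) z := (hS.sg.contDiffAt.comp z ha).inner ℝ hθ

theorem sm_p (hS : S.Ok) (ha : ContDiffAt ℝ ∞ a z) (hθ : ContDiffAt ℝ ∞ θ z)
    (h : S.s (a z) (θ z) ≠ 0) : ContDiffAt ℝ ∞ (fun z => S.p (a z) (θ z)) z :=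
  ((sm_s hS ha hθ).inv h).smul (hS.sg.contDiffAt.comp z ha)

theorem sm_X (hS : S.Ok) (ha : ContDiffAt ℝ ∞ a z) (hθ : ContDiffAt ℝ ∞ θ z)
    (h : S.s (a z) (θ z) ≠ 0) : ContDiffAt ℝ ∞ (fun z => S.X (a z) (θ z)) z :=
  ((sm_s hS ha hθ).inv h).neg.smul
    ((contDiffAt_const.sub (sm_ro hθ (sm_p hS ha hθ h))).clm_comp
      ((hS.sD2.contDiffAt.comp z ha).clm_comp (contDiffAt_const.sub (sm_ro (sm_p hS ha hθ h) hθ))))

theorem sm_n (hS : S.Ok) (ha : ContDiffAt ℝ ∞ a z) (h : S.g (a z) ≠ 0) :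
    ContDiffAt ℝ ∞ (fun z => S.n (a z)) z :=
  (((hS.sg.contDiffAt.comp z ha).norm ℝ h).inv (norm_ne_zero_iff.2 h)).smul
    (hS.sg.contDiffAt.comp z ha)

theorem sm_θ : ContDiffAt ℝ ∞ (fun z : Q => z.2.1) z := by fun_prop

theorem sm_Pv (hS : S.Ok) (hz : z ∈ S.O) : ContDiffAt ℝ ∞ S.Pv z :=
  (sm_p hS contDiffAt_fst sm_θ hz.1).sub (sm_p hS sm_yy.contDiffAt sm_θ hz.2.1)

theorem sm_Z (hS : S.Ok) (hz : z ∈ S.O) : ContDiffAt ℝ ∞ S.Z z :=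
  (sm_X hS sm_yy.contDiffAt sm_θ hz.2.1).sub (sm_X hS contDiffAt_fst sm_θ hz.1)

theorem sm_kk (hS : S.Ok) (hz : z ∈ S.O) : ContDiffAt ℝ ∞ S.kk z :=
  ((sm_n hS contDiffAt_fst (O.g1 hz)).inner ℝ sm_θ).abs (cc_ne hz.1)

theorem O_nhds (hS : S.Ok) (hz : z ∈ S.O) : ∀ᶠ z' in 𝓝 z, z' ∈ S.O := by
  have h3 : ContinuousAt (fun z : Q => z.2.2) z := by fun_prop
  filter_upwards [(sm_s hS contDiffAt_fst sm_θ).continuousAt.eventually_ne hz.1,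
    (sm_s hS sm_yy.contDiffAt sm_θ).continuousAt.eventually_ne hz.2.1,
    continuousAt_const.eventually_lt h3 hz.2.2] with z' a1 a2 a3 using ⟨a1, a2, a3⟩

end sm

/-! ### directional derivatives -/

section hd

variable {F : Type} [NormedAddCommGroup F] [NormedSpace ℝ F] {z V : Q}

/-- the derivative along the line through `z` in the direction `V` -/
def HD (z V : Q) (f : Q → F) (v : F) : Prop := HasDerivAt (fun t : ℝ => f (z + t • V)) v 0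

theorem hd_of {f : Q → F} (hf : DifferentiableAt ℝ f z) : HD z V f (fderiv ℝ f z V) := by
  have h1 : HasDerivAt (fun t : ℝ => z + t • V) V 0 := by
    simpa using ((hasDerivAt_id (0 : ℝ)).smul_const V).const_add z
  have h2 : HasFDerivAt f (fderiv ℝ f z) (z + (0 : ℝ) • V) := by
    rw [zero_smul, add_zero]; exact hf.hasFDerivAt
  exact h2.comp_hasDerivAt 0 h1

theorem HD.eq {f : Q → F} {v : F} (h : HD z V f v) (hf : DifferentiableAt ℝ f z) :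
    fderiv ℝ f z V = v := (hd_of hf).unique h

theorem diff {f : Q → F} (hf : ContDiffAt ℝ ∞ f z) : DifferentiableAt ℝ f z :=
  hf.differentiableAt (by simp)

/-- a coordinate -/
abbrev co (i : Fin 3) : E →L[ℝ] ℝ := EuclideanSpace.proj i

theorem HD.co {f : Q → E} {v : E} (h : HD z V f v) (i : Fin 3) : HD z V (fun z => f z i) (v i) :=
  (Gx.co i).hasFDerivAt.comp_hasDerivAt 0 h

theorem sm_co {f : Q → E} (h : ContDiffAt ℝ ∞ f z) (i : Fin 3) :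
    ContDiffAt ℝ ∞ (fun z => f z i) z := (co i).contDiff.contDiffAt.comp z h

theorem sm_trc {f : Q → E →L[ℝ] E} (h : ContDiffAt ℝ ∞ f z) :
    ContDiffAt ℝ ∞ (fun z => trc (f z)) z :=
  ContDiffAt.sum fun i _ => sm_co (h.clm_apply contDiffAt_const) i

theorem HD.app {f : Q → E →L[ℝ] E} {v : E →L[ℝ] E} (h : HD z V f v) (u : E) :
    HD z V (fun z => f z u) (v u) := by
  unfold HD
  simpa using HasDerivAt.clm_apply h (hasDerivAt_const 0 u)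

theorem HD.trc {f : Q → E →L[ℝ] E} {v : E →L[ℝ] E} (h : HD z V f v) :
    HD z V (fun z => trc (f z)) (trc v) :=
  HasDerivAt.fun_sum fun i _ => (h.app (ee i)).co i

end hd

/-! ### the Cayley-Hamilton identity -/

theorem cayley {Z : E →L[ℝ] E} (hs : ∀ u v, ⟪Z u, v⟫ = ⟪u, Z v⟫) {θ P : E} (h0 : θ ≠ 0)
    (h1 : Z θ = 0) (h2 : ⟪P, θ⟫ = 0) :
    2 * (trc Z * ⟪Z P, P⟫ - ‖Z P‖ ^ 2) = ‖P‖ ^ 2 * (trc Z ^ 2 - P218M1.hs Z) := by
  have e : ∀ i j, Z (ee i) j = Z (ee j) i := fun i j => by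
    rw [← inner_ee (Z (ee i)) j, hs, ee_inner]
  have c : ∀ (v : E) (j : Fin 3), Z v j = v 0 * Z (ee 0) j + v 1 * Z (ee 1) j + v 2 * Z (ee 2) j := by
    intro v j
    rw [map_eq_sum Z v, Fin.sum_univ_three]
    simp
  have k : ∀ j, θ 0 * Z (ee 0) j + θ 1 * Z (ee 1) j + θ 2 * Z (ee 2) j = 0 := fun j => by
    rw [← c, h1]; rfl
  have k0 := k 0
  have k1 := k 1
  have k2 := k 2
  apply mul_left_cancel₀ (pow_ne_zero 2 (norm_ne_zero_iff.2 h0))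
  simp only [inner_eq_sum, norm_sq_eq_sum, hs_eq, trc, Fin.sum_univ_three, c P] at h2 ⊢
  rw [e 1 0] at k0
  rw [e 2 0] at k0
  rw [e 2 1] at k1
  rw [e 1 0, e 2 0, e 2 1]
  generalize Z (ee 0) 0 = a, Z (ee 1) 1 = b, Z (ee 2) 2 = c, Z (ee 0) 1 = d, Z (ee 0) 2 = f,
    Z (ee 1) 2 = g, θ 0 = x, θ 1 = y, θ 2 = w, P 0 = p, P 1 = q, P 2 = r at *
  obtain ⟨u0, hu0⟩ : ∃ u, u = a * (q * w - r * y) + d * (r * x - p * w) + f * (p * y - q * x) :=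
    ⟨_, rfl⟩
  obtain ⟨u1, hu1⟩ : ∃ u, u = d * (q * w - r * y) + b * (r * x - p * w) + g * (p * y - q * x) :=
    ⟨_, rfl⟩
  obtain ⟨u2, hu2⟩ : ∃ u, u = f * (q * w - r * y) + g * (r * x - p * w) + c * (p * y - q * x) :=
    ⟨_, rfl⟩
  have key : (x ^ 2 + y ^ 2 + w ^ 2) * ((b * c - g ^ 2) * p ^ 2 + (a * c - f ^ 2) * q ^ 2 +
      (a * b - d ^ 2) * r ^ 2 + 2 * (f * g - d * c) * p * q + 2 * (d * g - f * b) * p * r +
      2 * (d * f - a * g) * q * r) = 0 := by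
    subst hu0 hu1 hu2
    linear_combination
      ((d * (q * w - r * y) + b * (r * x - p * w) + g * (p * y - q * x)) * r -
        (f * (q * w - r * y) + g * (r * x - p * w) + c * (p * y - q * x)) * q) * k0 +
      ((f * (q * w - r * y) + g * (r * x - p * w) + c * (p * y - q * x)) * p -
        (a * (q * w - r * y) + d * (r * x - p * w) + f * (p * y - q * x)) * r) * k1 +
      ((a * (q * w - r * y) + d * (r * x - p * w) + f * (p * y - q * x)) * q -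
        (d * (q * w - r * y) + b * (r * x - p * w) + g * (p * y - q * x)) * p) * k2 +
      ((b * c - g ^ 2) * p * x + (a * c - f ^ 2) * q * y + (a * b - d ^ 2) * r * w +
        (f * g - d * c) * (p * y + q * x) + (d * g - f * b) * (p * w + r * x) +
        (d * f - a * g) * (q * w + r * y)) * h2
  linear_combination (-2) * key

/-! ### the rows -/

variable {S : Sf} {z : Q}

theorem vv (hz : z ∈ S.O) : S.vs (yy z) z.2.1 - S.vs z.1 z.2.1 =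
    trc (S.P z.1 ∘L S.Z z) + trc ((S.P (yy z) - S.P z.1) ∘L S.X2 z) +
      (z.2.2 - ⟪z.1, S.Pv z⟫) / 2 := by
  have h1 : ⟪yy z, S.p (yy z) z.2.1⟫ = ⟪z.1, S.p2 z⟫ + z.2.2 := by
    nth_rewrite 1 [yy]
    rw [inner_add_left, real_inner_smul_left, real_inner_comm _ z.2.1, p_θ hz.2.1, mul_one, p2]
  rw [vs_eq hz.1, vs_eq hz.2.1, h1, Z, ContinuousLinearMap.comp_sub, ContinuousLinearMap.sub_comp,
    trc_sub, trc_sub, Pv, inner_sub_right, X1, X2, p1]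
  ring

theorem quad_sub {X : E →L[ℝ] E} (hs : ∀ u v, ⟪X u, v⟫ = ⟪u, X v⟫) {θ : E} (h : X θ = 0) (p : E) :
    ⟪X p, p⟫ = ⟪X (p - θ), p - θ⟫ := by
  rw [map_sub, h, sub_zero, inner_sub_right, hs p θ, h, inner_zero_right, sub_zero]

theorem pp (hS : S.Ok) (hz : z ∈ S.O) (hθ : ‖z.2.1‖ = 1) (hc : 1 / 2 ≤ S.cs1 z) :
    trc ((S.P (yy z) - S.P z.1) ∘L S.X2 z) ^ 2 ≤
      100 * (1 - S.cs1 z + S.sq z) * S.sq z * hs (S.X2 z) := by
  have hsym : ∀ u v, ⟪S.X2 z u, v⟫ = ⟪u, S.X2 z v⟫ := hS.X_sym _ _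
  have h0 : S.X2 z z.2.1 = 0 := X_θ hz.2.1
  have h2 := O.a_sq hz hθ
  have h3 := O.b_sq hz hθ
  have h4 := cs1_le S hθ
  have h5 := cs2_le S hθ
  have h6 := O.cs2_pos hz
  rw [ContinuousLinearMap.sub_comp, trc_sub, trc_P_comp' hz.1, trc_P_comp' hz.2.1,
    quad_sub hsym h0 (S.p z.1 _), quad_sub hsym h0 (S.p (yy z) _), Sf.sq, Pv_eq]
  change (_ - S.cs2 z * ⟪S.X2 z (S.p2 z - z.2.1), S.p2 z - z.2.1⟫ -
    (_ - S.cs1 z * ⟪S.X2 z (S.p1 z - z.2.1), S.p1 z - z.2.1⟫)) ^ 2 ≤ _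
  generalize S.p1 z - z.2.1 = a, S.p2 z - z.2.1 = b, S.X2 z = X, S.cs1 z = c1, S.cs2 z = c2 at *
  have e1 : ⟪X (a - b), a + b⟫ = ⟪X a, a⟫ - ⟪X b, b⟫ := by
    rw [map_sub, inner_sub_left, inner_add_right, inner_add_right, hsym b a, real_inner_comm (X a) b]
    ring
  have e2 : ⟪a - b, a + b⟫ = ‖a‖ ^ 2 - ‖b‖ ^ 2 := by
    rw [inner_sub_left, inner_add_right, inner_add_right, real_inner_self_eq_norm_sq,
      real_inner_self_eq_norm_sq, real_inner_comm a b]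
    ring
  have i1 := inner_apply_sq_le X (a - b) (a + b)
  have i2 := inner_sq_le (a - b) (a + b)
  have i3 := inner_apply_sq_le X a a
  have i4 := norm_sub_sq_le ((2 : ℝ) • a) (a - b)
  rw [show (2 : ℝ) • a - (a - b) = a + b by rw [two_smul]; abel, norm_smul, mul_pow] at i4
  have ha : ‖a‖ ^ 2 ≤ 2 * (1 - c1) := by nlinarith [sq_nonneg ‖a‖]
  have hX := hs_nonneg X
  have e3 : trc X - c2 * ⟪X b, b⟫ - (trc X - c1 * ⟪X a, a⟫) =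
      c2 * ⟪X (a - b), a + b⟫ - c1 * c2 * ⟪a - b, a + b⟫ * ⟪X a, a⟫ := by
    rw [e1, e2]
    linear_combination (c2 * ⟪X a, a⟫) * h2 - (c1 * ⟪X a, a⟫) * h3
  rw [e3]
  have n2 : ‖(2 : ℝ)‖ ^ 2 = 4 := by norm_num
  rw [n2] at i4
  generalize ⟪X (a - b), a + b⟫ = u, ⟪a - b, a + b⟫ = v, ⟪X a, a⟫ = q, hs X = h at *
  have hA := sq_nonneg ‖a‖
  have hs' := sq_nonneg ‖a - b‖
  have hW := sq_nonneg ‖a + b‖
  generalize ‖a‖ ^ 2 = A, ‖a - b‖ ^ 2 = s, ‖a + b‖ ^ 2 = W at *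
  have j1 : q ^ 2 ≤ h := i3.trans (by
    have : A ≤ 1 := by linarith
    nlinarith [mul_nonneg hX hA, mul_le_mul_of_nonneg_left this (mul_nonneg hX hA)])
  have j2 : (c2 * u) ^ 2 ≤ h * s * W := by
    rw [mul_pow]
    exact (mul_le_of_le_one_left (sq_nonneg _) (pow_le_one₀ h6.le h5)).trans i1
  have j3 : (c1 * c2 * v * q) ^ 2 ≤ h * s * W := by
    rw [mul_assoc, mul_pow]
    refine (mul_le_of_le_one_left (sq_nonneg _)
      (pow_le_one₀ (by positivity) (mul_le_one₀ h4 h6.le h5))).trans ?_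
    rw [mul_pow, mul_assoc h, mul_comm h]
    exact mul_le_mul i2 j1 (sq_nonneg _) (mul_nonneg hs' hW)
  have j4 : h * s * W ≤ h * s * (16 * (1 - c1 + s)) :=
    mul_le_mul_of_nonneg_left (by linarith) (mul_nonneg hX hs')
  have j5 : 0 ≤ h * s * (1 - c1 + s) := mul_nonneg (mul_nonneg hX hs') (by linarith)
  nlinarith [sq_nonneg (c2 * u + c1 * c2 * v * q)]

theorem five (a b c d e : ℝ) :
    (a + b + c + d + e) ^ 2 ≤ 5 * (a ^ 2 + b ^ 2 + c ^ 2 + d ^ 2 + e ^ 2) := by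
  linarith [sq_nonneg (a - b), sq_nonneg (a - c), sq_nonneg (a - d), sq_nonneg (a - e),
    sq_nonneg (b - c), sq_nonneg (b - d), sq_nonneg (b - e), sq_nonneg (c - d), sq_nonneg (c - e),
    sq_nonneg (d - e)]

theorem tz (hS : S.Ok) (hz : z ∈ S.O) (hθ : ‖z.2.1‖ = 1) (hc : 9 / 10 ≤ S.cs1 z)
    (hc2 : 1 / 4 ≤ S.cs2 z) :
    trc (S.Z z) ^ 2 ≤ hs (S.Z z) / 10 + 10 ^ 7 * (S.φ z.1 ^ 2 + S.φ (yy z) ^ 2 +
      S.sq z * S.A2 (yy z) + z.2.2 ^ 2 + ‖z.1‖ ^ 2 * S.sq z) := by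
  have h1 := vv hz
  have h2 := pp hS hz hθ (by linarith)
  have h3 := trc_P_comp' hz.1 (S.Z z)
  rw [quad_sub (hS.Z_sym z) (O.Z_θ hz)] at h3
  have h4 : S.cs1 z * ‖S.p z.1 z.2.1 - z.2.1‖ ^ 2 = 1 - S.cs1 z := O.a_sq hz hθ
  have h5 := inner_apply_sq_le (S.Z z) (S.p z.1 z.2.1 - z.2.1) (S.p z.1 z.2.1 - z.2.1)
  have h6 : S.cs1 z * S.vs z.1 z.2.1 ^ 2 = S.φ z.1 ^ 2 := vs_sq hz.1
  have h7 : S.cs2 z * S.vs (yy z) z.2.1 ^ 2 = S.φ (yy z) ^ 2 := vs_sq hz.2.1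
  have h8 := O.sq_le_four hz hθ hc hc2
  have h9 := hS.hs_X2_le hz hθ hc2
  have h10 : ⟪z.1, S.Pv z⟫ ^ 2 ≤ ‖z.1‖ ^ 2 * S.sq z := inner_sq_le _ _
  have h11 := cs1_le S hθ
  have h12 := sq_nonneg' S z
  have h13 := hs_nonneg (S.X2 z)
  have h14 := hs_nonneg (S.Z z)
  have h15 := A2_nonneg S (yy z)
  change _ = _ - S.cs1 z * _ at h3
  generalize ⟪S.Z z (S.p z.1 z.2.1 - z.2.1), S.p z.1 z.2.1 - z.2.1⟫ = q,
    ‖S.p z.1 z.2.1 - z.2.1‖ ^ 2 = A, trc ((S.P (yy z) - S.P z.1) ∘L S.X2 z) = T,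
    trc (S.P z.1 ∘L S.Z z) = t, ⟪z.1, S.Pv z⟫ = w, S.vs z.1 z.2.1 = v1, S.vs (yy z) z.2.1 = v2,
    S.cs1 z = c1, S.cs2 z = c2, S.sq z = s, hs (S.X2 z) = hX, hs (S.Z z) = hZ,
    S.A2 (yy z) = A2 at *
  have j1 : (c1 * q) ^ 2 ≤ hZ / 100 := by
    have a1 : (c1 * q) ^ 2 ≤ hZ * (c1 * A) ^ 2 := by
      nlinarith [mul_le_mul_of_nonneg_left h5 (sq_nonneg c1)]
    rw [h4] at a1
    have a2 : (1 - c1) ^ 2 ≤ 1 / 100 := by nlinarith
    nlinarith [mul_le_mul_of_nonneg_left a2 h14]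
  have j2 : v1 ^ 2 ≤ 2 * S.φ z.1 ^ 2 := by nlinarith [sq_nonneg v1]
  have j3 : v2 ^ 2 ≤ 4 * S.φ (yy z) ^ 2 := by nlinarith [sq_nonneg v2]
  have j4 : T ^ 2 ≤ 40000 * (s * A2) := by
    have a1 : (1 - c1 + s) * hX ≤ 6 * (64 * A2) :=
      mul_le_mul (by linarith) h9 h13 (by norm_num)
    nlinarith [mul_le_mul_of_nonneg_left a1 h12, mul_nonneg h12 h15]
  have j5 := five v2 (-v1) (-T) (-z.2.2 / 2) (w / 2)
  rw [show v2 + -v1 + -T + -z.2.2 / 2 + w / 2 = t by linarith] at j5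
  have j6 : (t + c1 * q) ^ 2 ≤ 2 * t ^ 2 + 2 * (c1 * q) ^ 2 := by
    linarith [sq_nonneg (t - c1 * q)]
  rw [show trc (S.Z z) = t + c1 * q by linarith]
  linarith [sq_nonneg (S.φ z.1), sq_nonneg (S.φ (yy z)), mul_nonneg h12 h15, sq_nonneg z.2.2,
    sq_nonneg w]

theorem dU (gd : GD) (π : Par) (hS : S.Ok) (hz : z ∈ S.O) (hθ : ‖z.2.1‖ = 1)
    (hc : 1 / 2 ≤ S.cs1 z) :
    (∑ i, S.D (ee i) (fun z => S.P z.1 (S.Uv π z) i) z -
      (S.kk z / π.ε * trc (S.P z.1 ∘L S.Z z) + ⟪S.P z.1 (S.lv z), S.Uv π z⟫)) ^ 2 ≤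
      100 * (1 - S.cs1 z) * S.A2 z.1 * ‖S.Uv π z‖ ^ 2 := by
  have sn := sm_n hS (a := fun z => z.1) contDiffAt_fst (O.g1 hz)
  have sU : ContDiffAt ℝ ∞ (S.Uv π) z := ((sm_kk hS hz).div_const _).smul (sm_Pv hS hz)
  have hg := O.g1 hz
  have key : ∀ (e : E) (i : Fin 3), S.D e (fun z => S.P z.1 (S.Uv π z) i) z =
      ⟪S.lv z, e⟫ * S.P z.1 (S.Uv π z) i + S.kk z / π.ε * S.P z.1 (S.Z z e) i +
        ⟪S.A z.1 (S.Pi z.1 z.2.1 e), S.Uv π z⟫ * S.n z.1 i +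
        ⟪S.n z.1, S.Uv π z⟫ * S.A z.1 (S.Pi z.1 z.2.1 e) i := by
    intro e i
    have a1 : HD z (S.VD e z) S.kk (S.kk z * ⟪S.lv z, e⟫) :=
      gd.Dk S z e hS hz ▸ hd_of (diff (sm_kk hS hz))
    have a2 : HD z (S.VD e z) S.Pv (S.Z z e) := gd.DPv S z e hS hz ▸ hd_of (diff (sm_Pv hS hz))
    have a3 : HD z (S.VD e z) (fun z => S.n z.1) (-S.A z.1 (S.Pi z.1 z.2.1 e)) :=
      gd.Dn S z e hS hz ▸ hd_of (diff sn)
    have a4 := HasDerivAt.smul (HasDerivAt.div_const a1 π.ε) a2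
    have a5 : HD z (S.VD e z) (fun z => S.Uv π z - ⟪S.n z.1, S.Uv π z⟫ • S.n z.1) _ :=
      HasDerivAt.sub a4 (HasDerivAt.smul (HasDerivAt.inner ℝ a3 a4) a3)
    simp only [P_apply]
    refine ((a5.co i).eq (diff (sm_co (sU.sub ((sn.inner ℝ sU).smul sn)) i))).trans ?_
    simp only [zero_smul, add_zero, Uv, PiLp.sub_apply, PiLp.add_apply, PiLp.smul_apply,
      PiLp.neg_apply, smul_eq_mul, inner_add_right, inner_smul_right, inner_neg_left,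
      Pi.smul_apply']
    ring
  have s1 : ∑ i, ⟪S.lv z, ee i⟫ * S.P z.1 (S.Uv π z) i = ⟪S.P z.1 (S.lv z), S.Uv π z⟫ := by
    rw [P_sym, inner_eq_sum]
    simp only [inner_ee]
  have s2 : ∑ i, S.kk z / π.ε * S.P z.1 (S.Z z (ee i)) i =
      S.kk z / π.ε * trc (S.P z.1 ∘L S.Z z) := by
    rw [← Finset.mul_sum]; rfl
  have s3 : ∑ i, ⟪S.A z.1 (S.Pi z.1 z.2.1 (ee i)), S.Uv π z⟫ * S.n z.1 i =
      ⟪S.A z.1 (S.Pi z.1 z.2.1 (S.n z.1)), S.Uv π z⟫ := by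
    have := map_eq_sum (S.A z.1 ∘L S.Pi z.1 z.2.1) (S.n z.1)
    simp only [ContinuousLinearMap.comp_apply] at this
    rw [this, sum_inner]
    simp only [real_inner_smul_left, mul_comm]
  have s4 : ∑ i, ⟪S.n z.1, S.Uv π z⟫ * S.A z.1 (S.Pi z.1 z.2.1 (ee i)) i =
      ⟪S.n z.1, S.Uv π z⟫ * S.H z.1 := by
    rw [← Finset.mul_sum, ← trc_A_Pi hz.1]; rfl
  simp only [key, Finset.sum_add_distrib, s1, s2, s3, s4]
  have b1 := inner_apply_sq_le (S.A z.1) (S.Pi z.1 z.2.1 (S.n z.1)) (S.Uv π z)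
  have b2 : S.cs1 z * ‖S.Pi z.1 z.2.1 (S.n z.1)‖ ^ 2 = 1 - S.cs1 z := by
    have hcc := cc_ne hz.1
    rw [Pi_apply, p_eq hz.1, real_inner_smul_left, nn hg, norm_sub_sq_real, norm_n hg,
      real_inner_smul_right, norm_smul, hθ, mul_one, mul_one, Real.norm_eq_abs, sq_abs, cs1]
    change _ * (_ - 2 * (_ * S.cc z.1 z.2.1) + _) = _
    field_simp
    ring
  have b3 : ⟪S.n z.1, S.Uv π z⟫ ^ 2 ≤ (1 - S.cs1 z) * ‖S.Uv π z‖ ^ 2 :=
    n_perp hg hθ (O.Uv_θ hz π)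
  have b4 := H_sq_le S z.1
  have b5 := cs1_le S hθ
  have b6 := A2_nonneg S z.1
  have b7 : ‖S.Pi z.1 z.2.1 (S.n z.1)‖ ^ 2 ≤ 2 * (1 - S.cs1 z) := by
    nlinarith [sq_nonneg ‖S.Pi z.1 z.2.1 (S.n z.1)‖]
  have b8 := sq_nonneg ‖S.Uv π z‖
  change _ ≤ S.A2 z.1 * _ * _ at b1
  generalize ⟪S.A z.1 (S.Pi z.1 z.2.1 (S.n z.1)), S.Uv π z⟫ = u, ⟪S.n z.1, S.Uv π z⟫ = v,
    ‖S.Pi z.1 z.2.1 (S.n z.1)‖ ^ 2 = w, ‖S.Uv π z‖ ^ 2 = U, S.A2 z.1 = A, S.H z.1 = H,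
    S.cs1 z = c at *
  have j1 : u ^ 2 ≤ A * (2 * (1 - c)) * U :=
    b1.trans (mul_le_mul_of_nonneg_right (mul_le_mul_of_nonneg_left b7 b6) b8)
  have j2 : (v * H) ^ 2 ≤ (1 - c) * U * (3 * A) := by
    rw [mul_pow]
    exact mul_le_mul b3 b4 (sq_nonneg _) (mul_nonneg (by linarith) b8)
  have j3 : 0 ≤ (1 - c) * A * U := mul_nonneg (mul_nonneg (by linarith) b6) b8
  nlinarith [sq_nonneg (u - v * H)]

theorem nl (gd : GD) (ps : ℝ → ℝ) (hS : S.Ok) (hz : z ∈ S.O) (hps : ContDiff ℝ ∞ ps) :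
    ∑ i, S.D (ee i) (fun z => ps (S.sq z) * (trc (S.Z z) • S.Pv z - S.Z z (S.Pv z)) i) z =
      (ps (S.sq z) + S.sq z * deriv ps (S.sq z)) * (trc (S.Z z) ^ 2 - hs (S.Z z)) := by
  have sP := sm_Pv hS hz
  have sZ := sm_Z hS hz
  have sq' : ContDiffAt ℝ ∞ S.sq z := sP.norm_sq ℝ
  obtain ⟨M, hM⟩ : ∃ M : E → E →L[ℝ] E, ∀ e, M e = fderiv ℝ S.Z z (S.VD e z) := ⟨_, fun _ => rfl⟩
  have hZ : ∀ e, HD z (S.VD e z) S.Z (M e) := fun e => hM e ▸ hd_of (diff sZ)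
  have sym : ∀ i j, M (ee i) (ee j) i = M (ee j) (ee i) i := by
    have a1 : ∀ i j e, M e (ee j) i = S.D e (S.D (ee j) fun z => S.Pv z i) z := by
      intro i j e
      have b1 : (S.D (ee j) fun z => S.Pv z i) =ᶠ[𝓝 z] fun z => S.Z z (ee j) i := by
        filter_upwards [O_nhds hS hz] with y hy
        have b2 : HD y (S.VD (ee j) y) S.Pv (S.Z y (ee j)) :=
          gd.DPv S y _ hS hy ▸ hd_of (diff (sm_Pv hS hy))
        exact (b2.co i).eq (diff (sm_co (sm_Pv hS hy) i))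
      rw [Sf.D, b1.fderiv_eq]
      exact ((((hZ e).app (ee j)).co i).eq (diff (sm_co (sZ.clm_apply contDiffAt_const) i))).symm
    intro i j
    rw [a1, a1]
    exact gd.DD S z _ _ _ hS hz ((sm_co sP i).of_le (cast_le_inf 2))
  have key : ∀ (e : E) (i : Fin 3),
      S.D e (fun z => ps (S.sq z) * (trc (S.Z z) • S.Pv z - S.Z z (S.Pv z)) i) z =
      2 * deriv ps (S.sq z) *
          (⟪S.Z z (S.Pv z), e⟫ * (trc (S.Z z) * S.Pv z i - S.Z z (S.Pv z) i)) +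
        ps (S.sq z) * (trc (S.Z z) * S.Z z e i + trc (M e) * S.Pv z i - M e (S.Pv z) i -
          S.Z z (S.Z z e) i) := by
    intro e i
    have a1 : HD z (S.VD e z) S.sq (2 * ⟪S.Z z (S.Pv z), e⟫) :=
      gd.Dsq S z e hS hz ▸ hd_of (diff sq')
    have a2 : HD z (S.VD e z) S.Pv (S.Z z e) := gd.DPv S z e hS hz ▸ hd_of (diff sP)
    have a3 := (hps.differentiable (by simp) _).hasDerivAt.comp 0 a1
    have a4 : HD z (S.VD e z) (fun z => trc (S.Z z) • S.Pv z - S.Z z (S.Pv z)) _ :=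
      HasDerivAt.sub (HasDerivAt.smul (hZ e).trc a2) (HasDerivAt.clm_apply (hZ e) a2)
    have a5 : HD z (S.VD e z)
        (fun z => ps (S.sq z) * (trc (S.Z z) • S.Pv z - S.Z z (S.Pv z)) i) _ :=
      HasDerivAt.mul a3 (a4.co i)
    refine (a5.eq (diff ((hps.contDiffAt.comp z sq').mul
      (sm_co (((sm_trc sZ).smul sP).sub (sZ.clm_apply sP)) i)))).trans ?_
    simp only [zero_smul, add_zero, PiLp.sub_apply, PiLp.add_apply, PiLp.smul_apply, smul_eq_mul]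
    ring
  have s1 : ∑ i, ⟪S.Z z (S.Pv z), ee i⟫ * (trc (S.Z z) * S.Pv z i - S.Z z (S.Pv z) i) =
      trc (S.Z z) * ⟪S.Z z (S.Pv z), S.Pv z⟫ - ‖S.Z z (S.Pv z)‖ ^ 2 := by
    simp only [inner_ee, norm_sq_eq_sum, Fin.sum_univ_three]
    rw [inner_eq_sum, Fin.sum_univ_three]
    ring
  have s2 : ∑ i, (trc (S.Z z) * S.Z z (ee i) i + trc (M (ee i)) * S.Pv z i -
      M (ee i) (S.Pv z) i - S.Z z (S.Z z (ee i)) i) = trc (S.Z z) ^ 2 - hs (S.Z z) := by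
    have c : ∀ (e : E) (j : Fin 3), M e (S.Pv z) j =
        S.Pv z 0 * M e (ee 0) j + S.Pv z 1 * M e (ee 1) j + S.Pv z 2 * M e (ee 2) j := by
      intro e j
      rw [map_eq_sum (M e) (S.Pv z), Fin.sum_univ_three]
      simp
    rw [← trc_sq_sym (hS.Z_sym z)]
    simp only [trc, c, Fin.sum_univ_three, ContinuousLinearMap.comp_apply]
    rw [sym 0 1, sym 0 2, sym 1 0, sym 1 2, sym 2 0, sym 2 1]
    ring
  have h0 : z.2.1 ≠ 0 := fun h => hz.1 (by rw [h, Sf.s, inner_zero_right])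
  have s3 := cayley (hS.Z_sym z) h0 (O.Z_θ hz) (O.Pv_θ hz)
  simp only [key, Finset.sum_add_distrib, ← Finset.mul_sum, s1, s2]
  rw [Sf.sq]
  linear_combination deriv ps (‖S.Pv z‖ ^ 2) * s3

end Gx

/-- row GX -/
theorem gx (gd : GD) : GX :=
  ⟨fun _ _ _ => Gx.vv, fun _ _ => Gx.pp, fun _ _ => Gx.tz, fun _ π _ => Gx.dU gd π,
    fun _ _ ps => Gx.nl gd ps⟩

end Vale.Agent.P218M1
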