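import Vale.Agent.P218M1.All
import Vale.Agent.P218M1.Br

/-!
# P218M1: the output of the block
-/

namespace Vale.Agent.P218M1

theorem dpr' : P218E.DPR := dpr dp'

theorem mono32' : P218R.MONO := mono32 mono

end Vale.Agent.P218M1
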