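import Vale.Agent.P218M1.Spec

/-!
# P218M1: pointwise algebra
-/

open MeasureTheory Metric Filter Topology Set
open scoped ContDiff RealInnerProductSpace ENNReal

noncomputable section

namespace Vale.Agent.P218M1

theorem cast_le_inf (k : ℕ) : ((k : ℕ) : WithTop ℕ∞) ≤ ((⊤ : ℕ∞) : WithTop ℕ∞) := by
  exact_mod_cast le_top

/-! ### coordinates, trace, Hilbert-Schmidt norm -/

theorem sum_ee (v : E) : ∑ i, v i • ee i = v := by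
  ext j
  simp [ee, Pi.single_apply]

theorem inner_ee (v : E) (i : Fin 3) : ⟪v, ee i⟫ = v i := by
  simp [ee, EuclideanSpace.inner_single_right]

theorem ee_inner (v : E) (i : Fin 3) : ⟪ee i, v⟫ = v i := by rw [real_inner_comm, inner_ee]

theorem norm_ee (i : Fin 3) : ‖ee i‖ = 1 := by simp [ee]

theorem inner_eq_sum (v w : E) : ⟪v, w⟫ = ∑ i, v i * w i := by
  simp [PiLp.inner_apply, mul_comm]

theorem norm_sq_eq_sum (v : E) : ‖v‖ ^ 2 = ∑ i, v i ^ 2 := by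
  rw [← real_inner_self_eq_norm_sq, inner_eq_sum]; simp [sq]

theorem map_eq_sum {F : Type} [NormedAddCommGroup F] [NormedSpace ℝ F] (M : E →L[ℝ] F) (v : E) :
    M v = ∑ i, v i • M (ee i) := by
  conv_lhs => rw [← sum_ee v]
  simp

theorem sum_smul_ee_apply (a : Fin 3 → ℝ) (j : Fin 3) : (∑ i, a i • ee i) j = a j := by
  simp [ee, Pi.single_apply]

theorem inner_sum_ee (a : Fin 3 → ℝ) (v : E) : ⟪∑ i, a i • ee i, v⟫ = ∑ i, a i * v i := by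
  rw [inner_eq_sum]; simp only [sum_smul_ee_apply]

theorem abs_apply_le (v : E) (i : Fin 3) : |v i| ≤ ‖v‖ := PiLp.norm_apply_le v i

theorem inner_sq_le (u v : E) : ⟪u, v⟫ ^ 2 ≤ ‖u‖ ^ 2 * ‖v‖ ^ 2 := by
  rw [← mul_pow, ← sq_abs]
  exact pow_le_pow_left₀ (abs_nonneg _) (abs_real_inner_le_norm u v) 2

@[simp] theorem ro_apply (a b v : E) : ro a b v = ⟪a, v⟫ • b := by simp [ro]

theorem trc_add (M M' : E →L[ℝ] E) : trc (M + M') = trc M + trc M' := by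
  simp [trc, Finset.sum_add_distrib]

theorem trc_sub (M M' : E →L[ℝ] E) : trc (M - M') = trc M - trc M' := by
  simp [trc, Finset.sum_sub_distrib]

theorem trc_neg (M : E →L[ℝ] E) : trc (-M) = -trc M := by simp [trc]

theorem trc_smul (c : ℝ) (M : E →L[ℝ] E) : trc (c • M) = c * trc M := by
  simp [trc, Finset.mul_sum]

theorem trc_smulRight (l : E →L[ℝ] ℝ) (v : E) : trc (l.smulRight v) = l v := by
  rw [map_eq_sum l v]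
  simp [trc, mul_comm]

theorem trc_ro (a b : E) : trc (ro a b) = ⟪a, b⟫ := by rw [ro, trc_smulRight]; simp

theorem trc_id : trc (ContinuousLinearMap.id ℝ E) = 3 := by simp [trc, ee]

theorem trc_eq_inner (M : E →L[ℝ] E) : trc M = ∑ i, ⟪M (ee i), ee i⟫ := by
  simp only [trc, inner_ee]

theorem trc_comm (M M' : E →L[ℝ] E) : trc (M ∘L M') = trc (M' ∘L M) := by
  simp only [trc, ContinuousLinearMap.comp_apply]
  have h : ∀ (A B : E →L[ℝ] E) (i : Fin 3), A (B (ee i)) i = ∑ j, B (ee i) j * A (ee j) i := by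
    intro A B i
    rw [map_eq_sum A (B (ee i))]
    simp
  simp only [h]
  rw [Finset.sum_comm]
  simp only [mul_comm]

theorem trc_ro_comp (a b : E) (L : E →L[ℝ] E) : trc (ro a b ∘L L) = ⟪a, L b⟫ := by
  rw [trc_comm]
  have : L ∘L ro a b = ro a (L b) := by ext1 v; simp
  rw [this, trc_ro]

theorem trc_comp_ro (a b : E) (L : E →L[ℝ] E) : trc (L ∘L ro a b) = ⟪a, L b⟫ := by
  rw [trc_comm, trc_ro_comp]

theorem hs_nonneg (L : E →L[ℝ] E) : 0 ≤ hs L := Finset.sum_nonneg fun _ _ => sq_nonneg _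

theorem hs_eq (L : E →L[ℝ] E) : hs L = ∑ i, ∑ j, L (ee i) j ^ 2 := by
  simp only [hs, norm_sq_eq_sum]

theorem hs_smul (c : ℝ) (L : E →L[ℝ] E) : hs (c • L) = c ^ 2 * hs L := by
  simp [hs, norm_smul, mul_pow, Finset.mul_sum]

theorem hs_neg (L : E →L[ℝ] E) : hs (-L) = hs L := by simp [hs]

theorem norm_apply_sq_le (L : E →L[ℝ] E) (v : E) : ‖L v‖ ^ 2 ≤ hs L * ‖v‖ ^ 2 := by
  rw [map_eq_sum L v, mul_comm, norm_sq_eq_sum v, hs]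
  refine le_trans ?_ (Finset.sum_mul_sq_le_sq_mul_sq Finset.univ (fun i => |v i|)
    (fun i => ‖L (ee i)‖) |>.trans (le_of_eq (by simp)))
  refine pow_le_pow_left₀ (norm_nonneg _) ((norm_sum_le _ _).trans (le_of_eq ?_)) 2
  simp [norm_smul]

theorem inner_apply_sq_le (L : E →L[ℝ] E) (u v : E) :
    ⟪L u, v⟫ ^ 2 ≤ hs L * ‖u‖ ^ 2 * ‖v‖ ^ 2 :=
  (inner_sq_le _ _).trans (mul_le_mul_of_nonneg_right (norm_apply_sq_le L u) (sq_nonneg _))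

theorem trc_sq_le (L : E →L[ℝ] E) : trc L ^ 2 ≤ 3 * hs L := by
  have h := Finset.sum_mul_sq_le_sq_mul_sq Finset.univ (fun _ : Fin 3 => (1 : ℝ))
    (fun i => L (ee i) i)
  simp only [one_mul, one_pow, Finset.sum_const, Finset.card_univ, Fintype.card_fin,
    nsmul_eq_mul, mul_one, Nat.cast_ofNat] at h
  refine h.trans (mul_le_mul_of_nonneg_left (Finset.sum_le_sum fun i _ => ?_) (by norm_num))
  rw [← sq_abs]
  exact pow_le_pow_left₀ (abs_nonneg _) (abs_apply_le _ _) 2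

theorem hs_add_le (L M : E →L[ℝ] E) : hs (L + M) ≤ 2 * hs L + 2 * hs M := by
  simp only [hs_eq, Finset.mul_sum, ← Finset.sum_add_distrib]
  refine Finset.sum_le_sum fun i _ => Finset.sum_le_sum fun j _ => ?_
  simp only [add_apply, PiLp.add_apply]
  nlinarith [sq_nonneg (L (ee i) j - M (ee i) j)]

theorem hs_sub_le (L M : E →L[ℝ] E) : hs (L - M) ≤ 2 * hs L + 2 * hs M := by
  rw [sub_eq_add_neg]; simpa [hs_neg] using hs_add_le L (-M)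

theorem hs_adj {L M : E →L[ℝ] E} (h : ∀ u v, ⟪L u, v⟫ = ⟪u, M v⟫) : hs L = hs M := by
  simp only [hs_eq]
  rw [Finset.sum_comm]
  refine Finset.sum_congr rfl fun i _ => Finset.sum_congr rfl fun j _ => ?_
  rw [← inner_ee (L (ee j)) i, h, ee_inner]

theorem hs_comp_le {L : E →L[ℝ] E} {c : ℝ} (h : ∀ v, ‖L v‖ ^ 2 ≤ c * ‖v‖ ^ 2) (M : E →L[ℝ] E) :
    hs (L ∘L M) ≤ c * hs M := by
  simp only [hs, Finset.mul_sum]
  exact Finset.sum_le_sum fun i _ => h _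

theorem trc_sq_sym {L : E →L[ℝ] E} (h : ∀ u v, ⟪L u, v⟫ = ⟪u, L v⟫) : trc (L ∘L L) = hs L := by
  simp only [trc_eq_inner, hs, ContinuousLinearMap.comp_apply]
  exact Finset.sum_congr rfl fun i _ => by rw [h, real_inner_self_eq_norm_sq]

theorem norm_add_sq_le (u v : E) : ‖u + v‖ ^ 2 ≤ 2 * ‖u‖ ^ 2 + 2 * ‖v‖ ^ 2 := by
  have := norm_add_le u v
  nlinarith [norm_nonneg (u + v), sq_nonneg (‖u‖ - ‖v‖), norm_nonneg u, norm_nonneg v]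

theorem norm_sub_sq_le (u v : E) : ‖u - v‖ ^ 2 ≤ 2 * ‖u‖ ^ 2 + 2 * ‖v‖ ^ 2 := by
  rw [sub_eq_add_neg]; simpa using norm_add_sq_le u (-v)

theorem inner_rot (τ ν θ : E) : ⟪rot τ ν θ, θ⟫ = 0 := by
  simp only [rot, inner_sub_left, real_inner_smul_left]
  rw [real_inner_comm θ ν, real_inner_comm θ τ]; ring

theorem norm_un {u : E} (h : u ≠ 0) : ‖un u‖ = 1 := by
  simp [un, norm_smul, norm_ne_zero_iff.2 h]

theorem inner_grad (f : E → ℝ) (x v : E) : ⟪gradient f x, v⟫ = fderiv ℝ f x v :=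
  inner_gradient_left

theorem norm_grad (f : E → ℝ) (x : E) : ‖gradient f x‖ = ‖fderiv ℝ f x‖ := by simp [gradient]

theorem contDiff_grad {f : E → ℝ} (hf : ContDiff ℝ ∞ f) : ContDiff ℝ ∞ (gradient f) := by
  have h1 : ContDiff ℝ ∞ (fderiv ℝ f) := hf.fderiv_right (by simp)
  exact (InnerProductSpace.toDual ℝ E).symm.toContinuousLinearEquiv.contDiff.comp h1

namespace Sf

variable {S : Sf} {a θ : E}

theorem Ok.sg (hS : S.Ok) : ContDiff ℝ ∞ S.g := contDiff_grad hS.sm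

theorem Ok.sD2 (hS : S.Ok) : ContDiff ℝ ∞ S.D2 := hS.sg.fderiv_right (by simp)

theorem Ok.hw (hS : S.Ok) (x : E) : HasFDerivAt S.w (innerSL ℝ (S.g x)) x := by
  have h := (hS.sm.differentiable (by simp) x).hasFDerivAt
  have e : innerSL ℝ (S.g x) = fderiv ℝ S.w x := by
    ext1 v
    exact inner_grad _ _ _
  rw [e]; exact h

theorem Ok.hg (hS : S.Ok) (x : E) : HasFDerivAt S.g (S.D2 x) x :=
  (hS.sg.differentiable (by simp) x).hasFDerivAt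

theorem Ok.D2_sym (hS : S.Ok) (x u v : E) : ⟪S.D2 x u, v⟫ = ⟪u, S.D2 x v⟫ := by
  have h2 : ContDiffAt ℝ 2 S.w x := hS.sm.contDiffAt.of_le (cast_le_inf 2)
  have hs := h2.isSymmSndFDerivAt (by simp)
  have key : ∀ u v, ⟪S.D2 x u, v⟫ = fderiv ℝ (fderiv ℝ S.w) x u v := by
    intro u v
    have h1 : HasFDerivAt (fun y => ⟪S.g y, v⟫) ((innerSL ℝ v) ∘L S.D2 x) x := by
      have := (innerSL ℝ v).hasFDerivAt.comp x (hS.hg x)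
      refine this.congr_of_eventuallyEq (Eventually.of_forall fun y => ?_)
      simp [real_inner_comm]
    have hd : DifferentiableAt ℝ (fderiv ℝ S.w) x :=
      ((hS.sm.fderiv_right (m := ∞) (by simp)).differentiable (by simp)) x
    have h3 : HasFDerivAt (fun y => fderiv ℝ S.w y v)
        ((ContinuousLinearMap.apply ℝ ℝ v) ∘L fderiv ℝ (fderiv ℝ S.w) x) x :=
      (ContinuousLinearMap.apply ℝ ℝ v).hasFDerivAt.comp x hd.hasFDerivAt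
    have h4 : (fun y => ⟪S.g y, v⟫) = fun y => fderiv ℝ S.w y v := funext fun y => inner_grad _ _ _
    rw [h4] at h1
    have := congrArg (fun L : E →L[ℝ] ℝ => L u) (h1.unique h3)
    simpa [real_inner_comm] using this
  rw [key, real_inner_comm, key]
  exact hs.eq u v

/-! ### the normal and the projection -/

theorem norm_n (h : S.g a ≠ 0) : ‖S.n a‖ = 1 := norm_un h

theorem nn (h : S.g a ≠ 0) : ⟪S.n a, S.n a⟫ = 1 := by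
  rw [real_inner_self_eq_norm_sq, norm_n h]; norm_num

theorem g_eq (S : Sf) (a : E) : S.g a = ‖S.g a‖ • S.n a := by
  by_cases h : S.g a = 0
  · simp [h]
  · simp [n, smul_smul, norm_ne_zero_iff.2 h]

theorem n_inner (S : Sf) (a v : E) : ⟪S.n a, v⟫ = ‖S.g a‖⁻¹ * ⟪S.g a, v⟫ := by
  simp [n, real_inner_smul_left]

theorem norm_n_le (S : Sf) (a : E) : ‖S.n a‖ ≤ 1 := by
  by_cases h : S.g a = 0
  · simp [n, h]
  · exact (norm_n h).le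

theorem P_apply (S : Sf) (a v : E) : S.P a v = v - ⟪S.n a, v⟫ • S.n a := by simp [P]

theorem P_sym (S : Sf) (a u v : E) : ⟪S.P a u, v⟫ = ⟪u, S.P a v⟫ := by
  simp only [P_apply, inner_sub_left, inner_sub_right, real_inner_smul_left, real_inner_smul_right]
  rw [real_inner_comm (S.n a) u]; ring

theorem n_P (h : S.g a ≠ 0) (v : E) : ⟪S.n a, S.P a v⟫ = 0 := by
  simp [P_apply, inner_sub_right, real_inner_smul_right, norm_n h]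

theorem g_P (h : S.g a ≠ 0) (v : E) : ⟪S.g a, S.P a v⟫ = 0 := by
  rw [g_eq S a, real_inner_smul_left, n_P h, mul_zero]

theorem P_tan {v : E} (hv : ⟪S.g a, v⟫ = 0) : S.P a v = v := by
  simp [P_apply, n_inner, hv]

theorem P_P (h : S.g a ≠ 0) (v : E) : S.P a (S.P a v) = S.P a v := P_tan (g_P h v)

theorem P_n (h : S.g a ≠ 0) : S.P a (S.n a) = 0 := by simp [P_apply, norm_n h]

theorem inner_P (S : Sf) (a v : E) : ⟪S.P a v, v⟫ = ‖v‖ ^ 2 - ⟪S.n a, v⟫ ^ 2 := by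
  simp only [P_apply, inner_sub_left, real_inner_smul_left, real_inner_self_eq_norm_sq]; ring

theorem norm_P_sq (h : S.g a ≠ 0) (v : E) : ‖S.P a v‖ ^ 2 = ⟪S.P a v, v⟫ := by
  rw [← real_inner_self_eq_norm_sq, P_sym, P_P h, real_inner_comm]

theorem inner_P_nonneg (h : S.g a ≠ 0) (v : E) : 0 ≤ ⟪S.P a v, v⟫ := by
  rw [← norm_P_sq h]; positivity

theorem norm_P_le (h : S.g a ≠ 0) (v : E) : ‖S.P a v‖ ^ 2 ≤ ‖v‖ ^ 2 := by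
  rw [norm_P_sq h, inner_P]; nlinarith [sq_nonneg ⟪S.n a, v⟫]

/-- Cauchy-Schwarz for the form `P` -/
theorem inner_P_sq_le (h : S.g a ≠ 0) (u v : E) :
    ⟪S.P a u, v⟫ ^ 2 ≤ ‖u‖ ^ 2 * ⟪S.P a v, v⟫ := by
  rw [P_sym, ← norm_P_sq h]; exact inner_sq_le _ _

theorem trc_P_comp (S : Sf) (a : E) (L : E →L[ℝ] E) :
    trc (S.P a ∘L L) = trc L - ⟪L (S.n a), S.n a⟫ := by
  rw [P, ContinuousLinearMap.sub_comp, trc_sub, trc_ro_comp, ContinuousLinearMap.id_comp,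
    real_inner_comm]

theorem trc_P (h : S.g a ≠ 0) : trc (S.P a) = 2 := by
  rw [P, trc_sub, trc_id, trc_ro, nn h]; norm_num

/-! ### the second fundamental form -/

theorem A_apply (S : Sf) (a v : E) : S.A a v = (-‖S.g a‖⁻¹) • S.P a (S.D2 a (S.P a v)) := rfl

theorem Ok.A_sym (hS : S.Ok) (a u v : E) : ⟪S.A a u, v⟫ = ⟪u, S.A a v⟫ := by
  simp only [A_apply, real_inner_smul_left, real_inner_smul_right]
  rw [P_sym, hS.D2_sym, P_sym]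

theorem A_P (h : S.g a ≠ 0) (v : E) : S.A a (S.P a v) = S.A a v := by simp only [A_apply, P_P h]

theorem P_A (h : S.g a ≠ 0) (v : E) : S.P a (S.A a v) = S.A a v := by
  simp only [A_apply, map_smul, P_P h]

theorem g_A (h : S.g a ≠ 0) (v : E) : ⟪S.g a, S.A a v⟫ = 0 := by rw [← P_A h, g_P h]

theorem n_A (h : S.g a ≠ 0) (v : E) : ⟪S.n a, S.A a v⟫ = 0 := by rw [← P_A h, n_P h]

theorem A_n (h : S.g a ≠ 0) : S.A a (S.n a) = 0 := by simp [A_apply, P_n h]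

theorem A2_nonneg (S : Sf) (a : E) : 0 ≤ S.A2 a := hs_nonneg _

theorem norm_A_sq_le (S : Sf) (a v : E) : ‖S.A a v‖ ^ 2 ≤ S.A2 a * ‖v‖ ^ 2 := norm_apply_sq_le _ _

theorem H_sq_le (S : Sf) (a : E) : S.H a ^ 2 ≤ 3 * S.A2 a := trc_sq_le _

theorem H_sq_le_φ (S : Sf) (a : E) : S.H a ^ 2 ≤ 2 * S.φ a ^ 2 + ‖a‖ ^ 2 / 2 := by
  have h1 : ⟪a, S.n a⟫ ^ 2 ≤ ‖a‖ ^ 2 := (inner_sq_le _ _).trans (by
    have := norm_n_le S a
    have h2 : ‖S.n a‖ ^ 2 ≤ 1 := by nlinarith [norm_nonneg (S.n a)]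
    nlinarith [sq_nonneg ‖a‖])
  have : S.H a = S.φ a - ⟪a, S.n a⟫ / 2 := by simp [φ]
  rw [this]; nlinarith [sq_nonneg (S.φ a + ⟪a, S.n a⟫ / 2)]

/-- for tangent vectors -/
theorem inner_A_tan {u v : E} (hu : ⟪S.g a, u⟫ = 0) (hv : ⟪S.g a, v⟫ = 0) :
    ⟪S.A a u, v⟫ = -‖S.g a‖⁻¹ * ⟪S.D2 a u, v⟫ := by
  rw [A_apply, real_inner_smul_left, P_sym, P_tan hu, P_tan hv]

/-! ### the oblique projection -/

theorem g_ne (h : S.s a θ ≠ 0) : S.g a ≠ 0 := fun h0 => h (by simp [s, h0])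

theorem cc_eq (S : Sf) (a θ : E) : S.cc a θ = ‖S.g a‖⁻¹ * S.s a θ := n_inner S a θ

theorem cc_ne (h : S.s a θ ≠ 0) : S.cc a θ ≠ 0 := by
  rw [cc_eq]; exact mul_ne_zero (inv_ne_zero (norm_ne_zero_iff.2 (g_ne h))) h

theorem s_ne (h : S.cc a θ ≠ 0) : S.s a θ ≠ 0 := fun h0 => h (by rw [cc_eq, h0, mul_zero])

theorem s_ne_of_sq {c : ℝ} (hc : 0 < c) (h : c ≤ S.cc a θ ^ 2) : S.s a θ ≠ 0 :=
  s_ne fun h0 => by rw [h0] at h; norm_num at h; linarith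

theorem s_eq (h : S.g a ≠ 0) : S.s a θ = ‖S.g a‖ * S.cc a θ := by
  rw [cc_eq, ← mul_assoc, mul_inv_cancel₀ (norm_ne_zero_iff.2 h), one_mul]

theorem cc_sq_le (S : Sf) (a : E) (hθ : ‖θ‖ = 1) : S.cc a θ ^ 2 ≤ 1 := by
  have := inner_sq_le (S.n a) θ
  have h1 := norm_n_le S a
  rw [hθ] at this
  unfold cc; nlinarith [norm_nonneg (S.n a)]

theorem abs_cc_le (S : Sf) (a : E) (hθ : ‖θ‖ = 1) : |S.cc a θ| ≤ 1 :=
  (sq_le_one_iff_abs_le_one _).1 (cc_sq_le S a hθ)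

theorem p_inner (S : Sf) (a θ v : E) : ⟪S.p a θ, v⟫ = (S.s a θ)⁻¹ * ⟪S.g a, v⟫ := by
  simp [p, real_inner_smul_left]

theorem p_θ (h : S.s a θ ≠ 0) : ⟪S.p a θ, θ⟫ = 1 := by
  rw [p_inner]; exact inv_mul_cancel₀ h

theorem p_eq (h : S.s a θ ≠ 0) : S.p a θ = (S.cc a θ)⁻¹ • S.n a := by
  have := norm_ne_zero_iff.2 (g_ne h)
  rw [p, n, smul_smul, cc_eq]; congr 1; field_simp

theorem n_eq (h : S.s a θ ≠ 0) : S.n a = S.cc a θ • S.p a θ := by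
  rw [p_eq h, smul_smul, mul_inv_cancel₀ (cc_ne h), one_smul]

theorem cc_p (h : S.s a θ ≠ 0) : S.cc a θ ^ 2 * ‖S.p a θ‖ ^ 2 = 1 := by
  have := norm_n (g_ne h)
  rw [n_eq h, norm_smul] at this
  rw [← sq_abs, ← mul_pow, ← Real.norm_eq_abs, this]; norm_num

theorem norm_p_sq (h : S.s a θ ≠ 0) : ‖S.p a θ‖ ^ 2 = (S.cc a θ ^ 2)⁻¹ := by
  have := cc_ne h
  field_simp; linarith [cc_p h]

theorem p_sub (h : S.s a θ ≠ 0) (hθ : ‖θ‖ = 1) : ‖S.p a θ - θ‖ ^ 2 = ‖S.p a θ‖ ^ 2 - 1 := by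
  rw [norm_sub_sq_real, p_θ h, hθ]; ring

theorem cc_p_sub (h : S.s a θ ≠ 0) (hθ : ‖θ‖ = 1) :
    S.cc a θ ^ 2 * ‖S.p a θ - θ‖ ^ 2 = 1 - S.cc a θ ^ 2 := by
  rw [p_sub h hθ, mul_sub, cc_p h, mul_one]

theorem p_tan {v : E} (hv : ⟪S.g a, v⟫ = 0) : ⟪S.p a θ, v⟫ = 0 := by rw [p_inner, hv, mul_zero]

theorem Pi_apply (S : Sf) (a θ e : E) : S.Pi a θ e = e - ⟪S.p a θ, e⟫ • θ := by simp [Pi]

theorem Pt_apply (S : Sf) (a θ v : E) : S.Pt a θ v = v - ⟪θ, v⟫ • S.p a θ := by simp [Pt]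

theorem Pt_inner (S : Sf) (a θ u v : E) : ⟪S.Pt a θ u, v⟫ = ⟪u, S.Pi a θ v⟫ := by
  simp only [Pi_apply, Pt_apply, inner_sub_left, inner_sub_right, real_inner_smul_left,
    real_inner_smul_right]
  rw [real_inner_comm θ u]; ring

theorem g_Pi (h : S.s a θ ≠ 0) (e : E) : ⟪S.g a, S.Pi a θ e⟫ = 0 := by
  rw [Pi_apply, inner_sub_right, real_inner_smul_right, p_inner]
  change _ - _ * S.s a θ = 0
  field_simp; ring

theorem Pi_tan {e : E} (he : ⟪S.g a, e⟫ = 0) : S.Pi a θ e = e := by simp [Pi_apply, p_tan he]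

theorem Pi_θ (h : S.s a θ ≠ 0) : S.Pi a θ θ = 0 := by simp [Pi_apply, p_θ h]

theorem Pi_P (h : S.g a ≠ 0) (v : E) : S.Pi a θ (S.P a v) = S.P a v := Pi_tan (g_P h v)

theorem P_Pi (h : S.s a θ ≠ 0) (v : E) : S.P a (S.Pi a θ v) = S.Pi a θ v := P_tan (g_Pi h v)

theorem P_Pt (h : S.g a ≠ 0) (v : E) : S.P a (S.Pt a θ v) = S.P a v := by
  refine ext_inner_right ℝ fun u => ?_
  rw [P_sym, Pt_inner, Pi_P h, P_sym]

theorem norm_Pi_sq (h : S.s a θ ≠ 0) (hθ : ‖θ‖ = 1) (e : E) :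
    ‖S.Pi a θ e‖ ^ 2 ≤ (S.cc a θ ^ 2)⁻¹ * ‖e‖ ^ 2 := by
  rw [← norm_p_sq h, Pi_apply, norm_sub_sq_real, norm_smul, real_inner_smul_right, hθ,
    Real.norm_eq_abs, mul_one, sq_abs]
  have h1 := inner_sq_le (S.p a θ - θ) e
  rw [p_sub h hθ, inner_sub_left, real_inner_comm e θ] at h1
  nlinarith [sq_nonneg ⟪e, θ⟫]

theorem norm_Pt_sq (h : S.s a θ ≠ 0) (hθ : ‖θ‖ = 1) (v : E) :
    ‖S.Pt a θ v‖ ^ 2 ≤ (S.cc a θ ^ 2)⁻¹ * ‖v‖ ^ 2 := by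
  have h1 : ‖S.Pt a θ v‖ ^ 2 = ⟪v, S.Pi a θ (S.Pt a θ v)⟫ := by
    rw [← Pt_inner, real_inner_self_eq_norm_sq]
  have h2 := inner_sq_le v (S.Pi a θ (S.Pt a θ v))
  have h3 := norm_Pi_sq h hθ (S.Pt a θ v)
  rw [← h1] at h2
  by_cases h0 : ‖S.Pt a θ v‖ ^ 2 = 0
  · rw [h0]; positivity
  · have hp : 0 < ‖S.Pt a θ v‖ ^ 2 := lt_of_le_of_ne (sq_nonneg _) (Ne.symm h0)
    refine le_of_mul_le_mul_right ?_ hp
    nlinarith [mul_le_mul_of_nonneg_left h3 (sq_nonneg ‖v‖)]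

/-- a vector orthogonal to the direction is almost tangent -/
theorem n_perp (h : S.g a ≠ 0) (hθ : ‖θ‖ = 1) {v : E} (hv : ⟪v, θ⟫ = 0) :
    ⟪S.n a, v⟫ ^ 2 ≤ (1 - S.cc a θ ^ 2) * ‖v‖ ^ 2 := by
  have h1 := inner_sq_le (S.n a - S.cc a θ • θ) v
  rw [inner_sub_left, real_inner_smul_left, real_inner_comm v θ, hv, mul_zero, sub_zero,
    norm_sub_sq_real, norm_n h, real_inner_smul_right, norm_smul, hθ, Real.norm_eq_abs, mul_one,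
    sq_abs] at h1
  refine h1.trans (le_of_eq ?_)
  change (1 ^ 2 - 2 * (S.cc a θ * S.cc a θ) + _) * _ = _
  ring

theorem norm_sq_le_P (h : S.g a ≠ 0) (hθ : ‖θ‖ = 1) (hc : 1 / 2 ≤ S.cc a θ ^ 2) {v : E}
    (hv : ⟪v, θ⟫ = 0) : ‖v‖ ^ 2 ≤ 2 * ⟪S.P a v, v⟫ := by
  have := n_perp h hθ hv
  rw [inner_P]; nlinarith [sq_nonneg ‖v‖]

theorem norm_P_θ (h : S.g a ≠ 0) (hθ : ‖θ‖ = 1) : ‖S.P a θ‖ ^ 2 = 1 - S.cc a θ ^ 2 := by
  rw [norm_P_sq h, inner_P, hθ]; simp [cc]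

theorem norm_rot_le (h : S.g a ≠ 0) (hθ : ‖θ‖ = 1) {τ : E} (hτ : ⟪S.g a, τ⟫ = 0) :
    ‖rot τ (S.n a) θ‖ ^ 2 ≤ ‖τ‖ ^ 2 := by
  have h0 : ⟪S.n a, τ⟫ = 0 := by rw [n_inner, hτ, mul_zero]
  have h1 : ⟪θ, τ⟫ ^ 2 ≤ (1 - S.cc a θ ^ 2) * ‖τ‖ ^ 2 := by
    rw [← P_tan hτ, ← P_sym, ← norm_P_θ h hθ, P_tan hτ]; exact inner_sq_le _ _
  rw [rot, norm_sub_sq_real, real_inner_smul_left, real_inner_smul_right, h0, norm_smul, norm_smul,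
    norm_n h, Real.norm_eq_abs, Real.norm_eq_abs, mul_one, mul_pow, sq_abs, sq_abs,
    real_inner_comm (S.n a) θ]
  change _ - _ + S.cc a θ ^ 2 * _ ≤ _
  nlinarith

theorem n_rot (h : S.g a ≠ 0) {τ : E} (hτ : ⟪S.g a, τ⟫ = 0) :
    ⟪S.n a, rot τ (S.n a) θ⟫ = ⟪θ, τ⟫ := by
  have h0 : ⟪S.n a, τ⟫ = 0 := by rw [n_inner, hτ, mul_zero]
  simp [rot, inner_sub_right, real_inner_smul_right, norm_n h, h0]

theorem p_rot (h : S.s a θ ≠ 0) {τ : E} (hτ : ⟪S.g a, τ⟫ = 0) :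
    ⟪S.p a θ, rot τ (S.n a) θ⟫ = ⟪θ, τ⟫ / S.cc a θ := by
  rw [p_eq h, real_inner_smul_left, n_rot (g_ne h) hτ]; ring

/-! ### the Hessian of the height function -/

theorem X_apply (S : Sf) (a θ v : E) :
    S.X a θ v = (-(S.s a θ)⁻¹) • S.Pt a θ (S.D2 a (S.Pi a θ v)) := rfl

theorem X_inner (h : S.s a θ ≠ 0) (u v : E) :
    ⟪S.X a θ u, v⟫ = ⟪S.A a (S.Pi a θ u), S.Pi a θ v⟫ / S.cc a θ := by
  have h1 := norm_ne_zero_iff.2 (g_ne h)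
  have h2 := cc_ne h
  rw [X_apply, real_inner_smul_left, Pt_inner, inner_A_tan (g_Pi h u) (g_Pi h v), s_eq (g_ne h)]
  field_simp

theorem X_eq (h : S.s a θ ≠ 0) :
    S.X a θ = (S.cc a θ)⁻¹ • (S.Pt a θ ∘L S.A a ∘L S.Pi a θ) := by
  ext1 u
  refine ext_inner_right ℝ fun v => ?_
  rw [X_inner h]
  simp only [smul_apply, ContinuousLinearMap.comp_apply, real_inner_smul_left,
    Pt_inner]
  ring

theorem Ok.X_sym (hS : S.Ok) (a θ u v : E) : ⟪S.X a θ u, v⟫ = ⟪u, S.X a θ v⟫ := by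
  simp only [X_apply, real_inner_smul_left, real_inner_smul_right]
  rw [Pt_inner, hS.D2_sym, real_inner_comm (S.Pt a θ _) u, Pt_inner, real_inner_comm]

theorem X_θ (h : S.s a θ ≠ 0) : S.X a θ θ = 0 := by simp [X_apply, Pi_θ h]

theorem X_inner_θ (h : S.s a θ ≠ 0) (v : E) : ⟪S.X a θ v, θ⟫ = 0 := by
  rw [X_inner h, Pi_θ h]; simp

theorem Ok.hs_X (hS : S.Ok) (h : S.s a θ ≠ 0) (hθ : ‖θ‖ = 1) :
    (S.cc a θ ^ 2) ^ 3 * hs (S.X a θ) ≤ S.A2 a := by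
  have hc := cc_ne h
  have h1 := hs_comp_le (norm_Pt_sq h hθ) (S.A a ∘L S.Pi a θ)
  have h2 : hs (S.A a ∘L S.Pi a θ) = hs (S.Pt a θ ∘L S.A a) := hs_adj fun u v => by
    simp only [ContinuousLinearMap.comp_apply]
    rw [hS.A_sym, real_inner_comm, ← Pt_inner, real_inner_comm]
  have h3 := hs_comp_le (norm_Pt_sq h hθ) (S.A a)
  rw [h2] at h1
  have h4 := h1.trans (mul_le_mul_of_nonneg_left h3 (by positivity))
  rw [X_eq h, hs_smul]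
  calc _ ≤ (S.cc a θ ^ 2) ^ 3 * ((S.cc a θ)⁻¹ ^ 2 *
        ((S.cc a θ ^ 2)⁻¹ * ((S.cc a θ ^ 2)⁻¹ * hs (S.A a)))) := by gcongr
    _ = S.A2 a := by unfold A2; field_simp

theorem trc_P_X (h : S.s a θ ≠ 0) : trc (S.P a ∘L S.X a θ) = S.H a / S.cc a θ := by
  have hg := g_ne h
  have h1 : S.P a ∘L S.X a θ = (S.cc a θ)⁻¹ • (S.A a ∘L S.Pi a θ) := by
    ext1 v
    rw [X_eq h]
    simp [P_Pt hg, P_A hg]
  have h2 : S.Pi a θ ∘L S.A a = S.A a := by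
    ext1 v
    exact Pi_tan (g_A hg v)
  rw [h1, trc_smul, trc_comm, h2, H]; ring

theorem trc_A_Pi (h : S.s a θ ≠ 0) : trc (S.A a ∘L S.Pi a θ) = S.H a := by
  have h2 : S.Pi a θ ∘L S.A a = S.A a := by
    ext1 v
    exact Pi_tan (g_A (g_ne h) v)
  rw [trc_comm, h2, H]

theorem vs_eq (h : S.s a θ ≠ 0) : S.vs a θ = trc (S.P a ∘L S.X a θ) + ⟪a, S.p a θ⟫ / 2 := by
  have := cc_ne h
  rw [vs, φ, trc_P_X h, p_eq h, real_inner_smul_right]; field_simp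

theorem trc_P_comp' (h : S.s a θ ≠ 0) (L : E →L[ℝ] E) :
    trc (S.P a ∘L L) = trc L - S.cc a θ ^ 2 * ⟪L (S.p a θ), S.p a θ⟫ := by
  rw [trc_P_comp, n_eq h, map_smul, real_inner_smul_left, real_inner_smul_right]; ring

theorem vs_sq (h : S.s a θ ≠ 0) : S.cc a θ ^ 2 * S.vs a θ ^ 2 = S.φ a ^ 2 := by
  have := cc_ne h
  rw [vs]; field_simp

/-! ### pairs -/

variable {z : Q}

theorem O.g1 (hz : z ∈ S.O) : S.g z.1 ≠ 0 := g_ne hz.1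
theorem O.g2 (hz : z ∈ S.O) : S.g (yy z) ≠ 0 := g_ne hz.2.1
theorem O.cs1_pos (hz : z ∈ S.O) : 0 < S.cs1 z := sq_pos_of_ne_zero (cc_ne hz.1)
theorem O.cs2_pos (hz : z ∈ S.O) : 0 < S.cs2 z := sq_pos_of_ne_zero (cc_ne hz.2.1)
theorem O.kk_pos (hz : z ∈ S.O) : 0 < S.kk z := abs_pos.2 (cc_ne hz.1)
theorem kk_sq (S : Sf) (z : Q) : S.kk z ^ 2 = S.cs1 z := sq_abs _
theorem kk_nonneg (S : Sf) (z : Q) : 0 ≤ S.kk z := abs_nonneg _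
theorem cs1_nonneg (S : Sf) (z : Q) : 0 ≤ S.cs1 z := sq_nonneg _
theorem cs2_nonneg (S : Sf) (z : Q) : 0 ≤ S.cs2 z := sq_nonneg _
theorem sq_nonneg' (S : Sf) (z : Q) : 0 ≤ S.sq z := sq_nonneg _
theorem cs1_le (S : Sf) (hθ : ‖z.2.1‖ = 1) : S.cs1 z ≤ 1 := cc_sq_le S _ hθ
theorem cs2_le (S : Sf) (hθ : ‖z.2.1‖ = 1) : S.cs2 z ≤ 1 := cc_sq_le S _ hθ
theorem kk_le (S : Sf) (hθ : ‖z.2.1‖ = 1) : S.kk z ≤ 1 := abs_cc_le S _ hθ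

theorem cs1_le_kk (S : Sf) (hθ : ‖z.2.1‖ = 1) : S.cs1 z ≤ S.kk z := by
  rw [← kk_sq]; nlinarith [kk_le S hθ, kk_nonneg S z]

theorem O.cs1_p1 (hz : z ∈ S.O) : S.cs1 z * ‖S.p1 z‖ ^ 2 = 1 := cc_p hz.1
theorem O.cs2_p2 (hz : z ∈ S.O) : S.cs2 z * ‖S.p2 z‖ ^ 2 = 1 := cc_p hz.2.1

theorem O.Pv_θ (hz : z ∈ S.O) : ⟪S.Pv z, z.2.1⟫ = 0 := by
  rw [Pv, inner_sub_left, p1, p2, p_θ hz.1, p_θ hz.2.1, sub_self]

theorem Ok.Z_sym (hS : S.Ok) (z : Q) (u v : E) : ⟪S.Z z u, v⟫ = ⟪u, S.Z z v⟫ := by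
  simp only [Z, sub_apply, inner_sub_left, inner_sub_right, X1, X2, hS.X_sym]

theorem O.Z_θ (hz : z ∈ S.O) : S.Z z z.2.1 = 0 := by
  simp [Z, X1, X2, X_θ hz.1, X_θ hz.2.1]

theorem O.lv_θ (hz : z ∈ S.O) : ⟪S.lv z, z.2.1⟫ = 0 := by
  rw [lv, real_inner_smul_left, X1, X_inner_θ hz.1, mul_zero]

theorem O.Uv_θ (hz : z ∈ S.O) (π : Par) : ⟪S.Uv π z, z.2.1⟫ = 0 := by
  rw [Uv, real_inner_smul_left, O.Pv_θ hz, mul_zero]

theorem O.gt_θ (hz : z ∈ S.O) (π : Par) : ⟪S.gt π z, z.2.1⟫ = 0 := by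
  rw [gt, inner_add_left, O.Uv_θ hz, real_inner_smul_left, O.lv_θ hz]; simp

theorem Ok.hs_X1 (hS : S.Ok) (hz : z ∈ S.O) (hθ : ‖z.2.1‖ = 1) :
    S.cs1 z ^ 3 * hs (S.X1 z) ≤ S.A2 z.1 := hS.hs_X hz.1 hθ

theorem Ok.hs_X2 (hS : S.Ok) (hz : z ∈ S.O) (hθ : ‖z.2.1‖ = 1) :
    S.cs2 z ^ 3 * hs (S.X2 z) ≤ S.A2 (yy z) := hS.hs_X hz.2.1 hθ

theorem Ok.hs_X1_le (hS : S.Ok) (hz : z ∈ S.O) (hθ : ‖z.2.1‖ = 1) (hc : 1 / 2 ≤ S.cs1 z) :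
    hs (S.X1 z) ≤ 8 * S.A2 z.1 := by
  have h1 := hS.hs_X1 hz hθ
  have h2 : (1 / 2 : ℝ) ^ 3 ≤ S.cs1 z ^ 3 := by gcongr
  nlinarith [hs_nonneg (S.X1 z)]

theorem Ok.hs_X2_le (hS : S.Ok) (hz : z ∈ S.O) (hθ : ‖z.2.1‖ = 1) (hc : 1 / 4 ≤ S.cs2 z) :
    hs (S.X2 z) ≤ 64 * S.A2 (yy z) := by
  have h1 := hS.hs_X2 hz hθ
  have h2 : (1 / 4 : ℝ) ^ 3 ≤ S.cs2 z ^ 3 := by gcongr
  nlinarith [hs_nonneg (S.X2 z)]

theorem hs_Z_le (S : Sf) (z : Q) : hs (S.Z z) ≤ 2 * hs (S.X2 z) + 2 * hs (S.X1 z) := hs_sub_le _ _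

theorem Ok.lv_tan (hS : S.Ok) (hz : S.s z.1 z.2.1 ≠ 0) {τ : E} (hτ : ⟪S.g z.1, τ⟫ = 0) :
    ⟪S.lv z, τ⟫ = -⟪S.A z.1 z.2.1, τ⟫ / S.cc z.1 z.2.1 := by
  have hc := cc_ne hz
  have hg := g_ne hz
  rw [lv, real_inner_smul_left, X1, p1, X_inner hz, Pi_tan hτ, Pi_apply, map_sub, map_smul,
    real_inner_self_eq_norm_sq, norm_p_sq hz, p_eq hz, map_smul, A_n hg, smul_zero, zero_sub,
    inner_neg_left, real_inner_smul_left, cs1]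
  field_simp

theorem O.norm_lv (hz : z ∈ S.O) (hθ : ‖z.2.1‖ = 1) :
    ‖S.lv z‖ ^ 2 ≤ S.cs1 z * (1 - S.cs1 z) * hs (S.X1 z) := by
  have h1 : S.X1 z (S.p1 z) = S.X1 z (S.p1 z - z.2.1) := by rw [map_sub, X1, X_θ hz.1, sub_zero]
  have h2 := norm_apply_sq_le (S.X1 z) (S.p1 z - z.2.1)
  have h3 : S.cs1 z * ‖S.p1 z - z.2.1‖ ^ 2 = 1 - S.cs1 z := cc_p_sub hz.1 hθ
  rw [lv, norm_smul, mul_pow, Real.norm_eq_abs, sq_abs, h1, ← h3]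
  nlinarith [mul_le_mul_of_nonneg_left h2 (sq_nonneg (S.cs1 z))]

theorem Ok.norm_lv_le (hS : S.Ok) (hz : z ∈ S.O) (hθ : ‖z.2.1‖ = 1) (hc : 1 / 2 ≤ S.cs1 z) :
    ‖S.lv z‖ ^ 2 ≤ 8 * (1 - S.cs1 z) * S.A2 z.1 := by
  have h1 := O.norm_lv hz hθ
  have h2 := hS.hs_X1_le hz hθ hc
  have h3 := cs1_le S hθ
  have h4 := hs_nonneg (S.X1 z)
  have h5 : 0 ≤ 1 - S.cs1 z := by linarith
  nlinarith [mul_nonneg h5 h4, mul_le_mul_of_nonneg_left h2 h5]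

theorem Pv_eq (S : Sf) (z : Q) : S.Pv z = (S.p1 z - z.2.1) - (S.p2 z - z.2.1) := by simp [Pv]

theorem O.a_sq (hz : z ∈ S.O) (hθ : ‖z.2.1‖ = 1) :
    S.cs1 z * ‖S.p1 z - z.2.1‖ ^ 2 = 1 - S.cs1 z := cc_p_sub hz.1 hθ

theorem O.b_sq (hz : z ∈ S.O) (hθ : ‖z.2.1‖ = 1) :
    S.cs2 z * ‖S.p2 z - z.2.1‖ ^ 2 = 1 - S.cs2 z := cc_p_sub hz.2.1 hθ

/-- the relative tilt is bounded by the cosines -/
theorem O.sq_le (hz : z ∈ S.O) (hθ : ‖z.2.1‖ = 1) (hc : 1 / 2 ≤ S.cs1 z) :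
    S.cs2 z * S.sq z ≤ 4 := by
  have h1 := norm_sub_sq_le (S.p1 z - z.2.1) (S.p2 z - z.2.1)
  have h2 := O.a_sq hz hθ
  have h3 := O.b_sq hz hθ
  have h4 := cs2_le S hθ
  have h5 := O.cs2_pos hz
  have h6 : ‖S.p1 z - z.2.1‖ ^ 2 ≤ 1 := by nlinarith [sq_nonneg ‖S.p1 z - z.2.1‖]
  rw [sq, Pv_eq]; nlinarith [mul_le_mul_of_nonneg_left h1 h5.le]

theorem O.sq_le_four (hz : z ∈ S.O) (hθ : ‖z.2.1‖ = 1) (hc : 9 / 10 ≤ S.cs1 z)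
    (hc2 : 1 / 4 ≤ S.cs2 z) : S.sq z ≤ 5 := by
  have h2 := O.a_sq hz hθ
  have h3 := O.b_sq hz hθ
  have h6 : ‖S.p1 z - z.2.1‖ ^ 2 ≤ (1 / 3) ^ 2 := by nlinarith [sq_nonneg ‖S.p1 z - z.2.1‖]
  have h7 : ‖S.p2 z - z.2.1‖ ^ 2 ≤ (7 / 4) ^ 2 := by nlinarith [sq_nonneg ‖S.p2 z - z.2.1‖]
  have h8 := (abs_le_of_sq_le_sq' h6 (by norm_num)).2
  have h9 := (abs_le_of_sq_le_sq' h7 (by norm_num)).2
  have h1 := norm_sub_le (S.p1 z - z.2.1) (S.p2 z - z.2.1)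
  rw [sq, Pv_eq]; nlinarith [norm_nonneg (S.p1 z - z.2.1 - (S.p2 z - z.2.1))]

/-- small relative tilt makes the second point aligned -/
theorem O.one_sub_cs2 (hz : z ∈ S.O) (hθ : ‖z.2.1‖ = 1) (hc : 9 / 10 ≤ S.cs1 z) :
    1 - S.cs2 z ≤ 3 * (1 - S.cs1 z) + 2 * S.sq z := by
  have h2 := O.a_sq hz hθ
  have h3 := O.b_sq hz hθ
  have h4 := cs2_le S hθ
  have h1 := norm_sub_sq_le (S.p1 z - z.2.1) (S.Pv z)
  have h0 : S.p1 z - z.2.1 - S.Pv z = S.p2 z - z.2.1 := by rw [Pv]; abel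
  rw [h0] at h1
  rw [sq]
  nlinarith [sq_nonneg ‖S.p1 z - z.2.1‖, sq_nonneg ‖S.p2 z - z.2.1‖]

/-- a badly aligned second point has a large relative tilt -/
theorem O.sq_ge (hz : z ∈ S.O) (hθ : ‖z.2.1‖ = 1) (hc : 9 / 10 ≤ S.cs1 z) (hc2 : S.cs2 z ≤ 1 / 2) :
    1 / 4 ≤ S.sq z := by
  have h2 := O.a_sq hz hθ
  have h3 := O.b_sq hz hθ
  have h5 := O.cs2_pos hz
  have h1 := norm_sub_sq_le (S.p1 z - z.2.1) (S.Pv z)
  have h0 : S.p1 z - z.2.1 - S.Pv z = S.p2 z - z.2.1 := by rw [Pv]; abel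
  rw [h0] at h1
  have h6 : ‖S.p1 z - z.2.1‖ ^ 2 ≤ 1 / 9 := by nlinarith [sq_nonneg ‖S.p1 z - z.2.1‖]
  have h7 : 1 ≤ ‖S.p2 z - z.2.1‖ ^ 2 := by nlinarith [sq_nonneg ‖S.p2 z - z.2.1‖]
  rw [sq]; linarith

theorem norm_Uv (S : Sf) (π : Par) (z : Q) : ‖S.Uv π z‖ ^ 2 = S.cs1 z * S.sq z / π.ε ^ 2 := by
  rw [Uv, norm_smul, mul_pow, Real.norm_eq_abs, sq_abs, div_pow, kk_sq, sq]; ring

theorem O.gt_sq_le (hz : z ∈ S.O) (hθ : ‖z.2.1‖ = 1) (hc : 1 / 2 ≤ S.cs1 z) (π : Par) :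
    ‖S.gt π z‖ ^ 2 ≤ 2 * ⟪S.P z.1 (S.gt π z), S.gt π z⟫ :=
  norm_sq_le_P (O.g1 hz) hθ hc (O.gt_θ hz π)

end Sf

end Vale.Agent.P218M1
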