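import Vale.Agent.P218M1.Spec

/-!
# P218M1, rows BAR and SEPT (helper21)
-/

open MeasureTheory Metric Filter Topology Set
open scoped ContDiff RealInnerProductSpace ENNReal

noncomputable section

namespace Vale.Agent.P218M1

theorem bar : BAR := by
  intro f f' h a b l hab hd hi h0 hle ha hl
  by_contra! hb
  have c : ContinuousOn f (Icc a b) := fun τ hτ => (hd τ hτ).continuousAt.continuousWithinAt
  obtain ⟨t, ⟨ht, t1⟩, t2⟩ := (isCompact_Icc.of_isClosed_subset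
    (c.preimage_isClosed_of_isClosed isClosed_Icc (isClosed_Ici (a := 2 * l)))
    inter_subset_left).exists_isLeast ⟨b, right_mem_Icc.2 hab, hb⟩
  have sub : Icc a t ⊆ Icc a b := Icc_subset_Icc_right ht.2
  obtain ⟨s, ⟨hs, s1⟩, s2⟩ := (isCompact_Icc.of_isClosed_subset
    ((c.mono sub).preimage_isClosed_of_isClosed isClosed_Icc (isClosed_Iic (a := l)))
    inter_subset_left).exists_isGreatest ⟨a, left_mem_Icc.2 ht.1, ha⟩
  have sub' : Icc s t ⊆ Icc a b := Icc_subset_Icc hs.1 ht.2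
  have k := intervalIntegral.sub_le_integral_of_hasDeriv_right_of_le hs.2 (c.mono sub')
    (fun x hx => (hd x (sub' (Ioo_subset_Icc_self hx))).hasDerivWithinAt) (hi.mono_set sub')
    fun x hx => hle x (sub' (Ioo_subset_Icc_self hx))
      (not_lt.1 fun e => (s2 ⟨⟨hs.1.trans hx.1.le, hx.2.le⟩, e.le⟩).not_gt hx.1)
      (not_lt.1 fun e => (t2 ⟨sub' (Ioo_subset_Icc_self hx), e.le⟩).not_gt hx.2)
  have k' := intervalIntegral.integral_mono_interval (μ := volume) (f := h) hs.1 hs.2 ht.2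
    (ae_restrict_of_forall_mem measurableSet_Ioc fun x hx => h0 x (Ioc_subset_Icc_self hx))
    ((intervalIntegrable_iff_integrableOn_Icc_of_le hab).2 hi)
  linarith [show 2 * l ≤ f t from t1, show f s ≤ l from s1]

namespace Sp

lemma cc_le (S : Sf) (x : E) {θ : E} (h : ‖θ‖ = 1) : |S.cc x θ| ≤ 1 := by
  refine (abs_real_inner_le_norm _ _).trans ?_
  rw [h, mul_one, Sf.n, norm_smul, norm_inv, norm_norm]
  exact inv_mul_le_one

/-- the distance of two hits -/
theorem gap {S : ℝ → Sf} {I : Set ℝ} {a b : ℝ} (F : Fam S I) (hI : Icc a b ⊆ I) (r : ℝ) :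
    ∃ c > (0 : ℝ), ∀ τ ∈ Icc a b, ∀ z : Q, (S τ).Hit z → ‖z.1‖ ≤ r →
      c * |(S τ).cc z.1 z.2.1| ≤ z.2.2 := by
  have op : IsOpen (I ×ˢ (univ : Set E)) := F.op.prod isOpen_univ
  set G : ℝ × E → E →L[ℝ] ℝ := fun p =>
    fderiv ℝ (fun p : ℝ × E => (S p.1).w p.2) p ∘L ContinuousLinearMap.inr ℝ ℝ E
  have hG : ∀ τ ∈ Icc a b, ∀ x, fderiv ℝ (S τ).w x = G (τ, x) := fun τ hτ x =>
    (((F.sm.differentiableOn (by simp)).differentiableAt
      (op.mem_nhds ⟨hI hτ, trivial⟩)).hasFDerivAt.comp x (hasFDerivAt_prodMk_right τ x)).fderiv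
  have sub : Icc a b ×ˢ closedBall (0 : E) (r + 2) ⊆ I ×ˢ univ := prod_mono hI (subset_univ _)
  have cp : IsCompact (Icc a b ×ˢ closedBall (0 : E) (r + 2)) :=
    isCompact_Icc.prod (isCompact_closedBall _ _)
  have sG : ContDiffOn ℝ 1 G (Icc a b ×ˢ closedBall 0 (r + 2)) :=
    ((F.sm.fderiv_of_isOpen op (by norm_cast)).clm_comp contDiffOn_const).mono sub
  obtain ⟨M, hM⟩ := sG.exists_lipschitzOnWith one_ne_zero
    ((convex_Icc a b).prod (convex_closedBall _ _)) cp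
  have ng : ∀ τ x, ‖(S τ).g x‖ = ‖fderiv ℝ (S τ).w x‖ := fun τ x => by simp [Sf.g, gradient]
  obtain ⟨m, m0, hm⟩ := (cp.of_isClosed_subset ((F.sm.continuousOn.mono
    sub).preimage_isClosed_of_isClosed cp.isClosed (isClosed_singleton (x := 0)))
    inter_subset_left).exists_forall_le' (sG.continuousOn.norm.mono inter_subset_left) (a := 0)
      fun p hp => by
        rw [← hG p.1 hp.1.1, ← ng]
        exact norm_pos_iff.2 ((F.ok _ (hI hp.1.1)).reg _ hp.2)
  refine ⟨min 2 (m / (M + 1)), by positivity, fun τ hτ ⟨x, θ, d⟩ ⟨h0, h1, h2, h3⟩ hx => ?_⟩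
  simp only [yy] at h0 h1 h2 h3 hx ⊢
  rcases le_total 2 d with e | e
  · exact (mul_le_mul (min_le_left _ _) (cc_le _ x h1) (abs_nonneg _) (by norm_num)).trans
      (by linarith)
  have dw := (F.ok τ (hI hτ)).sm.differentiable (by simp)
  have l : ∀ t : ℝ, HasDerivAt (fun t : ℝ => (S τ).w (x + t • θ)) (G (τ, x + t • θ) θ) t :=
    fun t => hG τ hτ _ ▸ (dw _).hasFDerivAt.comp_hasDerivAt t
      (by simpa using ((hasDerivAt_id t).smul_const θ).const_add x)
  obtain ⟨t, ht, t0⟩ := exists_hasDerivAt_eq_zero h2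
    (fun t _ => (l t).continuousAt.continuousWithinAt) (by simp [h0, h3]) fun t _ => l t
  have nt : ‖t • θ‖ = t := by rw [norm_smul, h1, mul_one, Real.norm_of_nonneg ht.1.le]
  have x1 : (τ, x) ∈ Icc a b ×ˢ closedBall (0 : E) (r + 2) :=
    ⟨hτ, mem_closedBall_zero_iff.2 (by linarith)⟩
  have k := hM.norm_sub_le x1 (y := (τ, x + t • θ))
    ⟨hτ, mem_closedBall_zero_iff.2 ((norm_add_le _ _).trans (by linarith [ht.2]))⟩
  have k1 := (G (τ, x) - G (τ, x + t • θ)).le_opNorm θ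
  rw [sub_apply, t0, sub_zero, h1, mul_one, Real.norm_eq_abs] at k1
  have k2 := hm _ ⟨x1, h0⟩
  have k3 : |G (τ, x) θ| = ‖G (τ, x)‖ * |(S τ).cc x θ| := by
    rw [Sf.cc, Sf.n, real_inner_smul_left, abs_mul, abs_inv, abs_norm, ng, hG τ hτ,
      mul_inv_cancel_left₀ (m0.trans_le k2).ne', Sf.g, inner_gradient_left, hG τ hτ]
  simp only [Prod.mk_sub_mk, sub_self, sub_add_cancel_left, Prod.norm_mk, norm_zero, norm_neg, nt,
    max_eq_right ht.1.le] at k
  refine (mul_le_mul_of_nonneg_right (min_le_right _ _) (abs_nonneg _)).trans ?_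
  rw [div_mul_eq_mul_div, div_le_iff₀ (by positivity)]
  nlinarith [mul_le_mul_of_nonneg_right k2 (abs_nonneg ((S τ).cc x θ)), ht.2, M.2]

lemma card_le {T : Finset ℝ} {δ : ℝ} (h0 : 0 < δ) (h1 : ∀ d ∈ T, 0 < d ∧ d ≤ 2)
    (h2 : ∀ d ∈ T, ∀ d' ∈ T, d < d' → δ ≤ d' - d) : (T.card : ℝ) ≤ 2 / δ + 1 := by
  have k : ∀ d ∈ T, ∀ d' ∈ T, d < d' → ⌊d / δ⌋₊ ≠ ⌊d' / δ⌋₊ := fun d hd d' hd' l e => by
    have a := Nat.lt_floor_add_one (d' / δ)
    have b := Nat.floor_le (div_pos (h1 d hd).1 h0).le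
    have c := (one_le_div h0).2 (h2 d hd d' hd' l)
    rw [sub_div] at c
    rw [← e] at a
    linarith
  have := Finset.card_le_card_of_injOn (s := T) (t := Finset.range (⌊2 / δ⌋₊ + 1))
    (fun d => ⌊d / δ⌋₊) (fun d hd => by
      simpa [Nat.lt_succ_iff] using Nat.floor_le_floor
        (div_le_div_of_nonneg_right (h1 d hd).2 h0.le)) fun d hd d' hd' e => by
      rcases lt_trichotomy d d' with l | l | l
      exacts [absurd e (k d hd d' hd' l), l, absurd e.symm (k d' hd' d hd l)]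
  rw [Finset.card_range] at this
  exact (Nat.cast_le.2 this).trans (by simpa using Nat.floor_le (by positivity))

end Sp

theorem sept : SEPT := by
  intro S I a b R α ε F hI hε
  obtain ⟨c, c0, H⟩ := Sp.gap F hI (3 * R + 2)
  set η := min (1 / 10) (ε ^ 2 / (2048 * (4 / c + 1)))
  have η0 : 0 < η := by positivity
  have η1 : η ≤ 1 / 10 := min_le_left _ _
  have K : ∀ τ ∈ Icc a b, ∀ z : Q, (S τ).Hit z → ‖z.1‖ ≤ 3 * R + 2 → η ^ 2 / 2 ≤ (S τ).cs1 z →
      c * η / 2 ≤ z.2.2 := fun τ hτ z h1 h2 h3 => by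
    have : η / 2 ≤ |(S τ).cc z.1 z.2.1| :=
      Real.le_sqrt_of_sq_le (by linarith [sq_nonneg η, show (S τ).cs1 z = _ ^ 2 from rfl])
        |>.trans_eq (Real.sqrt_sq_eq_abs _)
    linarith [H τ hτ z h1 h2, mul_le_mul_of_nonneg_left this c0.le]
  refine ⟨η, c * η / 4, η0, η1, by positivity, fun τ hτ =>
    ⟨fun z h1 h2 h3 _ => by linarith [K τ hτ z h1 h2 h3], fun x θ T hx hθ hT => ?_⟩⟩
  have n := Sp.card_le (T := T) (δ := c * η / 2) (by positivity)
    (fun d hd => ⟨(hT d hd).1, (hT d hd).2.1⟩) fun d hd d' hd' l =>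
      K τ hτ (x + d • θ, θ, d' - d) ⟨(hT d hd).2.2.1, hθ, sub_pos.2 l, by
        simpa [yy, add_assoc, ← add_smul] using (hT d' hd').2.2.1⟩ ((norm_add_le _ _).trans (by
          rw [norm_smul, hθ, mul_one, Real.norm_of_nonneg (hT d hd).1.le]
          exact add_le_add hx (hT d hd).2.1)) (hT d hd).2.2.2.1
  refine (Finset.sum_le_card_nsmul _ _ (256 * (2 * η ^ 2) ^ 3) fun d hd => ?_).trans ?_
  · exact mul_le_mul_of_nonneg_left (pow_le_pow_left₀ (sq_nonneg _) (hT d hd).2.2.2.2 3)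
      (by norm_num)
  rw [nsmul_eq_mul]
  refine (mul_le_mul_of_nonneg_right n (by positivity)).trans ?_
  have e := (le_div_iff₀ (by positivity)).1 (min_le_right _ _ : η ≤ _)
  have e4 : η ^ 4 ≤ 1 := pow_le_one₀ η0.le (by linarith)
  have e5 : η ^ 5 ≤ 1 := pow_le_one₀ η0.le (by linarith)
  rw [show (2 / (c * η / 2) + 1) * (256 * (2 * η ^ 2) ^ 3) =
    2048 * (η * (4 / c) * η ^ 4 + η * η ^ 5) by field_simp; ring]
  linarith [mul_le_of_le_one_right η0.le e5,
    mul_le_of_le_one_right (show 0 ≤ η * (4 / c) by positivity) e4]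

end Vale.Agent.P218M1
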