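import Vale.Agent.P218M1.Ca

/-!
# P218M1, row ME: the master estimate
-/

open MeasureTheory Metric Filter Topology Set
open scoped ContDiff RealInnerProductSpace ENNReal

noncomputable section

namespace Vale.Agent.P218M1

namespace Me

theorem ct_one {s : ℝ} (h : s ≤ 1) : ct s = 1 :=
  Real.smoothTransition.one_of_one_le (by linarith)
theorem ct_zero {s : ℝ} (h : 2 ≤ s) : ct s = 0 :=
  Real.smoothTransition.zero_of_nonpos (by linarith)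
theorem ct_nn (s : ℝ) : 0 ≤ ct s := Real.smoothTransition.nonneg _
theorem ct_le (s : ℝ) : ct s ≤ 1 := Real.smoothTransition.le_one _
theorem ct_cont : Continuous ct := by
  have := Real.smoothTransition.continuous
  unfold ct; fun_prop

theorem ct_lt {s : ℝ} (h : ct s ≠ 0) : s < 2 := not_le.1 fun h' => h (ct_zero h')
theorem ct_gt {s : ℝ} (h : 1 - ct s ≠ 0) : 1 < s := not_le.1 fun h' => h (by rw [ct_one h']; ring)

variable {S : Sf} {π : Par} {Λ : ℝ}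

theorem cu_nn (π : Par) (c : ℝ) : 0 ≤ π.cu c := sub_nonneg.2 (ct_le _)
theorem cu_le (π : Par) (c : ℝ) : π.cu c ≤ 1 := sub_le_self _ (ct_nn _)

theorem cu_van (hπ : π.Rg) {c : ℝ} (h : c < π.η ^ 2 / 2) : π.cu c = 0 := by
  have := hπ.η0
  have h1 : 2 * c / π.η ^ 2 ≤ 1 := by rw [div_le_one (by positivity)]; linarith
  rw [Par.cu, ct_one h1, sub_self]

theorem cu_one (hπ : π.Rg) {c : ℝ} (h : 1 / 4 ≤ c) : π.cu c = 1 := by
  have := hπ.η0
  have := hπ.η1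
  have h1 : 2 ≤ 2 * c / π.η ^ 2 := by rw [le_div_iff₀ (by positivity)]; nlinarith
  rw [Par.cu, ct_zero h1, sub_zero]

theorem sg0_van (hπ : π.Rg) {c : ℝ} (h : c ≤ π.η ^ 2) : π.sg0 c = 0 := by
  have := hπ.η0
  have h1 : c / π.η ^ 2 ≤ 1 := by rw [div_le_one (by positivity)]; linarith
  rw [Par.sg0, ct_one h1, sub_self, mul_zero]

theorem sg0_big (hπ : π.Rg) {c : ℝ} (h : 2 * π.η ^ 2 ≤ c) : π.sg0 c = 16 * c ^ 2 := by
  have := hπ.η0
  have h1 : 2 ≤ c / π.η ^ 2 := by rw [le_div_iff₀ (by positivity)]; linarith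
  rw [Par.sg0, ct_zero h1, sub_zero, mul_one]

theorem sg0_nn (π : Par) (c : ℝ) : 0 ≤ π.sg0 c :=
  mul_nonneg (by positivity) (sub_nonneg.2 (ct_le _))

theorem sg0_le (π : Par) (c : ℝ) : π.sg0 c ≤ 16 * c ^ 2 :=
  mul_le_of_le_one_right (by positivity) (sub_le_self _ (ct_nn _))

theorem O_nhds (hS : S.Ok) {z : Q} (hz : z ∈ S.O) : S.O ∈ 𝓝 z := by
  have hg := hS.sg.continuous
  have hy := Ca.cont_yy
  have c1 : Continuous fun z : Q => S.s z.1 z.2.1 := by unfold Sf.s; fun_prop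
  have c2 : Continuous fun z : Q => S.s (yy z) z.2.1 := by unfold Sf.s; fun_prop
  have c3 : Continuous fun z : Q => z.2.2 := by fun_prop
  exact (c1.continuousAt.eventually_ne hz.1).and ((c2.continuousAt.eventually_ne hz.2.1).and
    (continuousAt_const.eventually_lt c3.continuousAt hz.2.2))

theorem sm0 (hS : S.Ok) {f : Q → ℝ} (h : ∀ z ∈ S.O, ContinuousAt f z) : S.Sm 0 f := by
  intro z hz
  rw [Nat.cast_zero, contDiffAt_zero]
  exact ⟨S.O, O_nhds hS hz, fun z' hz' => (h z' hz').continuousWithinAt⟩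

theorem c_cs1 (hS : S.Ok) {z : Q} (hz : z ∈ S.O) : ContinuousAt S.cs1 z :=
  (((Ca.cont_n hS (Sf.O.g1 hz)).comp continuousAt_fst).inner (𝕜 := ℝ) continuousAt_snd.fst).pow 2

theorem c_cs2 (hS : S.Ok) {z : Q} (hz : z ∈ S.O) : ContinuousAt S.cs2 z :=
  (((Ca.cont_n hS (Sf.O.g2 hz)).comp Ca.cont_yy.continuousAt).inner (𝕜 := ℝ)
    continuousAt_snd.fst).pow 2

theorem c_sq (hS : S.Ok) {z : Q} (hz : z ∈ S.O) : ContinuousAt S.sq z := by
  have hg := hS.sg.continuous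
  have hy := Ca.cont_yy
  have c1 : Continuous fun z : Q => S.s z.1 z.2.1 := by unfold Sf.s; fun_prop
  have c2 : Continuous fun z : Q => S.s (yy z) z.2.1 := by unfold Sf.s; fun_prop
  have d1 : ContinuousAt S.p1 z :=
    (c1.continuousAt.inv₀ hz.1).smul (hg.comp continuous_fst).continuousAt
  have d2 : ContinuousAt S.p2 z := (c2.continuousAt.inv₀ hz.2.1).smul (hg.comp hy).continuousAt
  exact (d1.sub d2).norm.pow 2

theorem cont_cu (π : Par) : Continuous π.cu := by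
  have := ct_cont
  unfold Par.cu; fun_prop

theorem cont_sg0 (π : Par) : Continuous π.sg0 := by
  have := ct_cont
  unfold Par.sg0; fun_prop

theorem c_N (nsc : NSC) (hS : S.Ok) (hπ : π.Rg) {z : Q} (hz : z ∈ S.O) :
    ContinuousAt (S.N π) z := by
  have := hπ.η0
  refine (nsc.sm S π 0 _ hS hπ ⟨sm0 hS fun z hz => ?_, fun z _ h => ?_⟩ z hz).continuousAt
  · exact ((cont_sg0 π).continuousAt.comp (c_cs2 hS hz)).pow 2
  · rw [sg0_van hπ (by nlinarith [sq_nonneg π.η])]; ring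

theorem c_NS (nsc : NSC) (hS : S.Ok) (hπ : π.Rg) {f : E → ℝ} (hf : S.Cg f) {z : Q}
    (hz : z ∈ S.O) : ContinuousAt (S.NS π fun z' => π.cu (S.cs2 z') * f (yy z')) z := by
  refine (nsc.sm S π 0 _ hS hπ ⟨sm0 hS fun z hz => ?_, fun z _ h => ?_⟩ z hz).continuousAt
  · exact ((cont_cu π).continuousAt.comp (c_cs2 hS hz)).mul
      ((hf _ (Sf.O.g2 hz)).1.comp Ca.cont_yy.continuousAt)
  · rw [cu_van hπ h, zero_mul]

theorem c_zg (nsc : NSC) (hS : S.Ok) (hπ : π.Rg) {z : Q} (hz : z ∈ S.O) :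
    ContinuousAt (S.zg π) z := by
  have h0 := ct_cont
  have h1 := c_cs1 hS hz
  have h2 := c_cs2 hS hz
  have h3 := c_N nsc hS hπ hz
  have h4 := cont_sg0 π
  unfold Sf.zg Par.pt Par.Bt Par.xi
  fun_prop

theorem zg_ne (hπ : π.Rg) {z : Q} (h : S.zg π z ≠ 0) : S.Sp π z ∧ S.Box π z := by
  have := hπ.R1
  have := hπ.α0
  have := hπ.α1
  have := hπ.η0
  have := hπ.ρ0
  simp only [Sf.zg, ne_eq, mul_eq_zero, not_or] at h
  obtain ⟨⟨⟨⟨⟨h1, h2⟩, h3⟩, h4⟩, h5⟩, h6⟩ := h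
  have a1 := ct_lt h1
  have a2 := ct_lt h2
  have a3 : π.η ^ 2 < S.cs2 z := not_le.1 fun h => h3 (sg0_van hπ h)
  have a4 := ct_lt h4
  have a5 := ct_lt h5
  have a6 := ct_gt h6
  rw [div_lt_iff₀ (by positivity)] at a1 a2
  rw [lt_div_iff₀ (by positivity)] at a6
  have b1 : ‖z.1‖ ≤ 2 * π.R := by
    by_contra hc
    push Not at hc
    nlinarith
  exact ⟨⟨b1, by linarith, a3.le, a4.le, by linarith⟩, by linarith, by linarith, by linarith,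
    by nlinarith, by nlinarith⟩

theorem zg_sq_le (S : Sf) (π : Par) (z : Q) : S.zg π z ^ 2 ≤ 256 * S.cs2 z ^ 4 := by
  have h1 : 0 ≤ π.xi z.2.2 := sub_nonneg.2 (ct_le _)
  have h2 : π.xi z.2.2 ≤ 1 := sub_le_self _ (ct_nn _)
  have h3 := sg0_nn π (S.cs2 z)
  have h0 : 0 ≤ S.zg π z := mul_nonneg (mul_nonneg (mul_nonneg (mul_nonneg
    (mul_nonneg (ct_nn _) (ct_nn _)) h3) (ct_nn _)) (ct_nn _)) h1
  have h4 : S.zg π z ≤ 1 * 1 * (16 * S.cs2 z ^ 2) * 1 * 1 * 1 := by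
    have := ct_nn
    have := ct_le
    have := sg0_le π (S.cs2 z)
    unfold Sf.zg Par.pt Par.Bt
    gcongr <;> solve_by_elim
  calc _ ≤ (1 * 1 * (16 * S.cs2 z ^ 2) * 1 * 1 * 1) ^ 2 := by gcongr
    _ = _ := by ring

theorem zg_eq (unq : UNQ) (hG : Good S π Λ) {z : Q} (hz : S.Hit z) (hb : S.Box π z)
    (h1 : ‖z.1‖ ^ 2 ≤ 2 * π.R ^ 2) (h2 : 1 - S.cs1 z ≤ 2 * π.α ^ 2) (h3 : S.N π z < 1)
    (h4 : z.2.2 ≤ 2 * π.ε) : S.zg π z = π.sg0 (S.cs2 z) := by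
  have := hG.rg.R1
  have := hG.rg.α0
  have := hG.rg.ε1
  rw [Sf.zg, Par.pt, Par.Bt, ct_one ((div_le_one (by positivity)).2 h1),
    ct_one ((div_le_one (by positivity)).2 h2), ct_one h3.le, ct_one (by linarith),
    (unq.xi1 S π Λ z hG hz hb).2.1]
  ring

theorem cl_zg (nsc : NSC) (hS : S.Ok) (hπ : π.Rg) {f : Q → ℝ}
    (hf : ∀ z ∈ S.O, ContinuousAt f z) : S.Cl π 0 fun z => S.zg π z ^ 2 * f z := by
  refine ⟨sm0 hS fun z hz => ((c_zg nsc hS hπ hz).pow 2).mul (hf z hz), fun z _ _ h => ?_⟩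
  have : S.zg π z = 0 := by
    by_contra h'
    exact h (zg_ne hπ h').2
  rw [this]; ring

theorem cl_ig (nsc : NSC) (hS : S.Ok) (hπ : π.Rg) : S.Cl π 0 (S.ig π) := by
  have := cl_zg nsc hS hπ (f := fun z => S.sq z ^ 2 / (1 + S.sq z) / z.2.2 ^ 2) fun z hz => by
    have h1 := c_sq hS hz
    have h2 := S.sq_nonneg' z
    have h3 := hz.2.2
    fun_prop (disch := positivity)
  convert this using 2 with z
  rw [Sf.ig]; ring

theorem ig_nn (S : Sf) (π : Par) (z : Q) : 0 ≤ S.ig π z := by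
  have := S.sq_nonneg' z
  unfold Sf.ig; positivity

/-- the hits in the box form a finite set -/
theorem hits (hG : Good S π Λ) {x θ : E} (hx : S.w x = 0) (hθ : ‖θ‖ = 1) :
    ∃ H : Finset ℝ, (∀ d, d ∈ H ↔ S.Hit (x, θ, d) ∧ S.Box π (x, θ, d)) ∧
      ∀ f, S.Cl π 0 f → S.RS f x θ = ∑ d ∈ H, f (x, θ, d) := by
  have hρ := hG.rg.ρ0
  have sep : ∀ d d', S.Hit (x, θ, d) ∧ S.Box π (x, θ, d) → S.Hit (x, θ, d') ∧ S.Box π (x, θ, d') →
      d < d' → 2 * π.ρ ≤ d' - d := by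
    intro d d' h h' hl
    have e : yy (x + d • θ, θ, d' - d) = yy (x, θ, d') := by
      simp only [yy, sub_smul]; abel
    refine hG.sp.sep (x + d • θ, θ, d' - d) ⟨h.1.2.2.2, hθ, sub_pos.2 hl, e ▸ h'.1.2.2.2⟩ ?_
      h.2.2.2.2.2 ?_
    · have h1 : ‖x‖ ≤ 3 * π.R := h.2.1
      have h2 : d ≤ 2 := h.2.2.2.1
      have h3 : 0 < d := h.1.2.2.1
      have := norm_add_le x (d • θ)
      rw [norm_smul, hθ, Real.norm_eq_abs, abs_of_pos h3] at this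
      change ‖x + d • θ‖ ≤ _
      linarith
    · have := h'.2.2.2.2.2
      unfold Sf.cs2 at this ⊢
      rw [e]; exact this
  have fin : {d | S.Hit (x, θ, d) ∧ S.Box π (x, θ, d)}.Finite := by
    refine Set.Finite.of_finite_image (f := fun d => ⌊d / π.ρ⌋)
      ((Set.finite_Icc 0 ⌊2 / π.ρ⌋).subset ?_) ?_
    · rintro _ ⟨d, hd, rfl⟩
      have h2 : d ≤ 2 := hd.2.2.2.1
      have h3 : 0 < d := hd.1.2.2.1
      exact ⟨Int.floor_nonneg.2 (by positivity), Int.floor_le_floor (by gcongr)⟩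
    · have key : ∀ d d' : ℝ, 2 * π.ρ ≤ d' - d → ⌊d / π.ρ⌋ ≠ ⌊d' / π.ρ⌋ := by
        intro d d' h he
        have h1 := Int.abs_sub_lt_one_of_floor_eq_floor he
        rw [← sub_div, abs_lt, lt_div_iff₀ hρ] at h1
        linarith [h1.1]
      intro d hd d' hd' he
      rcases lt_trichotomy d d' with h | h | h
      · exact absurd he (key d d' (sep d d' hd hd' h))
      · exact h
      · exact absurd he.symm (key d' d (sep d' d hd' hd h))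
  refine ⟨fin.toFinset, fun d => fin.mem_toFinset, fun f hf => ?_⟩
  refine finsum_cond_eq_sum_of_cond_iff (fun d => f (x, θ, d)) fun {d} hd => ?_
  rw [fin.mem_toFinset]
  refine ⟨fun h => ?_, fun h => h.1.2.2.2⟩
  have hb : S.Box π (x, θ, d) := by
    by_contra hb
    exact hd (hf.bx _ (hG.ok.reg _ hx) (hG.ok.reg _ h) hb)
  exact ⟨⟨hx, hθ, (half_pos hρ).trans_le hb.2.1, h⟩, hb⟩

theorem sq_lo {z : Q} (hz : z ∈ S.O) (hθ : ‖z.2.1‖ = 1) (hc : 9 / 10 ≤ S.cs1 z)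
    (hc2 : S.cs2 z ≤ 1 / 4) : 1 / S.cs2 z ≤ 6 * (S.sq z ^ 2 / (1 + S.sq z)) := by
  have h2 := Sf.O.a_sq hz hθ
  have h3 := Sf.O.b_sq hz hθ
  have h5 := Sf.O.cs2_pos hz
  have h1 := norm_sub_sq_le (S.p1 z - z.2.1) (S.Pv z)
  have h0 : S.p1 z - z.2.1 - S.Pv z = S.p2 z - z.2.1 := by rw [Sf.Pv]; abel
  rw [h0] at h1
  have h6 : ‖S.p1 z - z.2.1‖ ^ 2 ≤ 1 / 9 := by nlinarith [sq_nonneg ‖S.p1 z - z.2.1‖]
  have h7 : 1 ≤ 3 * (S.cs2 z * S.sq z) := by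
    rw [Sf.sq]
    nlinarith [mul_le_mul_of_nonneg_left h1 h5.le]
  have h8 := S.sq_nonneg' z
  have h9 : 1 ≤ S.sq z := by nlinarith
  rw [← mul_div_assoc, div_le_div_iff₀ h5 (by positivity)]
  nlinarith

/-- the first part of the majorant -/
def M1 (S : Sf) (π : Par) (a : ℝ) (f₁ f₃ : E → ℝ) (z : Q) : ℝ :=
  S.zg π z ^ 2 * (f₁ z.1 + a * π.ε ^ 2 + S.NS π (fun z' => π.cu (S.cs2 z') * f₃ (yy z')) z)

/-- the second part of the majorant -/
def M2 (S : Sf) (π : Par) (β : ℝ) (f₂ : E → ℝ) (z : Q) : ℝ :=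
  S.zg π z ^ 2 * (ct ((1 - S.cs2 z) / β ^ 2) * f₂ (yy z))

theorem cl_M1 (nsc : NSC) (hS : S.Ok) (hπ : π.Rg) (a : ℝ) {f₁ f₃ : E → ℝ} (h₁ : S.Cg f₁)
    (h₃ : S.Cg f₃) : S.Cl π 0 (M1 S π a f₁ f₃) :=
  cl_zg nsc hS hπ fun _ hz => (((h₁ _ (Sf.O.g1 hz)).1.comp continuousAt_fst).add
    continuousAt_const).add (c_NS nsc hS hπ h₃ hz)

theorem cl_M2 (nsc : NSC) (hS : S.Ok) (hπ : π.Rg) (β : ℝ) {f₂ : E → ℝ} (h₂ : S.Cg f₂) :
    S.Cl π 0 (M2 S π β f₂) :=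
  cl_zg nsc hS hπ fun _ hz => (ct_cont.continuousAt.comp
    ((continuousAt_const.sub (c_cs2 hS hz)).div_const _)).mul
    ((h₂ _ (Sf.O.g2 hz)).1.comp Ca.cont_yy.continuousAt)

theorem NS_nn (unq : UNQ) (hG : Good S π Λ) {f : E → ℝ} (hf : S.Cg f) {z : Q} (hz : S.Hit z)
    (hb : S.Box π z) : 0 ≤ S.NS π (fun z' => π.cu (S.cs2 z') * f (yy z')) z := by
  obtain ⟨T, hT, hs⟩ := unq.ns S π Λ z hG hz hb
  rw [hs _ fun z' _ h => by rw [cu_van hG.rg h, zero_mul]]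
  exact Finset.sum_nonneg fun l hl =>
    mul_nonneg (cu_nn _ _) (hf _ (hG.ok.reg _ ((hT l).1 hl).2.2.1)).2

theorem one_le_sg0 (hπ : π.Rg) {c : ℝ} (h : 1 / 4 ≤ c) : 1 ≤ π.sg0 c ^ 2 := by
  rw [sg0_big hπ (by nlinarith [hπ.η0, hπ.η1])]
  have : 1 ≤ 16 * c ^ 2 := by nlinarith
  nlinarith

theorem eta_le (hπ : π.Rg) : π.η ^ 2 / 2 ≤ 9 / 10 := by nlinarith [hπ.η0, hπ.η1]

theorem sq_ig {z : Q} (h1 : S.sq z ≤ 5) (g1 : 1 ≤ S.zg π z ^ 2) :
    S.sq z ^ 2 / z.2.2 ^ 2 ≤ 6 * S.ig π z := by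
  have h2 := S.sq_nonneg' z
  have h3 : S.sq z ^ 2 ≤ 6 * (S.sq z ^ 2 / (1 + S.sq z)) := by
    rw [← mul_div_assoc, le_div_iff₀ (by positivity)]
    nlinarith [sq_nonneg (S.sq z)]
  rw [Sf.ig, ← mul_div_assoc]
  refine div_le_div_of_nonneg_right (h3.trans ?_) (sq_nonneg _)
  exact mul_le_mul_of_nonneg_left (le_mul_of_one_le_left (by positivity) g1) (by norm_num)

theorem cs1_ge (hπ : π.Rg) {z : Q} (h : 1 - S.cs1 z ≤ 2 * π.α ^ 2) : 9 / 10 ≤ S.cs1 z := by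
  nlinarith [hπ.α0, hπ.α1]

theorem one_ig (unq : UNQ) (hG : Good S π Λ) {x θ : E} {d l : ℝ} (zh : S.Hit (x, θ, d))
    (zb : S.Box π (x, θ, d)) (q : S.Sq π (x, θ, d)) (lh : S.Hit (x, θ, l))
    (lb : S.Box π (x, θ, l)) (hl : l < d) (h2 : 2 * π.η ^ 2 ≤ S.cs2 (x, θ, l)) :
    256 * S.cs2 (x, θ, l) ^ 3 ≤ 24 * π.ε ^ 2 * S.ig π (x, θ, l) := by
  obtain ⟨q1, q2, q3, q4, q5⟩ := q
  have hπ := hG.rg
  have lO := Ca.box_O hπ lb
  have hc := Sf.O.cs2_pos lO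
  have r1 : 0 < l := lh.2.2.1
  have q5' : d ≤ 2 * π.ε := q5
  have h3 : S.cs2 (x, θ, l) ≤ 1 / 4 := by
    by_contra h3
    exact absurd (unq.u1 S π Λ x θ l d hG lh zh zb hl (not_le.1 h3).le).1 (not_le.2 q4)
  have h4 := sq_lo lO zh.2.1 (cs1_ge hπ q2) h3
  have h5 := zg_eq unq hG lh lb q1 q2
    ((unq.mono S π Λ x θ l d hG lh lb zh zb hl.le).trans_lt q4) (by change l ≤ _; linarith)
  rw [sg0_big hπ h2] at h5
  rw [Sf.ig, h5, ← mul_div_assoc, le_div_iff₀ (by positivity)]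
  have h6 : l ^ 2 ≤ 4 * π.ε ^ 2 := by nlinarith
  have h7 : 256 * S.cs2 (x, θ, l) ^ 3 =
      (16 * S.cs2 (x, θ, l) ^ 2) ^ 2 * (1 / S.cs2 (x, θ, l)) := by field_simp; ring
  have h8 := S.sq_nonneg' (x, θ, l)
  rw [h7]
  calc _ ≤ (16 * S.cs2 (x, θ, l) ^ 2) ^ 2 *
        (6 * (S.sq (x, θ, l) ^ 2 / (1 + S.sq (x, θ, l)))) * (4 * π.ε ^ 2) := by gcongr
    _ = _ := by ring

theorem tail_le (unq : UNQ) (hG : Good S π Λ) {x θ : E} {d : ℝ} (zh : S.Hit (x, θ, d))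
    (zb : S.Box π (x, θ, d)) (q : S.Sq π (x, θ, d)) (T : Finset ℝ)
    (Th : ∀ l ∈ T, S.Hit (x, θ, l)) (Tb : ∀ l ∈ T, S.Box π (x, θ, l)) (Tl : ∀ l ∈ T, l < d) :
    ∑ l ∈ T, π.sgb (S.cs2 (x, θ, l)) / S.cs2 (x, θ, l) ≤
      24 * π.ε ^ 2 * ∑ l ∈ T, S.ig π (x, θ, l) + π.ε ^ 2 := by
  have hπ := hG.rg
  have tl := hG.sp.tail x θ (T.filter fun l => S.cs2 (x, θ, l) ≤ 2 * π.η ^ 2) zb.1 zh.2.1
    fun l hl => by
      obtain ⟨hl, h2⟩ := Finset.mem_filter.1 hl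
      exact ⟨(Th l hl).2.2.1, (Tb l hl).2.2.1, (Th l hl).2.2.2, (Tb l hl).2.2.2.2, h2⟩
  rw [Finset.sum_filter] at tl
  rw [Finset.mul_sum]
  refine le_trans ?_ (add_le_add_right tl _)
  rw [← Finset.sum_add_distrib]
  refine Finset.sum_le_sum fun l hl => ?_
  have hc := Sf.O.cs2_pos (Ca.box_O hπ (Tb l hl))
  have i0 := mul_nonneg (show 0 ≤ 24 * π.ε ^ 2 by positivity) (ig_nn S π (x, θ, l))
  have h1 : π.sgb (S.cs2 (x, θ, l)) / S.cs2 (x, θ, l) ≤ 256 * S.cs2 (x, θ, l) ^ 3 := by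
    rw [div_le_iff₀ hc, Par.sgb]
    have := mul_le_mul_of_nonneg_left (cu_le π (S.cs2 (x, θ, l))) (pow_pos hc 4).le
    linarith
  split_ifs with h2
  · linarith
  · have := one_ig unq hG zh zb q (Th l hl) (Tb l hl) (Tl l hl) (not_le.1 h2).le
    linarith

theorem pw (nsc : NSC) (unq : UNQ) (hG : Good S π Λ) {β a b : ℝ} {h : Q → ℝ}
    {f₁ f₂ f₃ f₄ f₅ : E → ℝ} (hβ : 0 < β) (ha : 0 ≤ a) (hb : 0 ≤ b) (hh : S.Cl π 0 h)
    (h₁ : S.Cg f₁) (h₂ : S.Cg f₂) (h₃ : S.Cg f₃) (h₅ : S.Cg f₅)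
    (H : ∀ z, S.Hit z → S.Box π z → 0 < h z → S.Sq π z ∧ 1 - S.cs2 z ≤ β ^ 2 ∧
      h z ≤ f₁ z.1 + f₂ (yy z) + S.NS π (fun z' => π.cu (S.cs2 z') * f₃ (yy z')) z +
        a * S.NS π (fun z' => π.sgb (S.cs2 z') / S.cs2 z') z + b * (S.sq z ^ 2 / z.2.2 ^ 2) +
        f₄ z.1 * (z.2.2 ^ 2 * S.A2 (yy z) +
          S.NS π (fun z' => π.cu (S.cs2 z') * (z'.2.2 ^ 2 * S.A2 (yy z'))) z) +
        f₅ z.1 * S.NS π (fun z' => π.cu (S.cs2 z') * S.cs2 z') z)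
    {x θ : E} (hx : S.w x = 0) (hθ : ‖θ‖ = 1)
    (pos : 0 < S.RS h x θ - (S.RS (M1 S π a f₁ f₃) x θ + S.RS (M2 S π β f₂) x θ +
      (6 * b + 24 * a * π.ε ^ 2) * S.RS (S.ig π) x θ)) :
    ‖x‖ ≤ 2 * π.R ∧ 9 / 10 ≤ S.cc x θ ^ 2 ∧ ∃ T : Finset ℝ,
      (∀ l ∈ T, S.Hit (x, θ, l) ∧ l ≤ 2 * π.ε ∧ π.η ^ 2 / 2 ≤ S.cs2 (x, θ, l)) ∧
      S.RS h x θ - (S.RS (M1 S π a f₁ f₃) x θ + S.RS (M2 S π β f₂) x θ +
        (6 * b + 24 * a * π.ε ^ 2) * S.RS (S.ig π) x θ) ≤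
      ∑ l ∈ T, π.cu (S.cs2 (x, θ, l)) *
        (f₄ x * (l ^ 2 * S.A2 (x + l • θ)) + f₅ x * S.cs2 (x, θ, l)) := by
  classical
  have hS := hG.ok
  have hπ := hG.rg
  have hR := hπ.R1
  have hα0 := hπ.α0
  have hα1 := hπ.α1
  have hε0 := hπ.ε0
  have hε1 := hπ.ε1
  have hη0 := hπ.η0
  have hη1 := hπ.η1
  have hρ := hπ.ρ0
  obtain ⟨K, hK, hs⟩ := hits hG hx hθ
  rw [hs _ hh, hs _ (cl_M1 nsc hS hπ a h₁ h₃), hs _ (cl_M2 nsc hS hπ β h₂),
    hs _ (cl_ig nsc hS hπ)] at pos ⊢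
  have n1 : ∀ d ∈ K, 0 ≤ M1 S π a f₁ f₃ (x, θ, d) := fun d hd =>
    mul_nonneg (sq_nonneg _) (add_nonneg (add_nonneg (h₁ _ (hS.reg _ hx)).2 (by positivity))
      (NS_nn unq hG h₃ ((hK d).1 hd).1 ((hK d).1 hd).2))
  have n2 : ∀ d ∈ K, 0 ≤ M2 S π β f₂ (x, θ, d) := fun d hd =>
    mul_nonneg (sq_nonneg _) (mul_nonneg (ct_nn _) (h₂ _ (hS.reg _ ((hK d).1 hd).1.2.2.2)).2)
  have n3 : ∀ d ∈ K, 0 ≤ S.ig π (x, θ, d) := fun d _ => ig_nn S π _
  obtain ⟨d, hd, hp⟩ : ∃ d ∈ K, 0 < h (x, θ, d) := by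
    by_contra hc
    push Not at hc
    have := Finset.sum_nonpos hc
    have := Finset.sum_nonneg n1
    have := Finset.sum_nonneg n2
    have := mul_nonneg (show 0 ≤ 6 * b + 24 * a * π.ε ^ 2 by positivity) (Finset.sum_nonneg n3)
    linarith
  obtain ⟨zh, zb⟩ := (hK d).1 hd
  obtain ⟨⟨q1, q2, q3, q4, q5⟩, q6, q7⟩ := H _ zh zb hp
  have zO := Ca.box_O hπ zb
  have c1 : 9 / 10 ≤ S.cs1 (x, θ, d) := cs1_ge hπ q2
  -- the other hits do not contribute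
  have s0 : ∑ e ∈ K, h (x, θ, e) ≤ h (x, θ, d) := by
    rw [← Finset.add_sum_erase K _ hd]
    refine add_le_of_nonpos_right (Finset.sum_nonpos fun e he => not_lt.1 fun hp' => ?_)
    obtain ⟨hne, he⟩ := Finset.mem_erase.1 he
    obtain ⟨eh, eb⟩ := (hK e).1 he
    obtain ⟨⟨-, -, r3, r4, -⟩, -⟩ := H _ eh eb hp'
    rcases lt_or_gt_of_ne hne with hl | hl
    · exact absurd (unq.u1 S π Λ x θ e d hG eh zh zb hl r3).1 (not_le.2 q4)
    · exact absurd (unq.u1 S π Λ x θ d e hG zh eh eb hl q3).1 (not_le.2 r4)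
  have g1 : 1 ≤ S.zg π (x, θ, d) ^ 2 := by
    rw [zg_eq unq hG zh zb q1 q2 q4 q5]
    exact one_le_sg0 hπ q3
  obtain ⟨T, hT, hs'⟩ := unq.ns S π Λ _ hG zh zb
  simp only at hT hs' q1 q5 q7
  have dT : d ∉ T := fun h => lt_irrefl _ ((hT d).1 h).2.1
  have Th : ∀ l ∈ T, S.Hit (x, θ, l) := fun l hl => ⟨hx, hθ, ((hT l).1 hl).1, ((hT l).1 hl).2.2.1⟩
  have Tb : ∀ l ∈ T, S.Box π (x, θ, l) := by
    intro l hl
    obtain ⟨-, r2, -, r4⟩ := (hT l).1 hl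
    have h1 : ‖x‖ ≤ 3 * π.R := zb.1
    have h2 : 2 * π.ρ ≤ l := hG.sp.sep _ (Th l hl) (by change ‖x‖ ≤ _; linarith)
      (le_trans (eta_le hπ) c1) r4
    exact ⟨zb.1, by change _ ≤ l; linarith, by change l ≤ _; linarith, zb.2.2.2.1, r4⟩
  -- the majorant
  have s1 : f₁ x + a * π.ε ^ 2 + S.NS π (fun z' => π.cu (S.cs2 z') * f₃ (yy z')) (x, θ, d) ≤
      ∑ e ∈ K, M1 S π a f₁ f₃ (x, θ, e) :=
    le_trans (le_mul_of_one_le_left (add_nonneg (add_nonneg (h₁ _ (hS.reg _ hx)).2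
      (by positivity)) (NS_nn unq hG h₃ zh zb)) g1) (Finset.single_le_sum n1 hd)
  have s2 : f₂ (yy (x, θ, d)) ≤ ∑ e ∈ K, M2 S π β f₂ (x, θ, e) := by
    refine le_trans ?_ (Finset.single_le_sum n2 hd)
    rw [M2, ct_one ((div_le_one (by positivity)).2 q6), one_mul]
    exact le_mul_of_one_le_left (h₂ _ (Sf.O.g2 zO)).2 g1
  have s3 : S.ig π (x, θ, d) + ∑ l ∈ T, S.ig π (x, θ, l) ≤ ∑ e ∈ K, S.ig π (x, θ, e) := by
    rw [← Finset.sum_insert (f := fun l => S.ig π (x, θ, l)) dT]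
    refine Finset.sum_le_sum_of_subset_of_nonneg (fun l hl => ?_) fun e he _ => n3 e he
    rcases Finset.mem_insert.1 hl with rfl | hl
    · exact hd
    · exact (hK l).2 ⟨Th l hl, Tb l hl⟩
  have s4 : S.sq (x, θ, d) ^ 2 / d ^ 2 ≤ 6 * S.ig π (x, θ, d) :=
    sq_ig (Sf.O.sq_le_four zO hθ c1 q3) g1
  have s5 : S.NS π (fun z' => π.sgb (S.cs2 z') / S.cs2 z') (x, θ, d) ≤
      24 * π.ε ^ 2 * ∑ l ∈ T, S.ig π (x, θ, l) + π.ε ^ 2 := by
    rw [hs' _ fun z' _ h => by rw [Par.sgb, cu_van hπ h, mul_zero, zero_div]]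
    exact tail_le unq hG zh zb ⟨q1, q2, q3, q4, q5⟩ T Th Tb fun l hl => ((hT l).1 hl).2.1
  refine ⟨?_, c1, insert d T, fun l hl => ?_, ?_⟩
  · exact (abs_le_of_sq_le_sq' (q1.trans (by linarith [sq_nonneg π.R, mul_pow 2 π.R 2]))
      (by linarith)).2
  · rcases Finset.mem_insert.1 hl with rfl | hl
    · exact ⟨zh, q5, zb.2.2.2.2⟩
    · exact ⟨Th l hl, by linarith [((hT l).1 hl).2.1], (Tb l hl).2.2.2.2⟩
  · rw [Finset.sum_insert dT, cu_one hπ q3, one_mul]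
    rw [hs' (fun z' => π.cu (S.cs2 z') * (z'.2.2 ^ 2 * S.A2 (yy z')))
        fun z' _ h => by rw [cu_van hπ h, zero_mul],
      hs' (fun z' => π.cu (S.cs2 z') * S.cs2 z') fun z' _ h => by rw [cu_van hπ h, zero_mul]]
      at q7
    have e : ∑ l ∈ T, π.cu (S.cs2 (x, θ, l)) *
        (f₄ x * (l ^ 2 * S.A2 (x + l • θ)) + f₅ x * S.cs2 (x, θ, l)) =
        f₄ x * ∑ l ∈ T, π.cu (S.cs2 (x, θ, l)) * (l ^ 2 * S.A2 (yy (x, θ, l))) +
        f₅ x * ∑ l ∈ T, π.cu (S.cs2 (x, θ, l)) * S.cs2 (x, θ, l) := by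
      rw [Finset.mul_sum, Finset.mul_sum, ← Finset.sum_add_distrib]
      exact Finset.sum_congr rfl fun l _ => by rw [yy]; ring
    rw [e]
    have t0 := Finset.sum_nonneg fun l (_ : l ∈ T) => ig_nn S π (x, θ, l)
    have t1 := ig_nn S π (x, θ, d)
    have t2 := mul_le_mul_of_nonneg_left s3 (show 0 ≤ 6 * b + 24 * a * π.ε ^ 2 by positivity)
    have t3 := mul_le_mul_of_nonneg_left s4 hb
    have t4 := mul_le_mul_of_nonneg_left s5 ha
    have t5 := mul_nonneg (h₅ _ (hS.reg _ hx)).2 (S.cs2_nonneg (x, θ, d))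
    have t6 := mul_nonneg hb t0
    have t7 := mul_nonneg (mul_nonneg ha (sq_nonneg π.ε)) t1
    have t8 : yy (x, θ, d) = x + d • θ := rfl
    rw [t8] at q7 s2
    linarith

theorem int4 {X : Type} [MeasurableSpace X] {μ : Measure X} {f g h k : X → ℝ} (hf : Integrable f μ)
    (hg : Integrable g μ) (hh : Integrable h μ) (hk : Integrable k μ) :
    ∫ x, (f x + g x + h x + k x) ∂μ = ∫ x, f x ∂μ + ∫ x, g x ∂μ + ∫ x, h x ∂μ + ∫ x, k x ∂μ := by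
  rw [integral_add (f := fun x => f x + g x + h x) ((hf.add hg).add hh) hk,
    integral_add (f := fun x => f x + g x) (hf.add hg) hh, integral_add hf hg]

theorem gam_nn (u : E) : 0 ≤ gam u := mul_nonneg (ct_nn _) (sub_nonneg.2 (ct_le _))

theorem intOn (hS : S.Ok) {f : E → ℝ} (hf : S.Cg f) (r : ℝ) : IntegrableOn f (ball 0 r) S.μ := by
  have := hS.fin
  have hK : IsCompact ({x | S.w x = 0} ∩ closedBall (0 : E) r) :=
    (isCompact_closedBall _ _).inter_left (isClosed_eq hS.sm.continuous continuous_const)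
  have h1 : IntegrableOn f ({x | S.w x = 0} ∩ closedBall (0 : E) r) S.μ :=
    ContinuousOn.integrableOn_compact hK fun x hx => (hf x (hS.reg x hx.1)).1.continuousWithinAt
  refine h1.mono_set_ae ?_
  filter_upwards [hS.sup] with x hx h
  exact ⟨hx, ball_subset_closedBall h⟩

theorem IB_nn (hS : S.Ok) (π : Par) {f : E → ℝ} (hf : S.Cg f) : 0 ≤ S.IB π f :=
  integral_nonneg_of_ae (ae_restrict_of_ae (hS.sup.mono fun x hx => (hf x (hS.reg x hx)).2))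

theorem cg_A2 (hS : S.Ok) : S.Cg S.A2 := by
  intro x hx
  refine ⟨?_, S.A2_nonneg x⟩
  have h1 := Ca.cont_n hS hx
  have h2 := hS.sD2.continuous
  have h3 := hS.sg.continuous
  have h4 : ContinuousAt (fun x => ‖S.g x‖⁻¹) x :=
    h3.continuousAt.norm.inv₀ (norm_ne_zero_iff.2 hx)
  unfold Sf.A2 hs
  simp only [Sf.A_apply, Sf.P_apply]
  fun_prop

end Me

open Me in
theorem me (ca : CA) (nsc : NSC) (unq : UNQ) (tr : TR) (gn : GN) (cub : CUB) : ME := by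
  obtain ⟨C₁, hC₁, tr⟩ := tr
  obtain ⟨C₂, hC₂, gn⟩ := gn
  obtain ⟨C₃, hC₃, cub⟩ := cub
  refine ⟨512 * C₁ + 24 * C₂ + C₃, by positivity, ?_⟩
  intro S π Λ β e₀ a b h f₁ f₂ f₃ f₄ f₅ hG hβ he ha hb hh h₁ h₂ h₃ h₄ h₅ hE H
  have hS := hG.ok
  have hπ := hG.rg
  have hΛ : 0 ≤ Λ := by
    have := hG.ar 0 1 one_pos
    have h0 : 0 ≤ S.μ.real (ball 0 1) := measureReal_nonneg
    linarith
  have k1 := cl_M1 nsc hS hπ a h₁ h₃
  have k2 := cl_M2 nsc hS hπ β h₂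
  have k3 := cl_ig nsc hS hπ
  set c := 6 * b + 24 * a * π.ε ^ 2 with hc
  -- at a fixed base point
  have step : ∀ x, S.w x = 0 → S.AV h x ≤ S.AV (M1 S π a f₁ f₃) x + S.AV (M2 S π β f₂) x +
      c * S.AV (S.ig π) x +
      (ball (0 : E) (3 * π.R + 3)).indicator (fun x => C₃ * (e₀ * f₄ x + (Λ + e₀) * f₅ x)) x := by
    intro x hx
    have gx := hS.reg x hx
    set F : E → ℝ := fun u => |S.cc x (un u)| * (S.RS h x (un u) - (S.RS (M1 S π a f₁ f₃) x (un u) +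
      S.RS (M2 S π β f₂) x (un u) + c * S.RS (S.ig π) x (un u))) with hF
    have i0 := ca.iu S π _ x hS hπ hh gx
    have i1 := ca.iu S π _ x hS hπ k1 gx
    have i2 := ca.iu S π _ x hS hπ k2 gx
    have i3 := (ca.iu S π _ x hS hπ k3 gx).const_mul c
    have eF : (fun u => gam u * F u) = fun u => gam u * (|S.cc x (un u)| * S.RS h x (un u)) -
        (gam u * (|S.cc x (un u)| * S.RS (M1 S π a f₁ f₃) x (un u)) +
          gam u * (|S.cc x (un u)| * S.RS (M2 S π β f₂) x (un u)) +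
          c * (gam u * (|S.cc x (un u)| * S.RS (S.ig π) x (un u)))) := by
      funext u; simp only [hF]; ring
    have iF : Integrable fun u => gam u * F u := by
      rw [eF]; exact i0.sub ((i1.add i2).add i3)
    have vF : ∫ u, gam u * F u = S.AV h x - (S.AV (M1 S π a f₁ f₃) x + S.AV (M2 S π β f₂) x +
        c * S.AV (S.ig π) x) := by
      have := int4 i1 i2 i3 iF
      have e2 : ∀ u, gam u * (|S.cc x (un u)| * S.RS (M1 S π a f₁ f₃) x (un u)) +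
          gam u * (|S.cc x (un u)| * S.RS (M2 S π β f₂) x (un u)) +
          c * (gam u * (|S.cc x (un u)| * S.RS (S.ig π) x (un u))) + gam u * F u =
          gam u * (|S.cc x (un u)| * S.RS h x (un u)) := fun u => by simp only [hF]; ring
      simp only [e2] at this
      rw [integral_const_mul] at this
      unfold Sf.AV
      linarith
    have pF : ∀ u, u ≠ 0 → 0 < F u → ‖x‖ ≤ 2 * π.R ∧ 9 / 10 ≤ S.cc x (un u) ^ 2 ∧
        ∃ T : Finset ℝ, (∀ l ∈ T, S.Hit (x, un u, l) ∧ l ≤ 2 * π.ε ∧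
          π.η ^ 2 / 2 ≤ S.cs2 (x, un u, l)) ∧ F u ≤ ∑ l ∈ T, π.cu (S.cs2 (x, un u, l)) *
          (f₄ x * (l ^ 2 * S.A2 (x + l • un u)) + f₅ x * S.cs2 (x, un u, l)) := by
      intro u hu hp
      have hp' := (pos_iff_pos_of_mul_pos hp).1
        ((abs_nonneg _).lt_of_ne fun h0 => by simp [hF, ← h0] at hp)
      obtain ⟨r1, r2, T, r3, r4⟩ := pw nsc unq hG hβ ha hb hh h₁ h₂ h₃ h₅ H hx (norm_un hu) hp'
      exact ⟨r1, r2, T, r3, le_trans (mul_le_of_le_one_left hp'.le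
        (S.abs_cc_le x (norm_un hu))) r4⟩
    have n4 := (h₄ x gx).2
    have n5 := (h₅ x gx).2
    suffices ∫ u, gam u * F u ≤ (ball (0 : E) (3 * π.R + 3)).indicator
        (fun x => C₃ * (e₀ * f₄ x + (Λ + e₀) * f₅ x)) x by linarith
    by_cases hq : ‖x‖ ≤ 2 * π.R ∧ (f₄ x ≠ 0 ∨ f₅ x ≠ 0)
    · rw [indicator_of_mem (mem_ball_zero_iff.2 (by linarith [hq.1, hπ.R1]))]
      refine (cub S π Λ e₀ x F hG hx hq.1 (hE x hx hq.1 hq.2) iF _ _ n4 n5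
        fun u hu hp => (pF u hu hp).2).trans (le_of_eq (by ring))
    · refine le_trans (integral_nonpos fun u => ?_) (indicator_apply_nonneg fun _ => by positivity)
      by_cases hu : u = 0
      · simp [hu, Ca.gam_small]
      · refine mul_nonpos_of_nonneg_of_nonpos (gam_nn u) (not_lt.1 fun hp => ?_)
        obtain ⟨r1, -, T, -, r4⟩ := pF u hu hp
        have : f₄ x = 0 ∧ f₅ x = 0 := by
          by_contra h'
          exact hq ⟨r1, not_and_or.1 h'⟩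
        simp only [this.1, this.2, zero_mul, add_zero, mul_zero, Finset.sum_const_zero] at r4
        exact absurd hp (not_lt.2 r4)
  -- integrate over the base point
  have j0 := ca.avi S π _ hS hπ hh
  have j1 := ca.avi S π _ hS hπ k1
  have j2 := ca.avi S π _ hS hπ k2
  have j3 := (ca.avi S π _ hS hπ k3).const_mul c
  have j4 := (intOn hS h₄ (3 * π.R + 3)).const_mul e₀
  have j5 := (intOn hS h₅ (3 * π.R + 3)).const_mul (Λ + e₀)
  have j6 : Integrable ((ball (0 : E) (3 * π.R + 3)).indicator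
      fun x => C₃ * (e₀ * f₄ x + (Λ + e₀) * f₅ x)) S.μ :=
    (integrable_indicator_iff measurableSet_ball).2 ((j4.add j5).const_mul C₃)
  have main : S.II h ≤ S.II (M1 S π a f₁ f₃) + S.II (M2 S π β f₂) + c * S.II (S.ig π) +
      C₃ * (e₀ * S.IB π f₄ + (Λ + e₀) * S.IB π f₅) := by
    refine (integral_mono_ae j0 (((j1.add j2).add j3).add j6) (hS.sup.mono step)).trans
      (le_of_eq ?_)
    simp only [Pi.add_apply]
    rw [int4 j1 j2 j3 j6,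
      integral_const_mul, integral_indicator measurableSet_ball, integral_const_mul,
      integral_add j4 j5, integral_const_mul, integral_const_mul]
    rfl
  have cg0 : S.Cg fun _ => 0 := fun _ _ => ⟨continuousAt_const, le_rfl⟩
  have cgm : ∀ {f : E → ℝ}, S.Cg f → S.Cg fun x => 256 * f x := fun hf x hx =>
    ⟨continuousAt_const.mul (hf x hx).1, mul_nonneg (by norm_num) (hf x hx).2⟩
  have IBm : ∀ f : E → ℝ, S.IB π (fun x => 256 * f x) = 256 * S.IB π f := fun f =>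
    integral_const_mul _ _
  have IB0 : S.IB π (fun _ => 0) = 0 := integral_zero _ _
  have h₁' : S.Cg fun x => f₁ x + a * π.ε ^ 2 := fun x hx =>
    ⟨(h₁ x hx).1.add continuousAt_const, add_nonneg (h₁ x hx).2 (by positivity)⟩
  have b1 := tr S π Λ 1 _ _ _ _ hG one_pos k1 (cgm h₁') cg0 (cgm h₃) fun z zh zb hp => by
    have hz : S.zg π z ≠ 0 := fun h0 => by simp [M1, h0] at hp
    refine ⟨(zg_ne hπ hz).1, by linarith [S.cs2_nonneg z], ?_⟩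
    obtain ⟨T, -, hs⟩ := unq.ns S π Λ z hG zh zb
    have e : S.NS π (fun z' => π.cu (S.cs2 z') * (256 * f₃ (yy z'))) z =
        256 * S.NS π (fun z' => π.cu (S.cs2 z') * f₃ (yy z')) z := by
      rw [hs _ fun z' _ h => by rw [cu_van hπ h, zero_mul],
        hs _ fun z' _ h => by rw [cu_van hπ h, zero_mul], Finset.mul_sum]
      exact Finset.sum_congr rfl fun l _ => by ring
    rw [e, M1]
    have := mul_le_mul_of_nonneg_right (zg_sq_le S π z)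
      (add_nonneg (h₁' _ (hS.reg _ zh.1)).2 (NS_nn unq hG h₃ zh zb))
    linarith
  have b2 := tr S π Λ (√2 * β) _ _ _ _ hG (by positivity) k2 cg0 (cgm h₂) cg0 fun z zh zb hp => by
    have hz : S.zg π z ≠ 0 := fun h0 => by simp [M2, h0] at hp
    have hz2 : ct ((1 - S.cs2 z) / β ^ 2) ≠ 0 := fun h0 => by simp [M2, h0] at hp
    have h3 := ct_lt hz2
    rw [div_lt_iff₀ (by positivity)] at h3
    refine ⟨(zg_ne hπ hz).1, by rw [mul_pow, Real.sq_sqrt (by norm_num)]; exact h3.le, ?_⟩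
    have h4 := NS_nn unq hG cg0 zh zb
    have h5 := (h₂ _ (hS.reg _ zh.2.2.2)).2
    have h6 := zg_sq_le S π z
    have h7 : S.cs2 z ^ 4 ≤ 1 := pow_le_one₀ (S.cs2_nonneg z) (S.cs2_le zh.2.1)
    have h8 : M2 S π β f₂ z ≤ 256 * (1 * f₂ (yy z)) :=
      mul_le_mul (by linarith) (mul_le_mul_of_nonneg_right (ct_le _) h5)
        (mul_nonneg (ct_nn _) h5) (by norm_num)
    have := mul_nonneg (pow_nonneg (S.cs2_nonneg z) 4) h4
    simp only [zero_add]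
    linarith
  have b3 := (gn S π Λ hG).1
  rw [IBm, IBm, IB0] at b1
  rw [IBm, IB0, mul_pow, Real.sq_sqrt (by norm_num)] at b2
  have cA : S.Cg fun x => 1 + S.A2 x := fun x hx =>
    ⟨continuousAt_const.add (cg_A2 hS x hx).1, add_nonneg zero_le_one (S.A2_nonneg x)⟩
  have cc : S.Cg fun _ => a * π.ε ^ 2 := fun _ _ => ⟨continuousAt_const, by positivity⟩
  have b4 : S.IB π (fun x => f₁ x + a * π.ε ^ 2) ≤ S.IB π f₁ + a * π.ε ^ 2 * S.AA π := by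
    rw [Sf.IB, integral_add (intOn hS h₁ _) (intOn hS cc _), Sf.AA, Sf.IB, Sf.IB,
      ← integral_const_mul]
    refine add_le_add_right (integral_mono (intOn hS cc _) ((intOn hS cA _).const_mul _)
      fun x => le_mul_of_one_le_right (by positivity) ?_) _
    linarith [S.A2_nonneg x]
  have p1 := mul_nonneg (sq_nonneg π.α) (IB_nn hS π h₁)
  have p2 := mul_nonneg (sq_nonneg β) (IB_nn hS π h₂)
  have p3 := IB_nn hS π h₃
  have pA : 0 ≤ S.AA π := IB_nn hS π cA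
  have p4 : 0 ≤ a * π.ε ^ 2 * S.AA π := by positivity
  have p5 := mul_nonneg hb pA
  have p6 := mul_nonneg he (IB_nn hS π h₄)
  have p7 := mul_nonneg (add_nonneg hΛ he) (IB_nn hS π h₅)
  have a1 : π.α ^ 2 ≤ 1 := by nlinarith [hπ.α0, hπ.α1]
  have b5 : π.α ^ 2 * (256 * S.IB π fun x => f₁ x + a * π.ε ^ 2) ≤
      256 * (π.α ^ 2 * S.IB π f₁ + a * π.ε ^ 2 * S.AA π) := by
    nlinarith [mul_le_mul_of_nonneg_left b4 (sq_nonneg π.α)]
  have b6 := mul_le_mul_of_nonneg_left b3 (show 0 ≤ c by positivity)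
  set t1 := π.α ^ 2 * S.IB π f₁
  set t2 := β ^ 2 * S.IB π f₂
  set t3 := S.IB π f₃
  set t4 := a * π.ε ^ 2 * S.AA π
  set t5 := b * S.AA π
  set t6 := e₀ * S.IB π f₄
  set t7 := (Λ + e₀) * S.IB π f₅
  have u1 : S.II (M1 S π a f₁ f₃) ≤ C₁ * (256 * (t1 + t4 + t3)) :=
    b1.trans (mul_le_mul_of_nonneg_left (by linarith) hC₁.le)
  have u2 : S.II (M2 S π β f₂) ≤ C₁ * (512 * t2) :=
    b2.trans (le_of_eq (by simp only [t2]; ring))
  have u3 : c * S.II (S.ig π) ≤ C₂ * (6 * t5 + 24 * t4) :=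
    b6.trans (le_of_eq (by simp only [t4, t5, hc]; ring))
  nlinarith [mul_nonneg hC₁.le p1, mul_nonneg hC₁.le p2, mul_nonneg hC₁.le p3,
    mul_nonneg hC₁.le p4, mul_nonneg hC₁.le p5, mul_nonneg hC₁.le p6, mul_nonneg hC₁.le p7,
    mul_nonneg hC₂.le p1, mul_nonneg hC₂.le p2, mul_nonneg hC₂.le p3,
    mul_nonneg hC₂.le p4, mul_nonneg hC₂.le p5, mul_nonneg hC₂.le p6, mul_nonneg hC₂.le p7,
    mul_nonneg hC₃.le p1, mul_nonneg hC₃.le p2, mul_nonneg hC₃.le p3,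
    mul_nonneg hC₃.le p4, mul_nonneg hC₃.le p5]

end Vale.Agent.P218M1
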