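import Vale.Agent.P218M1.BbA
import Vale.Agent.P218M1.Me

/-!
# P218M1, row BB: the energy below a window
-/

open MeasureTheory Metric Filter Topology Set
open scoped ContDiff RealInnerProductSpace ENNReal

noncomputable section

namespace Vale.Agent.P218M1

namespace Bb

open Sf

variable {S : Sf} {π : Par} {Λ : ℝ} {η : E → ℝ} {th : ℝ → ℝ} {z : Q} {k : ℕ} {f g : Q → ℝ}

/-! ### the class of integrands, and linearity -/

theorem cl_add (hf : S.Cl π k f) (hg : S.Cl π k g) : S.Cl π k fun z => f z + g z :=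
  ⟨fun z hz => (hf.sm z hz).add (hg.sm z hz), fun z h1 h2 h3 => by
    rw [hf.bx z h1 h2 h3, hg.bx z h1 h2 h3, add_zero]⟩

theorem cl_smul (c : ℝ) (hf : S.Cl π k f) : S.Cl π k fun z => c * f z :=
  ⟨fun z hz => contDiffAt_const.mul (hf.sm z hz), fun z h1 h2 h3 => by
    rw [hf.bx z h1 h2 h3, mul_zero]⟩

theorem sm_VD (hS : S.Ok) (hz : z ∈ S.O) (e : E) : ContDiffAt ℝ ∞ (S.VD e) z := by
  unfold VD
  simp only [Pi_apply]
  exact (contDiffAt_const.sub (((Gx.sm_p hS contDiffAt_fst Gx.sm_θ hz.1).inner ℝ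
    contDiffAt_const).smul Gx.sm_θ)).prodMk
    (contDiffAt_const.prodMk ((Gx.sm_Pv hS hz).inner ℝ contDiffAt_const))

theorem cl_D (hS : S.Ok) (hf : S.Cl π 1 f) (e : E) : S.Cl π 0 (S.D e f) := by
  refine ⟨fun z hz => ?_, fun z h1 h2 h3 => ?_⟩
  · exact ((hf.sm z hz).fderiv_right (m := (0 : ℕ)) (by simp)).clm_apply
      ((sm_VD hS hz e).of_le (cast_le_inf 0))
  · have h : f =ᶠ[𝓝 z] fun _ => 0 :=
      (Ca.ev_nbox hS h1 h2 h3).mono fun y hy => hf.bx y hy.1 hy.2.1 hy.2.2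
    unfold Sf.D
    rw [h.fderiv_eq]
    simp

theorem II_add (ca : CA) (hG : Good S π Λ) (hf : S.Cl π 0 f) (hg : S.Cl π 0 g) :
    S.II (fun z => f z + g z) = S.II f + S.II g := by
  have hS := hG.ok
  unfold II
  rw [← integral_add (ca.avi S π f hS hG.rg hf) (ca.avi S π g hS hG.rg hg)]
  refine integral_congr_ae (hS.sup.mono fun x hx => ?_)
  have hx' := hS.reg x hx
  simp only [AV]
  rw [← integral_add (ca.iu S π f x hS hG.rg hf hx') (ca.iu S π g x hS hG.rg hg hx')]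
  refine integral_congr_ae (Eventually.of_forall fun v => ?_)
  by_cases hv : v = 0
  · simp [hv, gam_zero]
  obtain ⟨H, -, hH⟩ := Me.hits hG hx (norm_un hv)
  simp only [hH _ (cl_add hf hg), hH _ hf, hH _ hg, Finset.sum_add_distrib]
  ring

theorem II_smul (hG : Good S π Λ) (c : ℝ) (hf : S.Cl π 0 f) :
    S.II (fun z => c * f z) = c * S.II f := by
  unfold II
  rw [← integral_const_mul]
  refine integral_congr_ae (hG.ok.sup.mono fun x hx => ?_)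
  simp only [AV]
  rw [← integral_const_mul]
  refine integral_congr_ae (Eventually.of_forall fun v => ?_)
  by_cases hv : v = 0
  · simp [hv, gam_zero]
  obtain ⟨H, -, hH⟩ := Me.hits hG hx (norm_un hv)
  simp only [hH _ (cl_smul c hf), hH _ hf, ← Finset.mul_sum]
  ring

theorem sm_hs {L : Q → E →L[ℝ] E} (h : ContDiffAt ℝ ∞ L z) :
    ContDiffAt ℝ ∞ (fun z => hs (L z)) z :=
  ContDiffAt.sum fun _ _ => (h.clm_apply contDiffAt_const).norm_sq ℝ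

section cl

variable (K : Kit) (hS : S.Ok) (hπ : π.Rg) (hη : ContDiff ℝ ∞ η) (ht : ContDiff ℝ ∞ th)
include K hS hπ hη ht

theorem cl_fi (i : Fin 3) : S.Cl π 1 (fi S π η th i) := by
  refine ⟨fun z hz => ((sm_zB K.nsc hS hπ hη ht hz).pow 2).mul
    ((Gx.sm_co (sm_Vf hS hz) i).of_le (cast_le_inf 1)), fun z _ _ h => ?_⟩
  have : zB S π η th z = 0 := by_contra fun h' => h ((su_zB hπ h').box hπ)
  simp [fi, this]

theorem cl_i1 : S.Cl π 0 (i1 S π η th) := by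
  rw [funext (i1_eq S π η th)]
  refine ⟨fun z hz => (((sm_zB K.nsc hS hπ hη ht hz).of_le (by simp)).pow 2).mul
    ((sm_hs (Gx.sm_Z hS hz)).of_le (cast_le_inf 0)), fun z _ _ h => ?_⟩
  have : zB S π η th z = 0 := by_contra fun h' => h ((su_zB hπ h').box hπ)
  simp [this]

theorem cl_i2 : S.Cl π 0 (i2 S π η th) := by
  unfold i2
  simp only [← u_sq, inner_P]
  refine ⟨fun z hz => (((sm_u K.nsc hS hπ hη ht hz).pow 2).mul
    ((G2_cd (by norm_num)).contDiffAt.comp z ((sm_tt hS hz).of_le (cast_le_inf 0)))).mul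
    ((((sm_gt hS hz).norm_sq ℝ).sub (((Gx.sm_n hS contDiffAt_fst (O.g1 hz)).inner ℝ
      (sm_gt hS hz)).pow 2)).of_le (cast_le_inf 0)), fun z _ _ h => ?_⟩
  by_contra h'
  have h1 := left_ne_zero_of_mul h'
  exact h ((su hπ (pow_ne_zero_iff two_ne_zero |>.1 (left_ne_zero_of_mul h1))
    (lt_of_G2_ne (right_ne_zero_of_mul h1))).box hπ)

end cl

theorem II_hh (K : Kit) (hG : Good S π Λ) (hη : ContDiff ℝ ∞ η) (ht : ContDiff ℝ ∞ th) (d₁ : ℝ) :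
    S.Cl π 0 (hh S π η th d₁) ∧
      S.II (hh S π η th d₁) = 1 / 2 * S.Bb π η th - 3840 * (d₁ ^ 2 * S.S2 π η th) := by
  have hS := hG.ok
  have hπ := hG.rg
  have c1 := cl_i1 K hS hπ hη ht
  have c2 := cl_i2 K hS hπ hη ht
  have c3 := fun i => cl_D hS (cl_fi K hS hπ hη ht i) (ee i)
  have c4 := fun i => K.byd S π _ (ee i) hS hπ (cl_fi K hS hπ hη ht i)
  have c5 := cl_add (cl_add (c3 0) (c3 1)) (c3 2)
  have c6 := cl_add (cl_smul (1 / 2) c1) c5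
  unfold hh
  simp only [Fin.sum_univ_three]
  refine ⟨cl_add c6 (cl_smul _ c2), ?_⟩
  rw [II_add K.ca hG c6 (cl_smul _ c2), II_add K.ca hG (cl_smul _ c1) c5,
    II_add K.ca hG (cl_add (c3 0) (c3 1)) (c3 2), II_add K.ca hG (c3 0) (c3 1), c4, c4, c4,
    II_smul hG _ c1, II_smul hG _ c2]
  change 1 / 2 * S.Bb π η th + _ + _ * S.S2 π η th = _
  ring

/-! ### the majorant -/

theorem NS_le (unq : UNQ) (hG : Good S π Λ) (hH : S.Hit z) (hb : S.Box π z) {c : ℝ} (hc : 0 ≤ c) :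
    c * S.NS π (fun z' => π.cu (S.cs2 z') * S.A2 (yy z')) z ≤
      S.NS π (fun z' => π.cu (S.cs2 z') * (c * (1 + S.A2 (yy z')))) z := by
  obtain ⟨T, -, hT⟩ := unq.ns S π Λ z hG hH hb
  rw [hT _ fun y _ h => by rw [hG.rg.cu_zero h.le, zero_mul],
    hT _ fun y _ h => by rw [hG.rg.cu_zero h.le, zero_mul], Finset.mul_sum]
  refine Finset.sum_le_sum fun l _ => ?_
  nlinarith [mul_nonneg hc (Par.cu_nonneg (π := π) (S.cs2 (z.1, z.2.1, l)))]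

theorem fin2 {A B W p1 p2 q qa ax ay dg n x1 x2 x3 x4 x5 x6 x7 x8 : ℝ} (hA : 0 ≤ A) (hB : 0 ≤ B)
    (hW : 0 ≤ W) (h1 : 0 ≤ p1) (h2 : 0 ≤ p2) (h3 : 0 ≤ q) (h4 : 0 ≤ qa) (h5 : 0 ≤ ax)
    (h6 : 0 ≤ ay) (h7 : 0 ≤ dg) (h8 : 0 ≤ n) (a1 : x1 ≤ ay) (a2 : x2 ≤ 4 * q) (a3 : x3 ≤ 2 * q)
    (a4 : x4 ≤ A * q) (a5 : x5 ≤ dg) (a6 : x6 ≤ A * ax) (a7 : x7 ≤ B * n)
    (a8 : x8 ≤ W * (128 * ay + 16 * ax)) :
    36 * 10 ^ 7 * (p1 + p2 + x1 + x2 + x3) +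
        6912 * (64 * (33 * x4 + 2 * x5 + 128 * x6 + 4 * x7) + 8 * x8) ≤
      10 ^ 10 * (1 + A + B + W) * (p1 + (qa + ax) + dg + p2 + (q + ay) + n) := by
  have c : ∀ {X : ℝ}, 0 ≤ X → 0 ≤ A * X ∧ 0 ≤ B * X ∧ 0 ≤ W * X := fun h =>
    ⟨mul_nonneg hA h, mul_nonneg hB h, mul_nonneg hW h⟩
  obtain ⟨_, _, _⟩ := c h1
  obtain ⟨_, _, _⟩ := c h2
  obtain ⟨_, _, _⟩ := c h3
  obtain ⟨_, _, _⟩ := c h4
  obtain ⟨_, _, _⟩ := c h5
  obtain ⟨_, _, _⟩ := c h6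
  obtain ⟨_, _, _⟩ := c h7
  obtain ⟨_, _, _⟩ := c h8
  linarith

theorem pw (K : Kit) {CN Cw e₀ d₁ d₂ L q : ℝ} {gb ga ch : ℝ → ℝ} (hCN : 0 ≤ CN) (hG : Good S π Λ)
    (hη : S.Eta π e₀ η) (hw : Win Cw d₁ d₂ L th gb ga ch)
    (hq : q = d₁ ^ 2 * π.R ^ 2 + π.ε ^ 2 + 1 / L ^ 2) (hH : S.Hit z) (hb : S.Box π z)
    (nb : S.N π z ≤ 4 → ‖S.DG (S.N π) z‖ ^ 2 ≤
      CN * S.NS π (fun z' => π.cu (S.cs2 z') * S.A2 (yy z')) z)
    (pos : 0 < hh S π η th d₁ z) : S.Sq π z ∧ hh S π η th d₁ z ≤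
      10 ^ 10 * (1 + Cc ^ 2 + Cc ^ 2 * CN + Cw ^ 2) * (S.φ z.1 ^ 2 +
        q / π.α ^ 2 * (1 + S.A2 z.1) + d₁ ^ 2 * ‖gradient η z.1‖ ^ 2 + S.φ (yy z) ^ 2 +
        q * (1 + S.A2 (yy z)) + q * S.NS π (fun z' => π.cu (S.cs2 z') * S.A2 (yy z')) z) := by
  have hS := hG.ok
  have hπ := hG.rg
  have hz := Ca.box_O hπ hb
  have hθ := hH.2.1
  have hd : DifferentiableAt ℝ (zB S π η th) z :=
    (sm_zB K.nsc hS hπ hη.sm hw.sth hz).differentiableAt (by simp)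
  have h := su_zB hπ (hh_ne K hS hz hd pos)
  refine ⟨h.sq hπ, ?_⟩
  have s1 : S.sq z < d₁ ^ 2 := lt_of_not_ge fun h' => h.s (hw.thz _ h')
  have d1 : d₁ ^ 2 ≤ 1 / 4 := by nlinarith [hw.d0, hw.d12, hw.d1h]
  refine (hh_le K hS hπ hz hθ hd h (hb_u K hG hη.sm hη.nn hη.le hw.sth hw.th0 hw.th1 hH h
    (by linarith)) s1.le).trans ?_
  have s0 := sq_nonneg' S z
  have ax := A2_nonneg S z.1
  have ay := A2_nonneg S (yy z)
  have n0 := Me.NS_nn K.unq hG (Me.cg_A2 hS) hH hb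
  have n1 := nb (by linarith [h.n])
  have hR : 1 ≤ π.R ^ 2 := by nlinarith [hπ.R1]
  have e0 := hπ.ε2.1
  have l0 : 0 < L := by linarith [hw.L1]
  have l1 : 0 < 1 / L ^ 2 := by positivity
  have q1 : d₁ ^ 2 * π.R ^ 2 ≤ q := by linarith
  have q2 : S.sq z * π.R ^ 2 ≤ q := (mul_le_mul_of_nonneg_right s1.le (by positivity)).trans q1
  have q3 : S.sq z ≤ q := (le_mul_of_one_le_right s0 hR).trans q2
  have q0 : 0 ≤ q := s0.trans q3
  have q4 : 1 / L ^ 2 ≤ q := by nlinarith [mul_nonneg (sq_nonneg d₁) (sq_nonneg π.R)]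
  have q5 : π.ε ^ 2 ≤ q := by nlinarith [mul_nonneg (sq_nonneg d₁) (sq_nonneg π.R)]
  have q6 : q ≤ q / π.α ^ 2 := le_div_self q0 hπ.α2.1 (by linarith [hπ.α2.2])
  have t1 : (S.sq z * deriv th (S.sq z)) ^ 2 ≤ Cw ^ 2 * q := by
    rcases s0.eq_or_lt with h0 | h0
    · rw [← h0, zero_mul, zero_pow two_ne_zero]; positivity
    have t2 : |S.sq z * deriv th (S.sq z)| ≤ Cw / L := by
      rw [abs_mul, abs_of_pos h0]
      refine (mul_le_mul_of_nonneg_left (hw.thd _ h0) h0.le).trans (le_of_eq ?_)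
      field_simp
    refine (sq_le_sq' (neg_le_of_abs_le t2) (le_of_abs_le t2)).trans ?_
    rw [div_pow, div_eq_mul_one_div]
    exact mul_le_mul_of_nonneg_left q4 (sq_nonneg _)
  have z1 : hs (S.Z z) ≤ 128 * S.A2 (yy z) + 16 * S.A2 z.1 := by
    linarith [hs_Z_le S z, hS.hs_X1_le hz hθ hb.2.2.2.1, hS.hs_X2_le hz hθ h.c2.le]
  have key := fin2 (A := Cc ^ 2) (B := Cc ^ 2 * CN) (W := Cw ^ 2) (p1 := S.φ z.1 ^ 2)
    (p2 := S.φ (yy z) ^ 2) (q := q) (qa := q / π.α ^ 2) (ax := q / π.α ^ 2 * S.A2 z.1)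
    (ay := q * S.A2 (yy z)) (dg := d₁ ^ 2 * ‖gradient η z.1‖ ^ 2)
    (n := q * S.NS π (fun z' => π.cu (S.cs2 z') * S.A2 (yy z')) z)
    (x1 := S.sq z * S.A2 (yy z)) (x2 := z.2.2 ^ 2) (x3 := ‖z.1‖ ^ 2 * S.sq z)
    (x4 := Cc ^ 2 * (S.sq z * π.R ^ 2)) (x5 := S.sq z * ‖gradient η z.1‖ ^ 2)
    (x6 := Cc ^ 2 * (S.sq z / π.α ^ 2 * S.A2 z.1)) (x7 := Cc ^ 2 * (S.sq z * ‖S.DG (S.N π) z‖ ^ 2))
    (x8 := (S.sq z * deriv th (S.sq z)) ^ 2 * hs (S.Z z))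
    (by positivity) (by positivity) (by positivity) (by positivity) (by positivity) q0
    (by positivity) (by positivity) (by positivity) (by positivity) (by positivity)
    (mul_le_mul_of_nonneg_right q3 ay) (by nlinarith [h.d2 hπ, hz.2.2])
    (by linarith [mul_le_mul_of_nonneg_right h.x.le s0])
    (mul_le_mul_of_nonneg_left q2 (sq_nonneg _)) (mul_le_mul_of_nonneg_right s1.le (sq_nonneg _))
    (by gcongr)
    ((mul_le_mul_of_nonneg_left (mul_le_mul q3 n1 (sq_nonneg _) q0) (sq_nonneg _)).trans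
      (le_of_eq (by ring)))
    ((mul_le_mul t1 z1 (hs_nonneg _) (by positivity)).trans (by
      have := mul_le_mul_of_nonneg_left (mul_le_mul_of_nonneg_right q6 ax) (sq_nonneg Cw)
      linarith))
  refine (le_of_eq ?_).trans (key.trans (le_of_eq ?_))
  · unfold mu; ring
  · ring

theorem cg_φ (hS : S.Ok) : S.Cg fun x => S.φ x ^ 2 := by
  intro x hx
  refine ⟨?_, sq_nonneg _⟩
  have h1 := Ca.cont_n hS hx
  have h2 := hS.sD2.continuous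
  have h3 := hS.sg.continuous
  have h4 : ContinuousAt (fun x => ‖S.g x‖⁻¹) x :=
    h3.continuousAt.norm.inv₀ (norm_ne_zero_iff.2 hx)
  unfold Sf.φ Sf.H
  simp only [trc_eq_inner, Sf.A_apply, Sf.P_apply]
  fun_prop

theorem cg_add {f g : E → ℝ} (hf : S.Cg f) (hg : S.Cg g) : S.Cg fun x => f x + g x :=
  fun x hx => ⟨(hf x hx).1.add (hg x hx).1, add_nonneg (hf x hx).2 (hg x hx).2⟩

theorem cg_smul {f : E → ℝ} {c : ℝ} (hc : 0 ≤ c) (hf : S.Cg f) : S.Cg fun x => c * f x :=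
  fun x hx => ⟨continuousAt_const.mul (hf x hx).1, mul_nonneg hc (hf x hx).2⟩

theorem IB_add (hS : S.Ok) {f g : E → ℝ} (hf : S.Cg f) (hg : S.Cg g) :
    S.IB π (fun x => f x + g x) = S.IB π f + S.IB π g :=
  integral_add (Me.intOn hS hf _) (Me.intOn hS hg _)

theorem S2_nonneg (hS : S.Ok) : 0 ≤ S.S2 π η th :=
  integral_nonneg_of_ae (hS.sup.mono fun x hx => integral_nonneg fun v => mul_nonneg (gam_nonneg _)
    (mul_nonneg (abs_nonneg _) (finsum_nonneg fun d => finsum_nonneg fun _ =>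
      i2_nonneg (z := (x, un v, d)) (hS.reg x hx))))

theorem fin3 {k a P X Y Z B : ℝ} (hk : 0 ≤ k) (a1 : a ≤ 1) (hP : 0 ≤ P) (hX : 0 ≤ X)
    (hY : 0 ≤ Y) (hZ : 0 ≤ Z) (h : 1 / 2 * B - 3840 * Z ≤ k * (a * (P + Y) + P + 3 * X)) :
    B ≤ (6 * k + 7680) * (P + X + Y + Z) := by
  have h1 := mul_le_mul_of_nonneg_left (mul_le_of_le_one_left (add_nonneg hP hY) a1) hk
  have h2 := mul_nonneg hk hP
  have h3 := mul_nonneg hk hY
  have h4 := mul_nonneg hk hZ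
  linarith

theorem IB_smul (c : ℝ) (f : E → ℝ) : S.IB π (fun x => c * f x) = c * S.IB π f :=
  integral_const_mul _ _

end Bb

open Bb in
/-- **BB** -/
theorem bb (K : Kit) : BB := by
  intro Cw
  obtain ⟨C, hC, me⟩ := K.me
  obtain ⟨CN, hCN, nb⟩ := K.nb
  obtain ⟨c, hc⟩ : ∃ c, c = 10 ^ 10 * (1 + Cc ^ 2 + Cc ^ 2 * CN + Cw ^ 2) := ⟨_, rfl⟩
  have c0 : 0 < c := by rw [hc]; positivity
  refine ⟨6 * (C * c) + 7680, by positivity, fun S π Λ e₀ d₁ d₂ L η th gb ga ch hG hη hw => ?_⟩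
  have hS := hG.ok
  have hπ := hG.rg
  obtain ⟨q, hq⟩ : ∃ q, q = d₁ ^ 2 * π.R ^ 2 + π.ε ^ 2 + 1 / L ^ 2 := ⟨_, rfl⟩
  have q0 : 0 ≤ q := by rw [hq]; positivity
  obtain ⟨cl, hI⟩ := II_hh K hG hη.sm hw.sth d₁
  have g1 := cg_φ hS
  have g2 : S.Cg fun x => 1 + S.A2 x := cg_add (fun _ _ => ⟨continuousAt_const, zero_le_one⟩)
    (Me.cg_A2 hS)
  have g3 : S.Cg fun x => ‖gradient η x‖ ^ 2 := fun x _ =>
    ⟨((contDiff_grad hη.sm).continuous.norm.pow 2).continuousAt, sq_nonneg _⟩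
  have g0 : S.Cg fun _ => 0 := fun _ _ => ⟨continuousAt_const, le_rfl⟩
  have a0 := hπ.α2.1
  have g4 := cg_smul (c := q / π.α ^ 2) (by positivity) g2
  have g5 := cg_smul (sq_nonneg d₁) g3
  have g6 := cg_smul q0 g2
  have h := me S π Λ 1 0 0 0 _ _ _ _ _ _ hG one_pos le_rfl le_rfl le_rfl cl
    (cg_smul c0.le (cg_add (cg_add g1 g4) g5)) (cg_smul c0.le (cg_add g1 g6))
    (cg_smul (mul_nonneg c0.le q0) g2) g0 g0 (fun x _ _ h => by simp at h) fun z hH hb pos => by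
      obtain ⟨h1, h2⟩ := pw K hCN.le hG hη hw hq hH hb (fun h => (nb S π Λ z hG hH hb h).1) pos
      refine ⟨h1, by linarith [Sf.cs2_nonneg S z], ?_⟩
      have h3 := NS_le K.unq hG hH hb (mul_nonneg c0.le q0)
      rw [← hc] at h2
      linarith
  rw [hI, IB_smul, IB_smul, IB_smul, IB_add hS (cg_add g1 g4) g5, IB_add hS g1 g4,
    IB_add hS g1 g6, IB_smul, IB_smul, IB_smul] at h
  have p1 : 0 ≤ S.PP π := Me.IB_nn hS π g1
  have p2 : 0 ≤ S.AA π := Me.IB_nn hS π g2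
  have p3 : 0 ≤ S.GE π η := Me.IB_nn hS π g3
  rw [← hq]
  refine fin3 (a := π.α ^ 2) (by positivity) (by linarith [hπ.α2.2]) p1 (mul_nonneg p2 q0)
    (mul_nonneg (sq_nonneg _) p3) (mul_nonneg (sq_nonneg _) (S2_nonneg hS)) (h.trans (le_of_eq ?_))
  change C * (π.α ^ 2 * (c * (S.PP π + q / π.α ^ 2 * S.AA π + d₁ ^ 2 * S.GE π η)) +
    1 ^ 2 * (c * (S.PP π + q * S.AA π)) + c * q * S.AA π + _ + _ + _ + _) = _
  have h0 : S.IB π (fun _ => 0) = 0 := by simp [Sf.IB]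
  have a1 := hπ.α0.ne'
  rw [h0]
  field_simp
  ring

end Vale.Agent.P218M1
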