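import Vale.Agent.P218M1.Cut
import Vale.Agent.P218M1.Gx

/-!
# P218M1: the functional and the fractions
-/

set_option linter.all false

open MeasureTheory Metric Filter Topology Set
open scoped ContDiff RealInnerProductSpace ENNReal

noncomputable section

namespace Vale.Agent.P218M1

namespace Da

open Sf

variable {S : Sf} {π : Par} {Λ : ℝ} {z : Q}

/-! ### regularity -/

theorem sm_cc (hS : S.Ok) (hz : z ∈ S.O) (k : ℕ) :
    ContDiffAt ℝ k (fun z : Q => S.cc z.1 z.2.1) z :=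
  ((Gx.sm_n hS contDiffAt_fst (g_ne hz.1)).inner ℝ Gx.sm_θ).of_le (cast_le_inf k)

theorem sm_cs1 (hS : S.Ok) (hz : z ∈ S.O) (k : ℕ) : ContDiffAt ℝ k S.cs1 z :=
  (sm_cc hS hz k).pow 2

theorem sm_cs2 (hS : S.Ok) (hz : z ∈ S.O) (k : ℕ) : ContDiffAt ℝ k S.cs2 z :=
  (((Gx.sm_n hS Gx.sm_yy.contDiffAt (g_ne hz.2.1)).inner ℝ Gx.sm_θ).of_le (cast_le_inf k)).pow 2

theorem sm_tt (hS : S.Ok) (hz : z ∈ S.O) (k : ℕ) : ContDiffAt ℝ k (S.tt π) z :=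
  ((contDiffAt_snd.snd).mul ((Gx.sm_kk hS hz).of_le (cast_le_inf k))).div_const _

theorem sm_sq (hS : S.Ok) (hz : z ∈ S.O) (k : ℕ) : ContDiffAt ℝ k S.sq z :=
  ((Gx.sm_Pv hS hz).of_le (cast_le_inf k)).norm_sq ℝ

theorem sm_N (nsc : NSC) (hS : S.Ok) (hπ : π.Rg) (hz : z ∈ S.O) (k : ℕ) :
    ContDiffAt ℝ k (S.N π) z := by
  refine nsc.sm S π k _ hS hπ ⟨fun z hz => ?_, fun z _ h => ?_⟩ z hz
  · exact (Par.sg0_cd.contDiffAt.comp z (sm_cs2 hS hz k)).pow 2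
  · rw [hπ.sg0_zero (by linarith [hπ.η2.1])]; simp

theorem sm_o0 (nsc : NSC) (hS : S.Ok) (hπ : π.Rg) (hz : z ∈ S.O) (k : ℕ) :
    ContDiffAt ℝ k (S.o0 π) z :=
  (((Par.B0_cd.contDiffAt.comp z (sm_cs1 hS hz k)).mul
    (Par.K0_cd.contDiffAt.comp z (sm_cs2 hS hz k))).mul
    (ct_cd.contDiffAt.comp z (contDiffAt_const.mul (sm_N nsc hS hπ hz k)))).mul
    (Par.xi_cd.contDiffAt.comp z contDiffAt_snd.snd)

theorem sm_Wt (nsc : NSC) (hS : S.Ok) (hπ : π.Rg) (hz : z ∈ S.O) (k : ℕ) :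
    ContDiffAt ℝ k (S.Wt π) z :=
  (Par.W_cd.contDiffAt.comp z contDiffAt_fst).mul ((sm_o0 nsc hS hπ hz k).pow 2)

/-! ### supports -/

/-- the common support of the integrands -/
def Su (S : Sf) (π : Par) (z : Q) : Prop := ‖z.1‖ ≤ 2 * π.R ∧ S.o0 π z ≠ 0 ∧ S.tt π z < 1

theorem o0_ne (hπ : π.Rg) (h : S.o0 π z ≠ 0) : 1 - S.cs1 z < π.α ^ 2 ∧ 1 / 4 < S.cs2 z ∧
    S.N π z < 1 ∧ π.ρ / 2 < z.2.2 := by
  unfold o0 at h
  have h1 := left_ne_zero_of_mul h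
  have h2 := left_ne_zero_of_mul h1
  exact ⟨hπ.B0_ne (left_ne_zero_of_mul h2), Par.K0_ne (right_ne_zero_of_mul h2),
    by linarith [lt_of_ct_ne (right_ne_zero_of_mul h1)], hπ.xi_ne (right_ne_zero_of_mul h)⟩

theorem o0_nonneg (z : Q) : 0 ≤ S.o0 π z :=
  mul_nonneg (mul_nonneg (mul_nonneg (Par.B0_nonneg _) (Par.K0_nonneg _)) (ct_nonneg _))
    (Par.xi_nonneg _)

theorem o0_le (z : Q) : S.o0 π z ≤ π.B0 (S.cs1 z) := by
  unfold o0
  rw [mul_assoc, mul_assoc]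
  exact mul_le_of_le_one_right (Par.B0_nonneg _) (mul_le_one₀ (Par.K0_le _)
    (mul_nonneg (ct_nonneg _) (Par.xi_nonneg _)) (mul_le_one₀ (ct_le_one _) (Par.xi_nonneg _)
      (Par.xi_le _)))

theorem o0_sq_le (z : Q) : S.o0 π z ^ 2 ≤ 1 :=
  pow_le_one₀ (o0_nonneg z) ((o0_le z).trans (Par.B0_le _))

theorem Wt_nonneg (z : Q) : 0 ≤ S.Wt π z := mul_nonneg (Par.W_nonneg _) (sq_nonneg _)

theorem Wt_le (z : Q) : S.Wt π z ≤ 1 := mul_le_one₀ (Par.W_le _) (sq_nonneg _) (o0_sq_le z)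

theorem Wt_ne (hπ : π.Rg) (h : S.Wt π z ≠ 0) : ‖z.1‖ ^ 2 < 2 * π.R ^ 2 ∧ S.o0 π z ≠ 0 :=
  ⟨hπ.W_ne (left_ne_zero_of_mul h), fun h0 => h (by rw [Wt, h0]; simp)⟩

theorem Su.d_le (hπ : π.Rg) (h : Su S π z) : z.2.2 ≤ 2 * π.ε := by
  obtain ⟨h1, -, -, h4⟩ := o0_ne hπ h.2.1
  have hk : 1 / 2 ≤ S.kk z := by
    have : S.kk z ^ 2 = S.cs1 z := sq_abs _
    have h0 : 0 ≤ S.kk z := abs_nonneg _
    nlinarith [hπ.α2.2]
  have h5 := (div_lt_one hπ.ε0).1 h.2.2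
  nlinarith [hπ.ρ0]

theorem Su.box (hπ : π.Rg) (h : Su S π z) : S.Box π z := by
  obtain ⟨h1, h2, -, h4⟩ := o0_ne hπ h.2.1
  exact ⟨by linarith [h.1, hπ.R0], h4.le, by linarith [h.d_le hπ, hπ.ε1],
    by linarith [hπ.α2.2], by linarith [hπ.η2.2]⟩

theorem Su.pos (hπ : π.Rg) (h : Su S π z) : 0 < z.2.2 :=
  (half_pos hπ.ρ0).trans (o0_ne hπ h.2.1).2.2.2

theorem Su.tt_nonneg (hπ : π.Rg) (h : Su S π z) : 0 ≤ S.tt π z :=
  div_nonneg (mul_nonneg (h.pos hπ).le (abs_nonneg _)) hπ.ε0.le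

/-- the integrands with support in `Su` -/
def Cs (S : Sf) (π : Par) (f : Q → ℝ) : Prop := ∀ z, f z ≠ 0 → Su S π z

theorem Cs.cl (hπ : π.Rg) {f : Q → ℝ} {k : ℕ} (h : Cs S π f) (hf : S.Sm k f) : S.Cl π k f :=
  ⟨hf, fun z _ _ hb => by_contra fun h0 => hb ((h z h0).box hπ)⟩

/-- there is at most one hit in the support -/
theorem one_hit (unq : UNQ) (hG : Good S π Λ) {x θ : E} (hx : S.w x = 0) (hθ : ‖θ‖ = 1) :
    (∀ f, Cs S π f → S.RS f x θ = 0) ∨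
      ∃ d, Su S π (x, θ, d) ∧ ∀ f, Cs S π f → S.RS f x θ = f (x, θ, d) := by
  have hπ := hG.rg
  by_cases h : ∃ d, S.w (x + d • θ) = 0 ∧ Su S π (x, θ, d)
  · obtain ⟨d, hd, hs⟩ := h
    refine Or.inr ⟨d, hs, fun f hf => ?_⟩
    have key : ∀ d d', S.w (x + d • θ) = 0 → Su S π (x, θ, d) → S.w (x + d' • θ) = 0 →
        Su S π (x, θ, d') → ¬ d < d' := fun d d' h1 h2 h3 h4 h5 => by
      have := (unq.u1 S π Λ x θ d d' hG ⟨hx, hθ, h2.pos hπ, h1⟩ ⟨hx, hθ, h4.pos hπ, h3⟩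
        (h4.box hπ) h5 (o0_ne hπ h2.2.1).2.1.le).1
      linarith [(o0_ne hπ h4.2.1).2.2.1]
    rw [RS, finsum_eq_single _ d, finsum_eq_if, if_pos hd]
    intro d' hne
    rw [finsum_eq_if]
    split_ifs with hd'
    · by_contra h0
      have hs' := hf _ h0
      exact hne (le_antisymm (not_lt.1 (key d d' hd hs hd' hs')) (not_lt.1 (key d' d hd' hs' hd hs)))
    · rfl
  · refine Or.inl fun f hf => ?_
    rw [RS]
    refine finsum_eq_zero_of_forall_eq_zero fun d => ?_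
    rw [finsum_eq_if]
    split_ifs with hd
    · by_contra h0
      exact h ⟨d, hd, hf _ h0⟩
    · rfl

theorem ne_of_gam {u : E} (h : gam u ≠ 0) : ‖un u‖ = 1 :=
  norm_un fun h0 => h (by rw [h0, gam_zero])

theorem gam_mono {u : E} {c a b : ℝ} (h : ‖un u‖ = 1 → a ≤ b) :
    gam u * (|c| * a) ≤ gam u * (|c| * b) := by
  by_cases h0 : gam u = 0
  · simp [h0]
  · exact mul_le_mul_of_nonneg_left (mul_le_mul_of_nonneg_left (h (ne_of_gam h0)) (abs_nonneg _))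
      (gam_nonneg u)

theorem AV_nonneg (unq : UNQ) (hG : Good S π Λ) {f : Q → ℝ} (hf : Cs S π f)
    (h0 : ∀ z, Su S π z → 0 ≤ f z) {x : E} (hx : S.w x = 0) : 0 ≤ S.AV f x := by
  refine integral_nonneg fun u => ?_
  have := gam_mono (u := u) (c := S.cc x (un u)) (a := 0) (b := S.RS f x (un u)) fun hθ => by
    rcases one_hit unq hG hx hθ with h | ⟨d, hd, h⟩
    · rw [h f hf]
    · rw [h f hf]; exact h0 _ hd
  simpa using this

/-! ### the integrands -/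

/-- the integrand of the fraction -/
def Fu (S : Sf) (π : Par) (σ : ℝ) (z : Q) : ℝ :=
  π.pt z.1 ^ 2 * hv σ (S.cc z.1 z.2.1) * S.o0 π z ^ 2 * Gb (S.tt π z)

/-- the integrand of `S1` -/
def s1 (S : Sf) (π : Par) (η : E → ℝ) (th : ℝ → ℝ) (z : Q) : ℝ :=
  S.ze π η th z * (S.tt π z * -G1 (S.tt π z)) / 2

/-- the remainder -/
def rm (S : Sf) (π : Par) (η : E → ℝ) (th : ℝ → ℝ) (z : Q) : ℝ :=
  S.Psi π z * (1 - η z.1 ^ 2 * th (S.sq z) ^ 2)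

variable {σ d : ℝ} {η : E → ℝ} {th : ℝ → ℝ}

theorem Fu_cs (hπ : π.Rg) : Cs S π (Fu S π σ) := fun z h => by
  unfold Fu at h
  have h1 := left_ne_zero_of_mul h
  exact ⟨(hπ.pt_ne (ne_zero_pow two_ne_zero (left_ne_zero_of_mul (left_ne_zero_of_mul h1)))).le,
    ne_zero_pow two_ne_zero (right_ne_zero_of_mul h1),
    by linarith [lt_of_Gb_ne (right_ne_zero_of_mul h)]⟩

theorem Psi_cs (hπ : π.Rg) : Cs S π (S.Psi π) := fun z h =>
  ⟨hπ.norm_le (Wt_ne hπ (left_ne_zero_of_mul h)).1.le, (Wt_ne hπ (left_ne_zero_of_mul h)).2,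
    lt_of_G0_ne (right_ne_zero_of_mul h)⟩

theorem rm_cs (hπ : π.Rg) : Cs S π (rm S π η th) := fun z h =>
  Psi_cs hπ z (left_ne_zero_of_mul h)

theorem s1_cs (hπ : π.Rg) : Cs S π (s1 S π η th) := fun z h => by
  have h1 : S.ze π η th z * (S.tt π z * -G1 (S.tt π z)) ≠ 0 := fun h0 => h (by
    rw [s1, h0, zero_div])
  have h2 : S.Wt π z ≠ 0 := left_ne_zero_of_mul (left_ne_zero_of_mul h1)
  exact ⟨hπ.norm_le (Wt_ne hπ h2).1.le, (Wt_ne hπ h2).2,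
    lt_of_G1_ne (neg_ne_zero.1 (right_ne_zero_of_mul (right_ne_zero_of_mul h1)))⟩

theorem Fu_cl (nsc : NSC) (hS : S.Ok) (hπ : π.Rg) (k : ℕ) : S.Cl π k (Fu S π σ) :=
  (Fu_cs hπ).cl hπ fun z hz =>
    ((((Par.pt_cd.contDiffAt.comp z contDiffAt_fst).pow 2).mul
      ((hv_cd σ).contDiffAt.comp z (sm_cc hS hz k))).mul ((sm_o0 nsc hS hπ hz k).pow 2)).mul
      (Gb_cd.contDiffAt.comp z (sm_tt hS hz k))

theorem Psi_sm (nsc : NSC) (hS : S.Ok) (hπ : π.Rg) : S.Sm 0 (S.Psi π) := fun z hz =>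
  (sm_Wt nsc hS hπ hz 0).mul ((G0_cd (by norm_num)).contDiffAt.comp z (sm_tt hS hz 0))

theorem cut_sm (hS : S.Ok) (hc : Cut d η th) (hz : z ∈ S.O) :
    ContDiffAt ℝ (0 : ℕ) (fun z : Q => η z.1 ^ 2 * th (S.sq z) ^ 2) z :=
  (((hc.sη.of_le (cast_le_inf 0)).contDiffAt.comp z contDiffAt_fst).pow 2).mul
    (((hc.sth.of_le (cast_le_inf 0)).contDiffAt.comp z (sm_sq hS hz 0)).pow 2)

theorem rm_cl (nsc : NSC) (hS : S.Ok) (hπ : π.Rg) (hc : Cut d η th) :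
    S.Cl π 0 (rm S π η th) :=
  (rm_cs hπ).cl hπ fun z hz =>
    (Psi_sm nsc hS hπ z hz).mul (contDiffAt_const.sub (cut_sm hS hc hz))

theorem s1_cl (nsc : NSC) (hS : S.Ok) (hπ : π.Rg) (hc : Cut d η th) :
    S.Cl π 0 (s1 S π η th) :=
  (s1_cs hπ).cl hπ fun z hz =>
    (((sm_Wt nsc hS hπ hz 0).mul (cut_sm hS hc hz)).mul ((sm_tt hS hz 0).mul
      ((G1_cd (by norm_num)).contDiffAt.comp z (sm_tt hS hz 0)).neg)).div_const 2

theorem Fu_nonneg (z : Q) : 0 ≤ Fu S π σ z :=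
  mul_nonneg (mul_nonneg (mul_nonneg (sq_nonneg _) (hv_nonneg _ _)) (sq_nonneg _)) (Gb_nonneg _)

theorem Fu_le (z : Q) : Fu S π σ z ≤ hv σ (S.cc z.1 z.2.1) * π.B0 (S.cs1 z) ^ 2 := by
  have h1 : π.pt z.1 ^ 2 ≤ 1 := pow_le_one₀ (Par.pt_nonneg _) (Par.pt_le _)
  have h2 : S.o0 π z ^ 2 ≤ π.B0 (S.cs1 z) ^ 2 := pow_le_pow_left₀ (o0_nonneg z) (o0_le z) 2
  have h3 := hv_nonneg σ (S.cc z.1 z.2.1)
  calc Fu S π σ z ≤ 1 * hv σ (S.cc z.1 z.2.1) * π.B0 (S.cs1 z) ^ 2 * 1 := by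
        unfold Fu
        gcongr
        · exact Gb_nonneg _
        · exact Gb_le _
    _ = _ := by ring

theorem Gb_le_G0 (t : ℝ) : Gb t ≤ 64 * G0 t := by
  by_cases h : Gb t = 0
  · rw [h]; linarith [G0_nonneg t]
  · linarith [Gb_le t, G0_ge (lt_of_Gb_ne h).le]

theorem W_Fu_le (z : Q) : π.W z.1 * Fu S π σ z ≤ 64 * S.Psi π z := by
  have h1 : π.pt z.1 ^ 2 ≤ 1 := pow_le_one₀ (Par.pt_nonneg _) (Par.pt_le _)
  have h2 := Par.W_nonneg (π := π) z.1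
  calc π.W z.1 * Fu S π σ z ≤ π.W z.1 * (1 * 1 * S.o0 π z ^ 2 * (64 * G0 (S.tt π z))) := by
        unfold Fu
        gcongr
        · exact Gb_nonneg _
        · exact hv_nonneg _ _
        · exact hv_le _ _
        · exact Gb_le_G0 _
    _ = _ := by unfold Psi Wt; ring

theorem G0_le_Gb {t : ℝ} (ht : 0 ≤ t) : G0 t ≤ Gb t + 2 / 3 * (t * -G1 t) := by
  have h0 : 0 ≤ t * -G1 t := mul_nonneg ht (neg_nonneg.2 (G1_nonpos t))
  rcases le_total t (1 / 4) with h | h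
  · rw [Gb_one h]; linarith [G0_le ht]
  · have h1 := mx_mem ht
    have h2 : 0 ≤ max (1 - t) 0 ^ 5 := pow_nonneg h1.1 5
    have h3 := Gb_nonneg t
    unfold G0 G1
    nlinarith [mul_le_mul_of_nonneg_left h1.2 h2, mul_le_mul_of_nonneg_right h h2]

theorem cut_mem (hc : Cut d η th) (x : E) (s : ℝ) : η x ^ 2 ≤ 1 ∧ th s ^ 2 ≤ 1 :=
  ⟨pow_le_one₀ (hc.η0 x) (hc.η1 x), pow_le_one₀ (hc.th0 s) (hc.th1 s)⟩

theorem Psi_le (hπ : π.Rg) (hc : Cut d η th) (h : Su S π z) :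
    S.Psi π z ≤ π.W z.1 * Fu S π 1 z + π.W z.1 * Fu S π (-1) z + 4 / 3 * s1 S π η th z +
      rm S π η th z := by
  have ht := h.tt_nonneg hπ
  have h1 : π.W z.1 * Fu S π 1 z + π.W z.1 * Fu S π (-1) z = S.Wt π z * Gb (S.tt π z) := by
    by_cases hW : π.W z.1 = 0
    · simp [Wt, hW]
    · have h2 := hv_add (c := S.cc z.1 z.2.1)
        (by have := (o0_ne hπ h.2.1).1; unfold cs1 at this; linarith [hπ.α2.2])
      unfold Fu Wt
      rw [hπ.pt_one (hπ.W_ne hW).le]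
      linear_combination π.W z.1 * S.o0 π z ^ 2 * Gb (S.tt π z) * h2
  obtain ⟨c1, c2⟩ := cut_mem hc z.1 (S.sq z)
  have c0 : 0 ≤ η z.1 ^ 2 * th (S.sq z) ^ 2 := by positivity
  have c3 : η z.1 ^ 2 * th (S.sq z) ^ 2 ≤ 1 := mul_le_one₀ c1 (sq_nonneg _) c2
  have h3 := mul_le_mul_of_nonneg_left (G0_le_Gb ht) (mul_nonneg (Wt_nonneg (S := S) (π := π) z) c0)
  have h4 := mul_le_mul_of_nonneg_left c3
    (mul_nonneg (Wt_nonneg (S := S) (π := π) z) (Gb_nonneg (S.tt π z)))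
  rw [h1]
  unfold s1 rm ze Psi
  nlinarith

theorem s1_nonneg (hπ : π.Rg) (h : Su S π z) : 0 ≤ s1 S π η th z :=
  div_nonneg (mul_nonneg (mul_nonneg (Wt_nonneg z) (by positivity))
    (mul_nonneg (h.tt_nonneg hπ) (neg_nonneg.2 (G1_nonpos _)))) (by norm_num)

theorem rm_le (hπ : π.Rg) (hc : Cut d η th) (hd : 0 < d) (h : Su S π z) :
    rm S π η th z ≤ 1 - η z.1 ^ 2 + 4 * π.ε ^ 2 / d ^ 4 * (S.sq z ^ 2 / z.2.2 ^ 2) := by
  obtain ⟨c1, c2⟩ := cut_mem hc z.1 (S.sq z)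
  have c3 : η z.1 ^ 2 * th (S.sq z) ^ 2 ≤ 1 := mul_le_one₀ c1 (sq_nonneg _) c2
  have h1 : S.Psi π z ≤ 1 := mul_le_one₀ (Wt_le z) (G0_nonneg _) (G0_le (h.tt_nonneg hπ))
  have h2 : rm S π η th z ≤ 1 - η z.1 ^ 2 * th (S.sq z) ^ 2 :=
    mul_le_of_le_one_left (by linarith) h1
  have hz := h.pos hπ
  have h3 : 1 - th (S.sq z) ^ 2 ≤ 4 * π.ε ^ 2 / d ^ 4 * (S.sq z ^ 2 / z.2.2 ^ 2) := by
    rcases le_total (S.sq z) (d ^ 2) with h4 | h4
    · rw [hc.the _ h4]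
      simp only [one_pow, sub_self]
      positivity
    · have h5 : d ^ 4 ≤ S.sq z ^ 2 := by nlinarith [pow_pos hd 2]
      have h6 : z.2.2 ^ 2 ≤ 4 * π.ε ^ 2 := by nlinarith [h.d_le hπ]
      have h7 : 1 ≤ 4 * π.ε ^ 2 / d ^ 4 * (S.sq z ^ 2 / z.2.2 ^ 2) := by
        rw [div_mul_div_comm, le_div_iff₀ (by positivity), one_mul, mul_comm]
        exact mul_le_mul h6 h5 (by positivity) (by positivity)
      linarith [sq_nonneg (th (S.sq z))]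
  nlinarith [mul_nonneg (sub_nonneg.2 c1) (sub_nonneg.2 c2)]

/-! ### the averages -/

theorem int_le4 {μ : Measure E} {f a b c e : E → ℝ} (hf : Integrable f μ) (ha : Integrable a μ)
    (hb : Integrable b μ) (hc : Integrable c μ) (he : Integrable e μ)
    (h : ∀ᵐ x ∂μ, f x ≤ a x + b x + c x + e x) :
    ∫ x, f x ∂μ ≤ ∫ x, a x ∂μ + ∫ x, b x ∂μ + ∫ x, c x ∂μ + ∫ x, e x ∂μ := by
  rw [← integral_add' ha hb, ← integral_add' (ha.add hb) hc,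
    ← integral_add' ((ha.add hb).add hc) he]
  exact integral_mono_ae hf (((ha.add hb).add hc).add he) h

theorem AV_Fu_le (K : Kit) (hG : Good S π Λ) (hσ : σ = 1 ∨ σ = -1) {x : E} (hx : S.w x = 0) :
    S.AV (Fu S π σ) x ≤ π.mm / 2 := by
  obtain ⟨c, C, hc, hm⟩ := K.con.mm
  have hmm : 0 < π.mm := lt_of_lt_of_le (mul_pos hc hG.rg.α2.1) (hm π hG.rg).1
  have h1 := K.con.half π (S.n x) σ hG.rg (norm_n (hG.ok.reg x hx)) hσ
  rw [← h1]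
  refine integral_mono (K.ca.iu S π _ x hG.ok hG.rg (Fu_cl K.nsc hG.ok hG.rg 0) (hG.ok.reg x hx))
    (Integrable.of_integral_ne_zero (by rw [h1]; positivity)) fun u => gam_mono fun hθ => ?_
  rcases one_hit K.unq hG hx hθ with h | ⟨d, hd, h⟩
  · rw [h _ (Fu_cs hG.rg)]
    exact mul_nonneg (hv_nonneg _ _) (sq_nonneg _)
  · rw [h _ (Fu_cs hG.rg)]
    exact Fu_le (x, un u, d)

theorem W_AV_le (K : Kit) (hG : Good S π Λ) {x : E} (hx : S.w x = 0) :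
    π.W x * S.AV (Fu S π σ) x ≤ 64 * S.AV (S.Psi π) x := by
  have hg := hG.ok.reg x hx
  unfold AV
  rw [← integral_const_mul, ← integral_const_mul]
  refine integral_mono
    ((K.ca.iu S π _ x hG.ok hG.rg (Fu_cl K.nsc hG.ok hG.rg 0) hg).const_mul _)
    ((K.ca.iu S π _ x hG.ok hG.rg ((Psi_cs hG.rg).cl hG.rg (Psi_sm K.nsc hG.ok hG.rg))
      hg).const_mul _) fun u => ?_
  have := gam_mono (u := u) (c := S.cc x (un u)) (a := π.W x * S.RS (Fu S π σ) x (un u))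
    (b := 64 * S.RS (S.Psi π) x (un u)) fun hθ => by
      rcases one_hit K.unq hG hx hθ with h | ⟨d, hd, h⟩
      · rw [h _ (Fu_cs hG.rg), h _ (Psi_cs hG.rg)]; simp
      · rw [h _ (Fu_cs hG.rg), h _ (Psi_cs hG.rg)]
        exact W_Fu_le (x, un u, d)
  linarith

theorem AV_Psi_le (K : Kit) (hG : Good S π Λ) (hc : Cut d η th) {x : E} (hx : S.w x = 0) :
    S.AV (S.Psi π) x ≤ π.W x * S.AV (Fu S π 1) x + π.W x * S.AV (Fu S π (-1)) x +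
      4 / 3 * S.AV (s1 S π η th) x + S.AV (rm S π η th) x := by
  have hg := hG.ok.reg x hx
  have i1 := (K.ca.iu S π _ x hG.ok hG.rg (Fu_cl (σ := 1) K.nsc hG.ok hG.rg 0) hg).const_mul (π.W x)
  have i2 :=
    (K.ca.iu S π _ x hG.ok hG.rg (Fu_cl (σ := -1) K.nsc hG.ok hG.rg 0) hg).const_mul (π.W x)
  have i3 := (K.ca.iu S π _ x hG.ok hG.rg (s1_cl K.nsc hG.ok hG.rg hc) hg).const_mul (4 / 3)
  have i4 := K.ca.iu S π _ x hG.ok hG.rg (rm_cl K.nsc hG.ok hG.rg hc) hg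
  unfold AV
  rw [← integral_const_mul, ← integral_const_mul, ← integral_const_mul]
  refine int_le4
    (K.ca.iu S π _ x hG.ok hG.rg ((Psi_cs hG.rg).cl hG.rg (Psi_sm K.nsc hG.ok hG.rg)) hg)
    i1 i2 i3 i4 (Eventually.of_forall fun u => ?_)
  have := gam_mono (u := u) (c := S.cc x (un u)) (a := S.RS (S.Psi π) x (un u))
    (b := π.W x * S.RS (Fu S π 1) x (un u) + π.W x * S.RS (Fu S π (-1)) x (un u) +
      4 / 3 * S.RS (s1 S π η th) x (un u) + S.RS (rm S π η th) x (un u)) fun hθ => by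
      rcases one_hit K.unq hG hx hθ with h | ⟨d, hd, h⟩
      · rw [h _ (Fu_cs hG.rg), h _ (Fu_cs hG.rg), h _ (Psi_cs hG.rg), h _ (s1_cs hG.rg),
          h _ (rm_cs hG.rg)]
        simp
      · rw [h _ (Fu_cs hG.rg), h _ (Fu_cs hG.rg), h _ (Psi_cs hG.rg), h _ (s1_cs hG.rg),
          h _ (rm_cs hG.rg)]
        exact Psi_le hG.rg hc hd
  linarith

theorem int_W (K : Kit) (hG : Good S π Λ) {f : Q → ℝ} (hf : S.Cl π 0 f) :
    Integrable (fun x => π.W x * S.AV f x) S.μ :=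
  (K.ca.avi S π f hG.ok hG.rg hf).bdd_mul (c := 1) π.W_smooth.continuous.aestronglyMeasurable
    (Eventually.of_forall fun x => by
      rw [Real.norm_of_nonneg (Par.W_nonneg x)]; exact Par.W_le x)

theorem NS_zero (S : Sf) (π : Par) (f : Q → ℝ) (z : Q) : S.NS π (fun z' => f z' * 0) z = 0 := by
  simp [NS, RS]

theorem IB_nonneg {f : E → ℝ} (h : ∀ x, 0 ≤ f x) : 0 ≤ S.IB π f := integral_nonneg h

end Da

open Da in
theorem da (K : Kit) : DA := by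
  obtain ⟨C, hC, hME⟩ := K.me
  refine ⟨4 * C + 2, by positivity, fun S π Λ d η th hG hc hd hd1 => ?_⟩
  have hπ := hG.rg
  obtain ⟨c, C', hc', hm⟩ := K.con.mm
  have hmm : 0 < π.mm := lt_of_lt_of_le (mul_pos hc' hπ.α2.1) (hm π hπ).1
  have hu : ∀ σ x, S.uu π σ x = 2 / π.mm * S.AV (Fu S π σ) x := fun _ _ => rfl
  have hW : ∀ σ, π.mm / 2 * ∫ x, π.W x * S.uu π σ x ∂S.μ =
      ∫ x, π.W x * S.AV (Fu S π σ) x ∂S.μ := fun σ => by
    rw [← integral_const_mul]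
    refine integral_congr_ae (Eventually.of_forall fun x => ?_)
    simp only [hu]
    field_simp
  have iP := K.ca.avi S π _ hG.ok hπ ((Psi_cs hπ).cl hπ (Psi_sm K.nsc hG.ok hπ))
  refine ⟨fun σ hσ => ⟨fun x hx => ⟨?_, ?_, ?_⟩, ?_⟩, ?_⟩
  · exact contDiffAt_const.mul
      (K.avs S π _ x hG.ok hπ (Fu_cl K.nsc hG.ok hπ 1) (hG.ok.reg x hx)).1
  · exact mul_nonneg (by positivity)
      (AV_nonneg K.unq hG (Fu_cs hπ) (fun z _ => Fu_nonneg z) hx)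
  · rw [hu]
    calc _ ≤ 2 / π.mm * (π.mm / 2) := by gcongr; exact AV_Fu_le K hG hσ hx
      _ = 1 := by field_simp
  · rw [hW, Sf.FF, Sf.II, ← integral_const_mul]
    exact integral_mono_ae (int_W K hG (Fu_cl K.nsc hG.ok hπ 0)) (iP.const_mul _)
      (hG.ok.sup.mono fun x hx => W_AV_le K hG hx)
  · have i1 := int_W K hG (Fu_cl (σ := 1) K.nsc hG.ok hπ 0)
    have i2 := int_W K hG (Fu_cl (σ := -1) K.nsc hG.ok hπ 0)
    have i3 := (K.ca.avi S π _ hG.ok hπ (s1_cl K.nsc hG.ok hπ hc)).const_mul (4 / 3)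
    have i4 := K.ca.avi S π _ hG.ok hπ (rm_cl K.nsc hG.ok hπ hc)
    have h1 := int_le4 iP i1 i2 i3 i4 (hG.ok.sup.mono fun x hx => AV_Psi_le K hG hc hx)
    rw [integral_const_mul, ← hW, ← hW] at h1
    have hz : S.Cg fun _ => 0 := fun x _ => ⟨continuousAt_const, le_rfl⟩
    have h2 := hME S π Λ 1 0 0 (4 * π.ε ^ 2 / d ^ 4) (rm S π η th) (fun x => 1 - η x ^ 2)
      (fun _ => 0) (fun _ => 0) (fun _ => 0) (fun _ => 0) hG one_pos le_rfl le_rfl (by positivity)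
      (rm_cl K.nsc hG.ok hπ hc)
      (fun x _ => ⟨continuousAt_const.sub (hc.sη.continuous.continuousAt.pow 2),
        sub_nonneg.2 (cut_mem hc x 0).1⟩) hz hz hz hz (fun x _ _ h => by simp at h)
      (fun z _ _ h0 => by
        have hs := rm_cs hπ z h0.ne'
        obtain ⟨a1, a2, a3, -⟩ := o0_ne hπ hs.2.1
        refine ⟨⟨(Wt_ne hπ (left_ne_zero_of_mul (left_ne_zero_of_mul h0.ne'))).1.le,
          by linarith [hπ.α2.1], a2.le, a3, hs.d_le hπ⟩, by linarith, ?_⟩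
        rw [NS_zero]
        linarith [rm_le hπ hc hd hs])
    have h0 : S.IB π (fun _ => 0) = 0 := by simp [Sf.IB]
    rw [h0] at h2
    have hS1 : 0 ≤ S.S1 π η th := integral_nonneg_of_ae (hG.ok.sup.mono fun x hx =>
      AV_nonneg K.unq hG (s1_cs hπ) (fun z hz => s1_nonneg hπ hz) hx)
    have hAE : 0 ≤ S.AE π η := IB_nonneg fun x => sub_nonneg.2 (cut_mem hc x 0).1
    have hAA : 0 ≤ S.AA π := IB_nonneg fun x => by linarith [S.A2_nonneg x]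
    have h3 : 0 ≤ π.ε ^ 2 * S.AA π / d ^ 4 := by positivity
    change S.FF π ≤ _ + _ + 4 / 3 * S.S1 π η th + S.II (rm S π η th) at h1
    change _ ≤ C * (π.α ^ 2 * S.AE π η + _ + _ + _ + _ + _ + _) at h2
    have h4 : 4 * π.ε ^ 2 / d ^ 4 * S.AA π = 4 * (π.ε ^ 2 * S.AA π / d ^ 4) := by ring
    rw [h4] at h2
    have h5 : π.α ^ 2 * S.AE π η ≤ S.AE π η :=
      mul_le_of_le_one_left hAE (by linarith [hπ.α2.2])
    nlinarith [mul_le_mul_of_nonneg_left h5 hC.le, mul_nonneg hC.le hS1, mul_nonneg hC.le hAE]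

end Vale.Agent.P218M1
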