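import Vale.Agent.P218M1.DbB

/-!
# P218M1, row DB: the fraction is close to zero or one
-/

open MeasureTheory Metric Filter Topology Set
open scoped ContDiff RealInnerProductSpace ENNReal

noncomputable section

namespace Vale.Agent.P218M1

namespace Db

open Sf

variable {S : Sf} {π : Par} {Λ d t : ℝ} {z : Q} {η : E → ℝ} {th : ℝ → ℝ}

theorem un_inner {u : E} (h : u ≠ 0) (n : E) (σ : ℝ) : ⟪σ • n, u⟫ = ‖u‖ * (σ * ⟪n, un u⟫) := by
  have := norm_ne_zero_iff.2 h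
  rw [un, real_inner_smul_left, real_inner_smul_right]
  field_simp

theorem mem_KK {n u : E} {σ α : ℝ} (hσ : σ ^ 2 = 1) (hα : α ^ 2 ≤ 1 / 100) (h1 : 1 < ‖u‖)
    (h2 : ‖u‖ < 2) (h3 : 0 < σ * ⟪n, un u⟫) (h4 : 1 - ⟪n, un u⟫ ^ 2 < α ^ 2) :
    u ∈ KK (σ • n) √(1 - α ^ 2) := by
  have h5 : 1 - α ^ 2 ≤ (σ * ⟪n, un u⟫) ^ 2 := by
    rw [mul_pow, hσ]
    linarith
  have h6 := Real.sqrt_le_iff.2 ⟨h3.le, h5⟩
  have h7 : 1 / 2 ≤ σ * ⟪n, un u⟫ := (abs_le_of_sq_le_sq' (by linarith) h3.le).2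
  rw [KK, mem_ofPred_eq, un_inner (norm_pos_iff.1 (by linarith)), mul_comm]
  exact ⟨mul_le_mul_of_nonneg_left h6 (norm_nonneg _), by nlinarith, h2.le⟩

theorem of_KK {n u : E} {σ α : ℝ} (hn : ‖n‖ = 1) (hσ : σ ^ 2 = 1) (hα : α ^ 2 ≤ 1 / 100)
    (h : u ∈ KK (σ • n) √(1 - α ^ 2)) : u ≠ 0 ∧ 1 / 2 ≤ ‖u‖ ∧ 1 - ⟪n, un u⟫ ^ 2 ≤ α ^ 2 := by
  have h1 : 1 / 2 ≤ ‖u‖ := by
    have h2 := real_inner_le_norm (σ • n) u
    rw [norm_smul, hn, Real.norm_eq_abs,
      (pow_eq_one_iff_of_nonneg (abs_nonneg σ) two_ne_zero).1 ((sq_abs σ).trans hσ)] at h2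
    linarith [h.2.1]
  have h0 : u ≠ 0 := norm_pos_iff.1 (by linarith)
  have h2 := h.1
  rw [un_inner h0, mul_comm] at h2
  have h3 := pow_le_pow_left₀ (Real.sqrt_nonneg _) (le_of_mul_le_mul_left h2 (by linarith)) 2
  rw [Real.sq_sqrt (by linarith), mul_pow, hσ] at h3
  exact ⟨h0, h1, by linarith⟩

theorem sup_AA (hG : Good S π Λ) : Sup S π (AA S π) :=
  sup_of hG.ok (cl_AA (k := 0) nsc' hG.ok hG.rg) fun z h => by simp [AA, a0, h]

theorem sup_MM (hG : Good S π Λ) : Sup S π (MM S π) :=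
  sup_d nsc' hG.ok hG.rg fun z h => by simp [MM, h]

/-- the angular derivative -/
theorem dU (hK : Kit) (hG : Good S π Λ) {x u : E} (hx : S.w x = 0) (h0 : u ≠ 0) :
    ContDiffAt ℝ 1 (fun u => S.RS (AA S π) x (un u)) u ∧ (1 / 2 ≤ ‖u‖ →
      1 - S.cc x (un u) ^ 2 ≤ π.α ^ 2 → π.W x * ‖fderiv ℝ (fun u => S.RS (AA S π) x (un u)) u‖ ≤
        4 * (|S.cc x (un u)| * S.RS (MM S π) x (un u))) := by
  have hS := hG.ok
  have hπ := hG.rg
  obtain ⟨r1, r2⟩ := hK.ca.rsk S π 1 _ x (un u) hS hπ (cl_AA nsc' hS hπ) (hS.reg x hx)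
  have r3 : ContDiffAt ℝ 1 (fun u : E => (x, un u)) u :=
    contDiffAt_const.prodMk ((Rot.sun h0).of_le (by simp))
  refine ⟨ContDiffAt.comp (g := fun p : E × E => S.RS (AA S π) p.1 p.2)
    (f := fun u : E => (x, un u)) u r1 r3, fun h1 h2 => ?_⟩
  have e : ∀ v, fderiv ℝ (fun u => S.RS (AA S π) x (un u)) u v = S.RS (fun z => fderiv ℝ (AA S π) z
      (0, fderiv ℝ un u v, -⟪S.p2 z, 0 + z.2.2 • fderiv ℝ un u v⟫)) x (un u) := fun v => by
    rw [← r2 le_rfl]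
    exact congrArg (fun L : E →L[ℝ] ℝ => L v)
      (HasFDerivAt.comp (g := fun p : E × E => S.RS (AA S π) p.1 p.2)
        (f := fun u : E => (x, un u)) u (r1.differentiableAt (by simp)).hasFDerivAt
        ((hasFDerivAt_const x u).prodMk
          ((Rot.sun h0).differentiableAt (by simp)).hasFDerivAt)).fderiv
  refine (mul_le_mul_of_nonneg_left (norm_le_sum _) (Par.W_nonneg x)).trans ?_
  have sp := fun v => sup_d nsc' hS hπ (g := fun z => fderiv ℝ (AA S π) z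
    (0, fderiv ℝ un u v, -⟪S.p2 z, 0 + z.2.2 • fderiv ℝ un u v⟫)) fun z h => by simp [h]
  simp only [e]
  rcases single hK.unq hG hx (norm_un h0) with h | ⟨D, -, -, h⟩
  · simp only [h _ (sp _), h _ (sup_MM hG)]
    simp
  · have e2 : ∀ i, ((0, fderiv ℝ un u (ee i), -⟪S.p2 (x, un u, D),
        0 + D • fderiv ℝ un u (ee i)⟫) : Q) = ‖u‖⁻¹ • S.VR (un u) (ee i) (x, un u, D) := fun i => by
      simp [VR, dun h0, real_inner_smul_right, mul_left_comm]
    have c1 : ‖u‖⁻¹ ≤ 2 := inv_le_of_inv_le₀ two_pos (by linarith)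
    have c2 : 1 / 2 ≤ |S.cc x (un u)| := (abs_le_of_sq_le_sq' (by
      rw [sq_abs]
      linarith [hπ.α2.2]) (abs_nonneg _)).2
    have c3 := MM_nonneg S π (x, un u, D)
    have c4 : MM S π (x, un u, D) = π.W x *
        ∑ i, |fderiv ℝ (AA S π) (x, un u, D) (S.VR (un u) (ee i) (x, un u, D))| := by
      rw [MM, hπ.B1_one (c := S.cs1 (x, un u, D)) h2, mul_one]
    simp only [h _ (sp _), h _ (sup_MM hG), e2, map_smul, smul_eq_mul, abs_mul, abs_inv, abs_norm,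
      ← Finset.mul_sum]
    rw [mul_left_comm, ← c4]
    nlinarith

theorem at_x (hK : Kit) (hP : POI) : ∃ c : ℝ, 0 ≤ c ∧ ∀ (S : Sf) (π : Par) (Λ d σ : ℝ) (η : E → ℝ)
    (th : ℝ → ℝ) (x : E), Good S π Λ → Cut d η th → σ = 1 ∨ σ = -1 → S.w x = 0 → 0 < π.mm →
    0 ≤ π.W x * (S.uu π σ x * (1 - S.uu π σ x)) ∧
    π.mm * (π.W x * (S.uu π σ x * (1 - S.uu π σ x))) ≤ 128 * S.AV (s1 S π η th) x +
      2 * S.AV (hh S π η th) x + c / π.mm * S.AV (MM S π) x := by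
  obtain ⟨C, hC, hom⟩ := hK.con.hom
  refine ⟨1024 * volume.real (closedBall (0 : E) 2) * C, by positivity,
    fun S π Λ d σ η th x hG hc hσ hx hm => ?_⟩
  have hS := hG.ok
  have hπ := hG.rg
  have hg := hS.reg x hx
  have σ2 : σ ^ 2 = 1 := by rcases hσ with rfl | rfl <;> norm_num
  have W0 := Par.W_nonneg (π := π) x
  obtain ⟨q, hq⟩ : ∃ q : E → ℝ, q = fun u => gam u * (|S.cc x (un u)| *
    (hv σ (S.cc x (un u)) * π.B0 (S.cc x (un u) ^ 2) ^ 2)) := ⟨_, rfl⟩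
  obtain ⟨U, hU⟩ : ∃ U : E → ℝ, U = fun u => S.RS (AA S π) x (un u) := ⟨_, rfl⟩
  have cK := KK_compact (σ • S.n x) √(1 - π.α ^ 2)
  have oK := fun u => of_KK (u := u) (norm_n hg) σ2 hπ.α2.2
  have qi : ∫ u, q u = π.mm / 2 := hq ▸ hK.con.half π (S.n x) σ hπ (norm_n hg) hσ
  have q0 : ∀ u, 0 ≤ q u := fun u => hq ▸ mul_nonneg (gam_nonneg u)
    (mul_nonneg (abs_nonneg _) (mul_nonneg (hv_nonneg _ _) (sq_nonneg _)))
  have qz : q 0 = 0 := by simp [hq, gam_zero]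
  have q1 : ∀ u, q u ≤ 1 := fun u => by
    by_cases h : u = 0
    · rw [h, qz]
      exact zero_le_one
    · exact hq ▸ mul_le_one₀ (gam_le u) (mul_nonneg (abs_nonneg _) (mul_nonneg (hv_nonneg _ _)
        (sq_nonneg _))) (mul_le_one₀ (abs_cc_le S x (norm_un h)) (mul_nonneg (hv_nonneg _ _)
          (sq_nonneg _)) (mul_le_one₀ (hv_le _ _) (sq_nonneg _)
            (pow_le_one₀ (Par.B0_nonneg _) (Par.B0_le _))))
  have qK : ∀ u, u ∉ KK (σ • S.n x) √(1 - π.α ^ 2) → q u = 0 := fun u hu => by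
    by_contra h
    rw [hq] at h
    have h1 := right_ne_zero_of_mul (right_ne_zero_of_mul h)
    exact hu (mem_KK σ2 hπ.α2.2 (gam_ne (left_ne_zero_of_mul h)).1
      (gam_ne (left_ne_zero_of_mul h)).2 (not_le.1 fun e => left_ne_zero_of_mul h1 (hv_zero e))
      (hπ.B0_ne ((pow_ne_zero_iff two_ne_zero).1 (right_ne_zero_of_mul h1))))
  have Ud := fun u hu => hU ▸ (dU hK hG hx (oK u hu).1).1
  have Uc : ContinuousOn U _ := fun u hu => (Ud u hu).continuousAt.continuousWithinAt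
  have qI : Integrable q := Integrable.of_integral_ne_zero (by rw [qi]; positivity)
  have iU := int_mul cK qI qK Uc
  have eu : S.uu π σ x = (∫ u, q u * U u) / (π.mm / 2) := by
    have e : (fun z : Q => π.pt z.1 ^ 2 * hv σ (S.cc z.1 z.2.1) * S.o0 π z ^ 2 * Gb (S.tt π z)) =
        fun z => hv σ (S.cc z.1 z.2.1) * π.B0 (S.cs1 z) ^ 2 * AA S π z := funext fun z => by
      by_cases h : π.B0 (S.cs1 z) = 0
      · simp [o0_eq, h]
      · rw [o0_eq, AA, a0, hπ.Bt_one (by linarith [hπ.B0_ne h, hπ.α2.1])]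
        ring
    rw [uu, e, div_div_eq_mul_div, mul_comm _ 2, mul_div_right_comm, AV]
    congr 2
    funext u
    by_cases h : u = 0
    · simp [h, qz, gam_zero]
    have sp : Sup S π fun z => hv σ (S.cc z.1 z.2.1) * π.B0 (S.cs1 z) ^ 2 * AA S π z :=
      fun z a b c => sup_AA hG z a b (right_ne_zero_of_mul c)
    rcases single hK.unq hG hx (norm_un h) with h | ⟨D, -, -, h⟩
    · simp [hU, h _ sp, h _ (sup_AA hG)]
    · rw [h _ sp]
      simp only [hU, hq, h _ (sup_AA hG), cs1]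
      ring
  obtain ⟨b, hb⟩ : ∃ b, b = (∫ u, q u * U u) / (π.mm / 2) := ⟨_, rfl⟩
  have key : ∀ u, (0 ≤ q u * U u ∧ q u * U u ≤ q u) ∧ π.W x * (1 - b) * (q u * U u) ≤
      64 * (gam u * (|S.cc x (un u)| * S.RS (s1 S π η th) x (un u))) +
        gam u * (|S.cc x (un u)| * S.RS (hh S π η th) x (un u)) +
        π.W x * (q u * |U u - b|) := fun u => by
    by_cases h : u = 0
    · simp [h, qz, gam_zero]
    have sp1 : Sup S π (s1 S π η th) := sup_of hS (cl_s1 hS hπ hc) fun z h => by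
      simp [s1, ze, Wt, o0_eq, h]
    have sp2 : Sup S π (hh S π η th) := sup_of hS (cl_hh hS hπ hc) fun z h => by
      simp [hh, s1, ze, Wt, o0_eq, AA, a0, h]
    have p0 := q0 u
    rcases single hK.unq hG hx (norm_un h) with h | ⟨D, -, -, h⟩
    · simp only [hU, h _ sp1, h _ sp2, h _ (sup_AA hG), mul_zero, le_refl, p0, and_self, true_and,
        zero_add]
      positivity
    · obtain ⟨a1, a2⟩ := AA_mem S π (x, un u, D)
      simp only [hU, h _ sp1, h _ sp2, h _ (sup_AA hG)]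
      refine ⟨⟨mul_nonneg p0 a1, mul_le_of_le_one_right p0 a2⟩, ?_⟩
      have a3 : AA S π (x, un u, D) * (AA S π (x, un u, D) - b) ≤ |AA S π (x, un u, D) - b| :=
        (mul_le_mul_of_nonneg_left (le_abs_self _) a1).trans
          (mul_le_of_le_one_left (abs_nonneg _) a2)
      have a4 := mul_le_mul_of_nonneg_left (mul_le_mul_of_nonneg_left a3 p0) W0
      have a5 := mul_le_of_le_one_left (mul_nonneg (mul_nonneg (gam_nonneg u)
        (abs_nonneg (S.cc x (un u)))) (mul_nonneg (mul_nonneg W0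
          (sq_nonneg (π.B0 (S.cc x (un u) ^ 2)))) (mul_nonneg a1 (sub_nonneg.2 a2))))
        (hv_le σ (S.cc x (un u)))
      simp only [hh, cs1, hq] at a4 ⊢
      linarith
  have b0 : 0 ≤ b := hb ▸ div_nonneg (integral_nonneg fun u => (key u).1.1) (by positivity)
  have b1 : b ≤ 1 := hb ▸ (div_le_one (by positivity)).2
    ((integral_mono iU qI fun u => (key u).1.2).trans_eq qi)
  rw [eu, ← hb]
  refine ⟨mul_nonneg W0 (mul_nonneg b0 (sub_nonneg.2 b1)), ?_⟩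
  have i1 := (hK.ca.iu S π _ x hS hπ (cl_s1 hS hπ hc) hg).const_mul 64
  have i2 := hK.ca.iu S π _ x hS hπ (cl_hh hS hπ hc) hg
  have i3 : Integrable fun u => π.W x * (q u * |U u - b|) :=
    (int_mul cK qI qK (Uc.sub (continuousOn_const (c := b))).abs).const_mul (π.W x)
  have g1 := integral_mono (iU.const_mul _) ((i1.add i2).add i3) fun u => (key u).2
  rw [integral_add' (i1.add i2) i3, integral_add' i1 i2, integral_const_mul, integral_const_mul,
    integral_const_mul, (eq_div_iff (by positivity)).1 hb |>.symm] at g1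
  have g2 := var_le cK (half_pos hm) qi q0 q1 qK Uc
  rw [← hb] at g2
  have g3 := hP _ U 4 (KK_convex _ (Real.sqrt_nonneg _)) cK (fun u hu v hv =>
    (norm_sub_le u v).trans (by linarith [hu.2.2, hv.2.2])) Ud
  have F0 : ∀ θ, 0 ≤ |S.cc x θ| * S.RS (MM S π) x θ := fun θ => mul_nonneg (abs_nonneg _)
    (finsum_nonneg fun _ => finsum_nonneg fun _ => MM_nonneg _ _ _)
  obtain ⟨g4, g5⟩ := hom _ F0 (hK.ca.iu S π _ x hS hπ (cl_MM nsc' hS hπ) hg)
  have sub : KK (σ • S.n x) √(1 - π.α ^ 2) ⊆ {u | 1 / 2 ≤ ‖u‖ ∧ ‖u‖ ≤ 2} := fun u hu =>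
    ⟨(oK u hu).2.1, hu.2.2⟩
  have g6 : π.W x * ∫ u in KK (σ • S.n x) √(1 - π.α ^ 2), ‖fderiv ℝ U u‖ ≤
      4 * (C * S.AV (MM S π) x) := by
    rw [← integral_const_mul]
    refine (integral_mono_of_nonneg (Eventually.of_forall fun u => mul_nonneg W0 (norm_nonneg _))
      ((g4.mono_set sub).const_mul 4) (ae_restrict_of_forall_mem cK.measurableSet fun u hu =>
        hU ▸ (dU hK hG hx (oK u hu).1).2 (oK u hu).2.1 (oK u hu).2.2)).trans ?_
    rw [integral_const_mul]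
    exact mul_le_mul_of_nonneg_left ((setIntegral_mono_set g4 (Eventually.of_forall fun u => F0 _)
      (LE.le.eventuallyLE sub)).trans g5) zero_le_four
  have g7 : volume.real (KK (σ • S.n x) √(1 - π.α ^ 2)) ≤ volume.real (closedBall (0 : E) 2) :=
    measureReal_mono (KK_sub _ _) measure_closedBall_lt_top.ne
  have g8 := mul_le_mul g7 g6 (mul_nonneg W0 (integral_nonneg fun _ => norm_nonneg _))
    measureReal_nonneg
  have g9 := mul_le_mul_of_nonneg_left (g2.trans (div_le_div_of_nonneg_right g3 (by positivity))) W0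
  have g10 := div_le_div_of_nonneg_right g8 hm.le
  have e1 : ∀ a b c : ℝ, a * (16 * 4 * b * c / (π.mm / 2)) = 128 * (b * (a * c) / π.mm) :=
    fun a b c => by field_simp; ring
  have e2 : ∀ a b : ℝ, 1024 * a * C / π.mm * b = 256 * (a * (4 * (C * b)) / π.mm) :=
    fun a b => by ring
  rw [e1] at g9
  rw [e2]
  unfold AV at *
  linarith

end Db

open Db Sf in
theorem db (hK : Kit) (hP : POI) : DB := by
  obtain ⟨C₁, p1, h1⟩ := ii_hh hK
  obtain ⟨C₂, p2, h2⟩ := ii_MM hK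
  obtain ⟨c, p3, h3⟩ := at_x hK hP
  obtain ⟨m, _, p4, h4⟩ := hK.con.mm
  refine ⟨128, by norm_num, fun α => ⟨2 * C₁ + c / (m * α ^ 2) * C₂, by positivity,
    fun S π Λ d t σ η th hG hα hc d0 d1 t0 t1 hσ => ?_⟩⟩
  have hS := hG.ok
  have hπ := hG.rg
  have a0 := hπ.α0
  have hm : 0 < π.mm := lt_of_lt_of_le (by positivity) (h4 π hπ).1
  have i1 := (hK.ca.avi S π _ hS hπ (cl_s1 hS hπ hc)).const_mul 128
  have i2 := (hK.ca.avi S π _ hS hπ (cl_hh hS hπ hc)).const_mul 2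
  have i3 := (hK.ca.avi S π _ hS hπ (cl_MM nsc' hS hπ)).const_mul (c / π.mm)
  have g1 := integral_mono_of_nonneg (hS.sup.mono fun x hx =>
    mul_nonneg hm.le (h3 S π Λ d σ η th x hG hc hσ hx hm).1) ((i1.add i2).add i3)
    (hS.sup.mono fun x hx => (h3 S π Λ d σ η th x hG hc hσ hx hm).2)
  rw [integral_add' (i1.add i2) i3, integral_add' i1 i2, integral_const_mul, integral_const_mul,
    integral_const_mul, integral_const_mul] at g1
  have n1 := AE_nonneg (S := S) (π := π) hc.η0 hc.η1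
  have n2 := AA_nonneg (π := π) hS
  have n3 : 0 ≤ S.AE π η + π.ε ^ 2 * S.AA π / d ^ 4 := by positivity
  have n4 : 0 ≤ t * S.AA π + π.ε ^ 2 * S.AA π / t ^ 5 := by positivity
  have g2 := h1 S π Λ d η th hG hc d0 d1
  have g3 := (mul_le_mul_of_nonneg_left (h2 S π Λ t hG t0 t1) (div_nonneg p3 hm.le)).trans
    (mul_le_mul_of_nonneg_right (div_le_div_of_nonneg_left p3 (by positivity) (h4 π hπ).1)
      (mul_nonneg p2.le n4))
  have g4 := mul_nonneg p1.le n4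
  have g5 := mul_nonneg (mul_nonneg (div_nonneg p3 (show 0 ≤ m * π.α ^ 2 by positivity)) p2.le) n3
  subst hα
  change _ ≤ 128 * S.S1 π η th + 2 * S.II (hh S π η th) + c / π.mm * S.II (MM S π) at g1
  linarith

end Vale.Agent.P218M1
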