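import Vale.Agent.P218M1.Alg

/-!
# P218M1: the cutoff functions
-/

open MeasureTheory Metric Filter Topology Set
open scoped ContDiff RealInnerProductSpace

noncomputable section

namespace Vale.Agent.P218M1

/-! ### the profile `ct` -/

theorem ct_nonneg (s : ℝ) : 0 ≤ ct s := Real.smoothTransition.nonneg _
theorem ct_le_one (s : ℝ) : ct s ≤ 1 := Real.smoothTransition.le_one _
theorem ct_one {s : ℝ} (h : s ≤ 1) : ct s = 1 := Real.smoothTransition.one_of_one_le (by linarith)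
theorem ct_zero {s : ℝ} (h : 2 ≤ s) : ct s = 0 := Real.smoothTransition.zero_of_nonpos (by linarith)
theorem ct_pos {s : ℝ} (h : s < 2) : 0 < ct s := Real.smoothTransition.pos_of_pos (by linarith)
theorem ct_lt_one {s : ℝ} (h : 1 < s) : ct s < 1 :=
  Real.smoothTransition.lt_one_of_lt_one (by linarith)
theorem ct_anti : Antitone ct := fun _ _ h => Real.smoothTransition.monotone (by linarith)
theorem lt_of_ct_ne {s : ℝ} (h : ct s ≠ 0) : s < 2 := not_le.1 fun h2 => h (ct_zero h2)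
theorem lt_of_ct_ne_one {s : ℝ} (h : ct s ≠ 1) : 1 < s := not_le.1 fun h2 => h (ct_one h2)
theorem ct_sq_le (s : ℝ) : ct s ^ 2 ≤ 1 := by nlinarith [ct_nonneg s, ct_le_one s]
theorem one_sub_ct_nonneg (s : ℝ) : 0 ≤ 1 - ct s := by linarith [ct_le_one s]
theorem one_sub_ct_le (s : ℝ) : 1 - ct s ≤ 1 := by linarith [ct_nonneg s]

theorem ct_smooth : ContDiff ℝ ∞ ct :=
  Real.smoothTransition.contDiff.comp (contDiff_const.sub contDiff_id)

@[fun_prop] theorem ct_cd {k : ℕ} : ContDiff ℝ k ct := ct_smooth.of_le (cast_le_inf k)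
@[fun_prop] theorem ct_cont : Continuous ct := ct_smooth.continuous
@[fun_prop] theorem ct_diff : Differentiable ℝ ct := ct_smooth.differentiable (by simp)

theorem deriv_smooth {f : ℝ → ℝ} (hf : ContDiff ℝ ∞ f) : ContDiff ℝ ∞ (deriv f) :=
  (contDiff_infty_iff_deriv.1 hf).2

theorem dct_smooth : ContDiff ℝ ∞ (deriv ct) := deriv_smooth ct_smooth
@[fun_prop] theorem dct_cd {k : ℕ} : ContDiff ℝ k (deriv ct) := dct_smooth.of_le (cast_le_inf k)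

theorem hasDerivAt_ct (s : ℝ) : HasDerivAt ct (deriv ct s) s := (ct_diff s).hasDerivAt

theorem hasDerivAt_dct (s : ℝ) : HasDerivAt (deriv ct) (deriv (deriv ct) s) s :=
  (dct_smooth.differentiable (by simp) s).hasDerivAt

theorem dct_nonpos (s : ℝ) : deriv ct s ≤ 0 := ct_anti.deriv_nonpos

/-- a `C¹` function which is constant on a closed half line has zero derivative there -/
theorem deriv_zero_Iic {f : ℝ → ℝ} (hf : Continuous (deriv f)) {a c s : ℝ} (h : ∀ t ≤ a, f t = c)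
    (hs : s ≤ a) : deriv f s = 0 := by
  have h1 : Iio a ⊆ {t | deriv f t = 0} := fun t ht => by
    have : f =ᶠ[𝓝 t] fun _ => c := by
      filter_upwards [Iio_mem_nhds ht] with u hu using h u (le_of_lt hu)
    simp [this.deriv_eq]
  have := closure_minimal h1 (isClosed_eq hf continuous_const)
  rw [closure_Iio] at this
  exact this hs

theorem deriv_zero_Ici {f : ℝ → ℝ} (hf : Continuous (deriv f)) {a c s : ℝ} (h : ∀ t, a ≤ t → f t = c)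
    (hs : a ≤ s) : deriv f s = 0 := by
  have h1 : Ioi a ⊆ {t | deriv f t = 0} := fun t ht => by
    have : f =ᶠ[𝓝 t] fun _ => c := by
      filter_upwards [Ioi_mem_nhds ht] with u hu using h u (le_of_lt hu)
    simp [this.deriv_eq]
  have := closure_minimal h1 (isClosed_eq hf continuous_const)
  rw [closure_Ioi] at this
  exact this hs

theorem dct_zero_le {s : ℝ} (h : s ≤ 1) : deriv ct s = 0 :=
  deriv_zero_Iic dct_smooth.continuous (fun _ => ct_one) h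
theorem dct_zero_ge {s : ℝ} (h : 2 ≤ s) : deriv ct s = 0 :=
  deriv_zero_Ici dct_smooth.continuous (fun _ => ct_zero) h
theorem dct_ne {s : ℝ} (h : deriv ct s ≠ 0) : 1 < s ∧ s < 2 :=
  ⟨not_le.1 fun h1 => h (dct_zero_le h1), not_le.1 fun h1 => h (dct_zero_ge h1)⟩
theorem ddct_zero_le {s : ℝ} (h : s ≤ 1) : deriv (deriv ct) s = 0 :=
  deriv_zero_Iic (deriv_smooth dct_smooth).continuous (fun _ => dct_zero_le) h
theorem ddct_zero_ge {s : ℝ} (h : 2 ≤ s) : deriv (deriv ct) s = 0 :=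
  deriv_zero_Ici (deriv_smooth dct_smooth).continuous (fun _ => dct_zero_ge) h
theorem ddct_ne {s : ℝ} (h : deriv (deriv ct) s ≠ 0) : 1 < s ∧ s < 2 :=
  ⟨not_le.1 fun h1 => h (ddct_zero_le h1), not_le.1 fun h1 => h (ddct_zero_ge h1)⟩

theorem exists_Cc : ∃ C : ℝ, 1 ≤ C ∧ (∀ s, |deriv ct s| ≤ C) ∧ ∀ s, |deriv (deriv ct) s| ≤ C := by
  obtain ⟨A, hA⟩ := (isCompact_Icc (a := (1 : ℝ)) (b := 2)).exists_bound_of_continuousOn
    dct_smooth.continuous.continuousOn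
  obtain ⟨B, hB⟩ := (isCompact_Icc (a := (1 : ℝ)) (b := 2)).exists_bound_of_continuousOn
    (deriv_smooth dct_smooth).continuous.continuousOn
  refine ⟨max 1 (max A B), le_max_left _ _, fun s => ?_, fun s => ?_⟩
  · by_cases h : deriv ct s = 0
    · simp [h]
    · exact (hA s ⟨(dct_ne h).1.le, (dct_ne h).2.le⟩).trans (by simp)
  · by_cases h : deriv (deriv ct) s = 0
    · simp [h]
    · exact (hB s ⟨(ddct_ne h).1.le, (ddct_ne h).2.le⟩).trans (by simp)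

/-- a bound for the first two derivatives of `ct` -/
def Cc : ℝ := exists_Cc.choose
theorem one_le_Cc : 1 ≤ Cc := exists_Cc.choose_spec.1
theorem Cc_pos : 0 < Cc := lt_of_lt_of_le one_pos one_le_Cc
theorem abs_dct_le (s : ℝ) : |deriv ct s| ≤ Cc := exists_Cc.choose_spec.2.1 s
theorem abs_ddct_le (s : ℝ) : |deriv (deriv ct) s| ≤ Cc := exists_Cc.choose_spec.2.2 s
theorem dct_sq_le (s : ℝ) : deriv ct s ^ 2 ≤ Cc ^ 2 := by
  rw [← sq_abs]; exact pow_le_pow_left₀ (abs_nonneg _) (abs_dct_le s) 2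

/-- the chain rule for an affine argument -/
theorem hasDerivAt_ct_lin (a b s : ℝ) :
    HasDerivAt (fun c => ct (a * c + b)) (a * deriv ct (a * s + b)) s := by
  have := (hasDerivAt_ct (a * s + b)).comp s (((hasDerivAt_id s).const_mul a).add_const b)
  simpa [Function.comp_def, mul_comm] using this

theorem hasDerivAt_dct_lin (a b s : ℝ) :
    HasDerivAt (fun c => deriv ct (a * c + b)) (a * deriv (deriv ct) (a * s + b)) s := by
  have := (hasDerivAt_dct (a * s + b)).comp s (((hasDerivAt_id s).const_mul a).add_const b)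
  simpa [Function.comp_def, mul_comm] using this

/-! ### the profile `G0` -/

theorem hasDerivAt_pos_pow (k : ℕ) (x : ℝ) :
    HasDerivAt (fun s : ℝ => max s 0 ^ (k + 2)) ((k + 2 : ℝ) * max x 0 ^ (k + 1)) x := by
  rcases lt_trichotomy x 0 with hx | rfl | hx
  · have : (fun s : ℝ => max s 0 ^ (k + 2)) =ᶠ[𝓝 x] fun _ => 0 := by
      filter_upwards [gt_mem_nhds hx] with s hs
      simp [max_eq_right hs.le]
    rw [max_eq_right hx.le]
    simpa using (hasDerivAt_const x (0 : ℝ)).congr_of_eventuallyEq this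
  · rw [hasDerivAt_iff_isLittleO_nhds_zero]
    simp only [max_self, ne_eq, Nat.add_eq_zero_iff, OfNat.ofNat_ne_zero, and_false,
      not_false_eq_true, zero_pow, sub_zero, zero_add, one_ne_zero, mul_zero, smul_eq_mul]
    refine Asymptotics.IsBigO.trans_isLittleO (g := fun s : ℝ => s ^ (k + 2)) ?_
      (Asymptotics.isLittleO_pow_id (by omega))
    refine Asymptotics.IsBigO.of_bound 1 (Eventually.of_forall fun s => ?_)
    rw [one_mul, norm_pow, norm_pow]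
    refine pow_le_pow_left₀ (norm_nonneg _) ?_ _
    rw [Real.norm_eq_abs, Real.norm_eq_abs, abs_of_nonneg (le_max_right _ _)]
    exact max_le (le_abs_self _) (abs_nonneg _)
  · have : (fun s : ℝ => max s 0 ^ (k + 2)) =ᶠ[𝓝 x] fun s => s ^ (k + 2) := by
      filter_upwards [lt_mem_nhds hx] with s hs
      simp [max_eq_left hs.le]
    rw [max_eq_left hx.le]
    simpa using (hasDerivAt_pow (k + 2) x).congr_of_eventuallyEq this

theorem contDiff_pos_pow (k : ℕ) : ContDiff ℝ k fun s : ℝ => max s 0 ^ (k + 1) := by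
  induction k with
  | zero => simpa using (by fun_prop : Continuous fun s : ℝ => max s 0)
  | succ k ih =>
    rw [Nat.cast_succ, contDiff_succ_iff_deriv]
    refine ⟨fun s => (hasDerivAt_pos_pow k s).differentiableAt, by simp, ?_⟩
    have : deriv (fun s : ℝ => max s 0 ^ (k + 1 + 1)) = fun s => (k + 2 : ℝ) * max s 0 ^ (k + 1) :=
      funext fun s => (hasDerivAt_pos_pow k s).deriv
    rw [this]; exact contDiff_const.mul ih

theorem hasDerivAt_G0 (t : ℝ) : HasDerivAt G0 (G1 t) t := by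
  have h := (hasDerivAt_pos_pow 4 (1 - t)).comp t ((hasDerivAt_id t).const_sub 1)
  refine HasDerivAt.congr_deriv h ?_
  simp only [G1]; norm_num

theorem hasDerivAt_G1 (t : ℝ) : HasDerivAt G1 (G2 t) t := by
  have h := ((hasDerivAt_pos_pow 3 (1 - t)).comp t ((hasDerivAt_id t).const_sub 1)).const_mul (-6)
  refine HasDerivAt.congr_deriv h ?_
  simp only [G2]; norm_num; ring

theorem deriv_G0 : deriv G0 = G1 := funext fun t => (hasDerivAt_G0 t).deriv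
theorem deriv_G1 : deriv G1 = G2 := funext fun t => (hasDerivAt_G1 t).deriv

@[fun_prop] theorem G0_cd {k : ℕ} (hk : k ≤ 3) : ContDiff ℝ k G0 :=
  ((contDiff_pos_pow 5).comp (contDiff_const.sub contDiff_id)).of_le (by exact_mod_cast by omega)
@[fun_prop] theorem G1_cd {k : ℕ} (hk : k ≤ 3) : ContDiff ℝ k G1 :=
  (contDiff_const.mul ((contDiff_pos_pow 4).comp (contDiff_const.sub contDiff_id))).of_le
    (by exact_mod_cast by omega)
@[fun_prop] theorem G2_cd {k : ℕ} (hk : k ≤ 3) : ContDiff ℝ k G2 :=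
  (contDiff_const.mul ((contDiff_pos_pow 3).comp (contDiff_const.sub contDiff_id))).of_le
    (by exact_mod_cast hk)

theorem mx_mem {t : ℝ} (ht : 0 ≤ t) : 0 ≤ max (1 - t) 0 ∧ max (1 - t) 0 ≤ 1 :=
  ⟨le_max_right _ _, max_le (by linarith) zero_le_one⟩

theorem G0_nonneg (t : ℝ) : 0 ≤ G0 t := by unfold G0; positivity
theorem G1_nonpos (t : ℝ) : G1 t ≤ 0 := by
  have : 0 ≤ max (1 - t) 0 ^ 5 := by positivity
  unfold G1; linarith
theorem G2_nonneg (t : ℝ) : 0 ≤ G2 t := by unfold G2; positivity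
theorem G0_zero {t : ℝ} (h : 1 ≤ t) : G0 t = 0 := by simp [G0, max_eq_right (sub_nonpos.2 h)]
theorem G1_zero {t : ℝ} (h : 1 ≤ t) : G1 t = 0 := by simp [G1, max_eq_right (sub_nonpos.2 h)]
theorem G2_zero {t : ℝ} (h : 1 ≤ t) : G2 t = 0 := by simp [G2, max_eq_right (sub_nonpos.2 h)]
theorem lt_of_G0_ne {t : ℝ} (h : G0 t ≠ 0) : t < 1 := not_le.1 fun h1 => h (G0_zero h1)
theorem lt_of_G1_ne {t : ℝ} (h : G1 t ≠ 0) : t < 1 := not_le.1 fun h1 => h (G1_zero h1)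
theorem lt_of_G2_ne {t : ℝ} (h : G2 t ≠ 0) : t < 1 := not_le.1 fun h1 => h (G2_zero h1)
theorem G0_le {t : ℝ} (ht : 0 ≤ t) : G0 t ≤ 1 := pow_le_one₀ (mx_mem ht).1 (mx_mem ht).2
theorem neg_G1_le {t : ℝ} (ht : 0 ≤ t) : -G1 t ≤ 6 := by
  have : max (1 - t) 0 ^ 5 ≤ 1 := pow_le_one₀ (mx_mem ht).1 (mx_mem ht).2
  unfold G1; linarith
theorem abs_G1_le {t : ℝ} (ht : 0 ≤ t) : |G1 t| ≤ 6 := by
  rw [abs_of_nonpos (G1_nonpos t)]; exact neg_G1_le ht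
theorem G2_le {t : ℝ} (ht : 0 ≤ t) : G2 t ≤ 30 := by
  have : max (1 - t) 0 ^ 4 ≤ 1 := pow_le_one₀ (mx_mem ht).1 (mx_mem ht).2
  unfold G2; linarith
theorem G1_sq_le {t : ℝ} (ht : 0 ≤ t) : G1 t ^ 2 ≤ 2 * G2 t := by
  have h1 : max (1 - t) 0 ^ 6 ≤ 1 := pow_le_one₀ (mx_mem ht).1 (mx_mem ht).2
  have h2 : 0 ≤ max (1 - t) 0 ^ 4 := by positivity
  unfold G1 G2; nlinarith [mul_le_mul_of_nonneg_left h1 h2]
theorem G0_le_G2 {t : ℝ} (ht : 0 ≤ t) : G0 t ≤ G2 t := by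
  have h1 : max (1 - t) 0 ^ 2 ≤ 1 := pow_le_one₀ (mx_mem ht).1 (mx_mem ht).2
  have h2 : 0 ≤ max (1 - t) 0 ^ 4 := by positivity
  unfold G0 G2; nlinarith [mul_le_mul_of_nonneg_left h1 h2]
theorem G12_sq_le {t : ℝ} (ht : 0 ≤ t) : (G1 t + t * G2 t) ^ 2 ≤ 30 * G2 t := by
  rcases le_total 1 t with h | h
  · simp [G1_zero h, G2_zero h]
  · have h0 : 0 ≤ 1 - t := by linarith
    simp only [G1, G2, max_eq_left h0]
    have h1 : (1 - t) ^ 4 ≤ 1 := pow_le_one₀ h0 (by linarith)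
    have h2 : (30 * t - 6 * (1 - t)) ^ 2 ≤ 900 := by nlinarith
    have h3 : 0 ≤ (1 - t) ^ 4 := by positivity
    calc _ = (1 - t) ^ 4 * ((1 - t) ^ 4 * (30 * t - 6 * (1 - t)) ^ 2) := by ring
      _ ≤ (1 - t) ^ 4 * (1 * 900) := by gcongr
      _ = _ := by ring
theorem G0_ge {t : ℝ} (ht : t ≤ 1 / 2) : 1 / 64 ≤ G0 t := by
  have : (1 / 2 : ℝ) ≤ max (1 - t) 0 := le_max_of_le_left (by linarith)
  calc (1 / 64 : ℝ) = (1 / 2) ^ 6 := by norm_num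
    _ ≤ _ := pow_le_pow_left₀ (by norm_num) this 6

theorem Gb_smooth : ContDiff ℝ ∞ Gb := ct_smooth.comp (contDiff_const.mul contDiff_id)
@[fun_prop] theorem Gb_cd {k : ℕ} : ContDiff ℝ k Gb := Gb_smooth.of_le (cast_le_inf k)
theorem Gb_nonneg (t : ℝ) : 0 ≤ Gb t := ct_nonneg _
theorem Gb_le (t : ℝ) : Gb t ≤ 1 := ct_le_one _
theorem Gb_one {t : ℝ} (h : t ≤ 1 / 4) : Gb t = 1 := ct_one (by linarith)
theorem lt_of_Gb_ne {t : ℝ} (h : Gb t ≠ 0) : t < 1 / 2 := by linarith [lt_of_ct_ne h]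
theorem hasDerivAt_Gb (t : ℝ) : HasDerivAt Gb (4 * deriv ct (4 * t)) t := by
  have h := hasDerivAt_ct_lin 4 0 t
  simp only [add_zero] at h
  exact h

@[fun_prop] theorem hv_cd {k : ℕ} (σ : ℝ) : ContDiff ℝ k (hv σ) := by unfold hv; fun_prop
theorem hv_nonneg (σ c : ℝ) : 0 ≤ hv σ c := ct_nonneg _
theorem hv_le (σ c : ℝ) : hv σ c ≤ 1 := ct_le_one _
theorem hv_one {σ c : ℝ} (h : 1 / 4 ≤ σ * c) : hv σ c = 1 := ct_one (by linarith)
theorem hv_zero {σ c : ℝ} (h : σ * c ≤ 0) : hv σ c = 0 := ct_zero (by linarith)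
theorem hv_add {c : ℝ} (h : 1 / 2 ≤ c ^ 2) : hv 1 c + hv (-1) c = 1 := by
  rcases le_total 0 c with h0 | h0
  · rw [hv_one (by nlinarith), hv_zero (by linarith), add_zero]
  · rw [hv_zero (by linarith), hv_one (by nlinarith), zero_add]

theorem gam_nonneg (u : E) : 0 ≤ gam u := mul_nonneg (ct_nonneg _) (one_sub_ct_nonneg _)
theorem gam_le (u : E) : gam u ≤ 1 := mul_le_one₀ (ct_le_one _) (one_sub_ct_nonneg _) (one_sub_ct_le _)
theorem gam_ne {u : E} (h : gam u ≠ 0) : 1 < ‖u‖ ∧ ‖u‖ < 2 := by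
  have h1 := lt_of_ct_ne (left_ne_zero_of_mul h)
  have h2 : 1 < ‖u‖ ^ 2 := lt_of_ct_ne_one fun h3 => right_ne_zero_of_mul h (by rw [h3, sub_self])
  constructor <;> nlinarith [norm_nonneg u]
theorem gam_zero : gam 0 = 0 := by
  by_contra h
  have := (gam_ne h).1
  norm_num at this
theorem gam_smooth : ContDiff ℝ ∞ gam :=
  (ct_smooth.comp ((contDiff_norm_sq ℝ).div_const 2)).mul
    (contDiff_const.sub (ct_smooth.comp (contDiff_norm_sq ℝ)))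

/-! ### the weights -/

namespace Par

variable {π : Par}

theorem B0_smooth (π : Par) : ContDiff ℝ ∞ π.B0 :=
  ct_smooth.comp ((contDiff_const.mul (contDiff_const.sub contDiff_id)).div_const _)
theorem B1_smooth (π : Par) : ContDiff ℝ ∞ π.B1 :=
  ct_smooth.comp ((contDiff_const.sub contDiff_id).div_const _)
theorem Bt_smooth (π : Par) : ContDiff ℝ ∞ π.Bt :=
  ct_smooth.comp ((contDiff_const.sub contDiff_id).div_const _)
theorem K0_smooth : ContDiff ℝ ∞ K0 :=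
  contDiff_const.sub (ct_smooth.comp (contDiff_const.mul contDiff_id))
theorem sg0_smooth (π : Par) : ContDiff ℝ ∞ π.sg0 :=
  (contDiff_const.mul (contDiff_id.pow 2)).mul
    (contDiff_const.sub (ct_smooth.comp (contDiff_id.div_const _)))
theorem cu_smooth (π : Par) : ContDiff ℝ ∞ π.cu :=
  contDiff_const.sub (ct_smooth.comp ((contDiff_const.mul contDiff_id).div_const _))
theorem sgb_smooth (π : Par) : ContDiff ℝ ∞ π.sgb :=
  (contDiff_const.mul (contDiff_id.pow 4)).mul π.cu_smooth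
theorem xi_smooth (π : Par) : ContDiff ℝ ∞ π.xi :=
  contDiff_const.sub (ct_smooth.comp ((contDiff_const.mul contDiff_id).div_const _))
theorem ps_smooth (π : Par) : ContDiff ℝ ∞ π.ps :=
  ct_smooth.comp ((contDiff_norm_sq ℝ).div_const _)
theorem pt_smooth (π : Par) : ContDiff ℝ ∞ π.pt :=
  ct_smooth.comp ((contDiff_norm_sq ℝ).div_const _)
theorem W0_smooth (π : Par) : ContDiff ℝ ∞ π.W0 :=
  (Real.contDiff_exp.comp ((contDiff_norm_sq ℝ).neg.div_const _)).mul π.ps_smooth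
theorem W_smooth (π : Par) : ContDiff ℝ ∞ π.W := π.W0_smooth.pow 2

@[fun_prop] theorem B0_cd {k : ℕ} : ContDiff ℝ k π.B0 := π.B0_smooth.of_le (cast_le_inf k)
@[fun_prop] theorem B1_cd {k : ℕ} : ContDiff ℝ k π.B1 := π.B1_smooth.of_le (cast_le_inf k)
@[fun_prop] theorem Bt_cd {k : ℕ} : ContDiff ℝ k π.Bt := π.Bt_smooth.of_le (cast_le_inf k)
@[fun_prop] theorem K0_cd {k : ℕ} : ContDiff ℝ k K0 := K0_smooth.of_le (cast_le_inf k)
@[fun_prop] theorem sg0_cd {k : ℕ} : ContDiff ℝ k π.sg0 := π.sg0_smooth.of_le (cast_le_inf k)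
@[fun_prop] theorem cu_cd {k : ℕ} : ContDiff ℝ k π.cu := π.cu_smooth.of_le (cast_le_inf k)
@[fun_prop] theorem sgb_cd {k : ℕ} : ContDiff ℝ k π.sgb := π.sgb_smooth.of_le (cast_le_inf k)
@[fun_prop] theorem xi_cd {k : ℕ} : ContDiff ℝ k π.xi := π.xi_smooth.of_le (cast_le_inf k)
@[fun_prop] theorem ps_cd {k : ℕ} : ContDiff ℝ k π.ps := π.ps_smooth.of_le (cast_le_inf k)
@[fun_prop] theorem pt_cd {k : ℕ} : ContDiff ℝ k π.pt := π.pt_smooth.of_le (cast_le_inf k)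
@[fun_prop] theorem W0_cd {k : ℕ} : ContDiff ℝ k π.W0 := π.W0_smooth.of_le (cast_le_inf k)
@[fun_prop] theorem W_cd {k : ℕ} : ContDiff ℝ k π.W := π.W_smooth.of_le (cast_le_inf k)

theorem B0_nonneg (c : ℝ) : 0 ≤ π.B0 c := ct_nonneg _
theorem B0_le (c : ℝ) : π.B0 c ≤ 1 := ct_le_one _
theorem B1_nonneg (c : ℝ) : 0 ≤ π.B1 c := ct_nonneg _
theorem B1_le (c : ℝ) : π.B1 c ≤ 1 := ct_le_one _
theorem Bt_nonneg (c : ℝ) : 0 ≤ π.Bt c := ct_nonneg _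
theorem Bt_le (c : ℝ) : π.Bt c ≤ 1 := ct_le_one _
theorem K0_nonneg (c : ℝ) : 0 ≤ K0 c := one_sub_ct_nonneg _
theorem K0_le (c : ℝ) : K0 c ≤ 1 := one_sub_ct_le _
theorem cu_nonneg (c : ℝ) : 0 ≤ π.cu c := one_sub_ct_nonneg _
theorem cu_le (c : ℝ) : π.cu c ≤ 1 := one_sub_ct_le _
theorem xi_nonneg (c : ℝ) : 0 ≤ π.xi c := one_sub_ct_nonneg _
theorem xi_le (c : ℝ) : π.xi c ≤ 1 := one_sub_ct_le _
theorem ps_nonneg (x : E) : 0 ≤ π.ps x := ct_nonneg _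
theorem ps_le (x : E) : π.ps x ≤ 1 := ct_le_one _
theorem pt_nonneg (x : E) : 0 ≤ π.pt x := ct_nonneg _
theorem pt_le (x : E) : π.pt x ≤ 1 := ct_le_one _
theorem sg0_nonneg (c : ℝ) : 0 ≤ π.sg0 c := mul_nonneg (by positivity) (one_sub_ct_nonneg _)
theorem sg0_le (c : ℝ) : π.sg0 c ≤ 16 * c ^ 2 :=
  mul_le_of_le_one_right (by positivity) (one_sub_ct_le _)
theorem sgb_nonneg (c : ℝ) : 0 ≤ π.sgb c := mul_nonneg (by positivity) (cu_nonneg _)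
theorem sgb_le (c : ℝ) : π.sgb c ≤ 256 * c ^ 4 := mul_le_of_le_one_right (by positivity) (cu_le _)
theorem W0_nonneg (x : E) : 0 ≤ π.W0 x := mul_nonneg (Real.exp_pos _).le (ps_nonneg _)
theorem W0_le (x : E) : π.W0 x ≤ 1 :=
  mul_le_one₀ (Real.exp_le_one_iff.2 (by nlinarith [sq_nonneg ‖x‖])) (ps_nonneg _) (ps_le _)
theorem W_nonneg (x : E) : 0 ≤ π.W x := sq_nonneg _
theorem W_le (x : E) : π.W x ≤ 1 := pow_le_one₀ (W0_nonneg x) (W0_le x)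
theorem W_eq (π : Par) (x : E) : π.W x = Real.exp (-‖x‖ ^ 2 / 4) * π.ps x ^ 2 := by
  rw [W, W0, mul_pow, ← Real.exp_nat_mul]; congr 2; push_cast; ring

theorem Rg.α2 (h : π.Rg) : 0 < π.α ^ 2 ∧ π.α ^ 2 ≤ 1 / 100 :=
  ⟨pow_pos h.α0 2, by nlinarith [h.α0, h.α1]⟩
theorem Rg.η2 (h : π.Rg) : 0 < π.η ^ 2 ∧ π.η ^ 2 ≤ 1 / 100 :=
  ⟨pow_pos h.η0 2, by nlinarith [h.η0, h.η1]⟩
theorem Rg.ε2 (h : π.Rg) : 0 < π.ε ^ 2 ∧ π.ε ^ 2 ≤ 1 / 100 :=
  ⟨pow_pos h.ε0 2, by nlinarith [h.ε0, h.ε1]⟩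
theorem Rg.R0 (h : π.Rg) : 0 < π.R := lt_of_lt_of_le one_pos h.R1

theorem Rg.B0_one (h : π.Rg) {c : ℝ} (hc : 1 - c ≤ π.α ^ 2 / 2) : π.B0 c = 1 :=
  ct_one ((div_le_one h.α2.1).2 (by linarith))
theorem Rg.B0_zero (h : π.Rg) {c : ℝ} (hc : π.α ^ 2 ≤ 1 - c) : π.B0 c = 0 :=
  ct_zero ((le_div_iff₀ h.α2.1).2 (by linarith))
theorem Rg.B0_ne (h : π.Rg) {c : ℝ} (hc : π.B0 c ≠ 0) : 1 - c < π.α ^ 2 :=
  not_le.1 fun h1 => hc (h.B0_zero h1)
theorem Rg.B1_one (h : π.Rg) {c : ℝ} (hc : 1 - c ≤ π.α ^ 2) : π.B1 c = 1 :=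
  ct_one ((div_le_one h.α2.1).2 hc)
theorem Rg.B1_zero (h : π.Rg) {c : ℝ} (hc : 2 * π.α ^ 2 ≤ 1 - c) : π.B1 c = 0 :=
  ct_zero ((le_div_iff₀ h.α2.1).2 hc)
theorem Rg.B1_ne (h : π.Rg) {c : ℝ} (hc : π.B1 c ≠ 0) : 1 - c < 2 * π.α ^ 2 :=
  not_le.1 fun h1 => hc (h.B1_zero h1)
theorem Rg.Bt_one (h : π.Rg) {c : ℝ} (hc : 1 - c ≤ 2 * π.α ^ 2) : π.Bt c = 1 :=
  ct_one ((div_le_one (by linarith [h.α2.1])).2 hc)
theorem Rg.Bt_zero (h : π.Rg) {c : ℝ} (hc : 4 * π.α ^ 2 ≤ 1 - c) : π.Bt c = 0 :=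
  ct_zero ((le_div_iff₀ (by linarith [h.α2.1])).2 (by linarith))
theorem Rg.Bt_ne (h : π.Rg) {c : ℝ} (hc : π.Bt c ≠ 0) : 1 - c < 4 * π.α ^ 2 :=
  not_le.1 fun h1 => hc (h.Bt_zero h1)
theorem K0_one {c : ℝ} (hc : 1 / 2 ≤ c) : K0 c = 1 := by rw [K0, ct_zero (by linarith), sub_zero]
theorem K0_zero {c : ℝ} (hc : c ≤ 1 / 4) : K0 c = 0 := by rw [K0, ct_one (by linarith), sub_self]
theorem K0_ne {c : ℝ} (hc : K0 c ≠ 0) : 1 / 4 < c := not_le.1 fun h1 => hc (K0_zero h1)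
theorem Rg.cu_one (h : π.Rg) {c : ℝ} (hc : π.η ^ 2 ≤ c) : π.cu c = 1 := by
  rw [cu, ct_zero ((le_div_iff₀ h.η2.1).2 (by linarith)), sub_zero]
theorem Rg.cu_zero (h : π.Rg) {c : ℝ} (hc : c ≤ π.η ^ 2 / 2) : π.cu c = 0 := by
  rw [cu, ct_one ((div_le_one h.η2.1).2 (by linarith)), sub_self]
theorem Rg.sgb_zero (h : π.Rg) {c : ℝ} (hc : c ≤ π.η ^ 2 / 2) : π.sgb c = 0 := by
  rw [sgb, h.cu_zero hc, mul_zero]
theorem Rg.sg0_zero (h : π.Rg) {c : ℝ} (hc : c ≤ π.η ^ 2) : π.sg0 c = 0 := by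
  rw [sg0, ct_one ((div_le_one h.η2.1).2 hc), sub_self, mul_zero]
theorem Rg.sg0_ne (h : π.Rg) {c : ℝ} (hc : π.sg0 c ≠ 0) : π.η ^ 2 < c :=
  not_le.1 fun h1 => hc (h.sg0_zero h1)
theorem Rg.sg0_eq (h : π.Rg) {c : ℝ} (hc : 2 * π.η ^ 2 ≤ c) : π.sg0 c = 16 * c ^ 2 := by
  rw [sg0, ct_zero ((le_div_iff₀ h.η2.1).2 hc), sub_zero, mul_one]
theorem Rg.one_le_sg0 (h : π.Rg) {c : ℝ} (hc : 1 / 4 ≤ c) : 1 ≤ π.sg0 c := by
  rw [h.sg0_eq (by linarith [h.η2.2])]; nlinarith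
theorem Rg.sg0_sq_le (h : π.Rg) (c : ℝ) : π.sg0 c ^ 2 ≤ π.sgb c := by
  by_cases h0 : π.sg0 c = 0
  · rw [h0]; simpa using sgb_nonneg c
  · rw [sgb, h.cu_one (h.sg0_ne h0).le, mul_one]
    nlinarith [sg0_le (π := π) c, sg0_nonneg (π := π) c]
theorem Rg.xi_one (h : π.Rg) {d : ℝ} (hd : π.ρ ≤ d) : π.xi d = 1 := by
  rw [xi, ct_zero ((le_div_iff₀ h.ρ0).2 (by linarith)), sub_zero]
theorem Rg.xi_zero (h : π.Rg) {d : ℝ} (hd : d ≤ π.ρ / 2) : π.xi d = 0 := by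
  rw [xi, ct_one ((div_le_one h.ρ0).2 (by linarith)), sub_self]
theorem Rg.xi_ne (h : π.Rg) {d : ℝ} (hd : π.xi d ≠ 0) : π.ρ / 2 < d :=
  not_le.1 fun h1 => hd (h.xi_zero h1)
theorem Rg.dxi_ge (h : π.Rg) {d : ℝ} (hd : π.ρ ≤ d) : deriv π.xi d = 0 :=
  deriv_zero_Ici (deriv_smooth π.xi_smooth).continuous (fun _ => h.xi_one) hd
theorem Rg.dxi_le (h : π.Rg) {d : ℝ} (hd : d ≤ π.ρ / 2) : deriv π.xi d = 0 :=
  deriv_zero_Iic (deriv_smooth π.xi_smooth).continuous (fun _ => h.xi_zero) hd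
theorem Rg.ps_one (h : π.Rg) {x : E} (hx : ‖x‖ ≤ π.R) : π.ps x = 1 :=
  ct_one ((div_le_one (pow_pos h.R0 2)).2 (pow_le_pow_left₀ (norm_nonneg _) hx 2))
theorem Rg.ps_ne (h : π.Rg) {x : E} (hx : π.ps x ≠ 0) : ‖x‖ ^ 2 < 2 * π.R ^ 2 :=
  (div_lt_iff₀ (pow_pos h.R0 2)).1 (lt_of_ct_ne hx)
theorem Rg.W0_ne (h : π.Rg) {x : E} (hx : π.W0 x ≠ 0) : ‖x‖ ^ 2 < 2 * π.R ^ 2 :=
  h.ps_ne (right_ne_zero_of_mul hx)
theorem Rg.W_ne (h : π.Rg) {x : E} (hx : π.W x ≠ 0) : ‖x‖ ^ 2 < 2 * π.R ^ 2 :=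
  h.W0_ne fun h0 => hx (by rw [W, h0]; simp)
theorem Rg.pt_one (h : π.Rg) {x : E} (hx : ‖x‖ ^ 2 ≤ 2 * π.R ^ 2) : π.pt x = 1 :=
  ct_one ((div_le_one (by linarith [pow_pos h.R0 2])).2 hx)
theorem Rg.pt_ne (h : π.Rg) {x : E} (hx : π.pt x ≠ 0) : ‖x‖ < 2 * π.R := by
  have := (div_lt_iff₀ (by linarith [pow_pos h.R0 2] : 0 < 2 * π.R ^ 2)).1 (lt_of_ct_ne hx)
  exact lt_of_pow_lt_pow_left₀ 2 (by linarith [h.R0]) (by linarith)
theorem Rg.norm_le (h : π.Rg) {x : E} (hx : ‖x‖ ^ 2 ≤ 2 * π.R ^ 2) : ‖x‖ ≤ 2 * π.R :=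
  (abs_le_of_sq_le_sq' (by nlinarith [pow_pos h.R0 2]) (by linarith [h.R0])).2

/-! derivatives of the weights -/

theorem hasDerivAt_B0 (π : Par) (c : ℝ) :
    HasDerivAt π.B0 (-(2 / π.α ^ 2) * deriv ct (2 * (1 - c) / π.α ^ 2)) c := by
  have h := hasDerivAt_ct_lin (-(2 / π.α ^ 2)) (2 / π.α ^ 2) c
  have e : ∀ c : ℝ, -(2 / π.α ^ 2) * c + 2 / π.α ^ 2 = 2 * (1 - c) / π.α ^ 2 := fun c => by ring
  simp only [e] at h
  exact h
theorem hasDerivAt_B1 (π : Par) (c : ℝ) :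
    HasDerivAt π.B1 (-(1 / π.α ^ 2) * deriv ct ((1 - c) / π.α ^ 2)) c := by
  have h := hasDerivAt_ct_lin (-(1 / π.α ^ 2)) (1 / π.α ^ 2) c
  have e : ∀ c : ℝ, -(1 / π.α ^ 2) * c + 1 / π.α ^ 2 = (1 - c) / π.α ^ 2 := fun c => by ring
  simp only [e] at h
  exact h
theorem hasDerivAt_Bt (π : Par) (c : ℝ) :
    HasDerivAt π.Bt (-(1 / (2 * π.α ^ 2)) * deriv ct ((1 - c) / (2 * π.α ^ 2))) c := by
  have h := hasDerivAt_ct_lin (-(1 / (2 * π.α ^ 2))) (1 / (2 * π.α ^ 2)) c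
  have e : ∀ c : ℝ, -(1 / (2 * π.α ^ 2)) * c + 1 / (2 * π.α ^ 2) = (1 - c) / (2 * π.α ^ 2) :=
    fun c => by ring
  simp only [e] at h
  exact h
theorem hasDerivAt_K0 (c : ℝ) : HasDerivAt K0 (-(4 * deriv ct (4 * c))) c := by
  have h := (hasDerivAt_ct_lin 4 0 c).const_sub 1
  simp only [add_zero] at h
  exact h

theorem dB0_nonneg (π : Par) (c : ℝ) : 0 ≤ deriv π.B0 c := by
  rw [(π.hasDerivAt_B0 c).deriv]
  exact mul_nonneg_of_nonpos_of_nonpos (neg_nonpos.2 (by positivity)) (dct_nonpos _)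
theorem abs_dB0_le (π : Par) (c : ℝ) : |deriv π.B0 c| ≤ 2 * Cc / π.α ^ 2 := by
  rw [(π.hasDerivAt_B0 c).deriv, abs_mul, abs_neg, abs_of_nonneg (by positivity)]
  calc _ ≤ 2 / π.α ^ 2 * Cc := by gcongr; exact abs_dct_le _
    _ = _ := by ring
theorem abs_dBt_le (π : Par) (c : ℝ) : |deriv π.Bt c| ≤ Cc / π.α ^ 2 := by
  rw [(π.hasDerivAt_Bt c).deriv, abs_mul, abs_neg, abs_of_nonneg (by positivity)]
  have : 0 ≤ Cc / π.α ^ 2 := by have := Cc_pos; positivity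
  calc _ ≤ 1 / (2 * π.α ^ 2) * Cc := by gcongr; exact abs_dct_le _
    _ = Cc / π.α ^ 2 / 2 := by ring
    _ ≤ _ := by linarith
theorem abs_dK0_le (c : ℝ) : |deriv K0 c| ≤ 4 * Cc := by
  rw [(hasDerivAt_K0 c).deriv, abs_neg, abs_mul]
  have := abs_dct_le (4 * c)
  norm_num; linarith
theorem Rg.dB0_ne (h : π.Rg) {c : ℝ} (hc : deriv π.B0 c ≠ 0) : 1 - c < π.α ^ 2 := by
  rw [(π.hasDerivAt_B0 c).deriv] at hc
  have := (div_lt_iff₀ h.α2.1).1 (dct_ne (right_ne_zero_of_mul hc)).2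
  linarith
theorem Rg.dB1_zero (h : π.Rg) {c : ℝ} (hc : 1 - c ≤ π.α ^ 2) : deriv π.B1 c = 0 := by
  rw [(π.hasDerivAt_B1 c).deriv, dct_zero_le ((div_le_one h.α2.1).2 hc), mul_zero]
theorem Rg.dBt_ne (h : π.Rg) {c : ℝ} (hc : deriv π.Bt c ≠ 0) : 1 - c < 4 * π.α ^ 2 := by
  rw [(π.hasDerivAt_Bt c).deriv] at hc
  have := (div_lt_iff₀ (by linarith [h.α2.1])).1 (dct_ne (right_ne_zero_of_mul hc)).2
  linarith
theorem dK0_ne {c : ℝ} (hc : deriv K0 c ≠ 0) : 1 / 4 < c ∧ c < 1 / 2 := by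
  rw [(hasDerivAt_K0 c).deriv] at hc
  have := dct_ne (right_ne_zero_of_mul (neg_ne_zero.1 hc))
  constructor <;> linarith [this.1, this.2]
theorem dK0_zero {c : ℝ} (hc : 1 / 2 ≤ c) : deriv K0 c = 0 := by
  by_contra h
  linarith [(dK0_ne h).2]

theorem hasDerivAt_sg0 (π : Par) (c : ℝ) : HasDerivAt π.sg0
    (32 * c * (1 - ct (c / π.η ^ 2)) - 16 * c * (c / π.η ^ 2 * deriv ct (c / π.η ^ 2))) c := by
  have h := hasDerivAt_ct_lin (1 / π.η ^ 2) 0 c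
  have e : ∀ c : ℝ, 1 / π.η ^ 2 * c + 0 = c / π.η ^ 2 := fun c => by ring
  simp only [e] at h
  have := ((hasDerivAt_pow 2 c).const_mul 16).mul (h.const_sub 1)
  refine HasDerivAt.congr_deriv this ?_
  simp; ring

theorem abs_mul_dct_le (s : ℝ) : |s * deriv ct s| ≤ 2 * Cc := by
  by_cases h : deriv ct s = 0
  · simp [h, Cc_pos.le]
  · rw [abs_mul, abs_of_pos (by linarith [(dct_ne h).1])]
    exact mul_le_mul (dct_ne h).2.le (abs_dct_le s) (abs_nonneg _) (by norm_num)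

theorem abs_dsg0_le (π : Par) {c : ℝ} (hc : 0 ≤ c) : |deriv π.sg0 c| ≤ 64 * Cc * c := by
  rw [(π.hasDerivAt_sg0 c).deriv]
  have h1 := abs_le.1 (abs_mul_dct_le (c / π.η ^ 2))
  have h2 := one_sub_ct_nonneg (c / π.η ^ 2)
  have h3 := one_sub_ct_le (c / π.η ^ 2)
  have h4 := one_le_Cc
  rw [abs_le]
  constructor <;> nlinarith [mul_le_mul_of_nonneg_left h1.1 hc, mul_le_mul_of_nonneg_left h1.2 hc,
    mul_nonneg hc h2, mul_le_mul_of_nonneg_left h3 hc, mul_le_mul_of_nonneg_left h4 hc]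

theorem Rg.dsg0_zero (h : π.Rg) {c : ℝ} (hc : c ≤ π.η ^ 2) : deriv π.sg0 c = 0 :=
  deriv_zero_Iic (deriv_smooth π.sg0_smooth).continuous (fun _ => h.sg0_zero) hc

/-- the derivative of a radial cutoff -/
theorem hasFDerivAt_rad (a : ℝ) (x : E) : HasFDerivAt (fun y : E => ct (‖y‖ ^ 2 / a))
    ((2 / a * deriv ct (‖x‖ ^ 2 / a)) • innerSL ℝ x) x := by
  have h1 : HasFDerivAt (fun y : E => ‖y‖ ^ 2 / a) ((2 / a) • innerSL ℝ x) x := by
    have := (hasStrictFDerivAt_norm_sq x).hasFDerivAt.const_mul a⁻¹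
    refine (this.congr_fderiv ?_).congr_of_eventuallyEq (Eventually.of_forall fun y => ?_)
    · ext1 v
      simp; ring
    · simp [div_eq_inv_mul]
  refine ((hasDerivAt_ct _).comp_hasFDerivAt x h1).congr_fderiv ?_
  rw [smul_smul, mul_comm]

theorem fderiv_ps (π : Par) (x v : E) :
    fderiv ℝ π.ps x v = 2 / π.R ^ 2 * deriv ct (‖x‖ ^ 2 / π.R ^ 2) * ⟪x, v⟫ := by
  have : fderiv ℝ π.ps x = _ := (hasFDerivAt_rad (π.R ^ 2) x).fderiv
  rw [this]; simp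

theorem fderiv_pt (π : Par) (x v : E) :
    fderiv ℝ π.pt x v = 2 / (2 * π.R ^ 2) * deriv ct (‖x‖ ^ 2 / (2 * π.R ^ 2)) * ⟪x, v⟫ := by
  have : fderiv ℝ π.pt x = _ := (hasFDerivAt_rad (2 * π.R ^ 2) x).fderiv
  rw [this]; simp

theorem fderiv_W0 (π : Par) (x v : E) : fderiv ℝ π.W0 x v =
    -(π.W0 x * ⟪x, v⟫ / 4) + Real.exp (-‖x‖ ^ 2 / 8) * fderiv ℝ π.ps x v := by
  have h1 : HasFDerivAt (fun y : E => -‖y‖ ^ 2 / 8) ((-1 / 4 : ℝ) • innerSL ℝ x) x := by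
    have := (hasStrictFDerivAt_norm_sq x).hasFDerivAt.const_mul (-1 / 8 : ℝ)
    refine (this.congr_fderiv ?_).congr_of_eventuallyEq (Eventually.of_forall fun y => ?_)
    · ext1 v
      simp; ring
    · simp; ring
  have h2 := h1.exp.mul (π.ps_smooth.differentiable (by simp) x).hasFDerivAt
  have : fderiv ℝ π.W0 x = _ := h2.fderiv
  rw [this]; simp [W0]; ring

theorem fderiv_W (π : Par) (x v : E) : fderiv ℝ π.W x v = 2 * π.W0 x * fderiv ℝ π.W0 x v := by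
  have h := ((π.W0_smooth.differentiable (by simp) x).hasFDerivAt).pow 2
  have : fderiv ℝ π.W x = _ := h.fderiv
  rw [this]; simp

theorem rad_sq_le {a : ℝ} (ha : 0 < a) (x v : E) :
    (2 / a * deriv ct (‖x‖ ^ 2 / a) * ⟪x, v⟫) ^ 2 ≤ 8 * Cc ^ 2 / a * ‖v‖ ^ 2 := by
  by_cases h : deriv ct (‖x‖ ^ 2 / a) = 0
  · rw [h]; simp; positivity
  · have h1 := (div_lt_iff₀ ha).1 (dct_ne h).2
    have h2 := inner_sq_le x v
    have h3 := dct_sq_le (‖x‖ ^ 2 / a)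
    calc _ = (2 / a) ^ 2 * deriv ct (‖x‖ ^ 2 / a) ^ 2 * ⟪x, v⟫ ^ 2 := by ring
      _ ≤ (2 / a) ^ 2 * Cc ^ 2 * (2 * a * ‖v‖ ^ 2) := by
        gcongr
        exact h2.trans (by gcongr)
      _ = _ := by field_simp; ring

theorem Rg.fderiv_ps_sq (h : π.Rg) (x v : E) :
    fderiv ℝ π.ps x v ^ 2 ≤ 8 * Cc ^ 2 / π.R ^ 2 * ‖v‖ ^ 2 := by
  rw [fderiv_ps]; exact rad_sq_le (pow_pos h.R0 2) x v

theorem Rg.fderiv_pt_sq (h : π.Rg) (x v : E) :
    fderiv ℝ π.pt x v ^ 2 ≤ 8 * Cc ^ 2 / (2 * π.R ^ 2) * ‖v‖ ^ 2 := by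
  rw [fderiv_pt]; exact rad_sq_le (by linarith [pow_pos h.R0 2]) x v

theorem Rg.fderiv_ps_ne (h : π.Rg) {x v : E} (hx : fderiv ℝ π.ps x v ≠ 0) :
    π.R ^ 2 < ‖x‖ ^ 2 ∧ ‖x‖ ^ 2 < 2 * π.R ^ 2 := by
  rw [fderiv_ps] at hx
  have := dct_ne (right_ne_zero_of_mul (left_ne_zero_of_mul hx))
  exact ⟨(one_lt_div (pow_pos h.R0 2)).1 this.1, (div_lt_iff₀ (pow_pos h.R0 2)).1 this.2⟩

theorem Rg.fderiv_pt_ne (h : π.Rg) {x v : E} (hx : fderiv ℝ π.pt x v ≠ 0) :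
    2 * π.R ^ 2 < ‖x‖ ^ 2 ∧ ‖x‖ < 2 * π.R := by
  rw [fderiv_pt] at hx
  have h2 : 0 < 2 * π.R ^ 2 := by linarith [pow_pos h.R0 2]
  have := dct_ne (right_ne_zero_of_mul (left_ne_zero_of_mul hx))
  exact ⟨(one_lt_div h2).1 this.1, lt_of_pow_lt_pow_left₀ 2 (by linarith [h.R0])
    (by linarith [(div_lt_iff₀ h2).1 this.2])⟩

end Par

end Vale.Agent.P218M1
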