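import Vale.Agent.P218M1.Spec
import Vale.Agent.P218M1.Cut

/-!
# P218M1: the cutoff round the balls with much energy
-/

open MeasureTheory Metric Filter Topology Set
open scoped ContDiff RealInnerProductSpace

noncomputable section

namespace Vale.Agent.P218M1

namespace Eta

variable {S : Sf}

theorem A2_cont (hS : S.Ok) {x : E} (hx : S.g x ≠ 0) : ContinuousAt S.A2 x := by
  have h1 := hS.sg.continuous
  have h2 := hS.sD2.continuous
  have h3 : ‖S.g x‖ ≠ 0 := norm_ne_zero_iff.2 hx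
  have h4 : ContinuousAt S.n x := by unfold Sf.n; fun_prop (disch := assumption)
  unfold Sf.A2 hs
  simp only [Sf.A_apply, Sf.P_apply]
  fun_prop (disch := assumption)

theorem A2_int (hS : S.Ok) (z : E) (r : ℝ) : IntegrableOn S.A2 (ball z r) S.μ := by
  have := hS.fin
  refine IntegrableOn.mono_set_ae (t := closedBall z r ∩ {x | S.w x = 0})
    (ContinuousOn.integrableOn_compact ((isCompact_closedBall _ _).inter_right
      (isClosed_eq hS.sm.continuous continuous_const))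
        fun x hx => (A2_cont hS (hS.reg x hx.2)).continuousWithinAt) ?_
  filter_upwards [hS.sup] with x h1 h2 using ⟨ball_subset_closedBall h2, h1⟩

/-- a maximal separated family of balls with much energy -/
theorem cover {π : Par} {Λ e₀ : ℝ} (h : Good S π Λ) (he : 0 < e₀) : ∃ Z : Finset E,
    Z.card * e₀ ≤ S.AA π ∧ ∀ x, ‖x‖ ≤ 2 * π.R → e₀ < ∫ y in ball x (10 * π.ε), S.A2 y ∂S.μ →
      ∃ z ∈ Z, ‖x - z‖ < 20 * π.ε := by
  classical
  have := h.ok.fin
  have e0 := h.rg.ε0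
  have bd : ∀ Z : Finset E, (∀ z ∈ Z, ‖z‖ ≤ 2 * π.R ∧
      e₀ < ∫ y in ball z (10 * π.ε), S.A2 y ∂S.μ) →
      (Z : Set E).Pairwise (fun z z' => 20 * π.ε ≤ ‖z - z'‖) → Z.card * e₀ ≤ S.AA π :=
    fun Z h1 h2 => by
    have i1 := A2_int h.ok 0 (3 * π.R + 3)
    calc Z.card * e₀ = ∑ _z ∈ Z, e₀ := by simp
      _ ≤ ∑ z ∈ Z, ∫ y in ball z (10 * π.ε), S.A2 y ∂S.μ := Finset.sum_le_sum fun z hz => (h1 z hz).2.le
      _ = ∫ y in ⋃ z ∈ Z, ball z (10 * π.ε), S.A2 y ∂S.μ :=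
        (integral_biUnion_finset Z (fun _ _ => measurableSet_ball) (h2.imp fun z z' hz =>
          ball_disjoint_ball (by rw [dist_eq_norm]; linarith)) fun z _ => A2_int h.ok _ _).symm
      _ ≤ ∫ y in ball 0 (3 * π.R + 3), S.A2 y ∂S.μ := setIntegral_mono_set i1
        (ae_of_all _ S.A2_nonneg) (LE.le.eventuallyLE (iUnion₂_subset fun z hz =>
          ball_subset_ball' (by linarith [(h1 z hz).1, h.rg.ε1, h.rg.R1, dist_zero_right z])))
      _ ≤ _ := integral_mono i1 ((integrableOn_const measure_ball_lt_top.ne).add i1)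
        fun x => le_add_of_nonneg_left one_pos.le
  by_contra hc
  push Not at hc
  have all : ∀ n : ℕ, ∃ Z : Finset E, (∀ z ∈ Z, ‖z‖ ≤ 2 * π.R ∧
      e₀ < ∫ y in ball z (10 * π.ε), S.A2 y ∂S.μ) ∧
      (Z : Set E).Pairwise (fun z z' => 20 * π.ε ≤ ‖z - z'‖) ∧ Z.card = n := fun n => by
    induction n with
    | zero => exact ⟨∅, by simp, by simp, rfl⟩
    | succ n ih =>
      obtain ⟨Z, h1, h2, rfl⟩ := ih
      obtain ⟨x, x1, x2, x3⟩ := hc Z (bd Z h1 h2)
      refine ⟨insert x Z, Finset.forall_mem_insert .. |>.2 ⟨⟨x1, x2⟩, h1⟩, ?_,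
        Finset.card_insert_of_notMem fun hx => (x3 x hx).not_gt (by simpa)⟩
      rw [Finset.coe_insert]
      exact h2.insert fun z hz _ => ⟨x3 z hz, norm_sub_rev x z ▸ x3 z hz⟩
  obtain ⟨n, hn⟩ := exists_nat_gt (S.AA π / e₀)
  obtain ⟨Z, h1, h2, rfl⟩ := all n
  exact ((div_lt_iff₀ he).1 hn).not_ge (bd Z h1 h2)

/-- integrals of functions which are dominated by indicators of balls -/
theorem dom {ι : Type} {Λ : ℝ} (hS : S.Ok) (hA : S.AR Λ) (T : Finset ι) (z : ι → E) (r c : ι → ℝ)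
    (hr : ∀ i, 0 < r i) (hc : ∀ i, 0 ≤ c i) {f : E → ℝ} (f0 : ∀ x, 0 ≤ f x)
    (hf : ∀ x, f x ≤ ∑ i ∈ T, if ‖x - z i‖ ^ 2 < r i then c i else 0) (π : Par) :
    S.IB π f ≤ Λ * ∑ i ∈ T, c i * r i := by
  have := hS.fin
  have e : ∀ i x, (if ‖x - z i‖ ^ 2 < r i then c i else 0) =
      (ball (z i) √(r i)).indicator (fun _ => c i) x := fun i x => by
    simp only [indicator, mem_ball_iff_norm, Real.lt_sqrt (norm_nonneg _)]
  simp only [e] at hf
  have i1 : ∀ i ∈ T, Integrable ((ball (z i) √(r i)).indicator fun _ => c i) S.μ := fun i _ =>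
    (integrableOn_const measure_ball_lt_top.ne).integrable_indicator measurableSet_ball
  have i2 := integrable_finsetSum T i1
  refine ((integral_mono_of_nonneg (ae_of_all _ f0) i2.integrableOn (ae_of_all _ hf)).trans
    (setIntegral_le_integral i2 (ae_of_all _ fun x => (f0 x).trans (hf x)))).trans ?_
  rw [integral_finsetSum T i1, Finset.mul_sum]
  refine Finset.sum_le_sum fun i _ => ?_
  have := hA (z i) _ (Real.sqrt_pos.2 (hr i))
  rw [Real.sq_sqrt (hr i).le] at this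
  rw [integral_indicator_const _ measurableSet_ball, smul_eq_mul]
  nlinarith [hc i]

/-- the logarithmic cutoff -/
def av (m : ℕ) (s : ℝ) : ℝ := (∑ k ∈ Finset.range m, ct (s / 2 ^ k)) / m

theorem av_sm (m : ℕ) : ContDiff ℝ ∞ (av m) :=
  (ContDiff.sum fun _ _ => ct_smooth.comp (contDiff_id.div_const _)).div_const _

theorem av_one {m : ℕ} (hm : 0 < m) {s : ℝ} (hs : s ≤ 1) : av m s = 1 := by
  rw [av, Finset.sum_congr rfl fun k _ => ct_one ((div_le_one (by positivity)).2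
    (hs.trans (one_le_pow₀ one_le_two)))]
  simp [hm.ne']

theorem av_zero {m : ℕ} {s : ℝ} (hs : 2 ^ m ≤ s) : av m s = 0 := by
  rw [av, Finset.sum_eq_zero fun k hk => ct_zero ((le_div_iff₀ (by positivity)).2 (le_trans ?_ hs)),
    zero_div]
  rw [← pow_succ']
  exact pow_le_pow_right₀ one_le_two (Finset.mem_range.1 hk)

theorem av_der (m : ℕ) (s : ℝ) : s * deriv (av m) s ^ 2 ≤
    ∑ k ∈ Finset.range m, if s < 2 ^ (k + 1) then 2 * Cc ^ 2 / m ^ 2 / 2 ^ k else 0 := by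
  have d : HasDerivAt (av m) ((∑ k ∈ Finset.range m, deriv ct (s / 2 ^ k) / 2 ^ k) / m) s :=
    (HasDerivAt.fun_sum fun k _ => by
      simpa [Function.comp_def, div_eq_mul_inv] using
        (hasDerivAt_ct _).comp s ((hasDerivAt_id s).div_const (2 ^ k))).div_const _
  have p : ∀ k, deriv ct (s / 2 ^ k) ≠ 0 → 2 ^ k < s ∧ s < 2 ^ (k + 1) := fun k hk =>
    ⟨(one_lt_div (by positivity)).1 (dct_ne hk).1,
      pow_succ' (2 : ℝ) k ▸ (div_lt_iff₀ (by positivity)).1 (dct_ne hk).2⟩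
  have n0 : ∀ k ∈ Finset.range m, (0 : ℝ) ≤
      if s < 2 ^ (k + 1) then 2 * Cc ^ 2 / m ^ 2 / 2 ^ k else 0 := fun k _ => by positivity
  rw [d.deriv]
  by_cases h : ∃ k ∈ Finset.range m, deriv ct (s / 2 ^ k) ≠ 0
  · obtain ⟨k, hk, h⟩ := h
    refine le_trans ?_ (Finset.single_le_sum n0 hk)
    rw [Finset.sum_eq_single k (fun j _ hj => by_contra fun h0 => hj (by
      have a := p j fun h => h0 (by simp [h])
      have b := (pow_lt_pow_iff_right₀ one_lt_two).1 (a.1.trans (p k h).2)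
      have c := (pow_lt_pow_iff_right₀ one_lt_two).1 ((p k h).1.trans a.2)
      omega)) (absurd hk), if_pos (p k h).2]
    calc _ ≤ 2 ^ (k + 1) * (Cc ^ 2 / (2 ^ k) ^ 2 / m ^ 2) := by
          rw [div_pow, div_pow]
          have := dct_sq_le (s / 2 ^ k)
          have := (p k h).2
          gcongr
      _ = _ := by field_simp; ring
  · push Not at h
    rw [Finset.sum_eq_zero fun k hk => by rw [h k hk, zero_div]]
    simpa using Finset.sum_nonneg n0

theorem av_fd (m : ℕ) {ρ : ℝ} (hρ : 0 < ρ) (z x : E) :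
    ‖fderiv ℝ (fun x => av m (‖x - z‖ ^ 2 / ρ)) x‖ ^ 2 ≤ ∑ k ∈ Finset.range m,
      if ‖x - z‖ ^ 2 < 2 ^ (k + 1) * ρ then 8 * Cc ^ 2 / m ^ 2 / 2 ^ k / ρ else 0 := by
  have d := ((av_sm m).differentiable (by simp) (‖x - z‖ ^ 2 / ρ)).hasDerivAt.comp_hasFDerivAt
    (f := fun x => ‖x - z‖ ^ 2 / ρ) x (((hasFDerivAt_id x).sub_const z).norm_sq.mul_const ρ⁻¹)
  have := mul_le_mul_of_nonneg_left (av_der m (‖x - z‖ ^ 2 / ρ)) (show 0 ≤ 4 / ρ by positivity)
  erw [d.fderiv]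
  refine (le_of_eq ?_).trans (this.trans_eq ?_)
  · simp [← Nat.cast_smul_eq_nsmul ℝ, norm_smul, mul_pow, abs_of_pos hρ, -map_sub]
    field_simp
    ring
  · rw [Finset.mul_sum]
    refine Finset.sum_congr rfl fun k _ => ?_
    simp only [div_lt_iff₀ hρ]
    split_ifs <;> ring

theorem eta_fd {ι : Type} (T : Finset ι) {a : ι → E → ℝ} (ha : ∀ i, Differentiable ℝ (a i)) (x : E) :
    ‖gradient (fun x => ct (1 + ∑ i ∈ T, a i x ^ 2)) x‖ ^ 2 ≤
      4 * Cc ^ 2 * ∑ i ∈ T, ‖fderiv ℝ (a i) x‖ ^ 2 := by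
  have d := (hasDerivAt_ct (1 + ∑ i ∈ T, a i x ^ 2)).comp_hasFDerivAt
    (f := fun x => 1 + ∑ i ∈ T, a i x ^ 2) x
    ((HasFDerivAt.fun_sum fun i _ => (ha i x).hasFDerivAt.pow 2).const_add 1)
  erw [norm_grad, d.fderiv]
  rw [norm_smul, mul_pow, Real.norm_eq_abs, sq_abs]
  by_cases h : deriv ct (1 + ∑ i ∈ T, a i x ^ 2) = 0
  · rw [h, zero_pow two_ne_zero, zero_mul]; positivity
  have h1 := Finset.sum_mul_sq_le_sq_mul_sq T (fun i => 2 * |a i x|) fun i => ‖fderiv ℝ (a i) x‖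
  have h2 : ∑ i ∈ T, (2 * |a i x|) ^ 2 ≤ 4 := by
    simp only [mul_pow, sq_abs, ← Finset.mul_sum]
    linarith [(dct_ne h).2]
  rw [mul_comm 4, mul_assoc]
  refine mul_le_mul (dct_sq_le _) (le_trans (pow_le_pow_left₀ (norm_nonneg _)
    (norm_sum_le_of_le _ fun i _ => by simp [norm_smul]) 2) (h1.trans ?_)) (by positivity)
    (by positivity)
  gcongr

end Eta

open Eta in
theorem eta : ETA := by
  refine ⟨64 * Cc ^ 4 + 400 * Real.exp 1, by positivity, fun S π Λ e₀ L h he hL => ?_⟩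
  obtain ⟨Z, z1, z2⟩ := cover h he
  have e0 := h.rg.ε0
  have l0 : 0 ≤ Λ := by simpa using measureReal_nonneg.trans (h.ar 0 1 one_pos)
  obtain ⟨m, m1, m2⟩ : ∃ m : ℕ, L ≤ m ∧ m < L + 1 :=
    ⟨_, Nat.le_ceil L, Nat.ceil_lt_add_one (by linarith)⟩
  have m0 : 0 < m := by exact_mod_cast (one_pos.trans_le hL).trans_le m1
  obtain ⟨ρ, hρ⟩ : ∃ ρ, ρ = (20 * π.ε) ^ 2 := ⟨_, rfl⟩
  have r0 : 0 < ρ := by rw [hρ]; positivity
  have sm : ∀ z : E, ContDiff ℝ ∞ fun x => av m (‖x - z‖ ^ 2 / ρ) := fun z =>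
    (av_sm m).comp (((contDiff_id.sub contDiff_const).norm_sq ℝ).div_const _)
  have z3 : (Z.card : ℝ) ≤ S.AA π / e₀ := (le_div_iff₀ he).2 z1
  have a0 : 0 ≤ S.AA π := le_trans (by positivity) z1
  refine ⟨fun x => ct (1 + ∑ z ∈ Z, av m (‖x - z‖ ^ 2 / ρ) ^ 2), ⟨ct_smooth.comp
    (contDiff_const.add (.sum fun z _ => (sm z).pow 2)), fun _ => ct_nonneg _, fun _ => ct_le_one _,
      fun x x1 x2 => not_lt.1 fun x3 => ?_⟩, ?_, ?_⟩
  · obtain ⟨z, hz, x4⟩ := z2 x x1 x3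
    have := Finset.single_le_sum (fun z _ => sq_nonneg (av m (‖x - z‖ ^ 2 / ρ))) hz
    rw [av_one m0 ((div_le_one r0).2 (hρ ▸ pow_le_pow_left₀ (norm_nonneg _) x4.le 2))] at this
    linarith [lt_of_ct_ne x2]
  · refine (dom h.ok h.ar (Z ×ˢ Finset.range m) Prod.fst (fun i => 2 ^ (i.2 + 1) * ρ)
      (fun i => 4 * Cc ^ 2 * (8 * Cc ^ 2 / m ^ 2 / 2 ^ i.2 / ρ)) (fun _ => by positivity)
      (fun _ => by positivity) (fun _ => by positivity) (fun x => (eta_fd Z (fun z =>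
        (sm z).differentiable (by simp)) x).trans ?_) π).trans ?_
    · refine (mul_le_mul_of_nonneg_left (Finset.sum_le_sum fun z _ => av_fd m r0 z x)
        (by positivity)).trans_eq ?_
      simp only [Finset.mul_sum, Finset.sum_product, mul_ite, mul_zero]
    · rw [Finset.sum_congr rfl fun i _ => show _ = 64 * Cc ^ 4 / m ^ 2 by field_simp; ring,
        Finset.sum_const, Finset.card_product, Finset.card_range, nsmul_eq_mul]
      calc _ = 64 * Cc ^ 4 * Λ * Z.card / m := by push_cast; field_simp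
        _ ≤ (64 * Cc ^ 4 + 400 * Real.exp 1) * Λ * (S.AA π / e₀) / L := by
          gcongr
          exact le_add_of_nonneg_right (by positivity)
        _ = _ := by field_simp
  · refine (dom h.ok h.ar Z id (fun _ => 2 ^ m * ρ) (fun _ => 1) (fun _ => by positivity)
      (fun _ => one_pos.le) (fun _ => sub_nonneg.2 (ct_sq_le _)) (fun x => ?_) π).trans ?_
    · by_cases hx : ∃ z ∈ Z, ‖x - z‖ ^ 2 < 2 ^ m * ρ
      · obtain ⟨z, hz, hx⟩ := hx
        exact le_trans (by simp [hx, sq_nonneg]) (Finset.single_le_sum (fun _ _ => by positivity) hz)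
      · push Not at hx
        rw [Finset.sum_eq_zero fun z hz => by
          rw [av_zero ((le_div_iff₀ r0).2 (hx z hz)), zero_pow two_ne_zero], ct_one (by simp)]
        simp only [one_pow, sub_self]
        positivity
    · have : (2 : ℝ) ^ m ≤ Real.exp 1 * Real.exp L := by
        calc _ ≤ Real.exp 1 ^ m := pow_le_pow_left₀ two_pos.le (by linarith [Real.add_one_le_exp 1]) m
          _ ≤ _ := by rw [← Real.exp_add, Real.exp_one_pow, Real.exp_le_exp]; linarith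
      rw [Finset.sum_const, nsmul_eq_mul, hρ]
      calc _ ≤ Λ * (S.AA π / e₀ * (1 * (Real.exp 1 * Real.exp L * (20 * π.ε) ^ 2))) := by gcongr
        _ = 400 * Real.exp 1 * Λ * S.AA π * π.ε ^ 2 * Real.exp L / e₀ := by ring
        _ ≤ _ := by
          gcongr
          exact le_add_of_nonneg_left (by positivity)

end Vale.Agent.P218M1
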