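import Vale.Agent.P218M1.DcA
import Vale.Agent.P218M1.Eta

/-!
# P218M1: the gradient of the fraction
-/

open MeasureTheory Metric Filter Topology Set
open scoped ContDiff RealInnerProductSpace ENNReal

noncomputable section

namespace Vale.Agent.P218M1

namespace Dc

open Gd Da

variable {S : Sf} {π : Par} {Λ σ D t s : ℝ} {z : Q} {η : E → ℝ} {th : ℝ → ℝ} {x : E}

/-! ### averages -/

theorem AV_mul (S : Sf) (c : E → ℝ) (f : Q → ℝ) (x : E) :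
    S.AV (fun z => c z.1 * f z) x = c x * S.AV f x := by
  unfold Sf.AV
  rw [← integral_const_mul]
  refine integral_congr_ae (Eventually.of_forall fun u => ?_)
  have : S.RS (fun z => c z.1 * f z) x (un u) = c x * S.RS f x (un u) :=
    (mul_finsum_mem (s := {d | S.w (x + d • un u) = 0}) (fun d => f (x, un u, d)) (c x)).symm
  simp only [this]; ring

theorem NS_mul (S : Sf) (π : Par) (c : ℝ) (f g : Q → ℝ) (z : Q) :
    S.NS π (fun z' => f z' * (c * g z')) z = c * S.NS π (fun z' => f z' * g z') z := by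
  refine Eq.trans ?_ (mul_finsum_mem (s := {d | S.w (z.1 + d • z.2.1) = 0})
    (fun d => f (z.1, z.2.1, d) * g (z.1, z.2.1, d) * (π.xi d * π.xi (z.2.2 - d))) c).symm
  exact finsum_congr fun d => finsum_congr fun _ => by ring

theorem AV_le (K : Kit) (hG : Good S π Λ) (hx : S.w x = 0) {f g h : Q → ℝ} (hf : S.Cl π 0 f)
    (hg : S.Cl π 0 g) (hh : S.Cl π 0 h)
    (H : ∀ θ d, S.Hit (x, θ, d) → S.Box π (x, θ, d) → f (x, θ, d) + g (x, θ, d) ≤ h (x, θ, d)) :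
    S.AV f x + S.AV g x ≤ S.AV h x := by
  have r := hG.ok.reg x hx
  have i1 := K.ca.iu S π f x hG.ok hG.rg hf r
  have i2 := K.ca.iu S π g x hG.ok hG.rg hg r
  unfold Sf.AV
  rw [← integral_add i1 i2]
  refine integral_mono (i1.add i2) (K.ca.iu S π h x hG.ok hG.rg hh r) fun u => ?_
  refine le_trans (le_of_eq ?_) (gam_mono (c := S.cc x (un u))
    (a := S.RS f x (un u) + S.RS g x (un u)) fun hθ => ?_)
  · ring
  · obtain ⟨T, hT, e⟩ := Me.hits hG hx hθ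
    rw [e f hf, e g hg, e h hh, ← Finset.sum_add_distrib]
    exact Finset.sum_le_sum fun d hd => H _ d ((hT d).1 hd).1 ((hT d).1 hd).2

theorem cl_add {f g : Q → ℝ} (hf : S.Cl π 0 f) (hg : S.Cl π 0 g) :
    S.Cl π 0 fun z => f z + g z :=
  ⟨fun z hz => (hf.sm z hz).add (hg.sm z hz), fun z a b c => by
    rw [hf.bx z a b c, hg.bx z a b c, add_zero]⟩

theorem cl_mul {f g : Q → ℝ} (hf : S.Sm 0 f) (hg : S.Cl π 0 g) : S.Cl π 0 fun z => f z * g z :=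
  ⟨fun z hz => (hf z hz).mul (hg.sm z hz), fun z a b c => by rw [hg.bx z a b c, mul_zero]⟩

theorem cl_abs {f : Q → ℝ} (hf : S.Cl π 0 f) : S.Cl π 0 fun z => |f z| :=
  ⟨fun z hz => (contDiff_zero.2 continuous_abs).contDiffAt.comp z (hf.sm z hz),
    fun z a b c => by rw [hf.bx z a b c, abs_zero]⟩

theorem cl_const (c : ℝ) {g : Q → ℝ} (hg : S.Cl π 0 g) : S.Cl π 0 fun z => c * g z :=
  cl_mul (fun _ _ => contDiffAt_const) hg

theorem sm_p1 (hS : S.Ok) (hz : z ∈ S.O) : ContDiffAt ℝ ∞ S.p1 z :=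
  Gx.sm_p hS contDiffAt_fst Gx.sm_θ hz.1

theorem sm_lv (hS : S.Ok) (hz : z ∈ S.O) : ContDiffAt ℝ (0 : ℕ) S.lv z :=
  (sm_cs1 hS hz 0).smul (((Gx.sm_X hS contDiffAt_fst Gx.sm_θ hz.1).clm_apply
    (sm_p1 hS hz)).of_le (cast_le_inf 0))

theorem sm_rot {a b : Q → E} (ha : ContDiffAt ℝ ∞ a z) (hb : ContDiffAt ℝ ∞ b z) :
    ContDiffAt ℝ ∞ (fun z => rot (a z) (b z) z.2.1) z :=
  ((Gx.sm_θ.inner ℝ ha).smul hb).sub ((Gx.sm_θ.inner ℝ hb).smul ha)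

theorem cl_fd (hS : S.Ok) {F : Q → ℝ} (hF : S.Cl π 1 F) {e r : Q → E}
    (he : ∀ z ∈ S.O, ContDiffAt ℝ ∞ e z) (hr : ∀ z ∈ S.O, ContDiffAt ℝ ∞ r z) :
    S.Cl π 0 fun z => fderiv ℝ F z (W S (e z) (r z) z) := by
  refine ⟨fun z hz => ((hF.sm z hz).fderiv_right (by simp)).clm_apply
    (ContDiffAt.of_le (n := ∞) ?_ (cast_le_inf 0)), fun z a b c => ?_⟩
  · exact ((contDiffAt_const.sub (Gx.sm_ro (sm_p1 hS hz) Gx.sm_θ)).clm_apply (he z hz)).prodMk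
      ((hr z hz).prodMk (((Gx.sm_Pv hS hz).inner ℝ (he z hz)).sub (contDiffAt_snd.snd.mul
        ((Gx.sm_p hS Gx.sm_yy.contDiffAt Gx.sm_θ hz.2.1).inner ℝ (hr z hz)))))
  · have : F =ᶠ[𝓝 z] fun _ => 0 :=
      (Ca.ev_nbox hS a b c).mono fun w hw => hF.bx w hw.1 hw.2.1 hw.2.2
    simp [this.fderiv_eq]

/-! ### the tangential derivatives of the average -/

/-- the tangent vectors -/
def ta (S : Sf) (i : Fin 3) (x : E) : E := S.P x (ee i)

/-- the integrand of the derivative -/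
def hi (S : Sf) (π : Par) (σ : ℝ) (i : Fin 3) (z : Q) : ℝ := fderiv ℝ (Fu S π σ) z
  (W S (ta S i z.1) (-rot (-S.A z.1 (ta S i z.1)) (S.n z.1) z.2.1) z)

theorem hi_cl (K : Kit) (hS : S.Ok) (hπ : π.Rg) (i : Fin 3) : S.Cl π 0 (hi S π σ i) := by
  have n : ∀ z ∈ S.O, ContDiffAt ℝ ∞ (fun z : Q => S.n z.1) z := fun z hz =>
    Gx.sm_n hS contDiffAt_fst (Sf.O.g1 hz)
  have P : ∀ z ∈ S.O, ContDiffAt ℝ ∞ (fun z : Q => S.P z.1) z := fun z hz =>
    contDiffAt_const.sub (Gx.sm_ro (n z hz) (n z hz))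
  have A : ∀ z ∈ S.O, ContDiffAt ℝ ∞ (fun z : Q => S.A z.1) z := fun z hz =>
    (((hS.sg.contDiffAt.comp z contDiffAt_fst).norm ℝ (Sf.O.g1 hz)).inv
      (norm_ne_zero_iff.2 (Sf.O.g1 hz))).neg.smul
      ((P z hz).clm_comp ((hS.sD2.contDiffAt.comp z contDiffAt_fst).clm_comp (P z hz)))
  have T : ∀ z ∈ S.O, ContDiffAt ℝ ∞ (fun z : Q => ta S i z.1) z := fun z hz =>
    (P z hz).clm_apply contDiffAt_const
  exact cl_fd hS (Fu_cl K.nsc hS hπ 1) T fun z hz =>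
    (sm_rot ((A z hz).clm_apply (T z hz)).neg (n z hz)).neg

theorem lv_rot (hS : S.Ok) (hz : z ∈ S.O) {τ : E} (hτ : ⟪S.g z.1, τ⟫ = 0) :
    ⟪S.lv z, τ⟫ + ⟪S.p1 z, -rot (-S.A z.1 τ) (S.n z.1) z.2.1⟫ = 0 := by
  rw [hS.lv_tan hz.1 hτ, inner_neg_right, Sf.p1,
    Sf.p_rot hz.1 (by rw [inner_neg_right, Sf.g_A (Sf.O.g1 hz), neg_zero]), inner_neg_right,
    hS.A_sym, add_neg_cancel]

theorem fd_le (K : Kit) (hG : Good S π Λ) (hx : S.w x = 0) (i : Fin 3) :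
    |fderiv ℝ (S.AV (Fu S π σ)) x (ta S i x)| ≤ S.AV (fun z => |hi S π σ i z|) x := by
  have hS := hG.ok
  have hπ := hG.rg
  have r := hS.reg x hx
  have hF := Fu_cl (σ := σ) K.nsc hS hπ 1
  have hτ : ⟪S.g x, ta S i x⟫ = 0 := Sf.g_P r _
  have h1 := (K.avs S π _ x hS hπ hF r).2 _ hτ
  have h2 := K.byr S π _ (-S.A x (ta S i x)) (S.n x) x hS hπ hF r
  have c1 : S.Cl π 0 fun z => S.D (ta S i x) (Fu S π σ) z + ⟪ta S i x, S.lv z⟫ * Fu S π σ z := by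
    refine cl_add ?_ (cl_mul (fun z hz => contDiffAt_const.inner ℝ (sm_lv hS hz))
      (Fu_cl K.nsc hS hπ 0))
    unfold Sf.D
    simp only [VD_eq]
    exact cl_fd hS hF (fun _ _ => contDiffAt_const) fun _ _ => contDiffAt_const
  have c2 : S.Cl π 0 fun z => S.R (-S.A x (ta S i x)) (S.n x) (Fu S π σ) z +
      ⟪S.p1 z, rot (-S.A x (ta S i x)) (S.n x) z.2.1⟫ * Fu S π σ z := by
    refine cl_add ?_ (cl_mul (fun z hz => ((sm_p1 hS hz).inner ℝ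
      (sm_rot contDiffAt_const contDiffAt_const)).of_le (cast_le_inf 0)) (Fu_cl K.nsc hS hπ 0))
    unfold Sf.R
    simp only [VR_eq]
    exact cl_fd hS hF (fun _ _ => contDiffAt_const) fun _ _ =>
      sm_rot contDiffAt_const contDiffAt_const
  have key : ∀ c : ℝ, |c| = 1 → c * fderiv ℝ (S.AV (Fu S π σ)) x (ta S i x) ≤
      S.AV (fun z => |hi S π σ i z|) x := fun c hc => by
    have h3 := AV_le K hG hx (cl_const c c1) (cl_const (-c) c2) (cl_abs (hi_cl (σ := σ) K hS hπ i))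
      fun θ d _ hb => by
        have h4 := lv_rot (z := (x, θ, d)) hS (Ca.box_O hπ hb) hτ
        have h5 : hi S π σ i (x, θ, d) = S.D (ta S i x) (Fu S π σ) (x, θ, d) -
            S.R (-S.A x (ta S i x)) (S.n x) (Fu S π σ) (x, θ, d) := by
          rw [Sf.D, Sf.R, ← map_sub, VV_eq]; rfl
        rw [inner_neg_right, real_inner_comm] at h4
        refine le_trans (le_of_eq ?_) ((le_abs_self (c * hi S π σ i (x, θ, d))).trans
          (by rw [abs_mul, hc, one_mul]))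
        rw [h5]
        linear_combination (c * Fu S π σ (x, θ, d)) * h4
    rw [AV_mul S (fun _ => c), AV_mul S (fun _ => -c), h2, ← h1] at h3
    linarith
  have k1 := key 1 abs_one
  have k2 := key (-1) (by simp)
  exact abs_le.2 ⟨by linarith, by linarith⟩

/-- the majorant -/
def hh (S : Sf) (π : Par) (σ : ℝ) (z : Q) : ℝ :=
  2 * (π.W z.1 * (1 + ‖z.1‖)) * (|hi S π σ 0 z| + |hi S π σ 1 z| + |hi S π σ 2 z|)

/-- the integrand of `S2` -/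
def s2 (S : Sf) (π : Par) (η : E → ℝ) (th : ℝ → ℝ) (z : Q) : ℝ :=
  S.ze π η th z * G2 (S.tt π z) * ⟪S.P z.1 (S.gt π z), S.gt π z⟫

theorem hh_cl (K : Kit) (hS : S.Ok) (hπ : π.Rg) : S.Cl π 0 (hh S π σ) :=
  cl_mul (fun _ _ => (contDiff_zero.2 (continuous_const.mul
      ((π.W_smooth.continuous.comp continuous_fst).mul (by fun_prop)))).contDiffAt)
    (cl_add (cl_add (cl_abs (hi_cl K hS hπ 0)) (cl_abs (hi_cl K hS hπ 1)))
      (cl_abs (hi_cl K hS hπ 2)))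

theorem s2_cl (K : Kit) (hS : S.Ok) (hπ : π.Rg) (hc : Cut D η th) : S.Cl π 0 (s2 S π η th) := by
  refine Cs.cl hπ (fun z h => ?_) fun z hz => ?_
  · have h1 := left_ne_zero_of_mul h
    have h2 := Wt_ne hπ (left_ne_zero_of_mul (left_ne_zero_of_mul h1))
    exact ⟨hπ.norm_le h2.1.le, h2.2, lt_of_G2_ne (right_ne_zero_of_mul h1)⟩
  · have n := Gx.sm_n hS contDiffAt_fst (Sf.O.g1 hz)
    have g : ContDiffAt ℝ (0 : ℕ) (S.gt π) z :=
      ((((Gx.sm_kk hS hz).div_const _).smul (Gx.sm_Pv hS hz)).of_le (cast_le_inf 0)).add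
        ((sm_tt hS hz 0).smul (sm_lv hS hz))
    exact (((sm_Wt K.nsc hS hπ hz 0).mul (cut_sm hS hc hz)).mul
      ((G2_cd (by norm_num)).contDiffAt.comp z (sm_tt hS hz 0))).mul
      ((((contDiffAt_const.sub (Gx.sm_ro n n)).of_le (cast_le_inf 0)).clm_apply g).inner ℝ g)

theorem norm_le_sum (v : E) : ‖v‖ ≤ |v 0| + |v 1| + |v 2| := by
  conv_lhs => rw [← sum_ee v]
  refine (norm_sum_le _ _).trans (le_of_eq ?_)
  simp [Fin.sum_univ_three, norm_smul, norm_ee]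

theorem grad_le (K : Kit) (hG : Good S π Λ) (hc : Cut D η th) (hm : 0 < π.mm) (hx : S.w x = 0) :
    π.mm * (π.W x * ((1 + ‖x‖) * ‖S.P x (gradient (S.uu π σ) x)‖)) ≤
      S.AV (fun z => hh S π σ z + -s⁻¹ * s2 S π η th z) x + s⁻¹ * S.AV (s2 S π η th) x := by
  have hS := hG.ok
  have hπ := hG.rg
  have c := fun i => cl_abs (hi_cl (σ := σ) K hS hπ i)
  have h1 := AV_le K hG hx (c 0) (c 1) (cl_add (c 0) (c 1)) fun _ _ _ _ => le_rfl
  have h2 := AV_le K hG hx (cl_add (c 0) (c 1)) (c 2) (cl_add (cl_add (c 0) (c 1)) (c 2))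
    fun _ _ _ _ => le_rfl
  have c1 := hh_cl (σ := σ) K hS hπ
  have c2 := cl_const (-s⁻¹) (s2_cl K hS hπ hc)
  have h3 := AV_le K hG hx c1 c2 (cl_add c1 c2) fun _ _ _ _ => le_rfl
  have h4 : S.AV (hh S π σ) x = _ := AV_mul S (fun x => 2 * (π.W x * (1 + ‖x‖))) _ x
  rw [AV_mul S (fun _ => -s⁻¹), h4] at h3
  have hd : DifferentiableAt ℝ (S.AV (Fu S π σ)) x :=
    (K.avs S π _ x hS hπ (Fu_cl K.nsc hS hπ 1) (hS.reg x hx)).1.differentiableAt (by simp)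
  have h5 : ∀ i, π.mm * |S.P x (gradient (S.uu π σ) x) i| ≤
      2 * S.AV (fun z => |hi S π σ i z|) x := fun i => by
    have e : fderiv ℝ (S.uu π σ) x = (2 / π.mm) • fderiv ℝ (S.AV (Fu S π σ)) x :=
      (hd.hasFDerivAt.const_mul (2 / π.mm)).fderiv
    rw [← inner_ee, Sf.P_sym, inner_grad, e, ContinuousLinearMap.smul_apply, smul_eq_mul, abs_mul,
      abs_of_pos (by positivity), ← mul_assoc, mul_div_cancel₀ _ hm.ne']
    exact mul_le_mul_of_nonneg_left (fd_le K hG hx i) (by norm_num)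
  have h6 := mul_le_mul_of_nonneg_left (norm_le_sum (S.P x (gradient (S.uu π σ) x))) hm.le
  have h7 : 0 ≤ π.W x * (1 + ‖x‖) := mul_nonneg (Par.W_nonneg x) (by positivity)
  have h8 : π.mm * ‖S.P x (gradient (S.uu π σ) x)‖ ≤
      2 * S.AV (fun z => |hi S π σ 0 z| + |hi S π σ 1 z| + |hi S π σ 2 z|) x := by
    linarith [h5 0, h5 1, h5 2]
  linarith [mul_le_mul_of_nonneg_left h8 h7]

/-! ### the Gaussian weight -/

theorem W_le_exp (π : Par) (x : E) : π.W x * Real.exp (‖x‖ ^ 2 / 4) ≤ 1 := by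
  rw [Par.W_eq, mul_right_comm, ← Real.exp_add, neg_div, neg_add_cancel, Real.exp_zero, one_mul]
  exact pow_le_one₀ (Par.ps_nonneg x) (Par.ps_le x)

theorem om_le (π : Par) (x : E) : π.W x * (1 + ‖x‖) ≤ 2 := by
  have h1 := Real.add_one_le_exp (‖x‖ ^ 2 / 4)
  have h2 : 1 + ‖x‖ ≤ 2 * Real.exp (‖x‖ ^ 2 / 4) := by nlinarith [sq_nonneg (‖x‖ - 1)]
  linarith [mul_le_mul_of_nonneg_left h2 (Par.W_nonneg (π := π) x), W_le_exp π x]

theorem gauss (hG : Good S π Λ) : S.IB π (fun x => π.W x * (1 + ‖x‖) ^ 2) ≤ 13824 * Λ := by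
  have hΛ : 0 ≤ Λ := by simpa using measureReal_nonneg.trans (hG.ar 0 1 one_pos)
  obtain ⟨N, hN⟩ := pow_unbounded_of_one_lt (1 + 2 * π.R ^ 2) (one_lt_two (α := ℝ))
  refine (Eta.dom hG.ok hG.ar (Finset.range N) (fun _ => 0) (fun k => 2 ^ (k + 1))
    (fun k => 3456 / 4 ^ k) (fun _ => by positivity) (fun _ => by positivity)
    (fun x => mul_nonneg (Par.W_nonneg x) (sq_nonneg _)) (fun x => ?_) π).trans ?_
  · have n0 : ∀ k ∈ Finset.range N,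
        (0 : ℝ) ≤ if ‖x - 0‖ ^ 2 < 2 ^ (k + 1) then 3456 / 4 ^ k else 0 := fun k _ => by
      split_ifs <;> positivity
    by_cases hW : π.W x = 0
    · rw [hW, zero_mul]; exact Finset.sum_nonneg n0
    obtain ⟨k, k1, k2⟩ := exists_nat_pow_near (x := 1 + ‖x‖ ^ 2) (y := 2)
      (by linarith [sq_nonneg ‖x‖]) one_lt_two
    have k3 : k < N := (pow_lt_pow_iff_right₀ (one_lt_two (α := ℝ))).1
      (by linarith [hG.rg.W_ne hW])
    refine le_trans ?_ (Finset.single_le_sum n0 (Finset.mem_range.2 k3))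
    rw [if_pos (by rw [sub_zero]; linarith), le_div_iff₀ (by positivity)]
    have e1 : (4 : ℝ) ^ k ≤ (1 + ‖x‖ ^ 2) ^ 2 := by
      rw [show (4 : ℝ) = 2 ^ 2 by norm_num, ← pow_mul, mul_comm, pow_mul]; gcongr
    have e2 : (1 + ‖x‖) ^ 2 ≤ 2 * (1 + ‖x‖ ^ 2) := by nlinarith [sq_nonneg (‖x‖ - 1)]
    have e3 : (1 + ‖x‖ ^ 2) ^ 3 ≤ 1728 * Real.exp (‖x‖ ^ 2 / 4) := by
      have : 1 + ‖x‖ ^ 2 ≤ 12 * Real.exp (‖x‖ ^ 2 / 12) := by
        linarith [Real.add_one_le_exp (‖x‖ ^ 2 / 12)]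
      refine (pow_le_pow_left₀ (by positivity) this 3).trans (le_of_eq ?_)
      rw [mul_pow, ← Real.exp_nat_mul]; norm_num; ring
    have := Par.W_nonneg (π := π) x
    calc _ ≤ π.W x * (2 * (1 + ‖x‖ ^ 2)) * (1 + ‖x‖ ^ 2) ^ 2 := by gcongr
      _ = 2 * (π.W x * (1 + ‖x‖ ^ 2) ^ 3) := by ring
      _ ≤ 2 * (π.W x * (1728 * Real.exp (‖x‖ ^ 2 / 4))) := by gcongr
      _ ≤ _ := by linarith [W_le_exp π x]
  · have e : ∀ k : ℕ, (3456 / 4 ^ k * 2 ^ (k + 1) : ℝ) = 6912 * (1 / 2) ^ k := fun k => by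
      rw [show (4 : ℝ) = 2 * 2 by norm_num, mul_pow, pow_succ, one_div, inv_pow]
      field_simp; norm_num
    simp only [e, ← Finset.mul_sum]
    nlinarith [sum_geometric_two_le N]

/-! ### the pointwise bound for the remainder -/

theorem rem_le (K : Kit) {C : ℝ} (hC : 0 < C) (hG : Good S π Λ) (hc : Cut D η th) (hD : 0 < D)
    (hD1 : D ≤ 1) (ht : 0 < t) (ht1 : t ≤ 1) (hs : 0 < s) (hz : S.Hit z) (hb : S.Box π z)
    (nb : S.N π z ≤ 4 → Nb S π C z) (h0 : 0 < hh S π σ z + -s⁻¹ * s2 S π η th z) :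
    S.Sq π z ∧ hh S π σ z + -s⁻¹ * s2 S π η th z ≤ (576 * Cc ^ 2 + Cc * (25680 + 192 * C)) *
      (s * (π.W z.1 * (1 + ‖z.1‖) ^ 2) + BB S π D t η z) := by
  have hS := hG.ok
  have hπ := hG.rg
  have hO := Ca.box_O hπ hb
  have g1 := Sf.O.g1 hO
  have h1 : 0 ≤ s⁻¹ * s2 S π η th z := mul_nonneg (inv_pos.2 hs).le (mul_nonneg (mul_nonneg
    (mul_nonneg (Wt_nonneg z) (by positivity)) (G2_nonneg _)) (Sf.inner_P_nonneg g1 _))
  have h2 : hh S π σ z ≠ 0 := by linarith |> ne_of_gt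
  have hW : π.W z.1 ≠ 0 := fun h => h2 (by simp [hh, h])
  have e0 : ∀ i, ⟪S.g z.1, ta S i z.1⟫ = 0 := fun i => Sf.g_P g1 _
  have e1 : ∀ i, ‖ta S i z.1‖ ^ 2 ≤ 1 := fun i =>
    (Sf.norm_P_le g1 _).trans (by rw [norm_ee]; norm_num)
  obtain ⟨i, hi0⟩ : ∃ i, hi S π σ i z ≠ 0 := by
    by_contra! h
    exact h2 (by simp [hh, h])
  obtain ⟨o1, o2⟩ := dF_ne K hG hz hb hW _ _ (lv_rot hS hO (e0 i)) hi0
  have h : Su S π z := ⟨hπ.norm_le (hπ.W_ne hW).le, o1, by linarith⟩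
  obtain ⟨a1, a2, a3, -⟩ := o0_ne hπ o1
  refine ⟨⟨(hπ.W_ne hW).le, by linarith [hπ.α2.1], a2.le, a3, h.d_le hπ⟩, ?_⟩
  have h3 : ∀ i, |hi S π σ i z| ≤ _ := fun i =>
    dF_le K hC hG hc hD hD1 ht ht1 hz hW h (nb (by linarith)) (lv_rot hS hO (e0 i)) (e0 i)
      ((sq_le_one_iff₀ (norm_nonneg _)).1 (e1 i))
      ((Sf.norm_rot_le g1 hz.2.1 (by rw [inner_neg_right, Sf.g_A g1, neg_zero])).trans (by
        rw [norm_neg]
        exact (S.norm_A_sq_le _ _).trans (mul_le_of_le_one_right (S.A2_nonneg _) (e1 i))))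
  have h4 := main_le K hG hc hD hD1 ht ht1 hs hz h o2 (om_le π z.1) (c := 24 * Cc)
    (by linarith [Cc_pos])
  have hB : 0 ≤ BB S π D t η z := (pos K hG hc hD hD1 ht ht1 hz hb).nonneg
  have h7 : 0 ≤ π.W z.1 * (1 + ‖z.1‖) := mul_nonneg (Par.W_nonneg _) (by positivity)
  have h8 : 0 ≤ s * (π.W z.1 * (1 + ‖z.1‖) ^ 2) :=
    mul_nonneg hs.le (mul_nonneg (Par.W_nonneg _) (sq_nonneg _))
  have h5 := mul_le_mul_of_nonneg_left (add_le_add (add_le_add (h3 0) (h3 1)) (h3 2)) h7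
  have h6 := mul_le_mul_of_nonneg_right (om_le π z.1)
    (show 0 ≤ Cc * (2100 + 16 * C) * BB S π D t η z by have := Cc_pos; positivity)
  have h9 := mul_nonneg (sq_nonneg Cc) hB
  have h10 := mul_nonneg (show 0 ≤ Cc * (25680 + 192 * C) by have := Cc_pos; positivity) h8
  rw [div_eq_inv_mul] at h4
  unfold hh s2
  linarith

theorem IB_add (hS : S.Ok) {f g : E → ℝ} (hf : S.Cg f) (hg : S.Cg g) :
    S.IB π (fun x => f x + g x) = S.IB π f + S.IB π g :=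
  integral_add (Me.intOn hS hf _) (Me.intOn hS hg _)

theorem IB_mul (c : ℝ) (f : E → ℝ) : S.IB π (fun x => c * f x) = c * S.IB π f :=
  integral_const_mul _ _

theorem cg_add {f g : E → ℝ} (hf : S.Cg f) (hg : S.Cg g) : S.Cg fun x => f x + g x :=
  fun x hx => ⟨(hf x hx).1.add (hg x hx).1, add_nonneg (hf x hx).2 (hg x hx).2⟩

theorem cg_mul {c : ℝ} (hc : 0 ≤ c) {f : E → ℝ} (hf : S.Cg f) : S.Cg fun x => c * f x :=
  fun x hx => ⟨continuousAt_const.mul (hf x hx).1, mul_nonneg hc (hf x hx).2⟩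

theorem fin_le {c g a A A' e t ε D m : ℝ} (c0 : 0 < c) (a0 : 0 ≤ a) (a1 : a ≤ 1) (A0 : 0 ≤ A)
    (hA : A' ≤ A) (e0 : 0 ≤ e) (t0 : 0 < t) (ε0 : 0 < ε) (D0 : 0 < D) (D1 : D ≤ 1) (m0 : 0 ≤ m)
    (hg : a * g ≤ c * m) :
    a * (g + t * A + (t / ε ^ 2 + 1 / t) * e) + (t + ε ^ 2 / t) * A' + (t + ε ^ 2 / t) * A' +
      1 / t * ε ^ 2 * A + (t / D ^ 4 + ε ^ 2 / D ^ 4 / t + ε ^ 2 / t ^ 9) * A ≤
    (c + 4) * (m + t * (A + e / ε ^ 2 + A / D ^ 4) +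
      (e + ε ^ 2 * A / D ^ 4 + ε ^ 2 * A / t ^ 8) / t) := by
  have h1 : a * (t * A + (t / ε ^ 2 + 1 / t) * e) ≤ t * A + (t / ε ^ 2 + 1 / t) * e :=
    mul_le_of_le_one_left (by positivity) a1
  have h2 : (t + ε ^ 2 / t) * A' ≤ (t + ε ^ 2 / t) * A := by gcongr
  have h3 : ε ^ 2 / t * A ≤ ε ^ 2 / D ^ 4 / t * A := by
    gcongr
    exact le_div_self (by positivity) (by positivity) (pow_le_one₀ D0.le D1)
  have h4 : t * (A + e / ε ^ 2 + A / D ^ 4) + (e + ε ^ 2 * A / D ^ 4 + ε ^ 2 * A / t ^ 8) / t =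
      t * A + t / ε ^ 2 * e + t / D ^ 4 * A + 1 / t * e + ε ^ 2 / D ^ 4 / t * A +
        ε ^ 2 / t ^ 9 * A := by field_simp; ring
  have h5 : 0 ≤ c * (t * (A + e / ε ^ 2 + A / D ^ 4) +
      (e + ε ^ 2 * A / D ^ 4 + ε ^ 2 * A / t ^ 8) / t) := by positivity
  have h6 : 1 / t * ε ^ 2 * A = ε ^ 2 / t * A := by ring
  have p1 : 0 ≤ t * A := by positivity
  have p2 : 0 ≤ t / ε ^ 2 * e := by positivity
  have p3 : 0 ≤ t / D ^ 4 * A := by positivity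
  have p4 : 0 ≤ 1 / t * e := by positivity
  have p5 : 0 ≤ ε ^ 2 / t ^ 9 * A := by positivity
  rw [add_assoc m, add_mul c, mul_add c, mul_add 4, h4, h6]
  rw [h4] at h5
  linarith

end Dc

open Dc Da in
/-- **DC** -/
theorem dc (K : Kit) : DC := by
  obtain ⟨Cm, hCm, hME⟩ := K.me
  obtain ⟨Cn, hCn, hNB⟩ := K.nb
  obtain ⟨c, C', hc', hm⟩ := K.con.mm
  obtain ⟨C₁, hC₁⟩ : ∃ C₁, C₁ = 576 * Cc ^ 2 + Cc * (25680 + 192 * Cn) := ⟨_, rfl⟩
  have C0 : 0 < C₁ := by have := Cc_pos; rw [hC₁]; positivity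
  refine ⟨Cm * C₁ * (13824 / c + 4), by positivity,
    fun S π Λ D t s σ η th hG hc hD hD1 ht ht1 hs _ => ?_⟩
  have hS := hG.ok
  have hπ := hG.rg
  have hε := hπ.ε0
  have hmm : 0 < π.mm := lt_of_lt_of_le (mul_pos hc' hπ.α2.1) (hm π hπ).1
  have c2 := s2_cl K hS hπ hc
  have c1 := cl_add (hh_cl (σ := σ) K hS hπ) (cl_const (-s⁻¹) c2)
  have i1 := K.ca.avi S π _ hS hπ c1
  have i2 := (K.ca.avi S π _ hS hπ c2).const_mul s⁻¹
  have h1 := integral_mono_of_nonneg (μ := S.μ) (f := fun x => π.mm * (π.W x * ((1 + ‖x‖) *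
      ‖S.P x (gradient (S.uu π σ) x)‖)))
    (Eventually.of_forall fun x => mul_nonneg hmm.le (mul_nonneg (Par.W_nonneg x) (by positivity)))
    (i1.add i2) (hS.sup.mono fun x hx => grad_le K hG hc hmm hx)
  rw [integral_const_mul, integral_add' i1 i2, integral_const_mul] at h1
  have g1 : S.Cg fun x => π.W x * (1 + ‖x‖) ^ 2 := fun x _ =>
    ⟨π.W_smooth.continuous.continuousAt.mul (by fun_prop),
      mul_nonneg (Par.W_nonneg x) (sq_nonneg _)⟩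
  have g0 : S.Cg fun _ => 1 := fun x _ => ⟨continuousAt_const, zero_le_one⟩
  have g2 := cg_add g0 (Me.cg_A2 hS)
  have g3 : S.Cg fun x => 1 - η x ^ 2 := fun x _ =>
    ⟨continuousAt_const.sub (hc.sη.continuous.continuousAt.pow 2), sub_nonneg.2 (cut_mem hc x 0).1⟩
  have g4 := cg_add (cg_mul hs.le g1) (cg_mul ht.le g2)
  have g5 := cg_mul (show 0 ≤ t / π.ε ^ 2 + 1 / t by positivity) g3
  have g6 := cg_mul (show 0 ≤ C₁ * (t + π.ε ^ 2 / t) by positivity) (Me.cg_A2 hS)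
  have hz : S.Cg fun _ => 0 := fun x _ => ⟨continuousAt_const, le_rfl⟩
  have h2 := hME S π Λ 1 0 (C₁ * (1 / t))
    (C₁ * (t / D ^ 4 + π.ε ^ 2 / D ^ 4 / t + π.ε ^ 2 / t ^ 9)) _ _ _ _ _ _ hG one_pos le_rfl
    (by positivity) (by positivity) c1 (cg_mul C0.le (cg_add g4 g5)) g6 g6 hz hz
    (fun x _ _ h => by simp at h) (fun z h1 h2 h0 => by
      obtain ⟨q1, q2⟩ := rem_le K hCn hG hc hD hD1 ht ht1 hs h1 h2 (fun h => by
        obtain ⟨n1, a, b, -, -, n2, n3, n4, -⟩ := hNB S π Λ z hG h1 h2 h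
        exact ⟨n1, a, b, n2, n3, n4⟩) h0
      refine ⟨q1, by linarith [S.cs2_nonneg z], q2.trans (le_of_eq ?_)⟩
      rw [NS_mul, ← hC₁]
      unfold Dc.BB bud
      ring)
  have h0 : S.IB π (fun _ => 0) = 0 := by simp [Sf.IB]
  rw [h0, IB_mul, IB_mul, IB_add hS g4 g5, IB_add hS (cg_mul hs.le g1) (cg_mul ht.le g2), IB_mul,
    IB_mul, IB_mul] at h2
  have hΛ : 0 ≤ Λ := by simpa using measureReal_nonneg.trans (hG.ar 0 1 one_pos)
  have hA : S.IB π S.A2 ≤ S.AA π := by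
    rw [Sf.AA, IB_add hS g0 (Me.cg_A2 hS)]
    linarith [Me.IB_nn hS π g0]
  have h3 := fin_le (c := 13824 / c) (g := s * S.IB π fun x => π.W x * (1 + ‖x‖) ^ 2)
    (m := s * Λ * π.mm) (by positivity) hπ.α2.1.le (by linarith [hπ.α2.2]) (Me.IB_nn hS π g2) hA
    (Me.IB_nn hS π g3) ht hε hD hD1 (by positivity) (by
      have h4 : π.α ^ 2 ≤ π.mm / c := by rw [le_div_iff₀ hc']; linarith [(hm π hπ).1]
      calc _ ≤ π.mm / c * (s * (13824 * Λ)) :=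
            mul_le_mul h4 (mul_le_mul_of_nonneg_left (gauss hG) hs.le)
              (mul_nonneg hs.le (Me.IB_nn hS π g1)) (by positivity)
        _ = _ := by ring)
  have h4 := mul_le_mul_of_nonneg_left h3 (mul_pos hCm C0).le
  change _ ≤ S.II _ + s⁻¹ * S.S2 π η th at h1
  rw [div_eq_inv_mul (S.S2 π η th)]
  unfold Sf.AA Sf.AE at *
  linarith

end Vale.Agent.P218M1
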