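import Vale.Agent.P218M1.Spec

/-!
# P218M1: the row DICH, the choice of the constants in the gain
-/

open MeasureTheory Metric Filter Topology Set
open scoped ContDiff RealInnerProductSpace ENNReal

noncomputable section

namespace Vale.Agent.P218M1

namespace DichA

theorem small (X : ℝ) {a : ℝ} (ha : 0 < a) :
    ∃ t₀ : ℝ, 0 < t₀ ∧ ∀ t, 0 ≤ t → t ≤ t₀ → X * t ≤ a := by
  have hX := abs_nonneg X
  refine ⟨a / (|X| + 1), by positivity, fun t h0 h1 => ?_⟩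
  rw [le_div_iff₀ (by positivity)] at h1
  nlinarith [le_abs_self X]

theorem gam0 (u : E) : 0 ≤ gam u :=
  mul_nonneg (Real.smoothTransition.nonneg _) (sub_nonneg.2 (Real.smoothTransition.le_one _))

theorem II0 (S : Sf) {f : Q → ℝ} (h : ∀ z, 0 ≤ f z) : 0 ≤ S.II f := by
  refine integral_nonneg fun x => integral_nonneg fun u => ?_
  exact mul_nonneg (gam0 u) (mul_nonneg (abs_nonneg _)
    (finsum_nonneg fun d => finsum_nonneg fun _ => h _))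

theorem ze0 (S : Sf) (π : Par) (η : E → ℝ) (th : ℝ → ℝ) (z : Q) : 0 ≤ S.ze π η th z := by
  unfold Sf.ze Sf.Wt Par.W
  positivity

theorem S10 (S : Sf) (π : Par) (h : π.Rg) (η : E → ℝ) (th : ℝ → ℝ) : 0 ≤ S.S1 π η th := by
  refine II0 S fun z => ?_
  rcases le_total 0 z.2.2 with hd | hd
  · have a : 0 ≤ S.tt π z := div_nonneg (mul_nonneg hd (abs_nonneg _)) h.ε0.le
    have b : 0 ≤ -G1 (S.tt π z) := by
      unfold G1
      have := pow_nonneg (le_max_right (1 - S.tt π z) 0) 5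
      linarith
    exact div_nonneg (mul_nonneg (ze0 S π η th z) (mul_nonneg a b)) (by norm_num)
  · have a : π.xi z.2.2 = 0 := by
      have : 2 * z.2.2 / π.ρ ≤ 0 := div_nonpos_of_nonpos_of_nonneg (by linarith) h.ρ0.le
      unfold Par.xi ct
      rw [Real.smoothTransition.one_of_one_le (by linarith), sub_self]
    simp [Sf.ze, Sf.Wt, Sf.o0, a]

theorem P0 (S : Sf) (x v : E) : 0 ≤ ⟪S.P x v, v⟫ := by
  have a : ‖S.n x‖ ≤ 1 := by
    unfold Sf.n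
    rw [norm_smul, norm_inv, norm_norm]
    exact inv_mul_le_one_of_le₀ le_rfl (norm_nonneg _)
  have b : ⟪S.P x v, v⟫ = ‖v‖ ^ 2 - ⟪S.n x, v⟫ ^ 2 := by
    simp [Sf.P, ro, inner_sub_left, real_inner_smul_left, sq]
  have c : |⟪S.n x, v⟫| ≤ ‖v‖ :=
    (abs_real_inner_le_norm _ _).trans (mul_le_of_le_one_left (norm_nonneg _) a)
  rw [b, ← sq_abs ⟪S.n x, v⟫]
  nlinarith [abs_nonneg ⟪S.n x, v⟫]

theorem S20 (S : Sf) (π : Par) (η : E → ℝ) (th : ℝ → ℝ) : 0 ≤ S.S2 π η th := by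
  refine II0 S fun z => mul_nonneg (mul_nonneg (ze0 S π η th z) ?_) (P0 S _ _)
  unfold G2
  positivity

theorem rr {q A A₀ y : ℝ} (hq : 0 < q) (hA : A ≤ A₀) (hy : 0 < y) : q * A / y ≤ A₀ / y * q := by
  calc _ ≤ q * A₀ / y := by gcongr
    _ = _ := by ring

theorem arB {m m₀ V CB C' S1 AE AA A₀ Ca q d t c δ : ℝ} (m0 : 0 < m) (hq : 0 < q) (hd : 0 < d)
    (ht : 0 < t) (hδ : 0 < δ) (hCB : 0 < CB) (hC' : 0 < C') (m1 : m₀ ≤ m) (hAE : AE ≤ Ca * q)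
    (hAA : AA ≤ A₀) (s3 : S1 ≤ c * m) (hc : CB * c ≤ δ / 4) (ht2 : C' * A₀ * t ≤ δ * m₀ / 4)
    (h2 : C' * (Ca + A₀ / d ^ 4 + A₀ / t ^ 5) * q ≤ δ * m₀ / 4)
    (h : m * V ≤ CB * S1 + C' * (AE + q * AA / d ^ 4 + t * AA + q * AA / t ^ 5)) : V ≤ δ := by
  refine le_of_mul_le_mul_left (h.trans ?_) m0
  have r1 := rr hq hAA (pow_pos hd 4)
  have r2 := rr hq hAA (pow_pos ht 5)
  have b1 : CB * S1 ≤ δ / 4 * m := by
    calc _ ≤ CB * (c * m) := by gcongr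
      _ = CB * c * m := by ring
      _ ≤ _ := by gcongr
  have b2 : C' * (AE + q * AA / d ^ 4 + t * AA + q * AA / t ^ 5) ≤
      C' * (Ca * q + A₀ / d ^ 4 * q + t * A₀ + A₀ / t ^ 5 * q) := by gcongr
  have mδ : δ * m₀ ≤ δ * m := by gcongr
  have : 0 ≤ δ * m := by positivity
  linarith

theorem arC {m m₀ V CC S2 AE AA A₀ Ca q d t c δ s Λ : ℝ} (m0 : 0 < m) (hq : 0 < q) (hd : 0 < d)
    (ht : 0 < t) (hδ : 0 < δ) (hCC : 0 < CC) (hs : 0 < s) (m1 : m₀ ≤ m) (hAE : AE ≤ Ca * q)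
    (hAA : AA ≤ A₀) (s3 : S2 ≤ 2 * (c * m)) (hc : c ≤ s * δ / 8) (hs2 : CC * Λ * s ≤ δ / 4)
    (ht3 : CC * (A₀ + Ca + A₀ / d ^ 4) * t ≤ δ * m₀ / 4)
    (h3 : CC * ((Ca + A₀ / d ^ 4 + A₀ / t ^ 8) / t) * q ≤ δ * m₀ / 4)
    (h : m * V ≤ S2 / s + CC * (s * Λ * m + t * (AA + AE / q + AA / d ^ 4) +
      (AE + q * AA / d ^ 4 + q * AA / t ^ 8) / t)) : V ≤ δ := by
  refine le_of_mul_le_mul_left (h.trans ?_) m0
  have r1 := rr hq hAA (pow_pos hd 4)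
  have r3 := rr hq hAA (pow_pos ht 8)
  have s4 : S2 / s ≤ δ * m / 4 := by
    rw [div_le_iff₀ hs]
    linarith [mul_le_mul_of_nonneg_right hc m0.le]
  have b0 : AE / q ≤ Ca := by rwa [div_le_iff₀ hq]
  have b1 : CC * Λ * s * m ≤ δ / 4 * m := by gcongr
  have b2 : CC * (s * Λ * m + t * (AA + AE / q + AA / d ^ 4) +
      (AE + q * AA / d ^ 4 + q * AA / t ^ 8) / t) ≤ CC * (s * Λ * m + t * (A₀ + Ca + A₀ / d ^ 4) +
      (Ca * q + A₀ / d ^ 4 * q + A₀ / t ^ 8 * q) / t) := by gcongr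
  have b3 : CC * (s * Λ * m + t * (A₀ + Ca + A₀ / d ^ 4) +
      (Ca * q + A₀ / d ^ 4 * q + A₀ / t ^ 8 * q) / t) =
      CC * Λ * s * m + CC * (A₀ + Ca + A₀ / d ^ 4) * t +
      CC * ((Ca + A₀ / d ^ 4 + A₀ / t ^ 8) / t) * q := by ring
  have mδ : δ * m₀ ≤ δ * m := by gcongr
  linarith

theorem arA {m m₀ U U' F CA S1 AE AA A₀ Ca q d c l : ℝ} (m0 : 0 < m) (hq : 0 < q) (hd : 0 < d)
    (hl : 0 < l) (hCA : 0 < CA) (m1 : m₀ ≤ m) (hAE : AE ≤ Ca * q) (hAA : AA ≤ A₀)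
    (s3 : S1 ≤ c * m) (hc : CA * c ≤ l / 8) (h1 : CA * (Ca + A₀ / d ^ 4) * q ≤ l * m₀ / 8)
    (k1 : U < l / 4) (k2 : U' < l / 4) (hF : l * m ≤ F)
    (h : F ≤ m / 2 * (U + U') + CA * (S1 + AE + q * AA / d ^ 4)) : False := by
  have r1 := rr hq hAA (pow_pos hd 4)
  have b1 : CA * (S1 + AE + q * AA / d ^ 4) ≤ CA * (c * m + Ca * q + A₀ / d ^ 4 * q) := by gcongr
  have b2 : CA * c * m ≤ l / 8 * m := by gcongr
  have b3 : m / 2 * (U + U') ≤ m / 2 * (l / 4 + l / 4) := by gcongr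
  have ml : l * m₀ ≤ l * m := by gcongr
  have : 0 < l * m := by positivity
  linarith

end DichA

open DichA in
theorem dich (K : Kit) (hI : ISO) (hA : DA) (hB : DB) (hC : DC) : DICH := by
  intro Λ
  obtain ⟨l₀, hl₀, hI⟩ := hI Λ
  refine ⟨l₀, hl₀, fun l hl hll => ?_⟩
  obtain ⟨δ, hδ, hI⟩ := hI l hl hll
  obtain ⟨CA, hCA, hA⟩ := hA
  obtain ⟨CB, hCB, hB⟩ := hB
  obtain ⟨CC, hCC, hC⟩ := hC
  obtain ⟨s, hs, hs1⟩ := small (CC * Λ) (a := δ / 4) (by positivity)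
  have hs2 := hs1 s hs.le le_rfl
  obtain ⟨c, hc, hc1, hc2, hc3, hc4⟩ : ∃ c : ℝ, 0 < c ∧ c ≤ δ ∧ CA * c ≤ l / 8 ∧
      CB * c ≤ δ / 4 ∧ c ≤ s * δ / 8 := by
    obtain ⟨a, ha, ha1⟩ := small CA (a := l / 8) (by positivity)
    obtain ⟨b, hb, hb1⟩ := small CB (a := δ / 4) (by positivity)
    have p : 0 < min (min δ a) (min b (s * δ / 8)) := by positivity
    exact ⟨_, p, (min_le_left _ _).trans (min_le_left _ _),
      ha1 _ p.le ((min_le_left _ _).trans (min_le_right _ _)),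
      hb1 _ p.le ((min_le_right _ _).trans (min_le_left _ _)),
      (min_le_right _ _).trans (min_le_right _ _)⟩
  refine ⟨c, hc, fun α A₀ Ca d hd hd1 => ?_⟩
  by_cases hα : 0 < α
  swap
  · exact ⟨1, one_pos, fun S π η th hG _ e => absurd (e ▸ hG.rg.α0) hα⟩
  obtain ⟨C', hC', hB⟩ := hB α
  obtain ⟨cm, Cm, hcm, hm⟩ := K.con.mm
  have hm0 : 0 < cm * α ^ 2 := by positivity
  obtain ⟨t, ht, ht1, ht2, ht3⟩ : ∃ t : ℝ, 0 < t ∧ t ≤ 1 ∧
      C' * A₀ * t ≤ δ * (cm * α ^ 2) / 4 ∧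
      CC * (A₀ + Ca + A₀ / d ^ 4) * t ≤ δ * (cm * α ^ 2) / 4 := by
    obtain ⟨a, ha, ha1⟩ := small (C' * A₀) (a := δ * (cm * α ^ 2) / 4) (by positivity)
    obtain ⟨b, hb, hb1⟩ := small (CC * (A₀ + Ca + A₀ / d ^ 4)) (a := δ * (cm * α ^ 2) / 4)
      (by positivity)
    have p : 0 < min 1 (min a b) := by positivity
    exact ⟨_, p, min_le_left _ _, ha1 _ p.le ((min_le_right _ _).trans (min_le_left _ _)),
      hb1 _ p.le ((min_le_right _ _).trans (min_le_right _ _))⟩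
  obtain ⟨e1, he1, h1⟩ := small (CA * (Ca + A₀ / d ^ 4)) (a := l * (cm * α ^ 2) / 8)
    (by positivity)
  obtain ⟨e2, he2, h2⟩ := small (C' * (Ca + A₀ / d ^ 4 + A₀ / t ^ 5))
    (a := δ * (cm * α ^ 2) / 4) (by positivity)
  obtain ⟨e3, he3, h3⟩ := small (CC * ((Ca + A₀ / d ^ 4 + A₀ / t ^ 8) / t))
    (a := δ * (cm * α ^ 2) / 4) (by positivity)
  refine ⟨min e1 (min e2 e3), by positivity,
    fun S π η th hG hR e hε hCut hAE hAA hPP hF1 hF2 => ?_⟩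
  by_contra hcon
  push Not at hcon
  have ε0 := hG.rg.ε0
  have ε1 := hG.rg.ε1
  have q0 : 0 < π.ε ^ 2 := by positivity
  have q1 : π.ε ^ 2 ≤ min e1 (min e2 e3) := by nlinarith only [ε0, ε1, hε]
  replace h1 := h1 _ q0.le (q1.trans (min_le_left _ _))
  replace h2 := h2 _ q0.le (q1.trans ((min_le_right _ _).trans (min_le_left _ _)))
  replace h3 := h3 _ q0.le (q1.trans ((min_le_right _ _).trans (min_le_right _ _)))
  have m1 : cm * α ^ 2 ≤ π.mm := e ▸ (hm π hG.rg).1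
  have m0 : 0 < π.mm := hm0.trans_le m1
  have s1 := S10 S π hG.rg η th
  have s2 := S20 S π η th
  have s3 : S.S1 π η th ≤ c * π.mm := by linarith
  have s4 : S.S2 π η th ≤ 2 * (c * π.mm) := by linarith
  obtain ⟨hA1, hA2⟩ := hA S π Λ d η th hG hCut hd hd1
  have key : ∀ σ : ℝ, σ = 1 ∨ σ = -1 → ∫ x, π.W x * S.uu π σ x ∂S.μ < l / 4 := by
    intro σ hσ
    by_contra hlo
    obtain ⟨a1, a2⟩ := hA1 σ hσ
    refine hI S π (S.uu π σ) hG.ok hG.ar hR a1 (not_lt.1 hlo) ?_ ?_ ?_ (hPP.trans hc1)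
    · refine le_of_mul_le_mul_left ?_ m0
      linarith only [a2, hF2]
    · exact arB m0 q0 hd ht hδ hCB hC' m1 hAE hAA s3 hc3 ht2 h2
        (hB S π Λ d t σ η th hG e hCut hd hd1 ht ht1 hσ)
    · exact arC m0 q0 hd ht hδ hCC hs m1 hAE hAA s4 hc4 hs2 ht3 h3
        (hC S π Λ d t s σ η th hG hCut hd hd1 ht ht1 hs hσ)
  exact arA m0 q0 hd hl hCA m1 hAE hAA s3 hc2 h1 (key 1 (Or.inl rfl)) (key (-1) (Or.inr rfl))
    hF1 hA2

end Vale.Agent.P218M1
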