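import Vale.Agent.P218M1.Calc0

/-!
# P218M1: the main theorem of the block from the rows
-/

open MeasureTheory Metric Filter Topology Set
open scoped ContDiff RealInnerProductSpace

noncomputable section

namespace Vale.Agent.P218M1

namespace Dp

open Sf

variable {S : Sf} {π : Par} {Λ G : ℝ}

theorem H_le (hS : S.Ok) (hΛ : S.AR Λ) {r : ℝ} (hr : 0 < r) :
    ∫ x in ball 0 r, S.H x ^ 2 ∂S.μ ≤ 2 * ∫ x in ball 0 r, S.φ x ^ 2 ∂S.μ + Λ * r ^ 4 := by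
  have h1 := hS.cg_φ.intOn hS (isBounded_ball (x := (0 : E)) (r := r))
  have h2 := (Cg.const (S := S) (sq_nonneg r)).intOn hS (isBounded_ball (x := (0 : E)) (r := r))
  have h3 : ∫ x in ball 0 r, S.H x ^ 2 ∂S.μ ≤ ∫ x in ball 0 r, (2 * S.φ x ^ 2 + r ^ 2) ∂S.μ := by
    refine setIntegral_mono_on (hS.cg_H.intOn hS isBounded_ball) ((h1.const_mul 2).add h2)
      measurableSet_ball fun x hx => ?_
    have h4 : ‖x‖ ^ 2 ≤ r ^ 2 := pow_le_pow_left₀ (norm_nonneg _) (mem_ball_zero_iff.1 hx).le 2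
    linarith [H_sq_le_φ S x, sq_nonneg ‖x‖]
  rw [integral_add (h1.const_mul 2) h2, integral_const_mul, setIntegral_const, smul_eq_mul] at h3
  nlinarith [mul_le_mul_of_nonneg_right (hΛ 0 r hr) (sq_nonneg r)]

theorem int_mono (hS : S.Ok) {f : E → ℝ} (hf : S.Cg f) {r r' : ℝ} (h : r ≤ r') :
    ∫ x in ball 0 r, f x ∂S.μ ≤ ∫ x in ball 0 r', f x ∂S.μ := by
  refine setIntegral_mono_set (hf.intOn hS isBounded_ball) ?_ (ball_subset_ball h).eventuallyLE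
  filter_upwards [ae_restrict_of_ae hS.sup] with x hx using (hf x (hS.reg x hx)).2

theorem AA_le (hG : Good S π Λ) (hg : S.GBc G) : S.AA π ≤ 36 * |Λ| * π.R ^ 2 +
    |G| * (1 + |Λ| * (21 * (3 * π.R + 3)) ^ 4) +
      2 * |G| * ∫ x in ball 0 (21 * (3 * π.R + 3)), S.φ x ^ 2 ∂S.μ := by
  have h0 : 0 < 3 * π.R + 3 := by linarith [hG.rg.R1]
  have h1 := hg _ h0
  have h2 := H_le hG.ok hG.ar (r := 21 * (3 * π.R + 3)) (by linarith)
  have h3 := IB_one_le_Λ hG.ar hG.rg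
  have h4 : 0 ≤ ∫ x in ball 0 (21 * (3 * π.R + 3)), S.H x ^ 2 ∂S.μ :=
    integral_nonneg fun _ => sq_nonneg _
  rw [AA_eq hG.ok, abs_of_nonneg hG.ar.nonneg]
  have h5 : S.IB π S.A2 ≤ |G| * (1 + ∫ x in ball 0 (21 * (3 * π.R + 3)), S.H x ^ 2 ∂S.μ) :=
    h1.trans (mul_le_mul_of_nonneg_right (le_abs_self G) (by linarith))
  nlinarith [mul_le_mul_of_nonneg_left h2 (abs_nonneg G)]

theorem ex_R (a b : ℝ) {c : ℝ} (hc : 0 < c) :
    ∃ R : ℝ, 7 ≤ R ∧ a ≤ R ∧ b * Real.exp (-R ^ 2 / 4) ≤ c := by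
  have h : Tendsto (fun R : ℝ => b * Real.exp (-R ^ 2 / 4)) atTop (𝓝 (b * 0)) :=
    (Real.tendsto_exp_atBot.comp ((tendsto_neg_atTop_atBot.comp
      (tendsto_pow_atTop two_ne_zero)).atBot_div_const (by norm_num))).const_mul b
  rw [mul_zero] at h
  exact ((eventually_ge_atTop 7).and ((eventually_ge_atTop a).and
    (h.eventually (ge_mem_nhds hc)))).exists

theorem ar1 {F S1 S2 e de α AA C PP P c₁ cm mm A₀ C' : ℝ}
    (h : F ≤ -S1 - S2 / 2 + e + de * α ^ 2 * AA + C * PP) (he : e ≤ c₁ * cm / 2 * α ^ 2)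
    (hde : 0 < de) (hde1 : de * A₀ = c₁ * cm / 2) (h9 : AA ≤ A₀) (h10 : c₁ * mm ≤ S1 + S2 / 2)
    (hm : cm * α ^ 2 ≤ mm) (hc : 0 < c₁) (h7 : C * PP ≤ C * P) (hC : C ≤ C') (hP : 0 ≤ P) :
    F ≤ C' * P := by
  have h11 : de * α ^ 2 * AA ≤ c₁ * cm / 2 * α ^ 2 := by
    rw [← hde1]
    nlinarith [mul_le_mul_of_nonneg_left h9 (by positivity : 0 ≤ de * α ^ 2)]
  nlinarith [mul_le_mul_of_nonneg_left hm hc.le, mul_le_mul_of_nonneg_right hC hP]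

theorem ar2 {F S1 S2 e de α AA C PP P c₁ cm B g : ℝ}
    (h : F ≤ -S1 - S2 / 2 + e + de * α ^ 2 * AA + C * PP) (he : e ≤ c₁ * cm / 2 * α ^ 2)
    (hde : 0 < de) (h1 : 0 ≤ S1) (h2 : 0 ≤ S2) (hA : AA ≤ B + 2 * g * P) (hB : 0 ≤ B)
    (hc : 0 < c₁) (hcm : 0 < cm) (h7 : C * PP ≤ C * P) (h8 : c₁ ≤ P) :
    F ≤ (cm * α ^ 2 / 2 + de * α ^ 2 * (B / c₁ + 2 * g) + C) * P := by
  have h11 : B ≤ B / c₁ * P := by
    rw [div_mul_eq_mul_div, le_div_iff₀ hc]; exact mul_le_mul_of_nonneg_left h8 hB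
  have h12 : de * α ^ 2 * AA ≤ de * α ^ 2 * (B / c₁ * P + 2 * g * P) :=
    mul_le_mul_of_nonneg_left (by linarith) (by positivity)
  have h13 : c₁ * (cm * α ^ 2 / 2) ≤ P * (cm * α ^ 2 / 2) :=
    mul_le_mul_of_nonneg_right h8 (by positivity)
  nlinarith

theorem ar3 {C₀ Λ α e k : ℝ} (h : C₀ * Λ * e ≤ k) : C₀ * Λ * α ^ 2 * e ≤ k * α ^ 2 := by
  nlinarith [mul_le_mul_of_nonneg_right h (sq_nonneg α)]

end Dp

open Dp Sf in
theorem dp (K : Kit) (hM : MAIN) (hP : PSIT) (hD : DICH) (hL : LOW) (hU : UP) (hB : BAR)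
    (hT : SEPT) : DP := by
  intro Λ G κ m₀ R₀ hκ hm hR₀
  obtain ⟨c, αL, hc, hαL, hL⟩ := hL κ m₀ R₀ hκ hm hR₀
  obtain ⟨l₀, hl₀, hD⟩ := hD Λ
  obtain ⟨C₀, hC₀, hM⟩ := hM
  obtain ⟨cm, Cm, hcm, hmm⟩ := K.con.mm
  obtain ⟨l, hl, hl1, hl2⟩ : ∃ l, 0 < l ∧ l ≤ l₀ ∧ 2 * l ≤ c :=
    ⟨min l₀ (c / 2), lt_min hl₀ (half_pos hc), min_le_left _ _, by linarith [min_le_right l₀ (c / 2)]⟩
  obtain ⟨c₁, hc₁, hD⟩ := hD l hl hl1
  obtain ⟨R, hR7, hR1, hRe⟩ := ex_R (R₀ + 1) (C₀ * |Λ|) (half_pos (mul_pos hc₁ hcm))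
  obtain ⟨R', hR'⟩ : ∃ R', R' = 21 * (3 * R + 3) := ⟨_, rfl⟩
  obtain ⟨B, hBe⟩ : ∃ B, B = 36 * |Λ| * R ^ 2 + |G| * (1 + |Λ| * R' ^ 4) := ⟨_, rfl⟩
  have hB0 : 0 ≤ B := by rw [hBe]; positivity
  obtain ⟨A₀, hA₀⟩ : ∃ A₀, A₀ = B + 2 * |G| * c₁ + 1 := ⟨_, rfl⟩
  have hA : 0 < A₀ := by rw [hA₀]; positivity
  obtain ⟨de, hde, hde1⟩ : ∃ de, 0 < de ∧ de * A₀ = c₁ * cm / 2 :=
    ⟨c₁ * cm / 2 / A₀, by positivity, by field_simp⟩
  obtain ⟨α₀, hα₀, hM⟩ := hM Λ R de hde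
  obtain ⟨α, hα, hα1, hα2, hα3⟩ : ∃ α, 0 < α ∧ α ≤ α₀ ∧ α ≤ αL ∧ α ≤ 1 / 10 :=
    ⟨min α₀ (min αL (1 / 10)), by positivity, min_le_left _ _,
      (min_le_right _ _).trans (min_le_left _ _), (min_le_right _ _).trans (min_le_right _ _)⟩
  obtain ⟨C, Ca, d, ε₁, hC, hCa, hd, hd1, hε₁, hM⟩ := hM α hα hα1
  obtain ⟨ε₂, hε₂, hD⟩ := hD α A₀ (Ca * A₀) d hd hd1
  obtain ⟨J, hL⟩ := hL Λ α (2 + |Λ| * R' ^ 4) hα2
  obtain ⟨C', hC'e⟩ : ∃ C', C' = cm * α ^ 2 / 2 + de * α ^ 2 * (B / c₁ + 2 * |G|) + C := ⟨_, rfl⟩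
  have hC' : 0 < C' := by rw [hC'e]; positivity
  have hCC : C ≤ C' := by
    have : 0 ≤ cm * α ^ 2 / 2 + de * α ^ 2 * (B / c₁ + 2 * |G|) := by positivity
    linarith
  refine ⟨R', l, l * (cm * α ^ 2) / 2 / C', min ε₁ (min ε₂ (1 / 10)), J, by linarith, hl,
    by positivity, by positivity, ?_⟩
  intro S I a b ε h hF hab hI hΛ hε hε0 hh hφ hD0 ha hb
  obtain ⟨η, ρ, hη, hη1, hρ, hsep⟩ := hT S I a b R α ε hF.toFam hI hε
  set π : Par := ⟨R, α, ε, η, ρ⟩ with hπ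
  have hrg : π.Rg := ⟨by simp only [hπ]; linarith, hα, hα3, hε,
    hε0.trans ((min_le_right _ _).trans (min_le_right _ _)), hη, hη1, hρ⟩
  have hG : ∀ τ ∈ Icc a b, Good (S τ) π Λ := fun τ hτ =>
    ⟨hF.ok τ (hI hτ), (hΛ τ hτ).1, hrg, hsep τ hτ⟩
  have hm1 : cm * α ^ 2 ≤ π.mm := (hmm π hrg).1
  have hm0 : 0 < π.mm := lt_of_lt_of_le (by positivity) hm1
  have hp0 : ∀ τ, 0 ≤ ∫ x in ball 0 R', (S τ).φ x ^ 2 ∂(S τ).μ := fun τ =>
    integral_nonneg fun _ => sq_nonneg _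
  have key := hB (fun τ => (S τ).FF π)
    (fun τ => (S τ).II ((S τ).Hw π (wd S τ)) + (S τ).II ((S τ).Mm π)) (fun τ => C' * h τ) a b
    (l * π.mm) hab (fun τ hτ => (hP S I π Λ τ hF (hI hτ) (hG τ hτ)).2) (hh.const_mul C')
    (fun τ hτ => mul_nonneg hC'.le ((hp0 τ).trans (hφ τ hτ))) ?_ ?_ ?_
  · by_contra hn
    push Not at hn
    have hbb : b ∈ Icc a b := right_mem_Icc.2 hab
    have h1 := H_le (hG b hbb).ok (hG b hbb).ar (r := R') (by linarith)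
    have h2 := int_mono (hG b hbb).ok (hG b hbb).ok.cg_H (r := R₀ + 3) (r' := R') (by linarith)
    have h3 := hL (S b) π (hG b hbb) rfl hR1 (by
      rw [abs_of_nonneg (hG b hbb).ar.nonneg]; linarith only [h1, h2, hb]) hn
    linarith only [key, h3, mul_le_mul_of_nonneg_right hl2 hm0.le]
  · intro τ hτ h1 h2
    have hg := hG τ hτ
    obtain ⟨η', th, hcut, hAE, hmain⟩ := hM (S τ) π (wd S τ) hg rfl rfl
      (hε0.trans (min_le_left _ _)) (hP S I π Λ τ hF (hI hτ) hg).1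
    have hAA : (S τ).AA π ≤ B + 2 * |G| * ∫ x in ball 0 R', (S τ).φ x ^ 2 ∂(S τ).μ := by
      rw [hBe, hR']; exact AA_le hg (hΛ τ hτ).2
    have hPP : (S τ).PP π ≤ ∫ x in ball 0 R', (S τ).φ x ^ 2 ∂(S τ).μ :=
      int_mono hg.ok hg.ok.cg_φ (by simp only [hπ]; linarith)
    have he : C₀ * Λ * α ^ 2 * Real.exp (-R ^ 2 / 4) ≤ c₁ * cm / 2 * α ^ 2 := by
      rw [abs_of_nonneg hg.ar.nonneg] at hRe
      exact ar3 hRe
    have h5 := hφ τ hτ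
    have h6 := hp0 τ
    generalize ∫ x in ball 0 R', (S τ).φ x ^ 2 ∂(S τ).μ = P at hAA hPP h5 h6
    have h7 : C * (S τ).PP π ≤ C * P := mul_le_mul_of_nonneg_left hPP hC.le
    refine le_trans ?_ (mul_le_mul_of_nonneg_left h5 hC'.le)
    rcases le_total P c₁ with h8 | h8
    · have h9 : (S τ).AA π ≤ A₀ := by
        linarith only [mul_le_mul_of_nonneg_left h8 (abs_nonneg G), hAA, hA₀]
      have h10 := hD (S τ) π η' th hg hR7 rfl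
        (hε0.trans ((min_le_right _ _).trans (min_le_left _ _))) hcut
        (hAE.trans (by
          have : 0 ≤ Ca * π.ε ^ 2 := by positivity
          linarith only [mul_le_mul_of_nonneg_left h9 this])) h9 (hPP.trans h8) h1
        (by linarith only [h2])
      exact ar1 hmain he hde hde1 h9 h10 hm1 hc₁ h7 hCC h6
    · rw [hC'e]
      exact ar2 hmain he hde (S1_nonneg hg.ok hrg hcut.sη hcut.sth)
        (S2_nonneg hg.ok hrg hcut.sη hcut.sth) hAA hB0 hc₁ hcm h7 h8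
  · have haa : a ∈ Icc a b := left_mem_Icc.2 hab
    have := hU (S a) π Λ R' (hG a haa) (by simp only [hπ]; linarith)
    linarith only [mul_le_mul_of_nonneg_left ha hm0.le, this]
  · rw [intervalIntegral.integral_const_mul]
    have h1 := mul_le_mul_of_nonneg_left hD0 hC'.le
    rw [mul_div_cancel₀ _ hC'.ne'] at h1
    linarith only [mul_le_mul_of_nonneg_left hm1 hl.le, mul_pos hl hm0, h1]

end Vale.Agent.P218M1
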