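import Vale.Agent.P218M1.Ca

/-!
# P218M1: the time derivative of an integral over all pairs
-/

open MeasureTheory Metric Filter Topology Set
open scoped ContDiff RealInnerProductSpace ENNReal

noncomputable section

namespace Vale.Agent.P218M1

namespace Dt

open Ca

theorem hd_slice {X : Type} [NormedAddCommGroup X] [NormedSpace ℝ X] {Ψ : ℝ × X → ℝ} {σ : ℝ}
    {x : X} (h : DifferentiableAt ℝ Ψ (σ, x)) :
    HasDerivAt (fun σ => Ψ (σ, x)) (fderiv ℝ Ψ (σ, x) (1, 0)) σ :=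
  h.hasFDerivAt.comp_hasDerivAt σ ((hasDerivAt_id σ).prodMk (hasDerivAt_const σ x))

/-- differentiation under the integral sign, compact supports -/
theorem pint {X : Type} [NormedAddCommGroup X] [NormedSpace ℝ X] [MeasurableSpace X]
    [BorelSpace X] [SecondCountableTopology X] (μ : Measure X) [IsFiniteMeasureOnCompacts μ]
    {Ψ : ℝ × X → ℝ} {I : Set ℝ} (hI : IsOpen I) {K : Set X} (hK : IsCompact K)
    (h1 : ∀ σ ∈ I, ∀ x, ContDiffAt ℝ 1 Ψ (σ, x)) (h0 : ∀ σ ∈ I, ∀ x ∉ K, Ψ (σ, x) = 0) {τ : ℝ}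
    (hτ : τ ∈ I) : (∀ σ ∈ I, Integrable (fun x => Ψ (σ, x)) μ) ∧
      Integrable (fun x => fderiv ℝ Ψ (τ, x) (1, 0)) μ ∧
      HasDerivAt (fun σ => ∫ x, Ψ (σ, x) ∂μ) (∫ x, fderiv ℝ Ψ (τ, x) (1, 0) ∂μ) τ := by
  have hi : ∀ σ ∈ I, Integrable (fun x => Ψ (σ, x)) μ := fun σ hσ =>
    (continuous_iff_continuousAt.2 fun x => (h1 σ hσ x).continuousAt.comp
      (f := fun x => (σ, x)) (by fun_prop)).integrable_of_hasCompactSupport
      (HasCompactSupport.intro hK (h0 σ hσ))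
  have hc : ∀ σ ∈ I, ∀ x, ContinuousAt (fun q => fderiv ℝ Ψ q (1, 0)) (σ, x) := fun σ hσ x =>
    ((h1 σ hσ x).continuousAt_fderiv one_ne_zero).clm_apply continuousAt_const
  have hd : ∀ σ ∈ I, ∀ x, HasDerivAt (fun σ => Ψ (σ, x)) (fderiv ℝ Ψ (σ, x) (1, 0)) σ :=
    fun σ hσ x => hd_slice ((h1 σ hσ x).differentiableAt one_ne_zero)
  obtain ⟨ε, hε, hb⟩ := nhds_basis_closedBall.mem_iff.1 (hI.mem_nhds hτ)
  obtain ⟨C, hC⟩ := ((isCompact_closedBall τ ε).prod hK).exists_bound_of_continuousOn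
    (f := fun q => fderiv ℝ Ψ q (1, 0)) fun q hq => (hc q.1 (hb hq.1) q.2).continuousWithinAt
  refine ⟨hi, hasDerivAt_integral_of_dominated_loc_of_deriv_le (F := fun σ x => Ψ (σ, x))
    (F' := fun σ x => fderiv ℝ Ψ (σ, x) (1, 0)) (bound := K.indicator fun _ => C)
    (closedBall_mem_nhds τ hε) ?_ (hi τ hτ) ?_ (ae_of_all _ fun x σ hσ => ?_) ?_
    (ae_of_all _ fun x σ hσ => hd σ (hb hσ) x)⟩
  · filter_upwards [hI.mem_nhds hτ] with σ hσ using (hi σ hσ).aestronglyMeasurable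
  · exact (continuous_iff_continuousAt.2 fun x => (hc τ hτ x).comp
      (f := fun x => (τ, x)) (by fun_prop)).aestronglyMeasurable
  · by_cases hx : x ∈ K
    · rw [indicator_of_mem hx]
      exact hC (σ, x) ⟨hσ, hx⟩
    · have h2 : HasDerivAt (fun σ => Ψ (σ, x)) 0 σ :=
        (hasDerivAt_const σ (0 : ℝ)).congr_of_eventuallyEq
          (eventually_of_mem (hI.mem_nhds (hb hσ)) fun s hs => h0 s hs x hx)
      rw [indicator_of_notMem hx, (hd σ (hb hσ) x).unique h2, norm_zero]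
  · exact (integrable_indicator_iff hK.measurableSet).2 (integrableOn_const hK.measure_ne_top)

theorem ev_nle {T : Type} [TopologicalSpace T] {a b : T → ℝ} {t : T} (ha : ContinuousAt a t)
    (hb : ContinuousAt b t) (h : ¬ a t ≤ b t) : ∀ᶠ s in 𝓝 t, ¬ a s ≤ b s :=
  (hb.eventually_lt ha (not_le.1 h)).mono fun _ h => h.not_ge

theorem ev_nand {T : Type} {l : Filter T} {p q : T → Prop} {p₀ q₀ : Prop} (h : ¬ (p₀ ∧ q₀))
    (hp : ¬ p₀ → ∀ᶠ s in l, ¬ p s) (hq : ¬ q₀ → ∀ᶠ s in l, ¬ q s) : ∀ᶠ s in l, ¬ (p s ∧ q s) :=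
  (not_and_or.1 h).elim (fun h => (hp h).mono fun _ h h' => h h'.1)
    fun h => (hq h).mono fun _ h h' => h h'.2

theorem RS_zero {S : Sf} {π : Par} {f : Q → ℝ} (hS : S.Ok)
    (hf : ∀ z, S.g z.1 ≠ 0 → S.g (yy z) ≠ 0 → ¬ S.Box π z → f z = 0) {x θ : E} (hx : S.g x ≠ 0)
    (h : ¬ (‖x‖ ≤ 3 * π.R ∧ 1 / 2 ≤ S.cc x θ ^ 2)) : S.RS f x θ = 0 :=
  finsum_mem_eq_zero_of_forall_eq_zero (s := {d | S.w (x + d • θ) = 0}) fun d hd =>
    hf (x, θ, d) hx (hS.reg _ hd) fun hb => h ⟨hb.1, hb.2.2.2.1⟩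

/-- the integrand on the space of lines -/
def Ln (S : Sf) (f : Q → ℝ) (q : E × E) : ℝ :=
  gam q.1 * (bet ⟪q.2, un q.1⟫ * S.LS (fun x => S.RS f x (un q.1)) q.2 (un q.1))

/-- the integral over all pairs, seen from the lines -/
theorem II_eq (ca : CA) (lin : LIN) {S : Sf} {π : Par} {f : Q → ℝ} (hS : S.Ok) (hπ : π.Rg)
    (hf : S.Cl π 0 f) (hi : Integrable (Ln S f) (volume.prod volume)) :
    S.II f = ∫ q, Ln S f q ∂(volume.prod volume) := by
  have := hS.fin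
  rw [integral_prod _ hi, Sf.II]
  simp only [Sf.AV]
  rw [integral_integral_swap (ca.ix S π f hS hπ hf)]
  refine integral_congr_ae (ae_of_all _ fun u => ?_)
  simp only [Ln, integral_const_mul]
  by_cases hu : u = 0
  · simp [gam_small (u := u) (by simp [hu])]
  congr 1
  refine (lin S (un u) _ (3 * π.R) hS (norm_un hu) fun x hx => ?_).2
  have hg := hS.reg x hx
  by_cases h : ‖x‖ ≤ 3 * π.R ∧ 1 / 2 ≤ S.cc x (un u) ^ 2
  · exact Or.inl ⟨h.1, Sf.s_ne_of_sq (by norm_num) h.2, (ca.rsk S π 0 f x _ hS hπ hf hg).1.comp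
      (f := fun x => (x, un u)) x (by fun_prop)⟩
  · refine Or.inr ?_
    filter_upwards [hS.sg.continuous.continuousAt.eventually_ne hg, ev_nand h
      (ev_nle continuous_norm.continuousAt continuousAt_const) (ev_nle continuousAt_const
        (((cont_n hS hg).inner (𝕜 := ℝ) (continuousAt_const (y := un u))).pow 2))] with y h1 h2
    exact RS_zero hS hf.bx h1 h2

variable {S : ℝ → Sf} {I : Set ℝ} {π : Par} {f : ℝ × Q → ℝ} {σ : ℝ}

theorem smW (hF : Fam S I) (hσ : σ ∈ I) (x : E) :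
    ContDiffAt ℝ ∞ (fun p : ℝ × E => (S p.1).w p.2) (σ, x) :=
  hF.sm.contDiffAt ((hF.op.prod isOpen_univ).mem_nhds ⟨hσ, trivial⟩)

theorem fdW (hF : Fam S I) (hσ : σ ∈ I) (x : E) (a : ℝ) (e : E) :
    fderiv ℝ (fun p : ℝ × E => (S p.1).w p.2) (σ, x) (a, e) =
      a * wd S σ x + ⟪(S σ).g x, e⟫ := by
  have hd := (smW hF hσ x).differentiableAt (by simp)
  have h1 := hd.hasFDerivAt.comp x (hasFDerivAt_prodMk_right σ x)
  have h2 := congrArg (fun L => L e) (h1.unique ((hF.ok σ hσ).hw x))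
  have h3 : (a, e) = a • ((1 : ℝ), (0 : E)) + (0, e) := by simp
  rw [h3, map_add, map_smul, ← (hd_slice hd).deriv]
  exact congrArg _ h2

theorem cont_g (hF : Fam S I) (hσ : σ ∈ I) (x : E) :
    ContinuousAt (fun p : ℝ × E => (S p.1).g p.2) (σ, x) := by
  have h := ContDiffAt.fderiv (𝕜 := ℝ) (n := ∞) (m := 0) (x₀ := (σ, x))
    (f := fun (p : ℝ × E) (y : E) => (S p.1).w y) (g := Prod.snd)
    (ContDiffAt.comp (f := fun q : (ℝ × E) × E => (q.1.1, q.2)) ((σ, x), x) (smW hF hσ x)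
      (contDiffAt_fst.fst.prodMk contDiffAt_snd))
    contDiffAt_snd (by simp)
  exact (InnerProductSpace.toDual ℝ E).symm.continuous.continuousAt.comp h.continuousAt

theorem cont_gT (hF : Fam S I) {T : Type} [TopologicalSpace T] {s : T → ℝ} {a : T → E} {t : T}
    (hs : ContinuousAt s t) (ha : ContinuousAt a t) (hσ : s t ∈ I) :
    ContinuousAt (fun t => (S (s t)).g (a t)) t :=
  (cont_g hF hσ (a t)).comp (f := fun t => (s t, a t)) (hs.prodMk ha)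

theorem cont_cc (hF : Fam S I) {T : Type} [TopologicalSpace T] {s : T → ℝ} {a θ : T → E} {t : T}
    (hs : ContinuousAt s t) (ha : ContinuousAt a t) (hθ : ContinuousAt θ t) (hσ : s t ∈ I)
    (hg : (S (s t)).g (a t) ≠ 0) : ContinuousAt (fun t => (S (s t)).cc (a t) (θ t) ^ 2) t := by
  have h := cont_gT hF hs ha hσ
  exact (((h.norm.inv₀ (norm_ne_zero_iff.2 hg)).smul h).inner (𝕜 := ℝ) hθ).pow 2

/-- the hypotheses on the integrand -/
structure Hy (S : ℝ → Sf) (I : Set ℝ) (π : Par) (f : ℝ × Q → ℝ) : Prop where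
  fam : Fam S I
  rg : π.Rg
  sm : ∀ σ ∈ I, ∀ z ∈ (S σ).O, ContDiffAt ℝ 1 f (σ, z)
  bx : ∀ σ ∈ I, ∀ z, (S σ).g z.1 ≠ 0 → (S σ).g (yy z) ≠ 0 → ¬ (S σ).Box π z → f (σ, z) = 0

theorem Hy.ev0 (h : Hy S I π f) (hσ : σ ∈ I) {z : Q} (h1 : (S σ).g z.1 ≠ 0)
    (h2 : (S σ).g (yy z) ≠ 0) (hb : ¬ (S σ).Box π z) : f =ᶠ[𝓝 (σ, z)] 0 := by
  have hy : ContinuousAt (fun q : ℝ × Q => yy q.2) (σ, z) := (cont_yy.comp continuous_snd).continuousAt
  have hx : ContinuousAt (fun q : ℝ × Q => q.2.1) (σ, z) := by fun_prop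
  have hθ : ContinuousAt (fun q : ℝ × Q => q.2.2.1) (σ, z) := by fun_prop
  have hd : ContinuousAt (fun q : ℝ × Q => q.2.2.2) (σ, z) := by fun_prop
  filter_upwards [continuousAt_fst.eventually (h.fam.op.mem_nhds hσ),
    (cont_gT h.fam continuousAt_fst hx hσ).eventually_ne h1,
    (cont_gT h.fam continuousAt_fst hy hσ).eventually_ne h2,
    ev_nand hb (ev_nle hx.norm continuousAt_const) fun hb =>
      ev_nand hb (ev_nle continuousAt_const hd) fun hb =>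
      ev_nand hb (ev_nle hd continuousAt_const) fun hb =>
      ev_nand hb (ev_nle continuousAt_const (cont_cc h.fam continuousAt_fst hx hθ hσ h1))
        (ev_nle continuousAt_const (cont_cc h.fam continuousAt_fst hy hθ hσ h2))] with q a b c d
  exact h.bx q.1 a q.2 b c d

theorem Hy.c1 (h : Hy S I π f) (hσ : σ ∈ I) {z : Q} (h1 : (S σ).g z.1 ≠ 0)
    (h2 : (S σ).g (yy z) ≠ 0) : ContDiffAt ℝ 1 f (σ, z) := by
  by_cases hb : (S σ).Box π z
  · exact h.sm σ hσ z (box_O h.rg hb)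
  · exact contDiffAt_const.congr_of_eventuallyEq (h.ev0 hσ h1 h2 hb)

/-- the defining function along a line -/
def FF (S : ℝ → Sf) (q : (ℝ × E × E) × ℝ) : ℝ := (S q.1.1).w (q.1.2.1 + q.2 • q.1.2.2)

theorem smF (hF : Fam S I) {q : (ℝ × E × E) × ℝ} (hσ : q.1.1 ∈ I) : ContDiffAt ℝ ∞ (FF S) q :=
  (smW hF hσ _).comp (f := fun q : (ℝ × E × E) × ℝ => (q.1.1, q.1.2.1 + q.2 • q.1.2.2)) q
    (by fun_prop)

theorem hasL (q : (ℝ × E × E) × ℝ) : ∃ L : (ℝ × E × E) × ℝ →L[ℝ] E,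
    HasFDerivAt (fun q : (ℝ × E × E) × ℝ => q.1.2.1 + q.2 • q.1.2.2) L q ∧
    ∀ v, L v = v.1.2.1 + (q.2 • v.1.2.2 + v.2 • q.1.2.2) := by
  have h0 := (hasFDerivAt_fst (𝕜 := ℝ) (p := q)).snd
  exact ⟨_, h0.fst.fun_add ((hasFDerivAt_snd (𝕜 := ℝ) (p := q)).fun_smul h0.snd), fun _ => rfl⟩

theorem fdF (hF : Fam S I) {q : (ℝ × E × E) × ℝ} (hσ : q.1.1 ∈ I) (v : (ℝ × E × E) × ℝ) :
    fderiv ℝ (FF S) q v = v.1.1 * wd S q.1.1 (q.1.2.1 + q.2 • q.1.2.2) +
      ⟪(S q.1.1).g (q.1.2.1 + q.2 • q.1.2.2), v.1.2.1 + (q.2 • v.1.2.2 + v.2 • q.1.2.2)⟫ := by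
  obtain ⟨L, hL, hv⟩ := hasL q
  have h1 := ((smW hF hσ (q.1.2.1 + q.2 • q.1.2.2)).differentiableAt (by simp)).hasFDerivAt.comp q
    ((hasFDerivAt_fst (𝕜 := ℝ) (p := q)).fst.prodMk hL)
  rw [← fdW hF hσ, ← hv]
  exact congrArg (fun L => L v) h1.fderiv

/-- the sum over the hits of the ray, with the time as a parameter -/
def Rr (S : ℝ → Sf) (f : ℝ × Q → ℝ) (y : ℝ × E × E) : ℝ :=
  (S y.1).RS (fun z => f (y.1, z)) y.2.1 y.2.2

theorem rr (fs : FS) (h : Hy S I π f) (hσ : σ ∈ I) {x : E} (θ : E) (hx : (S σ).g x ≠ 0) :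
    ContDiffAt ℝ 1 (Rr S f) (σ, x, θ) ∧ fderiv ℝ (Rr S f) (σ, x, θ)
      (1, (-wd S σ x / (S σ).s x θ) • θ, 0) =
      (S σ).RS (fun z => fderiv ℝ f (σ, z) (1, (S σ).VT (wd S σ) z)) x θ := by
  have hS := h.fam.ok σ hσ
  let L : (ℝ × E × E) × ℝ →L[ℝ] ℝ × Q :=
    ((ContinuousLinearEquiv.refl ℝ ℝ).prodCongr (ContinuousLinearEquiv.prodAssoc ℝ E E ℝ) :
      ℝ × (E × E) × ℝ →L[ℝ] ℝ × Q) ∘L ContinuousLinearEquiv.prodAssoc ℝ ℝ (E × E) ℝ
  have key := fs (ℝ × E × E) ℝ (FF S) (f ∘ L) (σ, x, θ) (π.ρ / 2) 2 1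
    (fun d _ => smF h.fam hσ) ?_ fun d hd => ?_
  · refine ⟨key.1, (key.2 le_rfl _).trans ?_⟩
    refine finsum_congr fun d => finsum_congr fun hd => ?_
    have hy := hS.reg _ hd
    have h1 : HasFDerivAt f (fderiv ℝ f (σ, x, θ, d)) (L ((σ, x, θ), d)) :=
      ((h.c1 hσ (z := (x, θ, d)) hx hy).differentiableAt one_ne_zero).hasFDerivAt
    rw [(h1.comp _ L.hasFDerivAt).fderiv, fdF h.fam hσ, fdF h.fam hσ]
    by_cases hb : (S σ).Box π (x, θ, d)
    · have h2 : ⟪(S σ).g (x + d • θ), θ⟫ ≠ 0 := (box_O h.rg hb).2.1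
      refine congrArg (fderiv ℝ f (σ, x, θ, d)) (Prod.ext rfl (Prod.ext ?_ (Prod.ext rfl ?_)))
      · rfl
      · change -((1 * _ + ⟪_, _ + (d • (0 : E) + (0 : ℝ) • θ)⟫) /
          (0 * _ + ⟪_, (0 : E) + (d • (0 : E) + (1 : ℝ) • θ)⟫)) = _
        simp only [Sf.VT, Sf.v1, Sf.v2, Sf.s, yy, smul_zero, zero_smul, add_zero, zero_add,
          one_smul, zero_mul, one_mul, real_inner_smul_right]
        field_simp
        ring
    · simp [(h.ev0 hσ (z := (x, θ, d)) hx hy hb).fderiv_eq]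
  · filter_upwards [continuousAt_fst.eventually (h.fam.op.mem_nhds hσ),
      (cont_gT h.fam (t := (σ, x, θ)) continuousAt_fst continuousAt_snd.fst hσ).eventually_ne hx]
      with y hI hy d hd hn
    exact h.bx y.1 hI (y.2.1, y.2.2, d) hy ((h.fam.ok _ hI).reg _ hd) fun hb =>
      hn ⟨hb.2.1, hb.2.2.1⟩
  · by_cases hb : (S σ).Box π (x, θ, d)
    · have hO := box_O h.rg hb
      refine Or.inl ⟨⟨hb.2.1, hb.2.2.1⟩, ?_,
        ContDiffAt.comp ((σ, x, θ), d) (h.sm σ hσ _ hO) L.contDiff.contDiffAt⟩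
      rw [fdF h.fam hσ]
      simpa [Sf.s, yy] using hO.2.1
    · exact Or.inr ((L.continuous.tendsto ((σ, x, θ), d)).eventually
        (h.ev0 hσ (z := (x, θ, d)) hx (hS.reg _ hd) hb))

/-- the sum over the hits of the line, with the time as a parameter -/
def Ll (S : ℝ → Sf) (f : ℝ × Q → ℝ) (y : ℝ × E × E) : ℝ :=
  (S y.1).LS (fun x => Rr S f (y.1, x, y.2.2)) y.2.1 y.2.2

theorem ll (fs : FS) (h : Hy S I π f) (hσ : σ ∈ I) (p : E) {θ : E} (hθ : ‖θ‖ = 1) :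
    ContDiffAt ℝ 1 (Ll S f) (σ, p, θ) ∧ fderiv ℝ (Ll S f) (σ, p, θ) (1, 0, 0) =
      (S σ).LS (fun x => (S σ).RS (fun z => fderiv ℝ f (σ, z) (1, (S σ).VT (wd S σ) z)) x θ)
        p θ := by
  have hS := h.fam.ok σ hσ
  have hR := h.rg.R1
  let G : (ℝ × E × E) × ℝ → ℝ × E × E := fun q => (q.1.1, q.1.2.1 + q.2 • q.1.2.2, q.1.2.2)
  have hG : ContDiff ℝ 1 G := by fun_prop
  have far : ∀ q : (ℝ × E × E) × ℝ, q.1.1 ∈ I → (S q.1.1).g (G q).2.1 ≠ 0 →
      ¬ (‖(G q).2.1‖ ≤ 3 * π.R ∧ 1 / 2 ≤ (S q.1.1).cc (G q).2.1 q.1.2.2 ^ 2) →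
      (Rr S f ∘ G) q = 0 := fun q hq hg hn => RS_zero (h.fam.ok _ hq) (h.bx _ hq) hg hn
  have big : ∀ (y : ℝ × E × E) (l : ℝ), 1 / 2 < ‖y.2.2‖ → ‖y.2.1‖ < ‖p‖ + 1 →
      ‖y.2.1 + l • y.2.2‖ ≤ 3 * π.R → l ∈ Icc (-(2 * (3 * π.R + ‖p‖ + 1)))
        (2 * (3 * π.R + ‖p‖ + 1)) := fun y l h1 h2 h3 => by
    have h4 := norm_sub_le (y.2.1 + l • y.2.2) y.2.1
    rw [add_sub_cancel_left, norm_smul, Real.norm_eq_abs] at h4
    rw [mem_Icc, ← abs_le]
    nlinarith [abs_nonneg l]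
  have key := fs (ℝ × E × E) ℝ (FF S) (Rr S f ∘ G) (σ, p, θ) (-(2 * (3 * π.R + ‖p‖ + 1)))
    (2 * (3 * π.R + ‖p‖ + 1)) 1 (fun d _ => smF h.fam hσ) ?_ fun l hl => ?_
  · refine ⟨key.1, (key.2 le_rfl _).trans ?_⟩
    refine finsum_congr fun l => finsum_congr fun hl => ?_
    obtain ⟨h1, h2⟩ := rr fs h hσ θ (hS.reg _ hl)
    obtain ⟨L, hL, hv⟩ := hasL ((σ, p, θ), l)
    have h0 := hasFDerivAt_fst (𝕜 := ℝ) (p := ((σ, p, θ), l))
    have h3 := (h1.differentiableAt one_ne_zero).hasFDerivAt.comp ((σ, p, θ), l)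
      (h0.fst.prodMk (hL.prodMk h0.snd.snd))
    refine (DFunLike.congr_fun h3.fderiv _).trans (Eq.trans ?_ h2)
    refine congrArg (fderiv ℝ (Rr S f) _) (Prod.ext rfl (Prod.ext ((hv _).trans ?_) rfl))
    rw [fdF h.fam hσ, fdF h.fam hσ]
    simp [Sf.s, neg_div]
  · have c1 : ContinuousAt (fun y : ℝ × E × E => ‖y.2.2‖) (σ, p, θ) := by fun_prop
    have c2 : ContinuousAt (fun y : ℝ × E × E => ‖y.2.1‖) (σ, p, θ) := by fun_prop
    filter_upwards [continuousAt_fst.eventually (h.fam.op.mem_nhds hσ),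
      continuousAt_const.eventually_lt c1 (show 1 / 2 < ‖θ‖ by rw [hθ]; norm_num),
      c2.eventually_lt continuousAt_const (lt_add_one ‖p‖)] with y hI h1 h2 l hl hn
    exact far (y, l) hI ((h.fam.ok _ hI).reg _ hl) fun hb => hn (big y l h1 h2 hb.1)
  · have hg := hS.reg _ hl
    by_cases hb : ‖p + l • θ‖ ≤ 3 * π.R ∧ 1 / 2 ≤ (S σ).cc (p + l • θ) θ ^ 2
    · refine Or.inl ⟨big (σ, p, θ) l (by rw [hθ]; norm_num) (lt_add_one _) hb.1, ?_,
        ContDiffAt.comp ((σ, p, θ), l) (rr fs h hσ θ hg).1 hG.contDiffAt⟩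
      rw [fdF h.fam hσ]
      simpa [Sf.s] using Sf.s_ne_of_sq (by norm_num) hb.2
    · refine Or.inr ?_
      have c0 : ContinuousAt (fun q : (ℝ × E × E) × ℝ => q.1.1) ((σ, p, θ), l) := by fun_prop
      have c1 : ContinuousAt (fun q => (G q).2.1) ((σ, p, θ), l) :=
        hG.continuous.continuousAt.snd.fst
      filter_upwards [c0.eventually (h.fam.op.mem_nhds hσ),
        (cont_gT h.fam c0 c1 hσ).eventually_ne hg, ev_nand hb (ev_nle c1.norm continuousAt_const)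
          (ev_nle continuousAt_const (cont_cc h.fam c0 c1 continuousAt_fst.snd.snd hσ hg))]
        with q a b c
      exact far q a b c

theorem sm_ct : ContDiff ℝ 1 ct :=
  Real.smoothTransition.contDiff.comp (contDiff_const.sub contDiff_id)

theorem sm_gam : ContDiff ℝ 1 gam :=
  (sm_ct.comp ((contDiff_norm_sq ℝ).div_const 2)).mul
    (contDiff_const.sub (sm_ct.comp (contDiff_norm_sq ℝ)))

theorem sm_bet : ContDiff ℝ 1 bet := contDiff_const.mul (sm_ct.comp (contDiff_id.pow 2))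

theorem sm_un {u : E} (h : u ≠ 0) : ContDiffAt ℝ 1 un u :=
  ((contDiffAt_norm ℝ h).inv (norm_ne_zero_iff.2 h)).smul contDiffAt_id

theorem cont_wd (hF : Fam S I) (hσ : σ ∈ I) : Continuous (wd S σ) := by
  have h1 : wd S σ = fun x => fderiv ℝ (fun p : ℝ × E => (S p.1).w p.2) (σ, x) (1, 0) :=
    funext fun x => by rw [fdW hF hσ]; simp
  rw [h1]
  exact continuous_iff_continuousAt.2 fun x => (((smW hF hσ x).continuousAt_fderiv (by simp)).comp
    (f := fun x => (σ, x)) (by fun_prop)).clm_apply continuousAt_const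

theorem Hy.clT (h : Hy S I π f) (hσ : σ ∈ I) :
    (S σ).Cl π 0 fun z => fderiv ℝ f (σ, z) (1, (S σ).VT (wd S σ) z) := by
  refine ⟨fun z hz => contDiffAt_zero.2 ⟨(S σ).O, ?_, fun z hz => ?_⟩, fun z h1 h2 hb => ?_⟩
  rotate_left 2
  · simp [(h.ev0 hσ h1 h2 hb).fderiv_eq]
  all_goals
    have hg := (h.fam.ok σ hσ).sg.continuous
    have s1 : Continuous fun z : Q => (S σ).s z.1 z.2.1 :=
      (hg.comp continuous_fst).inner continuous_snd.fst
    have s2 : Continuous fun z : Q => (S σ).s (yy z) z.2.1 :=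
      (hg.comp cont_yy).inner continuous_snd.fst
  · filter_upwards [s1.continuousAt.eventually_ne hz.1, s2.continuousAt.eventually_ne hz.2.1,
      continuousAt_const.eventually_lt continuous_snd.snd.continuousAt hz.2.2] with z a b c
    exact ⟨a, b, c⟩
  · have v1 : ContinuousAt ((S σ).v1 (wd S σ)) z :=
      ((cont_wd h.fam hσ).comp continuous_fst).continuousAt.neg.div s1.continuousAt hz.1
    have v2 : ContinuousAt ((S σ).v2 (wd S σ)) z :=
      ((cont_wd h.fam hσ).comp cont_yy).continuousAt.neg.div s2.continuousAt hz.2.1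
    exact ((((h.sm σ hσ z hz).continuousAt_fderiv one_ne_zero).comp (f := fun z => (σ, z))
      (by fun_prop)).clm_apply (continuousAt_const.prodMk ((v1.smul continuousAt_snd.fst).prodMk
        (continuousAt_const.prodMk (v2.sub v1))))).continuousWithinAt

end Dt

open Dt Ca in
theorem dt (fs : FS) (ca : CA) (lin : LIN) : DT := by
  intro S I π f τ hF hτ hπ hsm hbx
  have h : Hy S I π f := ⟨hF, hπ, hsm, hbx⟩
  have hR := hπ.R1
  let Ψ : ℝ × E × E → ℝ := fun q => Ln (S q.1) (fun z => f (q.1, z)) q.2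
  have h1 : ∀ σ ∈ I, ∀ q, ContDiffAt ℝ 1 Ψ (σ, q) := fun σ hσ q => by
    by_cases hu : q.1 = 0
    · have h1 : ∀ᶠ y : ℝ × E × E in 𝓝 (σ, q), ‖y.2.1‖ < 1 :=
        ContinuousAt.eventually_lt (by fun_prop) continuousAt_const (by simp [hu])
      refine (contDiffAt_const (c := (0 : ℝ))).congr_of_eventuallyEq (h1.mono fun y hy => ?_)
      simp [Ψ, Ln, gam_small hy.le]
    · have c1 : ContDiffAt ℝ 1 (fun y : ℝ × E × E => un y.2.1) (σ, q) :=
        ContDiffAt.comp (g := un) (σ, q) (sm_un hu) contDiffAt_snd.fst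
      exact (sm_gam.contDiffAt.comp _ contDiffAt_snd.fst).mul
        ((sm_bet.contDiffAt.comp _ (contDiffAt_snd.snd.inner ℝ c1)).mul
          (ContDiffAt.comp (g := Ll S f) (f := fun y : ℝ × E × E => (y.1, y.2.2, un y.2.1)) (σ, q)
            (ll fs h hσ q.2 (norm_un hu)).1 (contDiffAt_fst.prodMk (contDiffAt_snd.snd.prodMk c1))))
  have h0 : ∀ σ ∈ I, ∀ q ∉ closedBall (0 : E) 2 ×ˢ closedBall (0 : E) (6 * π.R + 2),
      Ψ (σ, q) = 0 := fun σ hσ q hq => by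
    by_contra hne
    simp only [Ψ, Ln, mul_eq_zero, not_or] at hne
    obtain ⟨a1, a2, a3⟩ := hne
    have hu : q.1 ≠ 0 := fun hu => a1 (gam_small (by simp [hu]))
    have hθ := norm_un hu
    refine hq ⟨mem_closedBall_zero_iff.2 (not_lt.1 fun h => a1 (gam_big h.le)), ?_⟩
    have b2 : |⟪q.2, un q.1⟫| ≤ 2 := by
      by_contra hc
      have : ct (⟪q.2, un q.1⟫ ^ 2) = 0 := Real.smoothTransition.zero_of_nonpos
        (by nlinarith [sq_abs ⟪q.2, un q.1⟫, not_le.1 hc])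
      exact a2 (by simp [bet, this])
    by_contra hc
    rw [mem_closedBall_zero_iff, not_le] at hc
    refine a3 (finsum_mem_eq_zero_of_forall_eq_zero (s := {l | (S σ).w (q.2 + l • un q.1) = 0})
      fun l hl => RS_zero (hF.ok σ hσ) (hbx σ hσ) ((hF.ok σ hσ).reg _ hl) fun hb => ?_)
    have b3 := abs_real_inner_le_norm (q.2 + l • un q.1) (un q.1)
    rw [inner_add_left, real_inner_smul_left, real_inner_self_eq_norm_sq, hθ] at b3
    have b4 := norm_sub_le (q.2 + l • un q.1) (l • un q.1)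
    rw [add_sub_cancel_right, norm_smul, hθ, Real.norm_eq_abs] at b4
    have b5 := abs_sub (⟪q.2, un q.1⟫ + l * 1 ^ 2) ⟪q.2, un q.1⟫
    rw [add_sub_cancel_left, one_pow, mul_one] at b5
    rw [one_pow, mul_one, mul_one] at b3
    linarith [hb.1]
  obtain ⟨i1, i2, hd⟩ := pint (volume.prod volume) hF.op
    ((isCompact_closedBall _ _).prod (isCompact_closedBall _ _)) h1 h0 hτ
  have e : (fun q => fderiv ℝ Ψ (τ, q) (1, 0)) =
      Ln (S τ) fun z => fderiv ℝ f (τ, z) (1, (S τ).VT (wd S τ) z) := by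
    funext q
    refine (hd_slice ((h1 τ hτ q).differentiableAt one_ne_zero)).unique ?_
    by_cases hu : q.1 = 0
    · simpa [Ψ, Ln, gam_small (u := q.1) (by simp [hu])] using hasDerivAt_const τ (0 : ℝ)
    · obtain ⟨a, b⟩ := ll fs h hτ q.2 (norm_un hu)
      have c := hd_slice (a.differentiableAt one_ne_zero)
      rw [show ((1 : ℝ), (0 : E × E)) = (1, 0, 0) from rfl, b] at c
      exact (c.const_mul (bet ⟪q.2, un q.1⟫)).const_mul (gam q.1)
  rw [e] at i2 hd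
  rw [II_eq ca lin (hF.ok τ hτ) hπ (h.clT hτ) i2]
  refine hd.congr_of_eventuallyEq (eventually_of_mem (hF.op.mem_nhds hτ) fun σ hσ => ?_)
  refine II_eq ca lin (hF.ok σ hσ) hπ ⟨fun z hz => ?_, hbx σ hσ⟩ (i1 σ hσ)
  exact ((hsm σ hσ z hz).of_le (by simp)).comp z (contDiffAt_const.prodMk contDiffAt_id)

end Vale.Agent.P218M1
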