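import Vale.Agent.P218M1.HwA
import Vale.Agent.P218M1.Me

/-!
# P218M1, row HW: the time derivative of the weights
-/

open MeasureTheory Metric Filter Topology Set
open scoped ContDiff RealInnerProductSpace ENNReal

noncomputable section

namespace Vale.Agent.P218M1

namespace Hw

open Gd Par

/-- the integrand of `Sg` -/
def sgi (S : Sf) (π : Par) (z : Q) : ℝ := S.Wt π z * G2 (S.tt π z) * ‖S.gt π z‖ ^ 2

/-- the sum over the hits in between -/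
def nn (S : Sf) (π : Par) (f : E → ℝ) (z : Q) : ℝ :=
  S.NS π (fun z' => π.cu (S.cs2 z') * f (yy z')) z

theorem sgi_nn (S : Sf) (π : Par) (z : Q) : 0 ≤ sgi S π z :=
  mul_nonneg (mul_nonneg (mul_nonneg (W_nonneg _) (sq_nonneg _)) (G2_nonneg _)) (sq_nonneg _)

theorem cg_φ {S : Sf} (hS : S.Ok) : S.Cg fun x => S.φ x ^ 2 := fun x hx => by
  refine ⟨ContinuousAt.pow ?_ 2, sq_nonneg _⟩
  have hz : S.g ((x, (0 : E), (0 : ℝ)) : Q).1 ≠ 0 := hx
  have hn := Gx.sm_n hS (a := fun z => z.1) contDiffAt_fst hz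
  have hP : ContDiffAt ℝ ∞ (fun z : Q => S.P z.1) (x, 0, 0) :=
    contDiffAt_const.sub (Gx.sm_ro hn hn)
  have hg : ContDiffAt ℝ ∞ (fun z : Q => S.g z.1) (x, 0, 0) :=
    hS.sg.contDiffAt.comp _ contDiffAt_fst
  have hA : ContDiffAt ℝ ∞ (fun z : Q => S.A z.1) (x, 0, 0) :=
    ((hg.norm ℝ hz).inv (norm_ne_zero_iff.2 hz)).neg.smul
      (hP.clm_comp ((hS.sD2.contDiffAt.comp _ contDiffAt_fst).clm_comp hP))
  have h : ContDiffAt ℝ ∞ (fun z : Q => S.φ z.1) (x, 0, 0) :=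
    (Gx.sm_trc hA).add ((contDiffAt_fst.inner ℝ hn).div_const 2)
  exact h.continuousAt.comp (f := fun y : E => ((y, 0, 0) : Q)) (by fun_prop)

/-- a proper pair, with all the assumptions -/
structure Dt (R α : ℝ) where
  S : Sf
  π : Par
  Λ : ℝ
  v : E → ℝ
  z : Q
  G : Good S π Λ
  hR : π.R = R
  hα : π.α = α
  spd : S.Spd v
  hit : S.Hit z
  box : S.Box π z
  sq : S.Sq π z

variable {R α : ℝ}

namespace Dt

variable (d : Dt R α)

def Xi : ℝ := sgi d.S d.π d.z + (1 + d.S.A2 d.z.1 + d.S.A2 (yy d.z) + nn d.S d.π d.S.A2 d.z)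
def Ph : ℝ := d.S.φ d.z.1 ^ 2 + d.S.φ (yy d.z) ^ 2 + nn d.S d.π (fun x => d.S.φ x ^ 2) d.z
def σ : ℝ := √d.Xi
def om : ℝ := √d.Ph

theorem O : d.z ∈ d.S.O := Ca.box_O d.G.rg d.box
theorem θ1 : ‖d.z.2.1‖ = 1 := d.hit.2.1
theorem c1 : 1 / 2 ≤ d.S.cs1 d.z := d.box.2.2.2.1
theorem c2 : 1 / 4 ≤ d.S.cs2 d.z := d.sq.2.2.1

theorem xi (K : Kit) : 1 ≤ d.Xi ∧ sgi d.S d.π d.z ≤ d.Xi ∧ d.S.A2 d.z.1 ≤ d.Xi ∧
    d.S.A2 (yy d.z) ≤ d.Xi ∧ nn d.S d.π d.S.A2 d.z ≤ d.Xi := by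
  have h1 := sgi_nn d.S d.π d.z
  have h2 := d.S.A2_nonneg d.z.1
  have h3 := d.S.A2_nonneg (yy d.z)
  have h4 : 0 ≤ nn d.S d.π d.S.A2 d.z := Me.NS_nn K.unq d.G (Me.cg_A2 d.G.ok) d.hit d.box
  unfold Xi
  refine ⟨?_, ?_, ?_, ?_, ?_⟩ <;> linarith

theorem ph (K : Kit) : d.S.φ d.z.1 ^ 2 ≤ d.Ph ∧ d.S.φ (yy d.z) ^ 2 ≤ d.Ph ∧
    nn d.S d.π (fun x => d.S.φ x ^ 2) d.z ≤ d.Ph := by
  have h2 := sq_nonneg (d.S.φ d.z.1)
  have h3 := sq_nonneg (d.S.φ (yy d.z))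
  have h4 : 0 ≤ nn d.S d.π (fun x => d.S.φ x ^ 2) d.z :=
    Me.NS_nn K.unq d.G (cg_φ d.G.ok) d.hit d.box
  unfold Ph
  refine ⟨?_, ?_, ?_⟩ <;> linarith

end Dt

/-- uniform bounds -/
def Le (b u : Dt R α → ℝ) : Prop := ∃ c, 0 < c ∧ ∀ d, |u d| ≤ c * b d

section le

variable {b b' u w : Dt R α → ℝ}

theorem Le.congr (h : Le b u) (e : ∀ d, w d = u d) : Le b w := funext e ▸ h

theorem Le.add (h : Le b u) (h' : Le b w) : Le b fun d => u d + w d := by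
  obtain ⟨c, c0, hc⟩ := h
  obtain ⟨c', c0', hc'⟩ := h'
  exact ⟨c + c', by positivity, fun d => by linarith [abs_add_le (u d) (w d), hc d, hc' d]⟩

theorem Le.sub (h : Le b u) (h' : Le b w) : Le b fun d => u d - w d := by
  obtain ⟨c, c0, hc⟩ := h
  obtain ⟨c', c0', hc'⟩ := h'
  exact ⟨c + c', by positivity, fun d => by linarith [abs_sub (u d) (w d), hc d, hc' d]⟩

theorem Le.mul (h : Le b u) (h' : Le b' w) : Le (fun d => b d * b' d) fun d => u d * w d := by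
  obtain ⟨c, c0, hc⟩ := h
  obtain ⟨c', c0', hc'⟩ := h'
  refine ⟨c * c', by positivity, fun d => ?_⟩
  rw [abs_mul]
  exact (mul_le_mul (hc d) (hc' d) (abs_nonneg _) ((abs_nonneg _).trans (hc d))).trans_eq
    (by ring)

theorem Le.mul1 (h : Le (fun _ => 1) u) (h' : Le b w) : Le b fun d => u d * w d := by
  simpa only [one_mul] using h.mul h'

theorem Le.mul2 (h : Le b u) (h' : Le (fun _ => 1) w) : Le b fun d => u d * w d := by
  simpa only [mul_one] using h.mul h'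

theorem Le.sum {u : Fin 3 → Dt R α → ℝ} (h : ∀ i, Le b (u i)) : Le b fun d => ∑ i, u i d := by
  simp only [Fin.sum_univ_three]
  exact ((h 0).add (h 1)).add (h 2)

theorem Le.const (a : ℝ) : Le (R := R) (α := α) (fun _ => 1) fun _ => a :=
  ⟨|a| + 1, by positivity, fun _ => by linarith⟩

theorem Le.of_sq {X : Dt R α → ℝ} {c : ℝ} (c0 : 0 < c) (h : ∀ d, u d ^ 2 ≤ c * X d) :
    Le (fun d => √(X d)) u :=
  ⟨√c, Real.sqrt_pos.2 c0, fun d => by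
    rw [← Real.sqrt_mul c0.le]; exact Real.abs_le_sqrt (h d)⟩

theorem Le.one_of_sq {c : ℝ} (h : ∀ d, u d ^ 2 ≤ c) : Le (fun _ => 1) u :=
  ⟨√c + 1, by positivity, fun d => by linarith [Real.abs_le_sqrt (h d)]⟩

theorem Le.comp {φ : ℝ → ℝ} (hφ : Continuous φ) (h : Le (fun _ => 1) u) :
    Le (fun _ => 1) fun d => φ (u d) := by
  obtain ⟨c, -, hc⟩ := h
  obtain ⟨C, hC⟩ := (isCompact_Icc (a := -c) (b := c)).exists_bound_of_continuousOn hφ.continuousOn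
  exact ⟨|C| + 1, by positivity, fun d => by
    have := hC _ (abs_le.1 (by simpa using hc d))
    rw [Real.norm_eq_abs] at this
    linarith [le_abs_self C]⟩

theorem Le.up (K : Kit) (h : Le (fun _ => 1) u) : Le Dt.σ u :=
  (h.mul1 (Le.of_sq (u := fun _ => 1) (X := Dt.Xi) one_pos fun d => by
    simpa using (d.xi K).1)).congr fun _ => (mul_one _).symm

end le

/-- bounded, with bounded derivative -/
structure UB (u : Dt R α → Q → ℝ) : Prop where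
  df : ∀ d, DifferentiableAt ℝ (u d) d.z
  val : Le (fun _ => 1) fun d => u d d.z
  der : ∀ i, Le Dt.σ fun d => d.S.D (ee i) (u d) d.z

section ub

variable {u w : Dt R α → Q → ℝ}

theorem UB.congr (h : UB u) (e : ∀ d, w d = u d) : UB w := funext e ▸ h

theorem UB.mul (h : UB u) (h' : UB w) : UB fun d z => u d z * w d z :=
  ⟨fun d => (h.df d).mul (h'.df d), h.val.mul1 h'.val, fun i =>
    ((h.val.mul1 (h'.der i)).add ((h.der i).mul2 h'.val)).congr fun d =>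
      D_mul (h.df d) (h'.df d) _⟩

theorem UB.add (h : UB u) (h' : UB w) : UB fun d z => u d z + w d z :=
  ⟨fun d => (h.df d).add (h'.df d), h.val.add h'.val, fun i =>
    ((h.der i).add (h'.der i)).congr fun d => D_add (h.df d) (h'.df d) _⟩

theorem UB.comp {φ : ℝ → ℝ} (hφ : ContDiff ℝ (1 : ℕ) φ) (h : UB u) : UB fun d z => φ (u d z) :=
  have h1 := hφ.differentiable (by simp)
  ⟨fun d => (h1 _).comp _ (h.df d), h.val.comp hφ.continuous, fun i =>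
    ((h.val.comp (hφ.continuous_deriv (by simp))).mul1 (h.der i)).congr fun d =>
      D_comp (h1 _) (h.df d) _⟩

theorem UB.cp {φ : ℝ → ℝ} (hφ : ContDiff ℝ ∞ φ) (h : UB u) : UB fun d z => φ (u d z) :=
  h.comp (hφ.of_le (cast_le_inf 1))

end ub

section atoms

variable (K : Kit)
include K

theorem le_lv (i : Fin 3) : Le (R := R) (α := α) Dt.σ fun d => ⟪d.S.lv d.z, ee i⟫ :=
  Le.of_sq (c := 8) (by norm_num) fun d => by
    have h1 := inner_sq_le (d.S.lv d.z) (ee i)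
    have h2 := d.G.ok.norm_lv_le d.O d.θ1 d.c1
    rw [norm_ee] at h1
    nlinarith [(d.xi K).2.2.1, d.S.A2_nonneg d.z.1, d.c1]

omit K in
theorem p1_le (d : Dt R α) : ‖d.S.p1 d.z‖ ^ 2 ≤ 2 := by
  nlinarith [Sf.O.cs1_p1 d.O, d.c1, sq_nonneg ‖d.S.p1 d.z‖]

omit K in
theorem p2_le (d : Dt R α) : ‖d.S.p2 d.z‖ ^ 2 ≤ 4 := by
  nlinarith [Sf.O.cs2_p2 d.O, d.c2, sq_nonneg ‖d.S.p2 d.z‖]

omit K in
theorem co_le (v : E) (i : Fin 3) : v i ^ 2 ≤ ‖v‖ ^ 2 := by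
  rw [← sq_abs]
  exact pow_le_pow_left₀ (abs_nonneg _) (abs_apply_le v i) 2

theorem ub_c1 : UB (R := R) (α := α) fun d => d.S.cs1 :=
  have h : Le (R := R) (α := α) (fun _ => 1) fun d => d.S.cs1 d.z :=
    ⟨1, one_pos, fun d => by rw [abs_of_nonneg (d.S.cs1_nonneg _)]; simpa using d.S.cs1_le d.θ1⟩
  ⟨fun d => df (dn (s_cs1 d.G.ok d.O) 1), h, fun i =>
    (((Le.const 2).mul1 h).mul1 (le_lv K i)).congr fun d => K.gd.Dc1 _ _ _ d.G.ok d.O⟩

theorem ub_c2 : UB (R := R) (α := α) fun d => d.S.cs2 := by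
  have h : Le (R := R) (α := α) (fun _ => 1) fun d => d.S.cs2 d.z :=
    ⟨1, one_pos, fun d => by rw [abs_of_nonneg (d.S.cs2_nonneg _)]; simpa using d.S.cs2_le d.θ1⟩
  refine ⟨fun d => df (dn (s_cs2 d.G.ok d.O) 1), h, fun i =>
    (((Le.const 2).mul1 (h.comp (continuous_pow 2))).mul1
      (Le.of_sq (c := 256) (X := Dt.Xi) (by norm_num) fun d => ?_)).congr fun d =>
        K.gd.Dc2 _ _ _ d.G.ok d.O⟩
  have h1 := inner_apply_sq_le (d.S.X2 d.z) (d.S.p2 d.z) (ee i)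
  have h2 := d.G.ok.hs_X2_le d.O d.θ1 d.c2
  rw [norm_ee] at h1
  nlinarith [(d.xi K).2.2.2.1, p2_le d, hs_nonneg (d.S.X2 d.z),
    mul_le_mul_of_nonneg_left (p2_le d) (hs_nonneg (d.S.X2 d.z))]

theorem ub_N : UB (R := R) (α := α) fun d z => 2 * d.S.N d.π z := by
  obtain ⟨C, C0, hC⟩ := K.nb
  have h : UB (R := R) (α := α) fun d => d.S.N d.π := by
    refine ⟨fun d => df (s_N K d.G 1 d.O), ⟨1, one_pos, fun d => ?_⟩, fun i =>
      Le.of_sq (X := Dt.Xi) C0 fun d => ?_⟩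
    · rw [abs_of_nonneg (K.unq.nb0 _ _ _ _ d.G d.hit d.box).1]
      linarith [d.sq.2.2.2.1]
    · have h1 := co_le (d.S.DG (d.S.N d.π) d.z) i
      rw [Sf.DG, sum_smul_ee_apply] at h1
      exact h1.trans ((hC _ _ _ _ d.G d.hit d.box (by linarith [d.sq.2.2.2.1])).1.trans
        (mul_le_mul_of_nonneg_left (d.xi K).2.2.2.2 C0.le))
  exact h.cp (φ := fun s => 2 * s) (contDiff_const.mul contDiff_id)

theorem ub_xi (a : ℝ) : UB (R := R) (α := α) fun d z => a * d.π.xi z.2.2 := by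
  have h1 : ∀ d : Dt R α, DifferentiableAt ℝ (fun s => a * d.π.xi s) d.z.2.2 := fun d =>
    (contDiff_const.mul d.π.xi_smooth).differentiable (by simp) _
  refine ⟨fun d => (h1 d).comp (f := fun z : Q => z.2.2) d.z (df (dn s_d 1)), (Le.const a).congr fun d => ?_, fun i =>
    ((Le.const 0).up K).congr fun d => ?_⟩
  · rw [(K.unq.xi1 _ _ _ _ d.G d.hit d.box).2.1, mul_one]
  · refine (D_comp (u := fun z : Q => z.2.2) (h1 d) (df (dn s_d 1)) _).trans ?_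
    rw [deriv_const_mul_field, (K.unq.xi1 _ _ _ _ d.G d.hit d.box).2.2]; simp

/-- the reference parameters -/
def π0 (R α : ℝ) : Par := ⟨R, α, 0, 0, 0⟩

omit K in
theorem B0_eq (d : Dt R α) : d.π.B0 = (π0 R α).B0 := by
  funext c; rw [Par.B0, d.hα]; rfl

omit K in
theorem W_eq (d : Dt R α) : d.π.W = (π0 R α).W := by
  funext c; rw [Par.W, Par.W0, Par.ps, d.hR]; rfl

omit K in
theorem le_fW {e : Dt R α → E} (he : ∀ d, ‖e d‖ ^ 2 ≤ 2) :
    Le (fun _ => 1) fun d => fderiv ℝ d.π.W d.z.1 (e d) := by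
  obtain ⟨C, hC⟩ := (isCompact_closedBall (0 : E) (3 * R)).exists_bound_of_continuousOn
    ((π0 R α).W_smooth.continuous_fderiv (by simp)).continuousOn
  refine Le.one_of_sq (c := C ^ 2 * 2) fun d => ?_
  have h1 := hC d.z.1 (mem_closedBall_zero_iff.2 (d.box.1.trans_eq (by rw [d.hR])))
  have h2 := (fderiv ℝ (π0 R α).W d.z.1).le_opNorm (e d)
  rw [W_eq, ← sq_abs, ← Real.norm_eq_abs]
  refine (pow_le_pow_left₀ (norm_nonneg _) h2 2).trans ?_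
  rw [mul_pow]
  exact mul_le_mul (pow_le_pow_left₀ (norm_nonneg _) h1 2) (he d) (sq_nonneg _) (sq_nonneg _)

theorem ub_W : UB (R := R) (α := α) fun d z => d.π.W z.1 := by
  have h1 : ∀ d : Dt R α, DifferentiableAt ℝ d.π.W d.z.1 := fun d =>
    d.π.W_smooth.differentiable (by simp) _
  refine ⟨fun d => (h1 d).comp d.z differentiableAt_fst, ⟨1, one_pos, fun d => ?_⟩, fun i =>
    ((le_fW (e := fun d => d.S.Pi d.z.1 d.z.2.1 (ee i)) fun d => ?_).up K).congr fun d =>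
      K.gd.Dx _ _ _ _ d.O (h1 d)⟩
  · rw [abs_of_nonneg (W_nonneg _)]; simpa using W_le _
  · have h2 := Sf.norm_Pi_sq d.O.1 d.θ1 (ee i)
    rw [norm_ee, ← Sf.norm_p_sq d.O.1] at h2
    have h3 : ‖d.S.p d.z.1 d.z.2.1‖ ^ 2 ≤ 2 := p1_le d
    linarith

theorem ub_B0 : UB (R := R) (α := α) fun d z => d.π.B0 (d.S.cs1 z) :=
  ((ub_c1 K).cp (π0 R α).B0_smooth).congr fun d => by rw [B0_eq]

theorem ub_dB0 : UB (R := R) (α := α) fun d z => deriv d.π.B0 (d.S.cs1 z) :=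
  ((ub_c1 K).cp (deriv_smooth (π0 R α).B0_smooth)).congr fun d => by rw [B0_eq]

theorem ub_o0 : UB (R := R) (α := α) fun d => d.S.o0 d.π :=
  ((((ub_B0 K).mul ((ub_c2 K).cp K0_smooth)).mul ((ub_N K).cp ct_smooth)).mul
    (ub_xi K 1)).congr fun d => funext fun z => by rw [one_mul]; rfl

omit K in
theorem le_tt : Le (R := R) (α := α) (fun _ => 1) fun d => d.S.tt d.π d.z :=
  ⟨2, two_pos, fun d => by
    have h1 := d.G.rg.ε0
    have h2 := d.hit.2.2.1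
    have h3 := d.S.kk_nonneg d.z
    rw [mul_one]
    change |d.z.2.2 * d.S.kk d.z / d.π.ε| ≤ 2
    rw [abs_of_nonneg (by positivity), div_le_iff₀ h1]
    nlinarith [d.sq.2.2.2.2, d.S.kk_le d.θ1]⟩

theorem ub_aa {g : ℝ → ℝ} (hg : Gg g) : UB (R := R) (α := α) fun d => aa d.S d.π g := by
  have h := (ub_W (R := R) (α := α) K).mul (ub_o0 K)
  have h1 := hg.sm.differentiable (by simp)
  have h2 := (le_tt (R := R) (α := α)).comp hg.sm.continuous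
  have h3 : ∀ d : Dt R α, DifferentiableAt ℝ (d.S.tt d.π) d.z := fun d =>
    df (dn (s_tt d.G.ok d.O) 1)
  refine ⟨fun d => df (s_aa K d.G hg d.O), h.val.mul1 h2, fun i =>
    ((Le.of_sq (c := 30) (X := Dt.Xi) (u := fun d => d.π.W d.z.1 * d.S.o0 d.π d.z *
      (deriv g (d.S.tt d.π d.z) * ⟪d.S.gt d.π d.z, ee i⟫)) (by norm_num) fun d => ?_).add
      ((h.der i).mul2 h2)).congr fun d => ?_⟩
  · have a1 := inner_sq_le (d.S.gt d.π d.z) (ee i)
    rw [norm_ee, one_pow, mul_one] at a1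
    have a2 := hg.le (d.S.tt d.π d.z)
      (div_nonneg (mul_nonneg d.hit.2.2.1.le (d.S.kk_nonneg _)) d.G.rg.ε0.le)
    have a3 : d.π.W d.z.1 ^ 2 ≤ d.π.W d.z.1 := by
      nlinarith [W_nonneg (π := d.π) d.z.1, W_le (π := d.π) d.z.1]
    have a4 := (d.xi K).2.1
    have a5 := G2_nonneg (d.S.tt d.π d.z)
    have a6 := W_nonneg (π := d.π) d.z.1
    rw [sgi, Sf.Wt] at a4
    rw [mul_pow, mul_pow, mul_pow]
    calc _ ≤ d.π.W d.z.1 * d.S.o0 d.π d.z ^ 2 *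
          (30 * G2 (d.S.tt d.π d.z) * ‖d.S.gt d.π d.z‖ ^ 2) := by gcongr
      _ ≤ _ := by linarith
  · refine (D_mul (w := fun z => g (d.S.tt d.π z)) (h.df d) ((h1 _).comp _ (h3 d)) _).trans ?_
    rw [D_comp (h1 _) (h3 d), K.gd.Dt _ _ _ _ d.G.ok d.O]

theorem ub_f : (UB (R := R) (α := α) fun d => f1 d.S d.π) ∧
    (UB (R := R) (α := α) fun d => f2 d.S d.π) ∧ UB (R := R) (α := α) fun d => f3 d.S d.π := by
  have x := ub_xi (R := R) (α := α) K 4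
  have c1 := ub_c1 (R := R) (α := α) K
  have c2 := ub_c2 (R := R) (α := α) K
  have n := ub_N (R := R) (α := α) K
  have a := ub_aa (R := R) (α := α) K gg0
  exact ⟨(a.mul ((((x.mul (ub_dB0 K)).mul (c2.cp K0_smooth)).mul (n.cp ct_smooth)).mul
      (c1.mul c1))).add ((ub_aa K ggt).mul ((ub_o0 K).mul c1)),
    a.mul ((((x.mul (ub_B0 K)).mul (c2.cp (deriv_smooth K0_smooth))).mul (n.cp ct_smooth)).mul
      (c2.mul c2)),
    a.mul (((x.mul (ub_B0 K)).mul (c2.cp K0_smooth)).mul (n.cp dct_smooth))⟩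

omit K in
theorem v_sq {S : Sf} {v : E → ℝ} (hv : S.Spd v) {a θ : E} (ha : S.w a = 0) (h : S.s a θ ≠ 0) :
    S.cc a θ ^ 2 * (-v a / S.s a θ) ^ 2 = S.φ a ^ 2 := by
  have h1 := Sf.cc_ne h
  have h2 := norm_ne_zero_iff.2 (Sf.g_ne h)
  rw [hv.2 a ha, Sf.s_eq (Sf.g_ne h)]
  field_simp

theorem le_v1 : Le (R := R) (α := α) Dt.om fun d => d.S.v1 d.v d.z :=
  Le.of_sq (c := 2) two_pos fun d => by
    have h : d.S.cs1 d.z * d.S.v1 d.v d.z ^ 2 = _ := v_sq d.spd d.hit.1 d.O.1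
    nlinarith [(d.ph K).1, d.c1, sq_nonneg (d.S.v1 d.v d.z)]

theorem le_v2 : Le (R := R) (α := α) Dt.om fun d => d.S.v2 d.v d.z :=
  Le.of_sq (c := 4) four_pos fun d => by
    have h : d.S.cs2 d.z * d.S.v2 d.v d.z ^ 2 = _ := v_sq d.spd d.hit.2.2.2 d.O.2.1
    nlinarith [(d.ph K).2.1, d.c2, sq_nonneg (d.S.v2 d.v d.z)]

theorem le_X1 : Le (R := R) (α := α) Dt.σ fun d => trc (d.S.X1 d.z) :=
  Le.of_sq (c := 24) (by norm_num) fun d => by
    linarith [trc_sq_le (d.S.X1 d.z), d.G.ok.hs_X1_le d.O d.θ1 d.c1, (d.xi K).2.2.1]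

theorem le_X2 : Le (R := R) (α := α) Dt.σ fun d => trc (d.S.X2 d.z) :=
  Le.of_sq (c := 192) (by norm_num) fun d => by
    linarith [trc_sq_le (d.S.X2 d.z), d.G.ok.hs_X2_le d.O d.θ1 d.c2, (d.xi K).2.2.2.1]

/-- Cauchy-Schwarz for the sums over the hits in between -/
theorem NS_sq (d : Dt R α) {f a b : Q → ℝ} {c : ℝ} (c0 : 0 ≤ c) (a0 : ∀ z, 0 ≤ a z)
    (b0 : ∀ z, 0 ≤ b z) (fz : ∀ z, d.S.cs2 z < d.π.η ^ 2 / 2 → f z = 0 ∧ a z = 0 ∧ b z = 0)
    (h : ∀ z ∈ d.S.O, d.S.w (yy z) = 0 → ‖z.2.1‖ = 1 → f z ^ 2 ≤ c * a z * b z) :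
    d.S.NS d.π f d.z ^ 2 ≤ c * d.S.NS d.π a d.z * d.S.NS d.π b d.z := by
  obtain ⟨T, hT, hs⟩ := K.unq.ns _ _ _ _ d.G d.hit d.box
  rw [hs f fun z _ h => (fz z h).1, hs a fun z _ h => (fz z h).2.1, hs b fun z _ h => (fz z h).2.2,
    Finset.mul_sum T _ c]
  refine Finset.sum_sq_le_sum_mul_sum_of_sq_le_mul T (fun l _ => mul_nonneg c0 (a0 _))
    (fun l _ => b0 _) fun l hl => ?_
  obtain ⟨l0, -, l1, l2⟩ := (hT l).1 hl
  exact h (d.z.1, d.z.2.1, l) ⟨d.O.1, Sf.s_ne_of_sq (by linarith [d.G.rg.η2.1]) l2, l0⟩ l1 d.θ1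

theorem le_mm (i : Fin 3) :
    Le (R := R) (α := α) Dt.om fun d => d.S.NS d.π (mm d.S d.π d.v i) d.z := by
  obtain ⟨C, C0, hC⟩ := hh_bd
  refine Le.of_sq (c := C ^ 2 * 2) (by positivity) fun d => ?_
  have h1 := NS_sq K d (f := mm d.S d.π d.v i) (a := fun z => d.π.sgb (d.S.cs2 z))
    (b := fun z => d.π.cu (d.S.cs2 z) * d.S.φ (yy z) ^ 2) (c := C ^ 2) (sq_nonneg _)
    (fun _ => sgb_nonneg _) (fun _ => mul_nonneg (cu_nonneg _) (sq_nonneg _))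
    (fun z h => ⟨by rw [mm, (hh_zero d.G.rg (d.S.cs2_nonneg z) h).1]; simp,
      d.G.rg.sgb_zero h.le, by rw [d.G.rg.cu_zero h.le, zero_mul]⟩) fun z hz hw hθ => by
      have a1 : d.S.cs2 z * d.S.v2 d.v z ^ 2 = _ := v_sq d.spd hw hz.2.1
      have a2 : d.S.cs2 z * d.S.p2 z i ^ 2 ≤ 1 :=
        (mul_le_mul_of_nonneg_left (co_le _ i) (d.S.cs2_nonneg z)).trans_eq (Sf.O.cs2_p2 hz)
      have a3 := pow_le_pow_left₀ (abs_nonneg _) (hC d.π _ (d.S.cs2_nonneg z)).1 2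
      have a4 := d.S.cs2_nonneg z
      have a5 : d.S.cs2 z ^ 4 ≤ 256 := (pow_le_one₀ a4 (d.S.cs2_le hθ)).trans (by norm_num)
      rw [sq_abs] at a3
      rw [mm, mul_pow, mul_pow, ← a1, Par.sgb]
      calc _ ≤ (C * (d.π.cu (d.S.cs2 z) * d.S.cs2 z ^ 5)) ^ 2 * d.S.p2 z i ^ 2 *
            d.S.v2 d.v z ^ 2 := by gcongr
        _ = (C * d.π.cu (d.S.cs2 z)) ^ 2 * d.S.cs2 z ^ 5 * d.S.v2 d.v z ^ 2 *
            (d.S.cs2 z ^ 4 * (d.S.cs2 z * d.S.p2 z i ^ 2)) := by ring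
        _ ≤ (C * d.π.cu (d.S.cs2 z)) ^ 2 * d.S.cs2 z ^ 5 * d.S.v2 d.v z ^ 2 * (256 * 1) := by gcongr
        _ = _ := by ring
  have h2 := K.unq.nb1 _ _ _ _ d.G d.hit d.box
  have h3 : 0 ≤ nn d.S d.π (fun x => d.S.φ x ^ 2) d.z :=
    Me.NS_nn K.unq d.G (cg_φ d.G.ok) d.hit d.box
  refine h1.trans (mul_le_mul (mul_le_mul_of_nonneg_left ?_ (sq_nonneg _)) (d.ph K).2.2 h3
    (by positivity))
  linarith [d.sq.2.2.2.1, d.G.rg.ε2.2]

theorem le_rr : Le (R := R) (α := α) (fun d => d.σ * d.om)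
    fun d => d.S.NS d.π (rr d.S d.π d.v) d.z := by
  obtain ⟨C, C0, hC⟩ := hh_bd
  have H : Le (R := R) (α := α) (fun d => √(d.Xi * d.Ph))
      fun d => d.S.NS d.π (rr d.S d.π d.v) d.z := by
    refine Le.of_sq (c := 14 * C ^ 2) (by positivity) fun d => ?_
    have h1 := NS_sq K d (f := rr d.S d.π d.v) (a := fun z => d.π.cu (d.S.cs2 z) * d.S.A2 (yy z))
      (b := fun z => d.π.cu (d.S.cs2 z) * d.S.φ (yy z) ^ 2) (c := 14 * C ^ 2) (by positivity)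
      (fun _ => mul_nonneg (cu_nonneg _) (d.S.A2_nonneg _))
      (fun _ => mul_nonneg (cu_nonneg _) (sq_nonneg _))
      (fun z h => by
        obtain ⟨a, b⟩ := hh_zero d.G.rg (d.S.cs2_nonneg z) h
        rw [rr, a, b, d.G.rg.cu_zero h.le]; simp) fun z hz hw hθ => by
        have a1 : d.S.cs2 z * d.S.v2 d.v z ^ 2 = _ := v_sq d.spd hw hz.2.1
        have a2 := Sf.O.cs2_p2 hz
        obtain ⟨a3, a3'⟩ := hC d.π _ (d.S.cs2_nonneg z)
        replace a3 := pow_le_pow_left₀ (abs_nonneg _) a3 2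
        replace a3' := pow_le_pow_left₀ (abs_nonneg _) a3' 2
        rw [sq_abs] at a3 a3'
        have a4 := d.S.cs2_nonneg z
        have a5 : d.S.cs2 z ^ 6 ≤ 1 := pow_le_one₀ a4 (d.S.cs2_le hθ)
        have a6 := d.G.ok.hs_X2 hz hθ
        have a7 := trc_sq_le (d.S.X2 z)
        have a8 : d.S.cs2 z ^ 2 * ⟪d.S.X2 z (d.S.p2 z), d.S.p2 z⟫ ^ 2 ≤ hs (d.S.X2 z) :=
          (mul_le_mul_of_nonneg_left (inner_apply_sq_le _ _ _) (sq_nonneg _)).trans_eq (by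
            linear_combination (hs (d.S.X2 z) * (d.S.cs2 z * ‖d.S.p2 z‖ ^ 2 + 1)) * a2)
        have a9 := hs_nonneg (d.S.X2 z)
        have a10 := d.S.A2_nonneg (yy z)
        rw [rr, mul_pow, ← a1]
        generalize d.S.cs2 z = c at *
        generalize ⟪d.S.X2 z (d.S.p2 z), d.S.p2 z⟫ = q at *
        generalize d.π.cu c = k at *
        have b1 : (deriv (hh d.π) c * (2 * c ^ 2 * q)) ^ 2 ≤
            (C * (k * c ^ 4)) ^ 2 * (4 * c ^ 2 * hs (d.S.X2 z)) := by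
          rw [mul_pow, show (2 * c ^ 2 * q) ^ 2 = 4 * c ^ 2 * (c ^ 2 * q ^ 2) by ring]
          gcongr
        have b2 : (hh d.π c * trc (d.S.X2 z)) ^ 2 ≤
            (C * (k * c ^ 5)) ^ 2 * (3 * hs (d.S.X2 z)) := by
          rw [mul_pow]
          gcongr
        calc _ ≤ (2 * ((C * (k * c ^ 4)) ^ 2 * (4 * c ^ 2 * hs (d.S.X2 z))) +
              2 * ((C * (k * c ^ 5)) ^ 2 * (3 * hs (d.S.X2 z)))) * d.S.v2 d.v z ^ 2 :=
              mul_le_mul_of_nonneg_right (by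
                nlinarith [sq_nonneg (deriv (hh d.π) c * (2 * c ^ 2 * q) +
                  hh d.π c * trc (d.S.X2 z))]) (sq_nonneg _)
          _ = 14 * (C * k) ^ 2 * (c * d.S.v2 d.v z ^ 2) * (c ^ 6 * (c ^ 3 * hs (d.S.X2 z))) := by
              ring
          _ ≤ 14 * (C * k) ^ 2 * (c * d.S.v2 d.v z ^ 2) * (1 * d.S.A2 (yy z)) := by gcongr
          _ = _ := by ring
    have h3 : 0 ≤ nn d.S d.π (fun x => d.S.φ x ^ 2) d.z :=
      Me.NS_nn K.unq d.G (cg_φ d.G.ok) d.hit d.box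
    rw [← mul_assoc]
    exact h1.trans (mul_le_mul (mul_le_mul_of_nonneg_left (d.xi K).2.2.2.2 (by positivity))
      (d.ph K).2.2 h3 (mul_nonneg (by positivity) (zero_le_one.trans (d.xi K).1)))
  obtain ⟨c, c0, hc⟩ := H
  exact ⟨c, c0, fun d => by
    simpa only [Real.sqrt_mul (zero_le_one.trans (d.xi K).1), Dt.σ, Dt.om] using hc d⟩

theorem le_h1 : Le (R := R) (α := α) (fun d => d.σ * d.om) fun d => h1 d.S d.π d.v d.z := by
  obtain ⟨u1, u2, u3⟩ := ub_f (R := R) (α := α) K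
  have o := (ub_o0 (R := R) (α := α) K).val
  have a : Le (R := R) (α := α) (fun d => d.σ * d.om) fun d => h0 d.S d.π d.v d.z :=
    (((((le_fW fun d => by rw [d.θ1]; norm_num).mul1 o).mul1 (o.mul1
      (le_tt.comp (G0_cd (k := 0) (by norm_num)).continuous))).up K).mul (le_v1 K)).congr
      fun d => mul_comm _ _
  exact (((a.sub (((Le.sum fun i => (Le.one_of_sq fun d => (co_le _ i).trans (p1_le d)).mul1
    (u1.der i)).mul (le_v1 K)).sub ((u1.val.mul1 (le_X1 K)).mul (le_v1 K)))).sub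
    (((Le.sum fun i => (Le.one_of_sq fun d => (co_le _ i).trans (p2_le d)).mul1
    (u2.der i)).mul (le_v2 K)).sub ((u2.val.mul1 (le_X2 K)).mul (le_v2 K)))).sub
    (Le.sum fun i => (u3.der i).mul (le_mm K i))).sub (u3.val.mul1 (le_rr K))

end atoms

/-! ### supports -/

section supp

variable {S : Sf} {π : Par} {v : E → ℝ} {z : Q} {Λ : ℝ}

theorem one_le_tt (hπ : π.Rg) (hθ : 1 / 2 ≤ S.cs1 z) (h : 2 * π.ε ≤ z.2.2) : 1 ≤ S.tt π z := by
  have h1 := hπ.ε0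
  have h2 : 1 / 2 ≤ S.kk z := by
    nlinarith [S.kk_sq z, S.kk_nonneg z]
  rw [Sf.tt, le_div_iff₀ h1]
  nlinarith

/-- one of the factors of the weight vanishes -/
def Off (S : Sf) (π : Par) (z : Q) : Prop := (π.W z.1 = 0 ∨ 1 ≤ S.tt π z) ∨
  π.B0 (S.cs1 z) = 0 ∨ K0 (S.cs2 z) = 0 ∨ ct (2 * S.N π z) = 0 ∨ π.xi z.2.2 = 0

theorem off_box (hπ : π.Rg) (h : ¬ S.Box π z) : Off S π z := by
  by_contra H
  simp only [Off, not_or, not_le] at H
  obtain ⟨⟨h1, h2⟩, h3, h4, -, h6⟩ := H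
  have a1 : 1 / 2 ≤ S.cs1 z := by linarith [hπ.B0_ne h3, hπ.α2.2]
  refine h ⟨by linarith [hπ.norm_le (hπ.W_ne h1).le, hπ.R0], (hπ.xi_ne h6).le, ?_, a1,
    by linarith [K0_ne h4, hπ.η2.2]⟩
  by_contra a2
  exact h2.not_ge (one_le_tt hπ a1 (by linarith [hπ.ε1]))

theorem off_sq (hπ : π.Rg) (hb : S.Box π z) (h : ¬ S.Sq π z) : Off S π z := by
  by_contra H
  simp only [Off, not_or, not_le] at H
  obtain ⟨⟨h1, h2⟩, h3, h4, h5, -⟩ := H
  refine h ⟨(hπ.W_ne h1).le, by linarith [hπ.B0_ne h3, hπ.α2.1], (K0_ne h4).le,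
    by linarith [lt_of_ct_ne h5], ?_⟩
  by_contra a2
  exact h2.not_ge (one_le_tt hπ hb.2.2.2.1 (by linarith))

theorem Off.cases (h : Off S π z) : (π.W z.1 = 0 ∨ 1 ≤ S.tt π z) ∨ (S.o0 π z = 0 ∧
    r1 S π z = 0 ∧ r2 S π z = 0 ∧ r3 S π z = 0 ∧ r4 S π z = 0) := by
  rcases h with h | h | h | h | h
  · exact Or.inl h
  · simp [r1, r2, r3, r4, Sf.o0, h, deriv_zero (B0_nonneg (π := π)) h]
  · simp [r1, r2, r3, r4, Sf.o0, h, deriv_zero K0_nonneg h]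
  · simp [r1, r2, r3, r4, Sf.o0, h, deriv_zero ct_nonneg h]
  · simp [r1, r2, r3, r4, Sf.o0, h]

theorem Off.aa (h : Off S π z) {g : ℝ → ℝ} (hg : Gg g) : aa S π g z = 0 := by
  rcases h.cases with (h | h) | h
  · simp [Hw.aa, h]
  · simp [Hw.aa, (hg.z _ h).1]
  · simp [Hw.aa, h.1]

theorem Off.h0 (h : Off S π z) : h0 S π v z = 0 := by
  rcases h.cases with (h | h) | h
  · simp [Hw.h0, fW_zero π h]
  · simp [Hw.h0, G0_zero h]
  · simp [Hw.h0, h.1]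

theorem Off.sgi (h : Off S π z) : sgi S π z = 0 := by
  rcases h.cases with (h | h) | h
  · simp [Hw.sgi, Sf.Wt, h]
  · simp [Hw.sgi, G2_zero h]
  · simp [Hw.sgi, Sf.Wt, h.1]

theorem Off.f (h : Off S π z) : f1 S π z = 0 ∧ f2 S π z = 0 ∧ f3 S π z = 0 := by
  simp [f1, f2, f3, h.aa gg0, h.aa ggt]

variable (K : Kit) (hG : Good S π Λ)
include K hG

theorem D_aa {g : ℝ → ℝ} (hg : Gg g) (hz : z ∈ S.O) (h : π.W z.1 = 0 ∨ 1 ≤ S.tt π z) (e : E) :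
    S.D e (aa S π g) z = 0 := by
  have h1 := hg.sm.differentiable (by simp) (S.tt π z)
  have h2 := df (dn (s_tt (π := π) hG.ok hz) 1)
  have h3 := π.W_smooth.differentiable (by simp) z.1
  have h4 : DifferentiableAt ℝ (fun z : Q => π.W z.1) z := h3.comp z differentiableAt_fst
  have h5 := df (s_o0 K hG 1 hz)
  refine (D_mul (u := fun z => π.W z.1 * S.o0 π z) (w := fun z => g (S.tt π z)) (h4.mul h5)
    (h1.comp z h2) e).trans ?_
  rw [D_comp h1 h2, D_mul h4 h5, K.gd.Dx S z e _ hz h3]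
  rcases h with h | h
  · simp [h, fW_zero π h]
  · simp [hg.z _ h]

theorem Off.h1 (h : Off S π z) (hz : z ∈ S.O) : h1 S π v z = 0 := by
  obtain ⟨b1, b2, b3, b4⟩ := s_r K hG 1 hz
  have a0 := df (s_aa K hG gg0 hz)
  have a1 := df (s_aa K hG ggt hz)
  have key : ∀ {g r}, Gg g → DifferentiableAt ℝ r z → ((π.W z.1 = 0 ∨ 1 ≤ S.tt π z) ∨ r z = 0) →
      ∀ e, S.D e (fun z => Hw.aa S π g z * r z) z = 0 := fun hg hr H e => by
    rw [D_mul (df (s_aa K hG hg hz)) hr, h.aa hg]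
    rcases H with H | H
    · simp [D_aa K hG hg hz H]
    · simp [H]
  have c1 : ∀ e, S.D e (f1 S π) z = 0 := fun e =>
    (D_add (a0.fun_mul (df b1)) (a1.fun_mul (df b4)) e).trans (by
      rw [key gg0 (df b1) (h.cases.imp_right fun h => h.2.1),
        key ggt (df b4) (h.cases.imp_right fun h => h.2.2.2.2), add_zero])
  have c2 : ∀ e, S.D e (f2 S π) z = 0 := key gg0 (df b2) (h.cases.imp_right fun h => h.2.2.1)
  have c3 : ∀ e, S.D e (f3 S π) z = 0 := key gg0 (df b3) (h.cases.imp_right fun h => h.2.2.2.1)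
  simp [Hw.h1, h.h0, h.f, c1, c2, c3]

theorem cl_FF (hv : S.Spd v) (i : Fin 3) : S.Cl π 1 (FF S π v i) :=
  ⟨fun _ => s_FF K hG hv i, fun z _ _ h => by simp [FF, (off_box hG.rg h).f]⟩

theorem cl_Hw (hv : S.Spd v) : S.Cl π 0 (S.Hw π v) :=
  ⟨fun _ => s_Hw K hG hv, fun z _ _ h => by
    simp [Hw_eq, (off_box hG.rg h).f, (off_box hG.rg h).h0]⟩

theorem cl_sgi : S.Cl π 0 (sgi S π) :=
  ⟨fun z hz => (((W_cd.contDiffAt.comp z contDiffAt_fst).mul ((s_o0 K hG 0 hz).pow 2)).mul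
      ((G2_cd (by norm_num)).contDiffAt.comp z (dn (s_tt hG.ok hz) 0))).mul
      ((dn (s_gt hG.ok hz) 0).norm_sq ℝ),
    fun z _ _ h => (off_box hG.rg h).sgi⟩

omit K in
theorem cl_D {f : Q → ℝ} (hf : S.Cl π 1 f) (e : E) : S.Cl π 0 (S.D e f) :=
  ⟨fun z hz => s_D hG.ok hz contDiffAt_const (hf.sm z hz), fun z h1 h2 h => by
    have : f =ᶠ[𝓝 z] fun _ => 0 := by
      filter_upwards [Ca.ev_nbox hG.ok h1 h2 h] with z' h' using hf.bx z' h'.1 h'.2.1 h'.2.2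
    rw [Sf.D, this.fderiv_eq]; simp⟩

omit K hG in
theorem cl_lin {f g : Q → ℝ} (hf : S.Cl π 0 f) (hg : S.Cl π 0 g) (c : ℝ) :
    S.Cl π 0 fun z => f z - c * g z :=
  ⟨fun z hz => (hf.sm z hz).sub (contDiffAt_const.mul (hg.sm z hz)), fun z h1 h2 h => by
    rw [hf.bx z h1 h2 h, hg.bx z h1 h2 h]; simp⟩

theorem II_lin {f g : Q → ℝ} (hf : S.Cl π 0 f) (hg : S.Cl π 0 g) (c : ℝ) :
    (S.II fun z => f z - c * g z) = S.II f - c * S.II g := by
  rw [Sf.II, Sf.II, Sf.II, ← integral_const_mul, ← integral_sub (K.ca.avi S π f hG.ok hG.rg hf)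
    ((K.ca.avi S π g hG.ok hG.rg hg).const_mul c)]
  refine integral_congr_ae (hG.ok.sup.mono fun x hx => ?_)
  have h0 := hG.ok.reg x hx
  dsimp only
  rw [Sf.AV, Sf.AV, Sf.AV, ← integral_const_mul, ← integral_sub
    (K.ca.iu S π f x hG.ok hG.rg hf h0) ((K.ca.iu S π g x hG.ok hG.rg hg h0).const_mul c)]
  refine integral_congr_ae (Eventually.of_forall fun u => ?_)
  by_cases hu : u = 0
  · simp [hu, gam_zero]
  obtain ⟨H, -, hH⟩ := Me.hits hG hx (norm_un hu)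
  dsimp only
  rw [hH _ (cl_lin hf hg c), hH f hf, hH g hg, Finset.sum_sub_distrib, ← Finset.mul_sum]
  ring

end supp

end Hw

open Hw in
/-- **HW** -/
theorem hw (K : Kit) : HW := by
  intro R α t t0
  obtain ⟨C, C0, hC⟩ := K.me
  obtain ⟨c, c0, hc⟩ := le_h1 (R := R) (α := α) K
  obtain ⟨τ, τ0, τ1, τ2⟩ : ∃ τ, 0 < τ ∧ τ ≤ t ∧ 3 * C * τ ≤ t :=
    ⟨min t (t / (3 * C)), by positivity, min_le_left _ _, by
      rw [mul_comm, ← le_div_iff₀ (by positivity)]; exact min_le_right _ _⟩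
  obtain ⟨B, B0, hB⟩ : ∃ B, 0 < B ∧ c ^ 2 = 4 * τ * B := ⟨c ^ 2 / (4 * τ), by positivity, by
    field_simp⟩
  refine ⟨3 * C * B, by positivity, fun S π Λ v hG hR hα hv => ?_⟩
  have l0 := cl_lin (cl_Hw K hG hv) (cl_D hG (cl_FF K hG hv 0) (ee 0)) 1
  have l1 := cl_lin l0 (cl_D hG (cl_FF K hG hv 1) (ee 1)) 1
  have l2 := cl_lin l1 (cl_D hG (cl_FF K hG hv 2) (ee 2)) 1
  have l3 := cl_lin l2 (cl_sgi K hG) t
  have cA := Me.cg_A2 hG.ok
  have cP := cg_φ hG.ok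
  have cF : S.Cg fun x => τ * (1 + S.A2 x) + B * S.φ x ^ 2 := fun x hx =>
    ⟨(continuousAt_const.mul (continuousAt_const.add (cA x hx).1)).add
      (continuousAt_const.mul (cP x hx).1), by have := S.A2_nonneg x; positivity⟩
  have c1 : S.Cg fun x => 1 + S.A2 x := fun x hx =>
    ⟨continuousAt_const.add (cA x hx).1, by have := S.A2_nonneg x; positivity⟩
  have cZ : S.Cg fun _ => 0 := fun _ _ => ⟨continuousAt_const, le_rfl⟩
  have H := hC S π Λ 1 0 0 0 _ _ _ _ _ _ hG one_pos le_rfl le_rfl le_rfl l3 cF cF cF cZ cZ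
    (fun _ _ _ h => by simp at h) fun z hz hb h => by
      have e := h1_eq K hG hv hz hb
      rw [Fin.sum_univ_three] at e
      have s0 := sgi_nn S π z
      have hq : S.Sq π z := by
        by_contra hq
        rw [(off_sq hG.rg hb hq).h1 K hG (Ca.box_O hG.rg hb)] at e
        nlinarith
      refine ⟨hq, by linarith [S.cs2_nonneg z], ?_⟩
      let d : Dt R α := ⟨S, π, Λ, v, z, hG, hR, hα, hv, hz, hb, hq⟩
      have a1 : h1 S π v z ≤ c * (d.σ * d.om) := (le_abs_self _).trans (hc d)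
      have a2 : d.σ ^ 2 = d.Xi := Real.sq_sqrt (zero_le_one.trans (d.xi K).1)
      have a3 : d.om ^ 2 = d.Ph := Real.sq_sqrt ((sq_nonneg _).trans (d.ph K).1)
      have a4 : c * (d.σ * d.om) ≤ τ * d.Xi + B * d.Ph := by
        rw [← a2, ← a3]
        refine le_of_mul_le_mul_left ?_ (show 0 < 4 * τ by positivity)
        nlinarith [sq_nonneg (2 * τ * d.σ - c * d.om)]
      have a5 : τ * nn S π S.A2 z + B * nn S π (fun x => S.φ x ^ 2) z ≤
          nn S π (fun x => τ * (1 + S.A2 x) + B * S.φ x ^ 2) z := by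
        obtain ⟨T, -, hs⟩ := K.unq.ns S π Λ z hG hz hb
        have : ∀ f, nn S π f z = ∑ l ∈ T, π.cu (S.cs2 (z.1, z.2.1, l)) * f (yy (z.1, z.2.1, l)) :=
          fun f => hs _ fun z' _ h => by rw [hG.rg.cu_zero h.le, zero_mul]
        simp only [this, Finset.mul_sum, ← Finset.sum_add_distrib]
        refine Finset.sum_le_sum fun l _ => ?_
        nlinarith [mul_nonneg τ0.le (Par.cu_nonneg (π := π) (S.cs2 (z.1, z.2.1, l)))]
      have a6 : d.Xi = sgi S π z + (1 + S.A2 z.1 + S.A2 (yy z) + nn S π S.A2 z) := rfl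
      have a7 : d.Ph = S.φ z.1 ^ 2 + S.φ (yy z) ^ 2 + nn S π (fun x => S.φ x ^ 2) z := rfl
      rw [a6, a7] at a4
      change _ ≤ _ + _ + nn S π (fun x => τ * (1 + S.A2 x) + B * S.φ x ^ 2) z + _ + _ + _ + _
      nlinarith [mul_le_mul_of_nonneg_right τ1 s0]
  have e1 : (S.IB π fun x => τ * (1 + S.A2 x) + B * S.φ x ^ 2) = τ * S.AA π + B * S.PP π := by
    rw [Sf.AA, Sf.PP, Sf.IB, Sf.IB, Sf.IB, integral_add ((Me.intOn hG.ok c1 _).const_mul τ)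
      ((Me.intOn hG.ok cP _).const_mul B), integral_const_mul, integral_const_mul]
  have e2 : (S.IB π fun _ => 0) = 0 := by simp [Sf.IB]
  have b := fun i => K.byd S π _ (ee i) hG.ok hG.rg (cl_FF K hG hv i)
  rw [II_lin K hG l2 (cl_sgi K hG), II_lin K hG l1 (cl_D hG (cl_FF K hG hv 2) _),
    II_lin K hG l0 (cl_D hG (cl_FF K hG hv 1) _),
    II_lin K hG (cl_Hw K hG hv) (cl_D hG (cl_FF K hG hv 0) _), b, b, b, e1, e2] at H
  have p1 : 0 ≤ S.AA π := Me.IB_nn hG.ok π c1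
  have p2 : 0 ≤ S.PP π := Me.IB_nn hG.ok π cP
  have p3 : 0 ≤ C * (τ * S.AA π + B * S.PP π) := by positivity
  change S.II (S.Hw π v) ≤ t * (S.II (sgi S π) + S.AA π) + _
  nlinarith [mul_le_mul_of_nonneg_right τ2 p1, mul_le_mul_of_nonneg_right hG.rg.α2.2 p3]

end Vale.Agent.P218M1
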