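import Vale.Agent.P218M1.Alg

/-!
# P218M1: the isoperimetric obstruction
-/

open MeasureTheory Metric Filter Topology Set
open scoped ContDiff RealInnerProductSpace ENNReal

noncomputable section

namespace Vale.Agent.P218M1

namespace Iso

variable {S : Sf}

theorem closed_M (hS : S.Ok) : IsClosed {x | S.w x = 0} :=
  isClosed_eq hS.sm.continuous continuous_const

theorem aesm {F : Type} [NormedAddCommGroup F] (hS : S.Ok) {f : E → F}
    (h : ∀ x, S.w x = 0 → ContinuousAt f x) : AEStronglyMeasurable f S.μ := by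
  have h1 : ContinuousOn f {x | S.w x = 0} := fun x hx => (h x hx).continuousWithinAt
  have h2 := h1.aestronglyMeasurable (μ := S.μ) (closed_M hS).measurableSet
  rwa [Measure.restrict_eq_self_of_ae_mem (s := {x | S.w x = 0}) hS.sup] at h2

theorem intOn (hS : S.Ok) {f : E → ℝ} (h : ∀ x, S.w x = 0 → ContinuousAt f x) (r : ℝ) :
    IntegrableOn f (ball 0 r) S.μ := by
  have := hS.fin
  have h1 : ContinuousOn f ({x | S.w x = 0} ∩ closedBall 0 r) :=
    fun x hx => (h x hx.1).continuousWithinAt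
  have h2 := h1.integrableOn_compact (μ := S.μ) ((isCompact_closedBall 0 r).inter_left (closed_M hS))
  refine h2.mono_set_ae ?_
  filter_upwards [hS.sup] with x hx hb using ⟨hx, ball_subset_closedBall hb⟩

theorem int (hS : S.Ok) {f : E → ℝ} (h : ∀ x, S.w x = 0 → ContinuousAt f x) {r : ℝ}
    (h0 : ∀ x, r ≤ ‖x‖ → f x = 0) : Integrable f S.μ :=
  (intOn hS h r).integrable_of_forall_notMem_eq_zero fun x hx => h0 x (by simpa using hx)

theorem c_n (hS : S.Ok) {x : E} (hx : S.w x = 0) : ContinuousAt S.n x :=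
  (hS.sg.continuous.continuousAt.norm.inv₀ (norm_ne_zero_iff.2 (hS.reg x hx))).smul
    hS.sg.continuous.continuousAt

theorem c_P (hS : S.Ok) {x : E} (hx : S.w x = 0) : ContinuousAt S.P x := by
  have h := c_n hS hx
  unfold Sf.P ro
  refine continuousAt_const.sub ?_
  exact (ContinuousLinearMap.smulRightL ℝ E E).continuous₂.continuousAt.comp₂
    ((innerSL ℝ).continuous.continuousAt.comp h) h

theorem c_H (hS : S.Ok) {x : E} (hx : S.w x = 0) : ContinuousAt S.H x := by
  have h := c_P hS hx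
  have h1 : ContinuousAt S.A x :=
    (hS.sg.continuous.continuousAt.norm.inv₀ (norm_ne_zero_iff.2 (hS.reg x hx))).neg.smul
      (h.clm_comp (hS.sD2.continuous.continuousAt.clm_comp h))
  unfold Sf.H trc
  refine tendsto_finsetSum _ fun i _ => ?_
  exact ((EuclideanSpace.proj i : E →L[ℝ] ℝ).continuous.continuousAt.comp
    (h1.clm_apply continuousAt_const))

theorem c_φ (hS : S.Ok) {x : E} (hx : S.w x = 0) : ContinuousAt S.φ x :=
  (c_H hS hx).add ((continuousAt_id.inner (c_n hS hx)).div_const 2)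

theorem c_grad {u : E → ℝ} {x : E} (h : ContDiffAt ℝ 1 u x) : ContinuousAt (gradient u) x :=
  (InnerProductSpace.toDual ℝ E).symm.continuous.continuousAt.comp
    (h.continuousAt_fderiv (by norm_num))

theorem AR_nonneg {Λ : ℝ} (h : S.AR Λ) : 0 ≤ Λ := by
  simpa using measureReal_nonneg.trans (h 0 1 one_pos)

/-- the Riesz potential of order one -/
theorem riesz (hS : S.Ok) {Λ : ℝ} (h : S.AR Λ) (y : E) :
    ∫⁻ x in ball y 2, ENNReal.ofReal ‖y - x‖⁻¹ ∂S.μ ≤ ENNReal.ofReal (32 * Λ) := by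
  have := hS.fin
  have hΛ := AR_nonneg h
  calc _ ≤ ∫⁻ x, ∑' n : ℕ, (ball y (4 * (1 / 2) ^ n)).indicator
        (fun _ => ENNReal.ofReal (2 ^ n)) x ∂S.μ := by
        rw [← lintegral_indicator measurableSet_ball]
        refine lintegral_mono fun x => ?_
        by_cases hx : x ∈ ball y 2
        swap
        · rw [indicator_of_notMem hx]; exact zero_le
        rw [indicator_of_mem hx]
        rw [mem_ball, dist_comm, dist_eq_norm] at hx
        rcases (norm_nonneg (y - x)).eq_or_lt with h0 | h0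
        · rw [← h0]; simp
        obtain ⟨n, h1, h2⟩ := exists_nat_pow_near_of_lt_one (x := ‖y - x‖ / 2) (y := (1 / 2 : ℝ))
          (by positivity) (by linarith) (by norm_num) (by norm_num)
        refine le_trans ?_ (ENNReal.le_tsum n)
        have h3 : (0 : ℝ) < (1 / 2) ^ n := by positivity
        rw [indicator_of_mem (by rw [mem_ball, dist_comm, dist_eq_norm]; linarith)]
        refine ENNReal.ofReal_le_ofReal ?_
        rw [inv_le_comm₀ h0 (by positivity), ← inv_pow, ← one_div]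
        rw [pow_succ] at h1
        linarith
    _ = ∑' n : ℕ, ENNReal.ofReal (2 ^ n) * S.μ (ball y (4 * (1 / 2) ^ n)) := by
        rw [lintegral_tsum fun n => (measurable_const.indicator measurableSet_ball).aemeasurable]
        simp only [lintegral_indicator_const measurableSet_ball]
    _ ≤ ∑' n : ℕ, ENNReal.ofReal (16 * Λ * (1 / 2) ^ n) := by
        refine ENNReal.tsum_le_tsum fun n => ?_
        rw [← ofReal_measureReal measure_ball_lt_top.ne, ← ENNReal.ofReal_mul (by positivity)]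
        refine ENNReal.ofReal_le_ofReal ?_
        calc _ ≤ 2 ^ n * (Λ * (4 * (1 / 2) ^ n) ^ 2) := by gcongr; exact h _ _ (by positivity)
          _ = 16 * Λ * (1 / 2) ^ n * (2 * (1 / 2)) ^ n := by rw [mul_pow, mul_pow]; ring
          _ = _ := by norm_num
    _ = _ := by
        rw [← ENNReal.ofReal_tsum_of_nonneg (fun n => by positivity)
          (summable_geometric_two.mul_left _), tsum_mul_left, tsum_geometric_two]
        congr 1; ring

theorem ct_sm : ContDiff ℝ ∞ ct :=
  Real.smoothTransition.contDiff.comp (contDiff_const.sub contDiff_id)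

theorem ct_one {s : ℝ} (h : s ≤ 1) : ct s = 1 := Real.smoothTransition.one_of_one_le (by linarith)

theorem ct_zero {s : ℝ} (h : 2 ≤ s) : ct s = 0 :=
  Real.smoothTransition.zero_of_nonpos (by linarith)

theorem ct_anti : Antitone ct := fun a b h => Real.smoothTransition.monotone (by linarith)

theorem W_sm (π : Par) : ContDiff ℝ ∞ π.W := by
  have h : ContDiff ℝ ∞ fun x : E => ‖x‖ ^ 2 := contDiff_norm_sq ℝ
  exact (((h.neg.div_const 8).exp).mul (ct_sm.comp (h.div_const _))).pow 2

theorem W_nonneg (π : Par) (x : E) : 0 ≤ π.W x := sq_nonneg _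

theorem W_le (π : Par) (x : E) : π.W x ≤ 1 := by
  have h1 : Real.exp (-‖x‖ ^ 2 / 8) ≤ 1 :=
    Real.exp_le_one_iff.2 (by have := sq_nonneg ‖x‖; linarith)
  have h2 : π.ps x ≤ 1 := Real.smoothTransition.le_one _
  have h3 : 0 ≤ π.ps x := Real.smoothTransition.nonneg _
  exact pow_le_one₀ (mul_nonneg (Real.exp_pos _).le h3) (mul_le_one₀ h1 h3 h2)

theorem W_zero {π : Par} (hR : 0 < π.R) {x : E} (h : 2 * π.R ≤ ‖x‖) : π.W x = 0 := by
  have : π.ps x = 0 := ct_zero (by rw [le_div_iff₀ (by positivity)]; nlinarith)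
  simp [Par.W, Par.W0, this]

theorem W_ge {π : Par} (hR : 7 ≤ π.R) {x : E} (h : ‖x‖ < 6) : 1 ≤ Real.exp 9 * π.W x := by
  have h0 := norm_nonneg x
  have : π.ps x = 1 := ct_one (by rw [div_le_one (by positivity)]; nlinarith)
  rw [Par.W, Par.W0, this, mul_one, ← Real.exp_nat_mul, ← Real.exp_add]
  exact Real.one_le_exp (by push_cast; nlinarith)

theorem W_der (π : Par) (x : E) : ∃ q ≤ 0, ∀ h, fderiv ℝ π.W x h = (q - π.W x / 2) * ⟪x, h⟫ := by
  have h1 : HasFDerivAt (fun x : E => ‖x‖ ^ 2) (2 • innerSL ℝ x) x := (hasFDerivAt_id x).norm_sq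
  have h2 := (ct_sm.differentiable (by simp) (‖x‖ ^ 2 / π.R ^ 2)).hasDerivAt
  have h2' : HasDerivAt (fun s : ℝ => ct (s / π.R ^ 2)) _ (‖x‖ ^ 2) :=
    HasDerivAt.comp (h₂ := ct) (h := fun s : ℝ => s / π.R ^ 2) _ h2
      ((hasDerivAt_id _).div_const (π.R ^ 2))
  have h3 : HasDerivAt (fun s : ℝ => (Real.exp (-s / 8) * ct (s / π.R ^ 2)) ^ 2) _ (‖x‖ ^ 2) :=
    ((((hasDerivAt_id (‖x‖ ^ 2)).neg.div_const 8).exp).mul h2').pow 2
  have h4' := h3.comp_hasFDerivAt x h1
  have h4 : HasFDerivAt π.W _ x := h4'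
  have h5 : deriv ct (‖x‖ ^ 2 / π.R ^ 2) ≤ 0 := ct_anti.deriv_nonpos
  have h6 : 0 ≤ π.ps x := Real.smoothTransition.nonneg _
  refine ⟨4 * (Real.exp (-‖x‖ ^ 2 / 8) ^ 2 * π.ps x / π.R ^ 2) * deriv ct (‖x‖ ^ 2 / π.R ^ 2),
    mul_nonpos_of_nonneg_of_nonpos (by positivity) h5, fun h => ?_⟩
  rw [h4.fderiv]
  simp [Par.W, Par.W0, Par.ps]
  ring

/-- the second moment -/
theorem moment (hF : FVN) (hS : S.Ok) {π : Par} (hR : 7 ≤ π.R) {u : E → ℝ}
    (hu : ∀ x, S.w x = 0 → ContDiffAt ℝ 1 u x ∧ 0 ≤ u x ∧ u x ≤ 1) :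
    ∫ x, π.W x * u x * ‖x‖ ^ 2 ∂S.μ ≤ 8 * ∫ x, π.W x * u x ∂S.μ +
      4 * ∫ x, π.W x * ((1 + ‖x‖) * ‖S.P x (gradient u x)‖) ∂S.μ + 4 * S.PP π := by
  have hR0 : 0 < π.R := by linarith
  have hW := W_sm π
  have hWc : ∀ x, ContinuousAt π.W x := fun x => hW.continuous.continuousAt
  have hf : ∀ x, S.w x = 0 → ContDiffAt ℝ 1 (fun x => π.W x * u x) x := fun x hx =>
    (hW.contDiffAt.of_le (cast_le_inf 1)).mul (hu x hx).1
  have hY : ∀ x, S.w x = 0 → ContDiffAt ℝ 1 (fun x => (π.W x * u x) • x) x := fun x hx =>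
    (hf x hx).smul contDiffAt_id
  have hz : ∀ x : E, 2 * π.R < ‖x‖ → (fun x => (π.W x * u x) • x) =ᶠ[𝓝 x] 0 := by
    intro x hx
    filter_upwards [(isOpen_lt continuous_const continuous_norm).mem_nhds hx] with y hy
    simp [W_zero hR0 (le_of_lt hy)]
  have h0 := hF S _ hS ⟨hY, closedBall 0 (2 * π.R), isCompact_closedBall _ _,
    fun x _ hx => hz x (by simpa using hx)⟩
  have i0 : Integrable (fun x => trc (S.P x ∘L fderiv ℝ (fun x => (π.W x * u x) • x) x)
      + S.H x * ⟪S.n x, (π.W x * u x) • x⟫) S.μ := by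
    refine int hS (r := 2 * π.R + 1) (fun x hx => ?_) fun x hx => ?_
    · refine ContinuousAt.add ?_ ((c_H hS hx).mul ((c_n hS hx).inner (hY x hx).continuousAt))
      have h1 := (c_P hS hx).clm_comp ((hY x hx).continuousAt_fderiv (by norm_num))
      unfold trc
      refine tendsto_finsetSum _ fun i _ => ?_
      exact ((EuclideanSpace.proj i : E →L[ℝ] ℝ).continuous.continuousAt.comp
        (h1.clm_apply continuousAt_const))
    · rw [(hz x (by linarith)).fderiv_eq, W_zero hR0 (by linarith)]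
      simp [trc]
  have i1 : Integrable (fun x => π.W x * u x) S.μ :=
    int hS (fun x hx => (hf x hx).continuousAt) fun x hx => by rw [W_zero hR0 hx, zero_mul]
  have i2 : Integrable (fun x => π.W x * u x * ‖x‖ ^ 2) S.μ :=
    int hS (fun x hx => (hf x hx).continuousAt.mul (continuous_norm.pow 2).continuousAt)
      fun x hx => by rw [W_zero hR0 hx, zero_mul, zero_mul]
  have i3 : Integrable (fun x => π.W x * ((1 + ‖x‖) * ‖S.P x (gradient u x)‖)) S.μ :=
    int hS (fun x hx => (hWc x).mul ((continuous_const.add continuous_norm).continuousAt.mul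
      ((c_P hS hx).clm_apply (c_grad (hu x hx).1)).norm)) fun x hx => by rw [W_zero hR0 hx, zero_mul]
  have i4 : Integrable ((ball (0 : E) (3 * π.R + 3)).indicator fun x => S.φ x ^ 2) S.μ :=
    (integrable_indicator_iff measurableSet_ball).2 (intOn hS (fun x hx => (c_φ hS hx).pow 2) _)
  have e4 : S.PP π = ∫ x, (ball (0 : E) (3 * π.R + 3)).indicator (fun x => S.φ x ^ 2) x ∂S.μ := by
    rw [integral_indicator measurableSet_ball]; rfl
  have h1 := integral_mono_ae (i0.add (i2.div_const 4)) (((i1.const_mul 2).add i3).add i4) (by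
    filter_upwards [hS.sup] with x hx
    have hg := hS.reg x hx
    obtain ⟨q, hq, hd⟩ := W_der π x
    obtain ⟨c1, u0, u1⟩ := hu x hx
    have d1 := (c1.differentiableAt (by norm_num)).hasFDerivAt
    have d2 := (hW.differentiable (by simp) x).hasFDerivAt
    have d3 : HasFDerivAt (fun x => (π.W x * u x) • x) _ x := (d2.mul d1).smul (hasFDerivAt_id x)
    have t1 : trc (S.P x ∘L fderiv ℝ (fun x => (π.W x * u x) • x) x) = 2 * (π.W x * u x)
        + π.W x * ⟪S.P x (gradient u x), x⟫ + u x * ((q - π.W x / 2) * ⟪S.P x x, x⟫) := by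
      rw [d3.fderiv, ContinuousLinearMap.comp_add, trc_add, ContinuousLinearMap.comp_smul, trc_smul,
        ContinuousLinearMap.comp_id, Sf.trc_P hg, trc_comm]
      have : ((π.W x • fderiv ℝ u x + u x • fderiv ℝ π.W x).smulRight x) ∘L S.P x
          = ((π.W x • fderiv ℝ u x + u x • fderiv ℝ π.W x) ∘L S.P x).smulRight x := by
        ext1 v; simp
      rw [this, trc_smulRight, Sf.P_sym, inner_grad, real_inner_comm, ← hd]
      simp
      ring
    have t2 : ⟪S.P x (gradient u x), x⟫ ≤ (1 + ‖x‖) * ‖S.P x (gradient u x)‖ := by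
      refine (real_inner_le_norm _ _).trans ?_
      nlinarith [norm_nonneg (S.P x (gradient u x))]
    have t3 := Sf.inner_P S x x
    have t4 := Sf.inner_P_nonneg hg x
    have w0 := W_nonneg π x
    have t5 : π.W x * u x * S.φ x ^ 2
        ≤ (ball (0 : E) (3 * π.R + 3)).indicator (fun x => S.φ x ^ 2) x := by
      by_cases hb : x ∈ ball (0 : E) (3 * π.R + 3)
      · rw [indicator_of_mem hb]
        exact mul_le_of_le_one_left (sq_nonneg _) (mul_le_one₀ (W_le π x) u0 u1)
      · rw [indicator_of_notMem hb, W_zero hR0 (by simp at hb; linarith), zero_mul, zero_mul]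
    have t6 : S.H x = S.φ x - ⟪S.n x, x⟫ / 2 := by rw [Sf.φ, real_inner_comm]; ring
    have t7 : S.φ x * ⟪S.n x, x⟫ ≤ ‖x‖ ^ 2 / 4 + S.φ x ^ 2 := by
      nlinarith [sq_nonneg (⟪S.n x, x⟫ / 2 - S.φ x)]
    have t8 := mul_le_mul_of_nonneg_left t7 (mul_nonneg w0 u0)
    have t9 := mul_le_mul_of_nonneg_left t2 w0
    have t10 : u x * (q * ⟪S.P x x, x⟫) ≤ 0 :=
      mul_nonpos_of_nonneg_of_nonpos u0 (mul_nonpos_of_nonpos_of_nonneg hq t4)
    simp only [Pi.add_apply]
    rw [t1, real_inner_smul_right, t6]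
    rw [t3] at t10 ⊢
    nlinarith)
  rw [integral_add' i0 (i2.div_const 4), integral_add' ((i1.const_mul 2).add i3) i4,
    integral_add' (i1.const_mul 2) i3, h0, integral_div, integral_const_mul, ← e4] at h1
  linarith

/-- the kernel -/
def kr (x y : E) : ℝ≥0∞ := (ball y 2).indicator (fun x => ENNReal.ofReal ‖y - x‖⁻¹) x

theorem m_kr : Measurable fun p : E × E => kr p.1 p.2 :=
  ((measurable_snd.sub measurable_fst).norm.inv.ennreal_ofReal).indicator
    (isOpen_lt (continuous_fst.dist continuous_snd) continuous_const).measurableSet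

theorem m_kr1 (y : E) : Measurable fun x => kr x y :=
  Measurable.comp (g := fun p : E × E => kr p.1 p.2) (f := fun x => (x, y)) m_kr
    measurable_prodMk_right

theorem m_kr2 (x : E) : Measurable fun y => kr x y :=
  Measurable.comp (g := fun p : E × E => kr p.1 p.2) (f := fun y => (x, y)) m_kr
    measurable_prodMk_left

theorem upper {C Λ A B : ℝ} (hC : 0 < C) (hM : ∀ (S : Sf) (u : E → ℝ) (x : E) (r : ℝ), S.Ok →
      S.w x = 0 → 0 < r → (∀ y, S.w y = 0 → ContDiffAt ℝ 1 u y ∧ 0 ≤ u y) →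
      ENNReal.ofReal (u x) +
        ∫⁻ y in ball x r, ENNReal.ofReal (u y * ⟪y - x, S.n y⟫ ^ 2 / ‖y - x‖ ^ 4) ∂S.μ ≤
      ENNReal.ofReal C * ∫⁻ y in ball x (2 * r), ENNReal.ofReal (u y / r ^ 2 +
        ‖S.P y (gradient u y)‖ / ‖y - x‖ + u y * S.H y ^ 2) ∂S.μ)
    (hS : S.Ok) (hA : S.AR Λ) {u : E → ℝ}
    (hu : ∀ x, S.w x = 0 → ContDiffAt ℝ 1 u x ∧ 0 ≤ u x ∧ u x ≤ 1) {K : Set E}
    (hKm : MeasurableSet K) (hKf : S.μ K ≠ ⊤)
    (hK : ∀ x ∈ K, ‖x‖ ≤ 4 ∧ S.w x = 0 ∧ 1 / 2 ≤ u x)
    (b1 : ∫ y in ball 0 6, (u y + u y * S.H y ^ 2) ∂S.μ ≤ A) (hCA : C * A ≤ 1 / 4)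
    (b2 : ∫ y in ball 0 6, ‖S.P y (gradient u y)‖ ∂S.μ ≤ B) :
    1 / 2 * S.μ.real K ≤ 1 / 4 * S.μ.real K + C * (B * (32 * Λ)) := by
  have := hS.fin
  have hΛ := AR_nonneg hA
  have hB : 0 ≤ B := (integral_nonneg fun y => norm_nonneg _).trans b2
  have uc : ∀ x, S.w x = 0 → ContinuousAt u x := fun x hx => (hu x hx).1.continuousAt
  have gc : ∀ x, S.w x = 0 → ContinuousAt (fun x => ‖S.P x (gradient u x)‖) x := fun x hx =>
    ((c_P hS hx).clm_apply (c_grad (hu x hx).1)).norm
  have j1 : IntegrableOn (fun y => u y + u y * S.H y ^ 2) (ball 0 6) S.μ :=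
    intOn hS (fun x hx => (uc x hx).add ((uc x hx).mul ((c_H hS hx).pow 2))) 6
  set G : E → ℝ≥0∞ := (ball (0 : E) 6).indicator fun y => ENNReal.ofReal ‖S.P y (gradient u y)‖
    with hG
  have mG : AEMeasurable G S.μ :=
    (aesm hS gc).aemeasurable.ennreal_ofReal.indicator measurableSet_ball
  have b3 : ∫⁻ y, G y ∂S.μ ≤ ENNReal.ofReal B := by
    rw [hG, lintegral_indicator measurableSet_ball, ← ofReal_integral_eq_lintegral_ofReal
      (intOn hS gc 6) (Eventually.of_forall fun y => norm_nonneg _)]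
    exact ENNReal.ofReal_le_ofReal b2
  have b4 : ∀ x ∈ K, ENNReal.ofReal (1 / 2) ≤ ENNReal.ofReal (1 / 4)
      + ENNReal.ofReal C * ∫⁻ y, G y * kr x y ∂S.μ := by
    intro x hx
    obtain ⟨hx4, hx0, hx1⟩ := hK x hx
    have hsub : ball x (2 * 1) ⊆ ball (0 : E) 6 :=
      ball_subset_ball' (by rw [dist_zero_right]; linarith)
    have t1 := hM S u x 1 hS hx0 one_pos fun y hy => ⟨(hu y hy).1, (hu y hy).2.1⟩
    refine (ENNReal.ofReal_le_ofReal hx1).trans (le_self_add.trans (t1.trans ?_))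
    have t2 : ∫⁻ y in ball x (2 * 1), ENNReal.ofReal (u y / 1 ^ 2 +
        ‖S.P y (gradient u y)‖ / ‖y - x‖ + u y * S.H y ^ 2) ∂S.μ
        ≤ ∫⁻ y in ball 0 6, ENNReal.ofReal (u y + u y * S.H y ^ 2) ∂S.μ
          + ∫⁻ y, G y * kr x y ∂S.μ := by
      rw [← lintegral_indicator measurableSet_ball, ← lintegral_indicator measurableSet_ball,
        ← lintegral_add_right' _ (show AEMeasurable (fun y => G y * kr x y) S.μ from
          mG.mul (m_kr2 x).aemeasurable)]
      refine lintegral_mono fun y => ?_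
      by_cases hy : y ∈ ball x (2 * 1)
      swap
      · rw [indicator_of_notMem hy]; exact zero_le
      have hy' : x ∈ ball y 2 := by rw [mem_ball_comm]; simpa using hy
      simp only [hG, kr]
      rw [indicator_of_mem hy, indicator_of_mem (hsub hy), indicator_of_mem (hsub hy),
        indicator_of_mem hy', ← ENNReal.ofReal_mul (norm_nonneg _)]
      refine le_trans (le_of_eq ?_) ENNReal.ofReal_add_le
      congr 1; ring
    rw [← ofReal_integral_eq_lintegral_ofReal j1 (by
      filter_upwards [ae_restrict_of_ae hS.sup] with y hy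
      have := (hu y hy).2.1
      positivity)] at t2
    refine (mul_le_mul_right t2 _).trans ?_
    rw [mul_add, ← ENNReal.ofReal_mul hC.le]
    gcongr
    exact (mul_le_mul_of_nonneg_left b1 hC.le).trans hCA
  have b5 : ∫⁻ x, ∫⁻ y, G y * kr x y ∂S.μ ∂S.μ ≤ ENNReal.ofReal B * ENNReal.ofReal (32 * Λ) := by
    rw [lintegral_lintegral_swap (mG.comp_snd.mul m_kr.aemeasurable)]
    calc _ ≤ ∫⁻ y, G y * ENNReal.ofReal (32 * Λ) ∂S.μ := by
          refine lintegral_mono fun y => ?_
          rw [lintegral_const_mul _ (m_kr1 y)]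
          gcongr
          simp only [kr]
          rw [lintegral_indicator measurableSet_ball]
          exact riesz hS hA y
      _ ≤ _ := by rw [lintegral_mul_const'' _ mG]; gcongr
  have t1 := setLIntegral_mono' (μ := S.μ) hKm b4
  rw [lintegral_add_left measurable_const, setLIntegral_const, setLIntegral_const,
    lintegral_const_mul' _ _ ENNReal.ofReal_ne_top, ← ofReal_measureReal hKf,
    ← ENNReal.ofReal_mul (by norm_num), ← ENNReal.ofReal_mul (by norm_num)] at t1
  rw [← ENNReal.ofReal_le_ofReal_iff (by positivity)]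
  refine t1.trans ?_
  rw [ENNReal.ofReal_add (by positivity) (by positivity), ENNReal.ofReal_mul hC.le,
    ENNReal.ofReal_mul hB]
  gcongr
  exact (setLIntegral_le_lintegral _ _).trans b5

end Iso

open Iso in
theorem iso (hF : FVN) (hM : MONO) : ISO := by
  intro Λ
  obtain ⟨C, hC, hM⟩ := hM
  have e9 := Real.exp_pos 9
  refine ⟨1 / (8 * C * (19 * Real.exp 9 * 256)), by positivity, fun l hl hl0 => ?_⟩
  obtain ⟨B, hB, hB0⟩ : ∃ B : ℝ, B = 4 * C * (32 * |Λ|) * Real.exp 9 + 3 ∧ 0 < B :=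
    ⟨_, rfl, by positivity⟩
  refine ⟨min (1 / (16 * C)) (l / 16 / B), by positivity, ?_⟩
  have hδ1 := min_le_left (1 / (16 * C)) (l / 16 / B)
  have hδ2 := min_le_right (1 / (16 * C)) (l / 16 / B)
  have hδ0 : 0 < min (1 / (16 * C)) (l / 16 / B) := by positivity
  generalize min (1 / (16 * C)) (l / 16 / B) = δ at hδ1 hδ2 hδ0
  rw [le_div_iff₀ (by positivity)] at hδ1 hδ2 hl0
  intro S π u hS hA hR hu h1 h2 h3 h4 h5
  have := hS.fin
  have hΛ := AR_nonneg hA
  rw [abs_of_nonneg hΛ] at hB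
  have hR0 : 0 < π.R := by linarith
  have hm := moment hF hS hR hu
  have hWc : ∀ x, ContinuousAt π.W x := fun x => (W_sm π).continuous.continuousAt
  have uc : ∀ x, S.w x = 0 → ContinuousAt u x := fun x hx => (hu x hx).1.continuousAt
  have gc : ∀ x, S.w x = 0 → ContinuousAt (fun x => ‖S.P x (gradient u x)‖) x := fun x hx =>
    ((c_P hS hx).clm_apply (c_grad (hu x hx).1)).norm
  have i1 : Integrable (fun x => π.W x * u x) S.μ :=
    int hS (fun x hx => (hWc x).mul (uc x hx)) fun x hx => by rw [W_zero hR0 hx, zero_mul]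
  have i2 : Integrable (fun x => π.W x * u x * ‖x‖ ^ 2) S.μ :=
    int hS (fun x hx => ((hWc x).mul (uc x hx)).mul (continuous_norm.pow 2).continuousAt)
      fun x hx => by rw [W_zero hR0 hx, zero_mul, zero_mul]
  have i3 : Integrable (fun x => π.W x * ((1 + ‖x‖) * ‖S.P x (gradient u x)‖)) S.μ :=
    int hS (fun x hx => (hWc x).mul ((continuous_const.add continuous_norm).continuousAt.mul
      (gc x hx))) fun x hx => by rw [W_zero hR0 hx, zero_mul]
  have i4 : Integrable (fun x => π.W x * (u x * (1 - u x))) S.μ :=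
    int hS (fun x hx => (hWc x).mul ((uc x hx).mul (continuousAt_const.sub (uc x hx))))
      fun x hx => by rw [W_zero hR0 hx, zero_mul]
  set K : Set E := closedBall 0 4 ∩ ({x | S.w x = 0} ∩ u ⁻¹' Ici (1 / 2)) with hK
  have hKc : IsCompact K := (isCompact_closedBall _ _).inter_right
    (ContinuousOn.preimage_isClosed_of_isClosed (fun x hx => (uc x hx).continuousWithinAt)
      (closed_M hS) isClosed_Ici)
  have hKm := hKc.measurableSet
  -- the lower bound for the measure of `K`
  have a1 : ∫ x, π.W x * u x ∂S.μ ≤ S.μ.real K + 2 * ∫ x, π.W x * (u x * (1 - u x)) ∂S.μ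
      + (∫ x, π.W x * u x * ‖x‖ ^ 2 ∂S.μ) / 16 := by
    have i5 : Integrable (K.indicator (1 : E → ℝ)) S.μ :=
      (integrable_indicator_iff hKm).2 (continuousOn_const.integrableOn_compact hKc)
    rw [← integral_indicator_one hKm, ← integral_const_mul, ← integral_div,
      ← integral_add' i5 (i4.const_mul 2),
      ← integral_add' (i5.add (i4.const_mul 2)) (i2.div_const 16)]
    refine integral_mono_ae i1 ((i5.add (i4.const_mul 2)).add (i2.div_const 16)) ?_
    filter_upwards [hS.sup] with x hx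
    obtain ⟨-, u0, u1⟩ := hu x hx
    have w0 := W_nonneg π x
    have p0 := mul_nonneg w0 u0
    have p1 : 0 ≤ π.W x * u x * (1 - u x) := mul_nonneg p0 (by linarith)
    have p2 : 0 ≤ π.W x * u x * ‖x‖ ^ 2 := by positivity
    simp only [Pi.add_apply]
    by_cases hxK : x ∈ K
    · rw [indicator_of_mem hxK, Pi.one_apply]
      nlinarith [mul_le_one₀ (W_le π x) u0 u1]
    rw [indicator_of_notMem hxK]
    by_cases hx4 : ‖x‖ ≤ 4
    · have : u x < 1 / 2 := not_le.1 fun h => hxK ⟨by simpa using hx4, hx, h⟩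
      nlinarith
    · have : 16 ≤ ‖x‖ ^ 2 := by nlinarith [not_le.1 hx4]
      nlinarith
  -- local integrals
  have j1 : IntegrableOn (fun y => u y + u y * S.H y ^ 2) (ball 0 6) S.μ :=
    intOn hS (fun x hx => (uc x hx).add ((uc x hx).mul ((c_H hS hx).pow 2))) 6
  have b1 : ∫ y in ball 0 6, (u y + u y * S.H y ^ 2) ∂S.μ ≤ 19 * Real.exp 9 * (256 * l) + 2 * δ := by
    have jφ : ∀ r, IntegrableOn (fun y => S.φ y ^ 2) (ball 0 r) S.μ :=
      intOn hS fun x hx => (c_φ hS hx).pow 2
    calc _ ≤ ∫ y in ball 0 6, (19 * Real.exp 9 * (π.W y * u y) + 2 * S.φ y ^ 2) ∂S.μ := by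
          refine setIntegral_mono_on_ae j1 ((i1.const_mul _).integrableOn.add ((jφ 6).const_mul 2))
            measurableSet_ball ?_
          filter_upwards [hS.sup] with y hy hb
          obtain ⟨-, u0, u1⟩ := hu y hy
          rw [mem_ball_zero_iff] at hb
          have t1 := mul_le_mul_of_nonneg_left (W_ge hR hb) u0
          have t2 := mul_le_mul_of_nonneg_left (Sf.H_sq_le_φ S y) u0
          have t3 : u y * ‖y‖ ^ 2 ≤ u y * 36 := by gcongr; nlinarith [norm_nonneg y]
          have t4 : u y * S.φ y ^ 2 ≤ S.φ y ^ 2 := mul_le_of_le_one_left (sq_nonneg _) u1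
          linarith
      _ = 19 * Real.exp 9 * ∫ y in ball 0 6, π.W y * u y ∂S.μ
          + 2 * ∫ y in ball 0 6, S.φ y ^ 2 ∂S.μ := by
          rw [integral_add (i1.const_mul _).integrableOn ((jφ 6).const_mul 2), integral_const_mul,
            integral_const_mul]
      _ ≤ _ := by
          gcongr
          · refine (setIntegral_le_integral i1 ?_).trans h2
            filter_upwards [hS.sup] with y hy using mul_nonneg (W_nonneg π y) (hu y hy).2.1
          · exact (setIntegral_mono_set (jφ _) (Eventually.of_forall fun y => sq_nonneg _)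
              (ball_subset_ball (by linarith)).eventuallyLE).trans h5
  have b2 : ∫ y in ball 0 6, ‖S.P y (gradient u y)‖ ∂S.μ ≤ Real.exp 9 * δ := by
    calc _ ≤ ∫ y in ball 0 6, Real.exp 9 * (π.W y * ((1 + ‖y‖) * ‖S.P y (gradient u y)‖)) ∂S.μ := by
          refine setIntegral_mono_on (intOn hS gc 6) (i3.const_mul _).integrableOn
            measurableSet_ball fun y hb => ?_
          rw [mem_ball_zero_iff] at hb
          have t1 := W_ge hR hb
          rw [← mul_assoc]
          refine le_trans ?_ (le_mul_of_one_le_left (by positivity) t1)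
          exact le_mul_of_one_le_left (norm_nonneg _) (by linarith [norm_nonneg y])
      _ ≤ _ := by
          rw [integral_const_mul]
          gcongr
          exact (setIntegral_le_integral i3 (Eventually.of_forall fun y =>
            mul_nonneg (W_nonneg π y) (by positivity))).trans h4
  have b6 := upper hC hM hS hA hu hKm hKc.measure_lt_top.ne (fun x hx => ⟨by simpa using hx.1, hx.2⟩)
    b1 (by nlinarith) b2
  rw [hB] at hδ2
  nlinarith

end Vale.Agent.P218M1
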