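import Vale.Agent.P218M1.Alg

/-!
# P218M1: the tilt energy (rows LA and LB)
-/

open MeasureTheory Metric Filter Topology Set
open scoped ContDiff RealInnerProductSpace ENNReal

noncomputable section

namespace Vale.Agent.P218M1

namespace La

variable {S : Sf}

theorem ball_ne_top (hS : S.Ok) (z : E) (r : ℝ) : S.μ (ball z r) ≠ ⊤ := by
  have := hS.fin
  exact measure_ball_lt_top.ne

theorem meas_n (hS : S.Ok) : Measurable S.n :=
  hS.sg.continuous.norm.measurable.inv.smul hS.sg.continuous.measurable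

theorem cont_n (hS : S.Ok) {x : E} (hx : S.g x ≠ 0) : ContinuousAt S.n x :=
  (hS.sg.continuous.norm.continuousAt.inv₀ (norm_ne_zero_iff.2 hx)).smul
    hS.sg.continuous.continuousAt

theorem cont_P (hS : S.Ok) {x : E} (hx : S.g x ≠ 0) {v : E → E} (hv : ContinuousAt v x) :
    ContinuousAt (fun y => S.P y (v y)) x := by
  simp only [Sf.P_apply]
  exact hv.sub (((cont_n hS hx).inner (𝕜 := ℝ) hv).smul (cont_n hS hx))

theorem cont_H (hS : S.Ok) {x : E} (hx : S.g x ≠ 0) : ContinuousAt S.H x := by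
  have h : ∀ v : E, ContinuousAt (fun y => S.A y v) x := by
    intro v
    simp only [Sf.A_apply]
    refine (hS.sg.continuous.norm.continuousAt.inv₀ (norm_ne_zero_iff.2 hx)).neg.smul ?_
    exact cont_P hS hx (hS.sD2.continuous.continuousAt.clm_apply (cont_P hS hx continuousAt_const))
  have e : S.H = fun y => ∑ i, ⟪S.A y (ee i), ee i⟫ := funext fun y => trc_eq_inner _
  rw [e]
  exact tendsto_finsetSum _ fun i _ => (h (ee i)).inner continuousAt_const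

theorem int_H (hS : S.Ok) (R : ℝ) : IntegrableOn (fun x => S.H x ^ 2) (ball 0 R) S.μ := by
  have := hS.fin
  have hK : IsCompact (closedBall (0 : E) R ∩ {x | S.w x = 0}) :=
    (isCompact_closedBall 0 R).inter_right (isClosed_eq hS.sm.continuous continuous_const)
  have h1 : IntegrableOn (fun x => S.H x ^ 2) (closedBall (0 : E) R ∩ {x | S.w x = 0}) S.μ :=
    ContinuousOn.integrableOn_compact hK fun x hx =>
      ((cont_H hS (hS.reg x hx.2)).pow 2).continuousWithinAt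
  refine h1.mono_set_ae ?_
  filter_upwards [hS.sup] with x hx hb
  exact ⟨ball_subset_closedBall hb, hx⟩

theorem ball_le {Λ : ℝ} (hS : S.Ok) (hA : S.AR Λ) (z : E) (r : ℝ) :
    S.μ (ball z r) ≤ ENNReal.ofReal (|Λ| * r ^ 2) := by
  rcases le_or_gt r 0 with h | h
  · simp [ball_eq_empty.2 h]
  · rw [← ofReal_measureReal (ball_ne_top hS z r)]
    exact ENNReal.ofReal_le_ofReal ((hA z r h).trans (by gcongr; exact le_abs_self _))

/-- sums of lower integrals -/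
theorem sum_lint {ι α : Type} [MeasurableSpace α] (μ : Measure α) (s : Finset ι)
    (f : ι → α → ℝ≥0∞) : ∑ i ∈ s, ∫⁻ a, f i a ∂μ ≤ ∫⁻ a, ∑ i ∈ s, f i a ∂μ := by
  classical
  induction s using Finset.induction_on with
  | empty => simp
  | insert a s ha ih =>
    simp only [Finset.sum_insert ha]
    exact (add_le_add le_rfl ih).trans (le_lintegral_add _ _)

theorem geo (r : ℝ) (J : ℕ) :
    ∑ j ∈ Finset.range (J + 1), 1 / (r / 2 ^ j) ^ 4 ≤ 16 / 15 * (1 / (r / 2 ^ J) ^ 4) := by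
  have e : ∀ j : ℕ, 1 / (r / 2 ^ j) ^ 4 = (16 : ℝ) ^ j / r ^ 4 := by
    intro j
    rw [div_pow, one_div_div, ← pow_mul, mul_comm, pow_mul]; norm_num
  simp only [e]
  have h0 : 0 ≤ (r ^ 4)⁻¹ := by positivity
  induction J with
  | zero => simp; linarith
  | succ J ih =>
    rw [Finset.sum_range_succ, pow_succ (16 : ℝ) J]
    have : (16 : ℝ) ^ J * 16 / r ^ 4 = 16 * ((16 : ℝ) ^ J / r ^ 4) := by ring
    rw [this]
    linarith

theorem geo' {r s : ℝ} (hr : 0 < r) (hs : 0 < s) (J : ℕ) :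
    ∑ j ∈ Finset.range J, (if s < 2 * (r / 2 ^ j) then 1 / (r / 2 ^ j) ^ 4 else 0) ≤
      18 / s ^ 4 := by
  induction J with
  | zero => simp; positivity
  | succ J ih =>
    by_cases h : s < 2 * (r / 2 ^ J)
    · have h1 : ∑ j ∈ Finset.range (J + 1),
          (if s < 2 * (r / 2 ^ j) then 1 / (r / 2 ^ j) ^ 4 else 0) ≤
          ∑ j ∈ Finset.range (J + 1), 1 / (r / 2 ^ j) ^ 4 :=
        Finset.sum_le_sum fun j _ => by split_ifs <;> [rfl; positivity]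
      have h2 : 1 / (r / 2 ^ J) ^ 4 ≤ 16 / s ^ 4 := by
        have hp : 0 < r / 2 ^ J := by positivity
        rw [div_le_div_iff₀ (by positivity) (by positivity)]
        have := pow_le_pow_left₀ hs.le h.le 4
        nlinarith
      have h3 : 0 < 1 / s ^ 4 := by positivity
      have h4 := geo r J
      have e1 : 16 / s ^ 4 = 16 * (1 / s ^ 4) := by ring
      have e2 : 18 / s ^ 4 = 18 * (1 / s ^ 4) := by ring
      linarith
    · rw [Finset.sum_range_succ, if_neg h, add_zero]; exact ih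

/-- the kernel at the scale `ρ` -/
def ker (S : Sf) (ρ : ℝ) (x y : E) : ℝ≥0∞ :=
  ENNReal.ofReal ((if ‖y - x‖ < 2 * ρ then 1 / ρ ^ 4 else 0) * ⟪y - x, S.n y⟫ ^ 2)

theorem til_le (hS : S.Ok) (z : E) {ρ : ℝ} (hρ : 0 < ρ) :
    ENNReal.ofReal (Til S z ρ) ≤ ∫⁻ x in ball z ρ, ∫⁻ y, ker S ρ x y ∂S.μ ∂S.μ := by
  have := hS.fin
  have hm : Measurable (Function.uncurry fun y x : E =>
      ENNReal.ofReal (1 / ρ ^ 4 * ⟪x - y, S.n y⟫ ^ 2)) := by
    have h : Measurable fun p : E × E => S.n p.1 := (meas_n hS).comp measurable_fst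
    exact ((((measurable_snd.sub measurable_fst).inner h).pow_const 2).const_mul _).ennreal_ofReal
  have e : Til S z ρ = ∫ y in ball z ρ, ∫ x in ball z ρ, 1 / ρ ^ 4 * ⟪x - y, S.n y⟫ ^ 2 ∂S.μ ∂S.μ := by
    simp only [integral_const_mul, Til]
    ring
  rw [e]
  calc _ ≤ ‖∫ y in ball z ρ, ∫ x in ball z ρ, 1 / ρ ^ 4 * ⟪x - y, S.n y⟫ ^ 2 ∂S.μ ∂S.μ‖ₑ :=
        Real.ofReal_le_enorm _
    _ ≤ ∫⁻ y in ball z ρ, ∫⁻ x in ball z ρ,
          ENNReal.ofReal (1 / ρ ^ 4 * ⟪x - y, S.n y⟫ ^ 2) ∂S.μ ∂S.μ := by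
        refine (enorm_integral_le_lintegral_enorm _).trans (lintegral_mono fun y => ?_)
        refine (enorm_integral_le_lintegral_enorm _).trans (lintegral_mono fun x => ?_)
        rw [Real.enorm_of_nonneg (by positivity)]
    _ = ∫⁻ x in ball z ρ, ∫⁻ y in ball z ρ,
          ENNReal.ofReal (1 / ρ ^ 4 * ⟪x - y, S.n y⟫ ^ 2) ∂S.μ ∂S.μ :=
        lintegral_lintegral_swap hm.aemeasurable
    _ ≤ _ := by
        refine setLIntegral_mono' measurableSet_ball fun x hx => ?_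
        refine le_trans (setLIntegral_mono' measurableSet_ball fun y hy => ?_)
          (setLIntegral_le_lintegral (ball z ρ) _)
        have h1 : ‖y - x‖ < 2 * ρ := by
          rw [← dist_eq_norm]
          have := dist_triangle_right y x z
          rw [mem_ball] at hx hy
          linarith
        rw [ker, if_pos h1, ← neg_sub y x, inner_neg_left, neg_sq]

theorem sum_ker {r : ℝ} (hr : 0 < r) (hr1 : r ≤ 1 / 10) (J : ℕ) (x y : E) :
    ∑ j ∈ Finset.range J, ker S (r / 2 ^ j) x y ≤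
      indicator (ball x 1) (fun y => ENNReal.ofReal 18 *
        ENNReal.ofReal (1 * ⟪y - x, S.n y⟫ ^ 2 / ‖y - x‖ ^ 4)) y := by
  simp only [ker]
  rw [← ENNReal.ofReal_sum_of_nonneg fun j _ => by positivity, ← Finset.sum_mul]
  by_cases hy : y ∈ ball x 1
  · rw [indicator_of_mem hy, ← ENNReal.ofReal_mul (by norm_num)]
    refine ENNReal.ofReal_le_ofReal ?_
    by_cases h0 : y = x
    · simp [h0]
    · have := geo' hr (norm_pos_iff.2 (sub_ne_zero.2 h0)) J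
      calc _ ≤ 18 / ‖y - x‖ ^ 4 * ⟪y - x, S.n y⟫ ^ 2 := by gcongr
        _ = _ := by ring
  · rw [Finset.sum_eq_zero, zero_mul]
    · simp
    intro j _
    rw [if_neg]
    rw [mem_ball, dist_eq_norm] at hy
    have h1 : r / 2 ^ j ≤ r := div_le_self hr.le (one_le_pow₀ (by norm_num))
    linarith

/-- the cross product -/
theorem cross {n n' : E} (hn : ‖n‖ = 1) (hn' : ‖n'‖ = 1) : ∃ t : E, ∀ v : E,
    (1 - ⟪n, n'⟫ ^ 2) * ‖v‖ ^ 2 =
      ⟪v, t⟫ ^ 2 + (⟪v, n⟫ ^ 2 + ⟪v, n'⟫ ^ 2 - 2 * ⟪v, n⟫ * ⟪v, n'⟫ * ⟪n, n'⟫) := by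
  refine ⟨!₂[n 1 * n' 2 - n 2 * n' 1, n 2 * n' 0 - n 0 * n' 2, n 0 * n' 1 - n 1 * n' 0],
    fun v => ?_⟩
  have h1 := norm_sq_eq_sum n
  have h2 := norm_sq_eq_sum n'
  rw [hn] at h1
  rw [hn'] at h2
  simp only [inner_eq_sum, norm_sq_eq_sum, Fin.sum_univ_three] at h1 h2 ⊢
  simp only [Matrix.cons_val_zero, Matrix.cons_val_one, Matrix.cons_val]
  linear_combination (v 0 ^ 2 + v 1 ^ 2 + v 2 ^ 2 - (v 0 * n' 0 + v 1 * n' 1 + v 2 * n' 2) ^ 2) * h1 +
    ((v 0 ^ 2 + v 1 ^ 2 + v 2 ^ 2) * (n 0 ^ 2 + n 1 ^ 2 + n 2 ^ 2) -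
      (v 0 * n 0 + v 1 * n 1 + v 2 * n 2) ^ 2) * h2

/-- the points which are close to two transversal planes have small measure -/
theorem tube {Λ : ℝ} (hS : S.Ok) (hA : S.AR Λ) {N : ℕ} (hN0 : 0 < N) (hN : 8 * |Λ| ≤ N) (z : E)
    {r s : ℝ} (hr : 0 < r) (hs : 0 < s) {n n' : E} (hn : ‖n‖ = 1) (hn' : ‖n'‖ = 1)
    (hsn : s ^ 2 = 1 - ⟪n, n'⟫ ^ 2) (y y' : E) :
    S.μ.real ({x | ⟪x - y, n⟫ ^ 2 + ⟪x - y', n'⟫ ^ 2 < (s * r / (4 * N)) ^ 2} ∩ ball z r) ≤
      r ^ 2 := by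
  obtain ⟨t, ht⟩ := cross hn hn'
  have hNp : (0 : ℝ) < N := Nat.cast_pos.2 hN0
  have hc : ⟪n, n'⟫ ^ 2 ≤ 1 := by nlinarith [sq_nonneg s]
  have hc' := abs_le.1 ((sq_le_one_iff_abs_le_one _).1 hc)
  set σ := s * r / N with hσ
  have hσ0 : 0 < σ := by positivity
  set T := {x | ⟪x - y, n⟫ ^ 2 + ⟪x - y', n'⟫ ^ 2 < (s * r / (4 * N)) ^ 2} ∩ ball z r with hT
  set Tk : ℤ → Set E := fun k => T ∩ {x | ⌊⟪x - z, t⟫ / σ⌋ = k} with hTk
  have hcov : T ⊆ ⋃ k ∈ Finset.Ico (-(N : ℤ)) N, Tk k := by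
    intro x hx
    refine mem_iUnion₂.2 ⟨_, ?_, hx, rfl⟩
    have h1 : ‖x - z‖ < r := by rw [← dist_eq_norm]; exact hx.2
    have h2 := ht (x - z)
    have h3 : ⟪x - z, t⟫ ^ 2 < (s * r) ^ 2 := by
      have h4 : ‖x - z‖ ^ 2 < r ^ 2 := by gcongr
      have h5 : 0 ≤ ⟪x - z, n⟫ ^ 2 + ⟪x - z, n'⟫ ^ 2 - 2 * ⟪x - z, n⟫ * ⟪x - z, n'⟫ * ⟪n, n'⟫ := by
        nlinarith [mul_nonneg (sub_nonneg.2 hc'.2) (sq_nonneg (⟪x - z, n⟫ + ⟪x - z, n'⟫)),
          mul_nonneg (neg_le_iff_add_nonneg.1 hc'.1) (sq_nonneg (⟪x - z, n⟫ - ⟪x - z, n'⟫))]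
      rw [← hsn] at h2
      have h6 : s ^ 2 * ‖x - z‖ ^ 2 < s ^ 2 * r ^ 2 := by gcongr
      nlinarith
    have h4 := abs_lt.1 (abs_lt_of_sq_lt_sq h3 (by positivity))
    have e : s * r = N * σ := by rw [hσ]; field_simp
    rw [Finset.mem_Ico, Int.le_floor, Int.floor_lt, le_div_iff₀ hσ0, div_lt_iff₀ hσ0]
    push_cast
    constructor <;> linarith
  have hk : ∀ k, S.μ.real (Tk k) ≤ |Λ| * (2 * (r / N)) ^ 2 := by
    intro k
    rcases (Tk k).eq_empty_or_nonempty with h | ⟨x₀, hx₀⟩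
    · rw [h, measureReal_empty]; positivity
    refine (measureReal_mono (s₂ := ball x₀ (2 * (r / N))) ?_ (ball_ne_top hS _ _)).trans
      ((hA _ _ (by positivity)).trans (by gcongr; exact le_abs_self _))
    intro x hx
    have h1 : |⟪x - z, t⟫ / σ - ⟪x₀ - z, t⟫ / σ| < 1 :=
      Int.abs_sub_lt_one_of_floor_eq_floor (hx.2.trans hx₀.2.symm)
    have h2 : ⟪x - x₀, t⟫ ^ 2 < σ ^ 2 := by
      rw [← sub_div, ← inner_sub_left, sub_sub_sub_cancel_right, abs_div, abs_of_pos hσ0,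
        div_lt_one hσ0] at h1
      exact sq_lt_sq' (abs_lt.1 h1).1 (abs_lt.1 h1).2
    have h3 := ht (x - x₀)
    have e1 : ⟪x - x₀, n⟫ = ⟪x - y, n⟫ - ⟪x₀ - y, n⟫ := by
      rw [← inner_sub_left, sub_sub_sub_cancel_right]
    have e2 : ⟪x - x₀, n'⟫ = ⟪x - y', n'⟫ - ⟪x₀ - y', n'⟫ := by
      rw [← inner_sub_left, sub_sub_sub_cancel_right]
    have e3 : s * r / (4 * N) = σ / 4 := by rw [hσ]; field_simp
    have h4 : ⟪x - y, n⟫ ^ 2 + ⟪x - y', n'⟫ ^ 2 < (s * r / (4 * N)) ^ 2 := hx.1.1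
    have h5 : ⟪x₀ - y, n⟫ ^ 2 + ⟪x₀ - y', n'⟫ ^ 2 < (s * r / (4 * N)) ^ 2 := hx₀.1.1
    rw [e3] at h4 h5
    have h6 : ⟪x - x₀, n⟫ ^ 2 + ⟪x - x₀, n'⟫ ^ 2 ≤ σ ^ 2 / 4 := by
      rw [e1, e2]
      nlinarith [sq_nonneg (⟪x - y, n⟫ + ⟪x₀ - y, n⟫), sq_nonneg (⟪x - y', n'⟫ + ⟪x₀ - y', n'⟫)]
    have h7 : -(2 * ⟪x - x₀, n⟫ * ⟪x - x₀, n'⟫ * ⟪n, n'⟫) ≤ ⟪x - x₀, n⟫ ^ 2 + ⟪x - x₀, n'⟫ ^ 2 := by
      nlinarith [mul_nonneg (sub_nonneg.2 hc'.2) (sq_nonneg (⟪x - x₀, n⟫ - ⟪x - x₀, n'⟫)),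
        mul_nonneg (neg_le_iff_add_nonneg.1 hc'.1) (sq_nonneg (⟪x - x₀, n⟫ + ⟪x - x₀, n'⟫))]
    rw [← hsn] at h3
    have h8 : s ^ 2 * ‖x - x₀‖ ^ 2 < s ^ 2 * (2 * (r / N)) ^ 2 := by
      have : s ^ 2 * (2 * (r / N)) ^ 2 = 4 * σ ^ 2 := by rw [hσ]; ring
      nlinarith [sq_nonneg σ]
    rw [mem_ball, dist_eq_norm]
    exact lt_of_pow_lt_pow_left₀ 2 (by positivity) (lt_of_mul_lt_mul_left h8 (sq_nonneg s))
  have hfin : S.μ (⋃ k ∈ Finset.Ico (-(N : ℤ)) N, Tk k) ≠ ⊤ :=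
    ne_top_of_le_ne_top (ball_ne_top hS z r)
      (measure_mono (iUnion₂_subset fun k _ x hx => hx.1.2))
  refine (measureReal_mono hcov hfin).trans ((measureReal_biUnion_finset_le _ _).trans
    ((Finset.sum_le_sum fun k _ => hk k).trans ?_))
  rw [Finset.sum_const, Int.card_Ico, nsmul_eq_mul]
  have e : (((N : ℤ) - -(N : ℤ)).toNat : ℝ) = 2 * N := by
    have : ((N : ℤ) - -(N : ℤ)).toNat = 2 * N := by omega
    rw [this]; push_cast; ring
  rw [e]
  calc _ = 8 * |Λ| / N * r ^ 2 := by field_simp; ring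
    _ ≤ 1 * r ^ 2 := by gcongr; exact (div_le_one hNp).2 hN
    _ = _ := one_mul _

theorem int_sq (hS : S.Ok) (z y n : E) (r : ℝ) :
    IntegrableOn (fun x => ⟪x - y, n⟫ ^ 2) (ball z r) S.μ := by
  have := hS.fin
  have hc : Continuous fun x : E => ⟪x - y, n⟫ ^ 2 := by fun_prop
  exact (hc.continuousOn.integrableOn_compact (isCompact_closedBall z r)).mono_set
    ball_subset_closedBall

theorem key {Λ : ℝ} (hS : S.Ok) (hA : S.AR Λ) {N : ℕ} (hN0 : 0 < N) (hN : 8 * |Λ| ≤ N) {z : E}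
    {r a : ℝ} (hr : 0 < r) (ha : 0 < a) (hB : Real.pi * r ^ 2 ≤ S.μ.real (ball z r)) {n n' : E}
    (hn : ‖n‖ = 1) (hn' : ‖n'‖ = 1) (hsn : a ^ 2 ≤ 1 - ⟪n, n'⟫ ^ 2) (y y' : E) :
    a ^ 2 * r ^ 4 / (8 * N ^ 2) ≤
      ∫ x in ball z r, ⟪x - y, n⟫ ^ 2 ∂S.μ + ∫ x in ball z r, ⟪x - y', n'⟫ ^ 2 ∂S.μ := by
  have hNp : (0 : ℝ) < N := Nat.cast_pos.2 hN0
  have h0 : 0 < 1 - ⟪n, n'⟫ ^ 2 := lt_of_lt_of_le (by positivity) hsn
  set s := √(1 - ⟪n, n'⟫ ^ 2)
  have hs : 0 < s := Real.sqrt_pos.2 h0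
  have hs2 : s ^ 2 = 1 - ⟪n, n'⟫ ^ 2 := Real.sq_sqrt h0.le
  have h1 := tube hS hA hN0 hN z hr hs hn hn' hs2 y y'
  have h2 := mul_meas_ge_le_integral_of_nonneg (μ := S.μ.restrict (ball z r))
    (f := fun x => ⟪x - y, n⟫ ^ 2 + ⟪x - y', n'⟫ ^ 2) (Eventually.of_forall fun x => by positivity)
    (Integrable.add (int_sq hS z y n r) (int_sq hS z y' n' r)) ((s * r / (4 * N)) ^ 2)
  rw [measureReal_restrict_apply' measurableSet_ball,
    integral_add (int_sq hS z y n r) (int_sq hS z y' n' r)] at h2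
  refine le_trans ?_ h2
  set U := {x | (s * r / (4 * N)) ^ 2 ≤ ⟪x - y, n⟫ ^ 2 + ⟪x - y', n'⟫ ^ 2} ∩ ball z r
  set T := {x | ⟪x - y, n⟫ ^ 2 + ⟪x - y', n'⟫ ^ 2 < (s * r / (4 * N)) ^ 2} ∩ ball z r
  have h3 : S.μ.real (ball z r) ≤ S.μ.real T + S.μ.real U := by
    refine (measureReal_mono (fun x hx => ?_) (ne_top_of_le_ne_top (ball_ne_top hS z r)
      (measure_mono (union_subset inter_subset_right inter_subset_right)))).trans
      (measureReal_union_le T U)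
    rcases lt_or_ge (⟪x - y, n⟫ ^ 2 + ⟪x - y', n'⟫ ^ 2) ((s * r / (4 * N)) ^ 2) with h | h
    · exact Or.inl ⟨h, hx⟩
    · exact Or.inr ⟨h, hx⟩
  have h4 : 2 * r ^ 2 ≤ S.μ.real U := by
    have := Real.pi_gt_three
    nlinarith [sq_nonneg r]
  calc _ ≤ s ^ 2 * r ^ 4 / (8 * N ^ 2) := by rw [hs2]; gcongr
    _ = (s * r / (4 * N)) ^ 2 * (2 * r ^ 2) := by field_simp; ring
    _ ≤ _ := by gcongr

theorem int_e (hS : S.Ok) (z : E) (r : ℝ) :
    IntegrableOn (fun y => ∫ x in ball z r, ⟪x - y, S.n y⟫ ^ 2 ∂S.μ) (ball z r) S.μ := by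
  have := hS.fin
  have : IsFiniteMeasure (S.μ.restrict (ball z r)) :=
    isFiniteMeasure_restrict.2 (ball_ne_top hS z r)
  have hm : Measurable fun p : E × E => ⟪p.2 - p.1, S.n p.1⟫ ^ 2 := by
    have h : Measurable fun p : E × E => S.n p.1 := (meas_n hS).comp measurable_fst
    exact ((measurable_snd.sub measurable_fst).inner h).pow_const 2
  have hi : Integrable (fun p : E × E => ⟪p.2 - p.1, S.n p.1⟫ ^ 2)
      ((S.μ.restrict (ball z r)).prod (S.μ.restrict (ball z r))) := by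
    refine Integrable.of_bound hm.aestronglyMeasurable ((2 * r) ^ 2) ?_
    rw [Measure.prod_restrict]
    filter_upwards [ae_restrict_mem (measurableSet_ball.prod measurableSet_ball)] with p hp
    have h1 : ‖p.2 - p.1‖ ≤ 2 * r := by
      rw [← dist_eq_norm]
      have := dist_triangle_right p.2 p.1 z
      have h1 := mem_ball.1 hp.1
      have h2 := mem_ball.1 hp.2
      linarith
    rw [Real.norm_of_nonneg (sq_nonneg _)]
    refine (inner_sq_le _ _).trans ?_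
    have h2 : ‖S.n p.1‖ ^ 2 ≤ 1 := pow_le_one₀ (norm_nonneg _) (Sf.norm_n_le S _)
    calc _ ≤ (2 * r) ^ 2 * 1 := by gcongr
      _ = _ := mul_one _
  exact hi.integral_prod_left

end La

open La in
theorem la : MONO → LA := by
  rintro ⟨C, hC, hM⟩ Λ R₀ H₀
  refine ⟨18 * (C * (|Λ| * (R₀ + 3) ^ 2 + |H₀|)) * (|Λ| * (R₀ + 1) ^ 2) + 1, by positivity, ?_⟩
  intro S r J Z hS hA hr hr1 hH hZ
  have hT : ∀ z ρ, 0 ≤ Til S z ρ := fun z ρ =>
    div_nonneg (integral_nonneg fun y => integral_nonneg fun x => sq_nonneg _) (by positivity)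
  have hrj : ∀ j : ℕ, r / 2 ^ j ≤ r := fun j => div_le_self hr.le (one_le_pow₀ (by norm_num))
  -- one level
  have h1 : ∀ j ∈ Finset.range (J + 1), ENNReal.ofReal (∑ z ∈ Z j, Til S z (r / 2 ^ j)) ≤
      ∫⁻ x in ball 0 (R₀ + 1), ∫⁻ y, ker S (r / 2 ^ j) x y ∂S.μ ∂S.μ := by
    intro j hj
    obtain ⟨hz1, hz2⟩ := hZ j (Nat.lt_succ_iff.1 (Finset.mem_range.1 hj))
    rw [ENNReal.ofReal_sum_of_nonneg fun z _ => hT z _]
    refine (Finset.sum_le_sum fun z _ => til_le hS z (by positivity)).trans ?_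
    rw [← lintegral_biUnion_finset (fun z hz z' hz' hne => ?_) fun _ _ => measurableSet_ball]
    · refine lintegral_mono_set (iUnion₂_subset fun z hz => ball_subset_ball' ?_)
      have := hz1 z hz
      have := hrj j
      rw [dist_zero_right]
      linarith
    · refine ball_disjoint_ball ?_
      rw [dist_eq_norm]
      have := hz2 z hz z' hz' hne
      linarith
  -- monotonicity
  have h2 : ∀ᵐ x ∂S.μ.restrict (ball 0 (R₀ + 1)),
      ∑ j ∈ Finset.range (J + 1), ∫⁻ y, ker S (r / 2 ^ j) x y ∂S.μ ≤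
        ENNReal.ofReal (18 * (C * (|Λ| * (R₀ + 3) ^ 2 + |H₀|))) := by
    filter_upwards [ae_restrict_of_ae hS.sup, ae_restrict_mem measurableSet_ball] with x hx hb
    refine (sum_lint _ _ _).trans ((lintegral_mono fun y => sum_ker hr hr1 _ x y).trans ?_)
    rw [lintegral_indicator measurableSet_ball, lintegral_const_mul' _ _ ENNReal.ofReal_ne_top,
      ENNReal.ofReal_mul (by norm_num), ENNReal.ofReal_mul hC.le]
    gcongr
    refine le_trans le_add_self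
      ((hM S (fun _ => 1) x 1 hS hx one_pos fun y _ => ⟨contDiffAt_const, zero_le_one⟩).trans ?_)
    gcongr
    have hsub : ball x (2 * 1) ⊆ ball 0 (R₀ + 3) := ball_subset_ball' (by
      rw [mem_ball] at hb; linarith)
    refine (lintegral_mono_set hsub).trans ?_
    simp only [gradient_fun_const, map_zero, norm_zero, zero_div, add_zero, one_pow, div_one, one_mul]
    rw [lintegral_congr fun y => ENNReal.ofReal_add zero_le_one (sq_nonneg (S.H y)),
      lintegral_add_left measurable_const, ENNReal.ofReal_add (by positivity) (abs_nonneg _),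
      ← ofReal_integral_eq_lintegral_ofReal (int_H hS _)
        (Eventually.of_forall fun y => sq_nonneg _)]
    refine add_le_add ?_ (ENNReal.ofReal_le_ofReal (hH.trans (le_abs_self _)))
    simpa using ball_le hS hA 0 (R₀ + 3)
  have h3 : ENNReal.ofReal (∑ j ∈ Finset.range (J + 1), ∑ z ∈ Z j, Til S z (r / 2 ^ j)) ≤
      ENNReal.ofReal (18 * (C * (|Λ| * (R₀ + 3) ^ 2 + |H₀|)) * (|Λ| * (R₀ + 1) ^ 2)) := by
    rw [ENNReal.ofReal_sum_of_nonneg fun j _ => Finset.sum_nonneg fun z _ => hT z _]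
    refine (Finset.sum_le_sum h1).trans ((sum_lint _ _ _).trans ((lintegral_mono_ae h2).trans ?_))
    rw [setLIntegral_const, ENNReal.ofReal_mul (q := |Λ| * (R₀ + 1) ^ 2) (by positivity)]
    gcongr
    exact ball_le hS hA 0 (R₀ + 1)
  have := (ENNReal.ofReal_le_ofReal_iff (by positivity)).1 h3
  linarith

open La in
theorem lb : LB := by
  intro Λ
  obtain ⟨N, hN⟩ := exists_nat_gt (8 * |Λ|)
  have hNp : (0 : ℝ) < N := lt_of_le_of_lt (by positivity) hN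
  have hN0 : 0 < N := Nat.cast_pos.1 hNp
  refine ⟨16 * N ^ 2, by positivity, fun S z r a hS hA hr ha hB => ?_⟩
  have : IsFiniteMeasure (S.μ.restrict (ball z r)) :=
    isFiniteMeasure_restrict.2 (ball_ne_top hS z r)
  have hm : 0 < S.μ.real (ball z r) := lt_of_lt_of_le (by positivity) hB
  have hne : S.μ.restrict (ball z r) ≠ 0 := by
    intro h
    rw [← measureReal_restrict_apply_univ, h] at hm
    simp at hm
  set e : E → ℝ := fun y => ∫ x in ball z r, ⟪x - y, S.n y⟫ ^ 2 ∂S.μ with he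
  have hi : Integrable e (S.μ.restrict (ball z r)) := int_e hS z r
  have he0 : ∀ y, 0 ≤ e y := fun y => integral_nonneg fun x => sq_nonneg _
  obtain ⟨y', hy', hle⟩ := exists_notMem_null_le_average (N := {x | ¬ S.w x = 0}) hne hi
    (ae_iff.1 (ae_restrict_of_ae hS.sup))
  have hg : S.g y' ≠ 0 := hS.reg y' (not_not.1 hy')
  refine ⟨S.n y', Sf.norm_n hg, ?_⟩
  have h1 := mul_meas_ge_le_integral_of_nonneg (μ := S.μ.restrict (ball z r))
    (f := fun y => e y + e y') (Eventually.of_forall fun y => add_nonneg (he0 y) (he0 y'))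
    (hi.add (integrable_const _)) (a ^ 2 * r ^ 4 / (8 * N ^ 2))
  rw [measureReal_restrict_apply' measurableSet_ball, integral_add hi (integrable_const _),
    integral_const, measureReal_restrict_apply_univ, smul_eq_mul] at h1
  rw [average_eq, measureReal_restrict_apply_univ, smul_eq_mul, inv_mul_eq_div,
    le_div_iff₀' hm] at hle
  have h2 : S.μ.real (Mis S z (S.n y') r a) ≤
      S.μ.real ({y | a ^ 2 * r ^ 4 / (8 * N ^ 2) ≤ e y + e y'} ∩ ball z r) :=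
    measureReal_mono (fun y hy => ⟨key hS hA hN0 hN.le hr ha hB (Sf.norm_n (hS.reg y hy.2.1))
      (Sf.norm_n hg) hy.2.2 y y', hy.1⟩)
      (ne_top_of_le_ne_top (ball_ne_top hS z r) (measure_mono inter_subset_right))
  have h3 : a ^ 2 * r ^ 4 / (8 * N ^ 2) * S.μ.real (Mis S z (S.n y') r a) ≤
      2 * ∫ y in ball z r, e y ∂S.μ :=
    (mul_le_mul_of_nonneg_left h2 (by positivity)).trans (h1.trans (by linarith))
  rw [← le_div_iff₀' (by positivity)] at h3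
  refine h3.trans_eq ?_
  rw [Til]
  field_simp
  ring

end Vale.Agent.P218M1
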