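import Vale.Agent.P218M1.LcA

/-!
# P218M1: much aligned area in a ball gives many pairs (row LC)
-/

open MeasureTheory Metric Filter Topology Set
open scoped ContDiff RealInnerProductSpace ENNReal

noncomputable section

namespace Vale.Agent.P218M1

namespace Lc

/-- a continuous cutoff, positive exactly on the ball of radius `ρ` -/
def ch (z : E) (ρ δ : ℝ) (x : E) : ℝ := max 0 (min 1 ((ρ - ‖x - z‖) / δ))

section
variable {z x : E} {ρ δ : ℝ}

theorem ch_cont : Continuous (ch z ρ δ) := by unfold ch; fun_prop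
theorem ch_nn : 0 ≤ ch z ρ δ x := le_max_left _ _
theorem ch_le : ch z ρ δ x ≤ 1 := max_le zero_le_one (min_le_left _ _)

theorem ch_ne (hδ : 0 < δ) : ch z ρ δ x ≠ 0 ↔ x ∈ ball z ρ := by
  rw [ch, Ne, max_eq_left_iff, not_le, lt_min_iff, and_iff_right one_pos, div_pos_iff_of_pos_right hδ,
    sub_pos, mem_ball_iff_norm]

theorem ch_one (hδ : 0 < δ) (h : x ∈ ball z (ρ - δ)) : ch z ρ δ x = 1 := by
  rw [ch, min_eq_left ((one_le_div hδ).2 (by linarith [mem_ball_iff_norm.1 h])),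
    max_eq_right zero_le_one]

theorem ch_ev (hδ : 0 < δ) (h : x ∉ closedBall z ρ) : ∀ᶠ y in 𝓝 x, ch z ρ δ y = 0 :=
  mem_of_superset (isClosed_closedBall.isOpen_compl.mem_nhds h) fun _ hy =>
    by_contra fun e => hy (ball_subset_closedBall ((ch_ne hδ).1 e))

end

/-- the alignment -/
def al (S : Sf) (π : Par) (n x : E) : ℝ := ct ((1 - ⟪S.n x, n⟫ ^ 2) / (π.α ^ 2 / 100) ^ 2)

/-- the three functions on the surface -/
def hh (S : Sf) (π : Par) (n z : E) (r δ : ℝ) (x : E) : ℝ := ch z (r - δ) δ x * al S π n x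
def vv (S : Sf) (π : Par) (z : E) (r δ : ℝ) (θ x : E) : ℝ := ch z r δ x * S.RS (FF S π) x θ
def ms (S : Sf) (π : Par) (n z : E) (r δ : ℝ) (θ x : E) : ℝ :=
  π.cu (S.cc x θ ^ 2) * ch z r δ x * (1 - al S π n x)

variable {S : Sf} {π : Par} {Λ r δ : ℝ} {n z θ x : E}

theorem hh_nn : 0 ≤ hh S π n z r δ x := mul_nonneg ch_nn (ct_nn _)
theorem hh_le : hh S π n z r δ x ≤ 1 := mul_le_one₀ ch_le (ct_nn _) (ct_le _)
theorem vv_nn : 0 ≤ vv S π z r δ θ x := mul_nonneg ch_nn (RS_nn _ _)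
theorem ms_nn : 0 ≤ ms S π n z r δ θ x :=
  mul_nonneg (mul_nonneg (sub_nonneg.2 (ct_le _)) ch_nn) (sub_nonneg.2 (ct_le _))
theorem ms_le : ms S π n z r δ θ x ≤ 1 :=
  mul_le_one₀ (mul_le_one₀ (sub_le_self _ (ct_nn _)) ch_nn ch_le) (sub_nonneg.2 (ct_le _))
    (sub_le_self _ (ct_nn _))

theorem cd_al (hS : S.Ok) (hx : S.g x ≠ 0) : ContDiffAt ℝ 0 (al S π n) x :=
  (c0 ct_cont _).comp x
    ((contDiffAt_const.sub (((cd_n hS hx).inner ℝ contDiffAt_const).pow 2)).div_const _)

theorem cu_ne (hπ : π.Rg) {c : ℝ} (h : π.cu c ≠ 0) : π.η ^ 2 / 2 < c :=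
  not_le.1 fun e => h (by
    rw [Par.cu, ct_one ((div_le_one (pow_pos hπ.η0 2)).2 (by linarith)), sub_self])

section
variable (hG : Good S π Λ) (hn : ‖n‖ = 1) (hθ : ‖θ‖ = 1) (hc : 1 - ⟪n, θ⟫ ^ 2 ≤ (π.α / 3) ^ 2)
include hG hn hθ hc

theorem al_ne (hx : S.g x ≠ 0) (h : al S π n x ≠ 0) : 1 - S.cc x θ ^ 2 ≤ π.α ^ 2 / 2 := by
  have α2 := pow_pos hG.rg.α0 2
  have α1 := pow_le_pow_left₀ hG.rg.α0.le hG.rg.α1 2
  have h1 := not_le.1 (mt ct_zero h)
  rw [div_lt_iff₀ (by positivity)] at h1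
  have h2 := tri (Sf.norm_n hx) hn hθ
  rw [Sf.cc]
  nlinarith

theorem line (K : Kit) (hδ : 0 < δ) (h1 : 10 * r ≤ π.ε) (h2 : ‖z‖ + r ≤ π.R) (p : E) :
    S.LS (hh S π n z r δ) p θ ≤ indicator {p | ∃ l : ℝ, p + l • θ ∈ ball z r} 1 p +
      (4 * S.LS (vv S π z r δ θ) p θ + S.LS (ms S π n z r δ θ) p θ) := by
  have hπ := hG.rg
  have R1 := hπ.R1
  have η1 := pow_le_pow_left₀ hπ.η0.le hπ.η1 2
  have α1 := pow_le_pow_left₀ hπ.α0.le hπ.α1 2
  have sb : ball z (r - δ) ⊆ ball z r := ball_subset_ball (by linarith)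
  have nb : ∀ x ∈ ball z r, ‖x‖ ≤ π.R := fun x hx => by
    linarith [norm_le_norm_sub_add x z, mem_ball_iff_norm.1 hx]
  obtain ⟨T, hT⟩ := hits hG p hθ
  have t1 : ∀ l ∈ T, S.w (p + l • θ) = 0 := fun l hl => ((hT l).1 hl).1
  have al' := fun (l : ℝ) (e : S.w (p + l • θ) = 0) (h : hh S π n z r δ (p + l • θ) ≠ 0) =>
    al_ne hG hn hθ hc (hG.ok.reg _ e) (right_ne_zero_of_mul h)
  have bl := fun (l : ℝ) (h : hh S π n z r δ (p + l • θ) ≠ 0) => (ch_ne hδ).1 (left_ne_zero_of_mul h)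
  rw [Sf.LS, Sf.LS, Sf.LS, fsum _ t1 fun l e h => (hT l).2 ⟨e, by linarith [nb _ (sb (bl l h))],
      by linarith [al' l e h]⟩,
    fsum _ t1 fun l e h => (hT l).2 ⟨e, by linarith [nb _ ((ch_ne hδ).1 (left_ne_zero_of_mul h))],
      by linarith [not_lt.1 (mt (RS_zero K.nsc hG (hG.ok.reg _ e)) (right_ne_zero_of_mul h))]⟩,
    fsum (fun l => ms S π n z r δ θ (p + l • θ)) t1 fun l e h => (hT l).2 ⟨e, by
      linarith [nb _ ((ch_ne hδ).1 (right_ne_zero_of_mul (left_ne_zero_of_mul h)))],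
      (cu_ne hπ (left_ne_zero_of_mul (left_ne_zero_of_mul h))).le⟩,
    Finset.mul_sum, ← Finset.sum_add_distrib, ← Finset.sum_filter_ne_zero]
  have g0 : ∀ l : ℝ, 0 ≤ 4 * vv S π z r δ θ (p + l • θ) + ms S π n z r δ θ (p + l • θ) := fun l =>
    add_nonneg (mul_nonneg (by norm_num) vv_nn) ms_nn
  rcases (T.filter fun l => hh S π n z r δ (p + l • θ) ≠ 0).eq_empty_or_nonempty with e | ⟨l₀, e⟩
  · rw [e, Finset.sum_empty]
    exact add_nonneg (indicator_nonneg (fun _ _ => zero_le_one) _) (Finset.sum_nonneg fun l _ => g0 l)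
  rw [indicator_of_mem (by exact ⟨l₀, sb (bl _ (Finset.mem_filter.1 e).2)⟩)]
  refine ((Finset.sum_le_card_nsmul _ _ 1 fun _ _ => hh_le).trans_eq (nsmul_one _)).trans
    (count g0 fun l hl l' hl' hlt hk => ?_)
  obtain ⟨a1, a2⟩ := Finset.mem_filter.1 hl
  obtain ⟨b1, b2⟩ := Finset.mem_filter.1 hl'
  have y : ∀ j : ℝ, p + l • θ + j • θ = p + (l + j) • θ := fun j => by rw [add_smul, add_assoc]
  have y' : yy (p + l • θ, θ, l' - l) = p + l' • θ := by rw [yy, y, add_sub_cancel]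
  have d0 := sub_pos.2 hlt
  have d1 : l' - l < 2 * r := by
    have := dist_triangle_right (p + l' • θ) (p + l • θ) z
    rw [dist_eq_norm, add_sub_add_left_eq_sub, ← sub_smul, norm_smul, hθ, mul_one,
      Real.norm_of_nonneg d0.le] at this
    linarith [mem_ball.1 (sb (bl l a2)), mem_ball.1 (sb (bl l' b2))]
  rcases pair K hG (z := (p + l • θ, θ, l' - l)) ⟨t1 l a1, hθ, d0, y' ▸ t1 l' b1⟩
    (nb _ (sb (bl l a2))) (by simp only; linarith) (al' l (t1 l a1) a2)
    (by rw [Sf.cs2, y']; exact al' l' (t1 l' b1) b2) with h | ⟨j, j0, j1, j2, j3⟩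
  · refine ⟨l, a1, le_rfl, hlt, le_add_of_le_of_nonneg ?_ ms_nn⟩
    rwa [vv, ch_one hδ (bl l a2), one_mul]
  simp only [y] at j1 j2 j3
  have q : p + (l + j) • θ ∈ ball z (r - δ) := by
    have := (convex_ball z (r - δ)).add_smul_mem (bl l a2) (y := (l' - l) • θ)
      (by rw [y, add_sub_cancel]; exact bl l' b2) (t := j / (l' - l))
      ⟨by positivity, (div_le_one d0).2 j1.le⟩
    rwa [smul_smul, div_mul_cancel₀ _ d0.ne', y] at this
  have qT : l + j ∈ T := (hT _).2 ⟨j2, by linarith [nb _ (sb q)], by linarith [sq_nonneg π.η]⟩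
  have q0 : al S π n (p + (l + j) • θ) = 0 := by_contra fun e =>
    hk (l + j) (Finset.mem_filter.2 ⟨qT, mul_ne_zero ((ch_ne hδ).2 q) e⟩) (by linarith) (by linarith)
  refine ⟨l + j, qT, by linarith, by linarith,
    le_add_of_nonneg_of_le (mul_nonneg (by norm_num) vv_nn) ?_⟩
  rw [ms, q0, ch_one hδ q, Par.cu, ct_zero ((le_div_iff₀ (pow_pos hπ.η0 2)).2 (by linarith))]
  norm_num

theorem dir (K : Kit) (L : LIN) (hδ : 0 < δ) (h0 : 0 < r) (h1 : 10 * r ≤ π.ε)
    (h2 : ‖z‖ + r ≤ π.R) : (1 - π.α ^ 2) * S.μ.real (ball z (r - δ - δ)) - Real.pi * r ^ 2 -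
      2 * S.μ.real (Mis S z n r (π.α ^ 2 / 100)) ≤ 4 * ∫ x, |S.cc x θ| * vv S π z r δ θ x ∂S.μ := by
  have hπ := hG.rg
  have hS := hG.ok
  have := hS.fin
  have α2 := pow_pos hπ.α0 2
  have α1 := pow_le_pow_left₀ hπ.α0.le hπ.α1 2
  have nb : ∀ x ∈ closedBall z r, ‖x‖ ≤ π.R := fun x hx => by
    linarith [norm_le_norm_sub_add x z, mem_closedBall_iff_norm.1 hx]
  have ev : ∀ x, S.w x = 0 → S.s x θ = 0 → ∀ c > 0, ∀ᶠ y in 𝓝 x, S.g y ≠ 0 ∧ S.cc y θ ^ 2 < c :=
    fun x hx e c hc => (hS.sg.continuous.continuousAt.eventually_ne (hS.reg x hx)).and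
      (((cd_cc hS (hS.reg x hx) θ).continuousAt.pow 2).eventually_lt continuousAt_const
        (by simpa [Sf.cc_eq, e] using hc))
  have key : ∀ f : E → ℝ, (∀ x, ch z r δ x = 0 → f x = 0) →
      (∀ x, S.g x ≠ 0 → ContDiffAt ℝ 0 f x) →
      (∃ c > 0, ∀ x, S.g x ≠ 0 → S.cc x θ ^ 2 < c → f x = 0) → _ := fun f a b ⟨c, c0, hc⟩ =>
    L S θ f π.R hS hθ fun x hx => by
      by_cases e : x ∈ closedBall z r
      · by_cases e' : S.s x θ = 0
        · exact .inr ((ev x hx e' c c0).mono fun y hy => hc y hy.1 hy.2)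
        · exact .inl ⟨nb x e, e', b x (hS.reg x hx)⟩
      · exact .inr ((ch_ev hδ e).mono a)
  obtain ⟨i1, e1⟩ := key (hh S π n z r δ) (fun x hx => by_contra fun e => (ch_ne hδ).2
      (ball_subset_ball (by linarith) ((ch_ne hδ).1 (left_ne_zero_of_mul e))) hx)
    (fun x hx => (c0 ch_cont x).mul (cd_al hS hx)) ⟨1 / 2, one_half_pos, fun x hx e =>
      by_contra fun e' => by linarith [al_ne hG hn hθ hc hx (right_ne_zero_of_mul e')]⟩
  obtain ⟨i2, e2⟩ := key (vv S π z r δ θ) (fun x hx => by rw [vv, hx, zero_mul])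
    (fun x hx => (c0 ch_cont x).mul ((K.ca.rsk S π 0 _ x θ hS hπ (FF_cl K.nsc hS hπ) hx).1.comp x
      (f := fun y => (y, θ)) (contDiffAt_id.prodMk contDiffAt_const)))
    ⟨1 / 2, one_half_pos, fun x hx e => by rw [vv, RS_zero K.nsc hG hx e, mul_zero]⟩
  obtain ⟨i3, e3⟩ := key (ms S π n z r δ θ) (fun x hx => by rw [ms, hx, mul_zero, zero_mul])
    (fun x hx => (((c0 (f := π.cu) (by unfold Par.cu; fun_prop) _).comp x
      ((cd_cc hS hx θ).pow 2)).mul (c0 ch_cont x)).mul (contDiffAt_const.sub (cd_al hS hx)))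
    ⟨π.η ^ 2 / 2, half_pos (pow_pos hπ.η0 2), fun x _ e => by_contra fun e' =>
      e.not_gt (cu_ne hπ (left_ne_zero_of_mul (left_ne_zero_of_mul e')))⟩
  obtain ⟨i4, e4⟩ := K.con.cyl z θ r hθ h0
  have a1 := integral_mono i1 (i4.add ((i2.const_mul 4).add i3)) fun p => by
    have b0 : 0 ≤ bet ⟪p, θ⟫ := mul_nonneg (inv_nonneg.2 (integral_nonneg fun _ => ct_nn _)) (ct_nn _)
    refine (mul_le_mul_of_nonneg_left (line hG hn hθ hc K hδ h1 h2 p) b0).trans_eq ?_
    simp only [Pi.add_apply]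
    ring
  rw [integral_add' i4 ((i2.const_mul 4).add i3), integral_add' (i2.const_mul 4) i3,
    integral_const_mul, ← e1, ← e2, ← e3] at a1
  have mn := (meas_n hS).inner_const (𝕜 := ℝ) (c := n)
  have mM : MeasurableSet (Mis S z n r (π.α ^ 2 / 100)) := measurableSet_ball.inter
    ((measurableSet_eq_fun hS.sm.continuous.measurable measurable_const).inter
      (measurableSet_le measurable_const (measurable_const.sub (mn.pow_const 2))))
  have ii : ∀ {s : Set E}, MeasurableSet s → s ⊆ ball z r →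
      Integrable (s.indicator (1 : E → ℝ)) S.μ := fun hs h =>
    (integrableOn_const ((measure_mono h).trans_lt measure_ball_lt_top).ne).integrable_indicator hs
  have iM := ii mM fun x hx => hx.1
  have a2 : ∫ x, |S.cc x θ| * ms S π n z r δ θ x ∂S.μ ≤ S.μ.real (Mis S z n r (π.α ^ 2 / 100)) := by
    rw [← integral_indicator_one mM]
    refine integral_mono_of_nonneg (.of_forall fun x => mul_nonneg (abs_nonneg _) ms_nn) iM
      (hS.sup.mono fun x hx => ?_)
    by_cases e : ms S π n z r δ θ x = 0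
    · simp only [e, mul_zero]
      exact indicator_nonneg (fun _ _ => zero_le_one) _
    rw [indicator_of_mem (by
      refine ⟨(ch_ne hδ).1 (right_ne_zero_of_mul (left_ne_zero_of_mul e)), hx, by_contra fun e' =>
        right_ne_zero_of_mul e ?_⟩
      rw [al, ct_one ((div_le_one (by positivity)).2 (not_le.1 e').le), sub_self])]
    exact mul_le_one₀ (S.abs_cc_le x hθ) ms_nn ms_le
  have i5 : Integrable (fun x => |S.cc x θ| * hh S π n z r δ x) S.μ := by
    refine (ii measurableSet_ball subset_rfl).mono' (((meas_n hS).inner_const (𝕜 := ℝ)).abs.mul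
      (ch_cont.measurable.mul (ct_cont.measurable.comp ((measurable_const.sub
        (mn.pow_const 2)).div_const _)))).aestronglyMeasurable (.of_forall fun x => ?_)
    rw [Real.norm_of_nonneg (mul_nonneg (abs_nonneg _) hh_nn)]
    by_cases e : hh S π n z r δ x = 0
    · rw [e, mul_zero]
      exact indicator_nonneg (fun _ _ => zero_le_one) _
    rw [indicator_of_mem (ball_subset_ball (by linarith) ((ch_ne hδ).1 (left_ne_zero_of_mul e)))]
    exact mul_le_one₀ (S.abs_cc_le x hθ) hh_nn hh_le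
  have sb : ball z (r - δ - δ) ⊆ ball z r := ball_subset_ball (by linarith)
  have a3 := integral_mono_ae ((ii measurableSet_ball sb).const_mul (1 - π.α ^ 2)) (i5.add iM)
    (hS.sup.mono fun x hx => by
      have p1 : 0 ≤ |S.cc x θ| * hh S π n z r δ x := mul_nonneg (abs_nonneg _) hh_nn
      simp only [Pi.add_apply]
      by_cases e : x ∈ ball z (r - δ - δ)
      · by_cases e' : x ∈ Mis S z n r (π.α ^ 2 / 100)
        · simp only [indicator_of_mem e, indicator_of_mem e', Pi.one_apply]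
          linarith
        have p2 : al S π n x = 1 :=
          ct_one ((div_le_one (by positivity)).2 (not_le.1 fun h => e' ⟨sb e, hx, h⟩).le)
        have p3 := al_ne hG hn hθ hc (hS.reg x hx) (p2 ▸ one_ne_zero)
        have p4 := S.cs1_le_kk (z := (x, θ, 0)) hθ
        simp only [Sf.cs1, Sf.kk] at p4
        simp only [indicator_of_mem e, indicator_of_notMem e', Pi.one_apply, hh, p2, ch_one hδ e]
        linarith
      · rw [indicator_of_notMem e, mul_zero]
        exact add_nonneg p1 (indicator_nonneg (fun _ _ => zero_le_one) _))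
  rw [integral_add' i5 iM, integral_const_mul, integral_indicator_one measurableSet_ball,
    integral_indicator_one mM] at a3
  linarith

end

end Lc

open Lc in
theorem lc (K : Kit) (L : LIN) : LC := by
  obtain ⟨c, c0, hc⟩ := K.con.lo
  obtain ⟨c', C, c1, hC⟩ := K.con.mm
  have C0 : 0 < max C 1 := lt_max_of_lt_right one_pos
  refine ⟨c / (36 * max C 1), by positivity, fun S π Λ r z n hG hn h0 h1 h2 => ?_⟩
  have hπ := hG.rg
  have hS := hG.ok
  have := hS.fin
  have cl := FF_cl K.nsc hS hπ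
  have m0 : 0 ≤ π.mm := le_trans (by positivity) (hC π hπ).1
  have g0 : ∀ u, 0 ≤ gam u := fun u => mul_nonneg (ct_nn _) (sub_nonneg.2 (ct_le _))
  have A0 : ∀ x, 0 ≤ S.AV (FF S π) x := fun x =>
    integral_nonneg fun u => mul_nonneg (g0 u) (mul_nonneg (abs_nonneg _) (RS_nn _ _))
  have key : ∀ δ > 0, c / (36 * max C 1) * π.mm * ((1 - π.α ^ 2) * S.μ.real (ball z (r - δ - δ)) -
      Real.pi * r ^ 2 - 2 * S.μ.real (Mis S z n r (π.α ^ 2 / 100))) ≤
      ∫ x in ball z r, S.AV (FF S π) x ∂S.μ := fun δ hδ => by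
    set D := (1 - π.α ^ 2) * S.μ.real (ball z (r - δ - δ)) - Real.pi * r ^ 2 -
      2 * S.μ.real (Mis S z n r (π.α ^ 2 / 100))
    rcases le_total D 0 with D0 | D0
    · exact (mul_nonpos_of_nonneg_of_nonpos (by positivity) D0).trans (integral_nonneg A0)
    have i1 : Integrable (Function.uncurry fun x u => ch z r δ x *
        (gam u * (|S.cc x (un u)| * S.RS (FF S π) x (un u)))) (S.μ.prod volume) :=
      (K.ca.ix S π _ hS hπ cl).bdd_mul (c := 1) (ch_cont.comp continuous_fst).aestronglyMeasurable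
        (.of_forall fun p => (Real.norm_of_nonneg ch_nn).trans_le ch_le)
    have a1 := mul_le_mul_of_nonneg_right
      (hc n (π.α / 3) hn (by linarith [hπ.α0]) (by linarith [hπ.α1])) (div_nonneg D0 zero_le_four)
    have a2 : c / (36 * max C 1) * π.mm * D ≤ c * (π.α / 3) ^ 2 * (D / 4) := by
      have := mul_le_mul_of_nonneg_left ((hC π hπ).2.trans (mul_le_mul_of_nonneg_right
        (le_max_left C 1) (sq_nonneg _))) (show 0 ≤ c / (36 * max C 1) by positivity)
      refine (mul_le_mul_of_nonneg_right this D0).trans_eq ?_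
      field_simp
      ring
    refine (a2.trans a1).trans ?_
    rw [← integral_mul_const, ← integral_indicator measurableSet_ball]
    refine (integral_mono_of_nonneg (.of_forall fun u => mul_nonneg (mul_nonneg (g0 u)
      (indicator_nonneg (fun _ _ => zero_le_one) _)) (div_nonneg D0 zero_le_four))
      i1.integral_prod_right (.of_forall fun u => ?_)).trans ((integral_integral_swap i1).ge.trans
      (integral_mono_of_nonneg (.of_forall fun x => integral_nonneg fun u => mul_nonneg ch_nn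
        (mul_nonneg (g0 u) (mul_nonneg (abs_nonneg _) (RS_nn _ _))))
        ((K.ca.avi S π _ hS hπ cl).indicator measurableSet_ball) (.of_forall fun x => ?_)))
    · have e : ∫ x, ch z r δ x * (gam u * (|S.cc x (un u)| * S.RS (FF S π) x (un u))) ∂S.μ =
          gam u * ∫ x, |S.cc x (un u)| * vv S π z r δ (un u) x ∂S.μ := by
        rw [← integral_const_mul]
        exact integral_congr_ae (.of_forall fun x => by simp only [vv]; ring)
      refine le_of_le_of_eq ?_ e.symm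
      simp only [mul_assoc]
      by_cases u0 : u = 0
      · simp [u0, gam, ct_one]
      refine mul_le_mul_of_nonneg_left ?_ (g0 u)
      by_cases hu : u ∈ {u | 1 - ⟪n, un u⟫ ^ 2 ≤ (π.α / 3) ^ 2}
      · rw [indicator_of_mem hu, one_mul]
        linarith [dir hG hn (norm_un u0) hu K L hδ h0 h1 h2]
      · rw [indicator_of_notMem hu, zero_mul]
        exact integral_nonneg fun x => mul_nonneg (abs_nonneg _) vv_nn
    · simp only [integral_const_mul]
      by_cases e : x ∈ ball z r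
      · rw [indicator_of_mem e]
        exact mul_le_of_le_one_left (A0 x) ch_le
      · rw [indicator_of_notMem e, not_not.1 (mt (ch_ne hδ).1 e), zero_mul]
  have t1 := tendsto_measure_iUnion_atTop (μ := S.μ)
    (s := fun k : ℕ => ball z (r - 1 / (k + 1) - 1 / (k + 1))) fun a b hab => ball_subset_ball (by
      linarith [Nat.one_div_le_one_div (α := ℝ) hab])
  have e : ⋃ k : ℕ, ball z (r - 1 / (k + 1) - 1 / (k + 1)) = ball z r := by
    refine (iUnion_subset fun k => ball_subset_ball (by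
      linarith [Nat.one_div_pos_of_nat (α := ℝ) (n := k)])).antisymm fun x hx => ?_
    obtain ⟨k, hk⟩ := exists_nat_one_div_lt (half_pos (sub_pos.2 (mem_ball.1 hx)))
    exact mem_iUnion.2 ⟨k, mem_ball.2 (by linarith)⟩
  rw [e] at t1
  exact le_of_tendsto' ((((((ENNReal.tendsto_toReal measure_ball_lt_top.ne).comp t1).const_mul
    _).sub_const _).sub_const _).const_mul _) fun k => key _ Nat.one_div_pos_of_nat

end Vale.Agent.P218M1
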