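import Vale.Agent.P218M1.Cut

/-!
# P218M1: the bounds for the functional at the two ends of the time interval
-/

open MeasureTheory Metric Filter Topology Set
open scoped ContDiff RealInnerProductSpace ENNReal

noncomputable section

namespace Vale.Agent.P218M1

namespace Low

variable {S : Sf} {π : Par} {Λ : ℝ}

theorem o0_nn (z : Q) : 0 ≤ S.o0 π z :=
  mul_nonneg (mul_nonneg (mul_nonneg (Par.B0_nonneg _) (Par.K0_nonneg _)) (ct_nonneg _))
    (Par.xi_nonneg _)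

theorem o0_le (z : Q) : S.o0 π z ≤ π.B0 (S.cs1 z) := by
  rw [Sf.o0, mul_assoc, mul_assoc]
  exact mul_le_of_le_one_right (Par.B0_nonneg _) (mul_le_one₀ (Par.K0_le _)
    (mul_nonneg (ct_nonneg _) (Par.xi_nonneg _))
    (mul_le_one₀ (ct_le_one _) (Par.xi_nonneg _) (Par.xi_le _)))

theorem psi_nn (z : Q) : 0 ≤ S.Psi π z :=
  mul_nonneg (mul_nonneg (Par.W_nonneg _) (sq_nonneg _)) (G0_nonneg _)

theorem psi_ne (h : π.Rg) {z : Q} (hz : S.Psi π z ≠ 0) :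
    S.Box π z ∧ ‖z.1‖ < 2 * π.R ∧ z.2.2 ≤ 2 * π.ε ∧ 1 / 4 ≤ S.cs2 z ∧ S.N π z < 1 ∧
      1 / 2 ≤ S.kk z := by
  have a1 := h.W_ne (left_ne_zero_of_mul (left_ne_zero_of_mul hz))
  have a2 : S.o0 π z ≠ 0 := fun e =>
    right_ne_zero_of_mul (left_ne_zero_of_mul hz) (by rw [e]; simp)
  have a3 := lt_of_G0_ne (right_ne_zero_of_mul hz)
  have b1 := h.xi_ne (right_ne_zero_of_mul a2)
  have b2 := lt_of_ct_ne (right_ne_zero_of_mul (left_ne_zero_of_mul a2))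
  have b3 := Par.K0_ne (right_ne_zero_of_mul (left_ne_zero_of_mul (left_ne_zero_of_mul a2)))
  have b4 := h.B0_ne (left_ne_zero_of_mul (left_ne_zero_of_mul (left_ne_zero_of_mul a2)))
  have c1 : 1 / 2 ≤ S.kk z := by
    have := S.kk_sq z
    nlinarith [h.α2.2, S.kk_nonneg z]
  have c2 : z.2.2 ≤ 2 * π.ε := by
    rw [Sf.tt, div_lt_one h.ε0] at a3
    nlinarith [h.ρ0]
  have c3 : ‖z.1‖ < 2 * π.R :=
    lt_of_pow_lt_pow_left₀ 2 (by linarith [h.R0]) (by nlinarith [pow_pos h.R0 2])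
  exact ⟨⟨by linarith [h.R0], b1.le, by linarith [h.ε1], by linarith [h.α2.2],
    by linarith [h.η2.2]⟩, c3, c2, b3.le, by linarith, c1⟩

theorem psi_le (h : π.Rg) (z : Q) : S.Psi π z ≤ π.B0 (S.cs1 z) ^ 2 := by
  by_cases hz : S.Psi π z = 0
  · rw [hz]; positivity
  have hd := (half_pos h.ρ0).trans_le (psi_ne h hz).1.2.1
  have ht : 0 ≤ S.tt π z := div_nonneg (mul_nonneg hd.le (S.kk_nonneg z)) h.ε0.le
  calc S.Psi π z ≤ 1 * π.B0 (S.cs1 z) ^ 2 * 1 := by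
        unfold Sf.Psi Sf.Wt
        gcongr
        exacts [G0_nonneg _, Par.W_le _, o0_nn z, o0_le z, G0_le ht]
    _ = _ := by ring

theorem RS_nn {f : Q → ℝ} (hf : ∀ z, 0 ≤ f z) (x θ : E) : 0 ≤ S.RS f x θ :=
  finsum_nonneg fun _ => finsum_nonneg fun _ => hf _

theorem AV_nn {f : Q → ℝ} (hf : ∀ z, 0 ≤ f z) (x : E) : 0 ≤ S.AV f x :=
  integral_nonneg fun u => mul_nonneg (gam_nonneg u) (mul_nonneg (abs_nonneg _) (RS_nn hf _ _))

theorem RS_ne {f : Q → ℝ} {x θ : E} (h : S.RS f x θ ≠ 0) :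
    ∃ d : ℝ, S.w (x + d • θ) = 0 ∧ f (x, θ, d) ≠ 0 := by
  by_contra h1
  push Not at h1
  exact h (finsum_mem_eq_zero_of_forall_eq_zero (s := {d : ℝ | S.w (x + d • θ) = 0}) h1)

/-- one hit -/
theorem RS_psi (unq : UNQ) (hG : Good S π Λ) {x θ : E} (hx : S.w x = 0) (hθ : ‖θ‖ = 1) :
    S.RS (S.Psi π) x θ ≤ π.B0 (S.cc x θ ^ 2) ^ 2 := by
  by_cases h : S.RS (S.Psi π) x θ = 0
  · rw [h]; positivity
  obtain ⟨d, h1, h2⟩ := RS_ne h
  have key : ∀ d d' : ℝ, S.w (x + d • θ) = 0 → S.Psi π (x, θ, d) ≠ 0 → S.w (x + d' • θ) = 0 →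
      S.Psi π (x, θ, d') ≠ 0 → ¬ d < d' := fun d d' a1 a2 a3 a4 a5 => by
    have b := psi_ne hG.rg a2
    have b' := psi_ne hG.rg a4
    have := (unq.u1 S π Λ x θ d d' hG ⟨hx, hθ, (half_pos hG.rg.ρ0).trans_le b.1.2.1, a1⟩
      ⟨hx, hθ, (half_pos hG.rg.ρ0).trans_le b'.1.2.1, a3⟩ b'.1 a5 b.2.2.2.1).1
    linarith [b'.2.2.2.2.1]
  rw [Sf.RS, finsum_eq_single _ d fun d' hd => ?_, finsum_eq_if, if_pos h1]
  · exact psi_le hG.rg (x, θ, d)
  · classical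
    rw [finsum_eq_if]
    split_ifs with h3
    · by_contra h4
      exact hd (le_antisymm (not_lt.1 (key _ _ h1 h2 h3 h4)) (not_lt.1 (key _ _ h3 h4 h1 h2)))
    · rfl

theorem mm_pos (con : CON) (h : π.Rg) : 0 < π.mm := by
  obtain ⟨c, C, hc, h1⟩ := con.mm
  exact (mul_pos hc h.α2.1).trans_le (h1 π h).1

theorem AV_psi (con : CON) (unq : UNQ) (hG : Good S π Λ) {x : E} (hx : S.w x = 0) :
    S.AV (S.Psi π) x ≤ π.mm := by
  have e := con.inv π (S.n x) (Sf.norm_n (hG.ok.reg x hx))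
  refine (integral_mono_of_nonneg (ae_of_all _ fun u => mul_nonneg (gam_nonneg u)
    (mul_nonneg (abs_nonneg _) (RS_nn psi_nn _ _)))
    (Integrable.of_integral_ne_zero (e ▸ (mm_pos con hG.rg).ne')) (ae_of_all _ fun u => ?_)).trans_eq e
  by_cases hu : u = 0
  · simp only [hu, gam_zero, zero_mul, le_refl]
  · exact mul_le_mul_of_nonneg_left (mul_le_mul_of_nonneg_left
      (RS_psi unq hG hx (norm_un hu)) (abs_nonneg _)) (gam_nonneg u)

theorem pair (hG : Good S π Λ) {x : E} (h : S.AV (S.Psi π) x ≠ 0) :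
    ‖x‖ < 2 * π.R ∧ S.Pair π.ε x := by
  obtain ⟨u, hu⟩ : ∃ u, gam u * (|S.cc x (un u)| * S.RS (S.Psi π) x (un u)) ≠ 0 := by
    by_contra h1
    push Not at h1
    exact h (by simp only [Sf.AV, h1, integral_zero])
  have h0 : u ≠ 0 := fun e => left_ne_zero_of_mul hu (e ▸ gam_zero)
  obtain ⟨d, h1, h2⟩ := RS_ne (right_ne_zero_of_mul (right_ne_zero_of_mul hu))
  have b := psi_ne hG.rg h2
  have hd : 0 < d := (half_pos hG.rg.ρ0).trans_le b.1.2.1
  have e : ‖x + d • un u - x‖ = d := by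
    rw [add_sub_cancel_left, norm_smul, norm_un h0, mul_one, Real.norm_of_nonneg hd.le]
  refine ⟨b.2.1, _, h1, fun e' => hd.ne' (by rw [← e, e', sub_self, norm_zero]),
    e.trans_le b.2.2.1, ?_⟩
  rw [e, add_sub_cancel_left, real_inner_smul_left, abs_mul, abs_of_pos hd, real_inner_comm]
  exact (div_eq_mul_one_div d 2).trans_le (mul_le_mul_of_nonneg_left b.2.2.2.2.2 hd.le)

theorem cs_sm (hS : S.Ok) {z : Q} {y : Q → E} (hy : ContDiff ℝ 0 y) (h : S.g (y z) ≠ 0) :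
    ContDiffAt ℝ 0 (fun z => S.cc (y z) z.2.1) z := by
  have h1 : ContDiffAt ℝ 0 (fun z => S.g (y z)) z :=
    ((hS.sg.of_le (by simp)).comp hy).contDiffAt
  exact (((h1.norm ℝ h).inv (norm_ne_zero_iff.2 h)).smul h1).inner ℝ (by fun_prop)

theorem psi_cl (nsc : NSC) (hS : S.Ok) (h : π.Rg) : S.Cl π 0 (S.Psi π) := by
  have hy : ContDiff ℝ 0 yy := by unfold yy; fun_prop
  have c2 : ∀ z ∈ S.O, ContDiffAt ℝ 0 S.cs2 z := fun z hz => (cs_sm hS hy (Sf.O.g2 hz)).pow 2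
  have hN : S.Sm 0 (S.N π) := nsc.sm S π 0 _ hS h
    ⟨fun z hz => ((π.sg0_smooth.of_le (by simp)).contDiffAt.comp z (c2 z hz)).pow 2,
      fun z _ hz => by rw [h.sg0_zero (by linarith [h.η2.1])]; simp⟩
  refine ⟨fun z hz => ?_, fun z _ _ hb => by_contra fun h2 => hb (psi_ne h h2).1⟩
  have c0 := cs_sm hS contDiff_fst (Sf.O.g1 hz)
  have c1 : ContDiffAt ℝ 0 S.cs1 z := c0.pow 2
  have ck : ContDiffAt ℝ 0 S.kk z := (contDiffAt_abs (Sf.cc_ne hz.1)).comp z c0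
  have f0 : ∀ {f : ℝ → ℝ} {g : Q → ℝ}, ContDiff ℝ ∞ f → ContDiffAt ℝ 0 g z →
      ContDiffAt ℝ 0 (fun z => f (g z)) z := fun hf hg =>
    (hf.of_le (by simp)).contDiffAt.comp z hg
  exact (((π.W_smooth.of_le (by simp)).contDiffAt.comp z contDiffAt_fst).mul
    (((((f0 π.B0_smooth c1).mul (f0 Par.K0_smooth (c2 z hz))).mul
      (f0 ct_smooth (contDiffAt_const.mul (hN z hz)))).mul
        (f0 π.xi_smooth contDiffAt_snd.snd)).pow 2)).mul
    ((G0_cd (k := 0) (by simp)).contDiffAt.comp z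
      ((contDiffAt_snd.snd.mul ck).div_const _))

theorem AV_W (h : π.Rg) (x : E) : S.AV (S.Psi π) x =
    π.W x * S.AV (fun z => π.pt z.1 ^ 2 * S.o0 π z ^ 2 * G0 (S.tt π z)) x := by
  simp only [Sf.AV, ← integral_const_mul]
  refine integral_congr_ae (ae_of_all _ fun u => ?_)
  have e : S.RS (S.Psi π) x (un u) = π.W x *
      S.RS (fun z => π.pt z.1 ^ 2 * S.o0 π z ^ 2 * G0 (S.tt π z)) x (un u) := by
    simp only [Sf.RS, ← smul_eq_mul (π.W x), smul_finsum]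
    refine finsum_congr fun d => finsum_congr fun _ => ?_
    by_cases h0 : π.W x = 0
    · simp [Sf.Psi, Sf.Wt, h0]
    · simp only [Sf.Psi, Sf.Wt, h.pt_one (h.W_ne h0).le, smul_eq_mul]; ring
  simp only [e]; ring

theorem one {κ R₀ r c B : ℝ} {z : E} (hG : Good S π Λ) (hi : Integrable (S.AV (S.Psi π)) S.μ)
    (hκ : 0 < κ) (hα : π.α ^ 2 * (1 + κ) ≤ κ / 2) (hR : R₀ + 1 ≤ π.R) (r0 : 0 < r)
    (r1 : r ≤ π.ε / 10) (hc : 0 < c) (hm : 0 < π.mm) (y1 : ‖z‖ < R₀)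
    (y2 : (1 + κ) * (Real.pi * r ^ 2) ≤ S.μ.real (ball z r))
    (lb : Real.pi * r ^ 2 ≤ S.μ.real (ball z r) → ∃ n, ‖n‖ = 1 ∧
      S.μ.real (Mis S z n r (π.α ^ 2 / 100)) ≤ B * Til S z r / (π.α ^ 2 / 100) ^ 2)
    (lc : ∀ n, ‖n‖ = 1 → c * π.mm * ((1 - π.α ^ 2) * S.μ.real (ball z r) - Real.pi * r ^ 2 -
      2 * S.μ.real (Mis S z n r (π.α ^ 2 / 100))) ≤
      ∫ x in ball z r, S.AV (fun z => π.pt z.1 ^ 2 * S.o0 π z ^ 2 * G0 (S.tt π z)) x ∂S.μ) :
    Real.exp (-(R₀ + 1) ^ 2 / 4) * (c * π.mm * (κ / 2 * r ^ 2 -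
      2 * B / (π.α ^ 2 / 100) ^ 2 * Til S z r)) ≤ ∫ x in ball z r, S.AV (S.Psi π) x ∂S.μ := by
  have h := hG.rg
  have hw := Real.exp_pos (-(R₀ + 1) ^ 2 / 4)
  have hp : 0 < Real.pi * r ^ 2 := by positivity
  obtain ⟨n, hn, h1⟩ := lb (by linarith [mul_pos hκ hp])
  have h3 : κ / 2 * r ^ 2 ≤ (1 - π.α ^ 2) * S.μ.real (ball z r) - Real.pi * r ^ 2 := by
    have h4 := mul_le_mul_of_nonneg_left y2 (by linarith [h.α2.2] : 0 ≤ 1 - π.α ^ 2)
    have h5 : r ^ 2 ≤ Real.pi * r ^ 2 :=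
      le_mul_of_one_le_left (by positivity) (by linarith [Real.pi_gt_three])
    linarith [mul_le_mul_of_nonneg_right hα hp.le, mul_le_mul_of_nonneg_left h5 hκ.le]
  refine (mul_le_mul_of_nonneg_left ((mul_le_mul_of_nonneg_left ?_ (by positivity)).trans
    (lc n hn)) hw.le).trans ?_
  · have e : 2 * B / (π.α ^ 2 / 100) ^ 2 * Til S z r =
        2 * (B * Til S z r / (π.α ^ 2 / 100) ^ 2) := by ring
    linarith
  · have f0 := AV_nn (S := S) (f := fun z => π.pt z.1 ^ 2 * S.o0 π z ^ 2 * G0 (S.tt π z))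
      fun z => mul_nonneg (by positivity) (G0_nonneg _)
    rw [← integral_const_mul]
    refine integral_mono_of_nonneg (ae_of_all _ fun x => mul_nonneg hw.le (f0 x))
      hi.integrableOn ((ae_restrict_mem measurableSet_ball).mono fun x hx => ?_)
    have h4 : ‖x‖ ≤ R₀ + 1 := by
      have := norm_sub_norm_le x z
      rw [mem_ball_iff_norm] at hx
      linarith [h.ε1]
    beta_reduce
    rw [AV_W h, π.W_eq, h.ps_one (h4.trans hR), one_pow, mul_one]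
    refine mul_le_mul_of_nonneg_right (Real.exp_le_exp.2 ?_) (f0 x)
    linarith [pow_le_pow_left₀ (norm_nonneg x) h4 2]

end Low

open Low

theorem up (k : Kit) : UP := fun S π Λ R' hG hR => by
  have := hG.ok.fin
  set U := {x | ‖x‖ < R' ∧ S.w x = 0 ∧ S.Pair π.ε x}
  have hU : S.μ (toMeasurable S.μ U) ≠ ⊤ := by
    rw [measure_toMeasurable]
    exact ((measure_mono fun x (hx : x ∈ U) => mem_closedBall_zero_iff.2 hx.1.le).trans_lt
      (isCompact_closedBall (0 : E) R').measure_lt_top).ne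
  refine (integral_mono_of_nonneg (g := (toMeasurable S.μ U).indicator fun _ => π.mm)
    (ae_of_all _ (AV_nn psi_nn)) ((integrableOn_const hU).integrable_indicator
      (measurableSet_toMeasurable _ _)) (hG.ok.sup.mono fun x hx => ?_)).trans_eq ?_
  · by_cases h : S.AV (S.Psi π) x = 0
    · exact h.trans_le (indicator_nonneg (fun _ _ => (mm_pos k.con hG.rg).le) x)
    · have h1 := pair hG h
      rw [indicator_of_mem (subset_toMeasurable _ U ⟨h1.1.trans_le hR, hx, h1.2⟩)]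
      exact AV_psi k.con k.unq hG hx
  · rw [integral_indicator (measurableSet_toMeasurable _ _), setIntegral_const, smul_eq_mul,
      mul_comm, Measure.real, measure_toMeasurable]
    rfl

theorem low (k : Kit) (la : LA) (lb : LB) (lc : LC) : LOW := fun κ m₀ R₀ hκ hm hR => by
  obtain ⟨c, hc, lc⟩ := lc
  have hw := Real.exp_pos (-(R₀ + 1) ^ 2 / 4)
  refine ⟨Real.exp (-(R₀ + 1) ^ 2 / 4) * (c * (κ * m₀ / 4)), κ / (2 * (1 + κ)),
    by positivity, by positivity, fun Λ α H₀ hα => ?_⟩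
  obtain ⟨A, hA, la⟩ := la Λ R₀ H₀
  obtain ⟨B, hB, lb⟩ := lb Λ
  obtain ⟨J, hJ⟩ := exists_nat_ge (2 * B / (α ^ 2 / 100) ^ 2 * A / (κ * m₀ / 4))
  refine ⟨J, fun S π hG hπ hR1 hH hT => ?_⟩
  subst hπ
  have h := hG.rg
  have hε := h.ε0
  have hm0 := mm_pos k.con h
  have ha : 0 < π.α ^ 2 / 100 := by have := h.α0; positivity
  choose! Z z1 z2 z3 using hT
  obtain ⟨j, hj, hT⟩ := Finset.exists_le_of_sum_le (s := Finset.range (J + 1))
    (g := fun _ => A / (J + 1)) Finset.nonempty_range_add_one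
    ((la S (π.ε / 10) J Z hG.ok hG.ar (by positivity) (by linarith [h.ε1]) hH
      fun j hj => ⟨fun z hz => (z1 j hj z hz).1, z2 j hj⟩).trans_eq (by
        rw [Finset.sum_const, Finset.card_range, nsmul_eq_mul]; push_cast; field_simp))
  replace hj := Nat.lt_succ_iff.1 (Finset.mem_range.1 hj)
  have r1 : π.ε / 10 / 2 ^ j ≤ π.ε / 10 := div_le_self (by positivity) (one_le_pow₀ one_le_two)
  have r0 : 0 < π.ε / 10 / 2 ^ j := by positivity
  replace z1 := z1 j hj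
  replace z2 := z2 j hj
  replace z3 := z3 j hj
  generalize π.ε / 10 / 2 ^ j = r at r0 r1 z1 z2 z3 hT
  have hi := k.ca.avi S π _ hG.ok h (psi_cl k.nsc hG.ok h)
  have hα2 : π.α ^ 2 * (1 + κ) ≤ κ / 2 := by
    have h1 := (le_div_iff₀ (by positivity)).1 hα
    have h2 := mul_le_mul_of_nonneg_right (h.α1.trans (by norm_num : (1 / 10 : ℝ) ≤ 1))
      (mul_pos h.α0 (by positivity : 0 < 1 + κ)).le
    linarith
  have h1 := Finset.sum_le_sum fun z (hz : z ∈ Z j) => one (c := c) (B := B) hG hi hκ hα2 hR1 r0 r1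
    hc (mm_pos k.con h) (z1 z hz).1 (z1 z hz).2 (lb S z r _ hG.ok hG.ar r0 ha)
    fun n hn => lc S π Λ r z n hG hn r0 (by linarith) (by linarith [h.ε1, (z1 z hz).1])
  rw [← integral_biUnion_finset _ (fun _ _ => measurableSet_ball) (fun z hz z' hz' e =>
    ball_disjoint_ball (by rw [dist_eq_norm, ← two_mul]; exact z2 z hz z' hz' e))
    (fun _ _ => hi.integrableOn), ← Finset.mul_sum, ← Finset.mul_sum, Finset.sum_sub_distrib,
    ← Finset.mul_sum (Z j) _ (2 * B / _), Finset.sum_const, nsmul_eq_mul] at h1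
  refine le_trans ?_ (h1.trans (setIntegral_le_integral hi (ae_of_all _ (AV_nn psi_nn))))
  rw [mul_assoc, mul_assoc c, mul_comm _ π.mm, ← mul_assoc c]
  refine mul_le_mul_of_nonneg_left (mul_le_mul_of_nonneg_left ?_ (by positivity)) hw.le
  have h2 := mul_le_mul_of_nonneg_left hT (by positivity : 0 ≤ 2 * B / (π.α ^ 2 / 100) ^ 2)
  have h3 : 2 * B / (π.α ^ 2 / 100) ^ 2 * (A / (J + 1)) ≤ κ * m₀ / 4 := by
    rw [← mul_div_assoc, div_le_iff₀ (by positivity)]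
    rw [div_le_iff₀ (by positivity)] at hJ
    linarith [mul_pos hκ hm]
  linarith [mul_le_mul_of_nonneg_left z3 hκ.le]

end Vale.Agent.P218M1
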