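import Vale.Agent.P218M1.MaC

/-!
# P218M1, row MA: the main term
-/

open MeasureTheory Metric Filter Topology Set
open scoped ContDiff RealInnerProductSpace ENNReal

noncomputable section

namespace Vale.Agent.P218M1

namespace Ma

open Sf

variable {S : Sf} {π : Par} {η : E → ℝ} {th : ℝ → ℝ} {z : Q} {Cw d₁ d₂ L κ Λ : ℝ}
  {gb ga ch : ℝ → ℝ}

section cl

variable (nsc : NSC) (hS : S.Ok) (hπ : π.Rg) (hη : ContDiff ℝ ∞ η) (hth : ContDiff ℝ ∞ th)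
include nsc hS hπ hη hth

theorem cw {k : ℕ} (hz : z ∈ S.O) : ContDiffAt ℝ k (S.Wt π) z ∧
    ContDiffAt ℝ k (fun z => η z.1 ^ 2 * th (S.sq z) ^ 2) z :=
  ⟨(cf π.W_smooth contDiffAt_fst).mul ((co0 hS hz nsc hπ).pow 2), ((cf hη contDiffAt_fst).pow 2).mul
    ((cr (hth.of_le (cast_le_inf k)) (csq hS hz)).pow 2)⟩

theorem cl_m0 : S.Cl π 0 (m0 S π η th) := by
  refine cl_of hπ (fun z hz => ?_) fun z h => ?_
  · exact ((((cw nsc hS hπ hη hth hz).1.mul (cr (G1_cd (by simp)) (ctt hS hz))).mul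
      ((ck hS hz).div_const _)).mul ((cvs hS cy hz.2.1).sub (cvs hS contDiffAt_fst hz.1))).mul
      (cw nsc hS hπ hη hth hz).2
  · rcases h with h | h | h <;> simp [m0, Mm, Wt, Par.W, h, G1_zero]

theorem cl_s1 : S.Cl π 0 (s1 S π η th) := by
  refine cl_of hπ (fun z hz => ?_) fun z h => ?_
  · exact (((cw nsc hS hπ hη hth hz).1.mul (cw nsc hS hπ hη hth hz).2).mul
      ((ctt hS hz).mul (cr (G1_cd (by simp)) (ctt hS hz)).neg)).div_const _
  · rcases h with h | h | h <;> simp [s1, ze, Wt, Par.W, h, G1_zero]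

theorem cl_s2 : S.Cl π 0 (s2 S π η th) := by
  refine cl_of hπ (fun z hz => ?_) fun z h => ?_
  · exact (((cw nsc hS hπ hη hth hz).1.mul (cw nsc hS hπ hη hth hz).2).mul
      (cr (G2_cd (by simp)) (ctt hS hz))).mul
      ((cP hS contDiffAt_fst (O.g1 hz) (cgt hS hz)).inner ℝ (cgt hS hz))
  · rcases h with h | h | h <;> simp [s2, ze, Wt, Par.W, h, G2_zero]

theorem cl_et : S.Cl π 0 (et S π η th) := by
  refine cl_of hπ (fun z hz => ?_) fun z h => ?_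
  · exact (((((cf π.W_smooth contDiffAt_fst).mul ((((cr Par.K0_cd (c2 hS hz)).mul
      (cct hS hz nsc hπ)).mul (cr Par.xi_cd cd)).pow 2)).mul (cw nsc hS hπ hη hth hz).2).mul
      ((cr ((deriv_smooth (π.B0_smooth.pow 2)).of_le (cast_le_inf 0)) (c1 hS hz)).mul
      (contDiffAt_const.mul (c1 hS hz)))).mul (cr (G1_cd (by simp)) (ctt hS hz))).mul
      ((cP hS contDiffAt_fst (O.g1 hz) (clv hS hz)).inner ℝ (cgt hS hz))
  · have h1 : deriv (fun c => π.B0 c ^ 2) (S.cs1 z) =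
        2 * π.B0 (S.cs1 z) * deriv π.B0 (S.cs1 z) := by
      simpa using ((π.B0_smooth.differentiable (by simp) (S.cs1 z)).hasDerivAt.fun_pow 2).deriv
    have h2 : et S π η th z = π.W0 z.1 * S.o0 π z * G1 (S.tt π z) * (π.W0 z.1 *
        (Par.K0 (S.cs2 z) * ct (2 * S.N π z) * π.xi z.2.2) * (η z.1 ^ 2 * th (S.sq z) ^ 2) *
        (4 * deriv π.B0 (S.cs1 z) * S.cs1 z) * ⟪S.P z.1 (S.lv z), S.gt π z⟫) := by
      rw [et, h1, Par.W, o0]; ring
    rw [h2]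
    rcases h with h | h | h <;> simp [h, G1_zero]

theorem cl_ff (i : Fin 3) : S.Cl π 1 (ff S π η th i) := by
  refine cl_of hπ (fun z hz => ?_) fun z h => ?_
  · exact ((((((cf π.W0_smooth contDiffAt_fst).mul (co0 hS hz nsc hπ)).mul
      (cf hη contDiffAt_fst)).mul (cr (hth.of_le (cast_le_inf 1)) (csq hS hz))).pow 2).mul
      (cr (G1_cd (by simp)) (ctt hS hz))).mul (cco i (cP hS contDiffAt_fst (O.g1 hz) (cU hS hz)))
  · rcases h with h | h | h <;> simp [ff, rr, h, G1_zero]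

omit hη hth in
theorem cl_tb (hgb : ContDiff ℝ ∞ gb) : S.Cl π 0 (tb S π κ gb) := by
  refine ⟨fun z hz => ?_, fun z _ _ hb => ?_⟩
  · have h1 : 0 ≤ S.tt π z := div_nonneg (mul_nonneg hz.2.2.le (kk_nonneg S z)) hπ.ε0.le
    exact ((((((cf π.pt_smooth contDiffAt_fst).mul (co0 hS hz nsc hπ)).mul
      (cr ct_cd (contDiffAt_const.mul cd))).mul ((contDiffAt_const.add (ctt hS hz)).rpow_const_of_ne
      (by linarith))).pow 2).mul (cr (hgb.of_le (cast_le_inf 0)) (csq hS hz))).mul (chZ hS hz)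
  · have h1 : S.za π z = 0 := by
      by_contra h
      simp only [za, mul_ne_zero_iff] at h
      exact hb (box_of hπ (hπ.pt_ne h.1.1).le h.1.2 (by linarith [lt_of_ct_ne h.2]))
    simp [tb, h1]

theorem h0_int (ca : CA) (byd : BYD) : S.Cl π 0 (h0 S π η th) ∧ S.II (h0 S π η th) =
    S.M0 π η th + S.S1 π η th + 9 / 10 * S.S2 π η th - S.Et π η th := by
  have e : h0 S π η th = fun z => m0 S π η th z + s1 S π η th z + 9 / 10 * s2 S π η th z +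
      et S π η th z + -1 * (S.D (ee 0) (ff S π η th 0) z + S.D (ee 1) (ff S π η th 1) z +
        S.D (ee 2) (ff S π η th 2) z) := funext fun z => by rw [h0, Fin.sum_univ_three]; ring
  have a1 := cl_m0 nsc hS hπ hη hth
  have a2 := cl_s1 nsc hS hπ hη hth
  have a3 := cl_mul (9 / 10) (cl_s2 nsc hS hπ hη hth)
  have a4 := cl_et nsc hS hπ hη hth
  have b := fun i => Swp.clD hS (cl_ff nsc hS hπ hη hth i) (ee i)
  have c := fun i => byd S π _ (ee i) hS hπ (cl_ff nsc hS hπ hη hth i)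
  have a5 := cl_mul (-1) (cl_add (cl_add (b 0) (b 1)) (b 2))
  rw [e]
  refine ⟨cl_add (cl_add (cl_add (cl_add a1 a2) a3) a4) a5, ?_⟩
  rw [II_add ca hS hπ (cl_add (cl_add (cl_add a1 a2) a3) a4) a5,
    II_add ca hS hπ (cl_add (cl_add a1 a2) a3) a4, II_add ca hS hπ (cl_add a1 a2) a3,
    II_add ca hS hπ a1 a2, II_mul, II_mul, II_add ca hS hπ (cl_add (b 0) (b 1)) (b 2),
    II_add ca hS hπ (b 0) (b 1), c, c, c, Et, sub_neg_eq_add]
  simp only [add_zero, mul_zero]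
  rfl

end cl

theorem NS_mul (c : ℝ) (f g : Q → ℝ) (z : Q) :
    S.NS π (fun z' => f z' * (c * g z')) z = c * S.NS π (fun z' => f z' * g z') z := by
  rw [NS, NS, ← RS_mul]
  congr 1
  funext z'
  ring

/-- the pointwise bound in the form of the master estimate -/
theorem pw (K : Kit) {CN C : ℝ} (hG : Good S π Λ) (hW : Win Cw d₁ d₂ L th gb ga ch)
    (hη : ContDiff ℝ ∞ η) (η01 : ∀ x, 0 ≤ η x ∧ η x ≤ 1) (hκ : κ ≤ 1) (hC : 17920 * |Cw| ≤ C)
    (hh : S.Hit z) (hb : S.Box π z) (hN : S.N π z ≤ 4 →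
      ‖S.DG (S.N π) z‖ ^ 2 ≤ CN * S.NS π (fun z' => π.cu (S.cs2 z') * S.A2 (yy z')) z)
    (h : 0 < h0 S π η th z + -C * tb S π κ gb z) :
    S.Sq π z ∧ 1 - S.cs2 z ≤ 3 * π.α ^ 2 + 2 * d₁ ^ 2 ∧ h0 S π η th z + -C * tb S π κ gb z ≤
      (140 * π.α ^ 2 * π.R ^ 2 + 8960 * Cc ^ 2 * Real.exp (-π.R ^ 2 / 4) / π.R ^ 2 +
        1120 * ‖gradient η z.1‖ ^ 2 + 31496 * π.α ^ 2 * S.A2 z.1) +
      1792000 * (π.α ^ 2 + d₁ ^ 2) * S.A2 (yy z) +
      S.NS π (fun z' => π.cu (S.cs2 z') * (12 * Cc * d₁ * CN * S.A2 (yy z'))) z +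
      24 * Cc * d₁ / π.ε ^ 2 * S.NS π (fun z' => π.sgb (S.cs2 z') / S.cs2 z') z := by
  have hS := hG.ok
  have hπ := hG.rg
  have hz := Ca.box_O hπ hb
  have hd := df hS hz K.nsc hπ
  have htb : 0 ≤ tb S π κ gb z := tb_nonneg hW z
  have hC1 := mul_le_mul_of_nonneg_right hC htb
  have hC2 : 0 ≤ |Cw| * tb S π κ gb z := by positivity
  have hη1 : Differentiable ℝ η := hη.differentiable (by simp)
  have hs : Su S π d₁ z := by
    have e := h0_eq K.gd hS hz hd (dv_rr K.gd hS hz hd hη1 (hW.sth.differentiable (by simp))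
      (g_P (O.g1 hz) _))
    refine su (η := η) hπ hW hz hh.2.1 (fun h1 => ?_) (not_le.1 fun h1 => ?_)
    · simp only [h1, mul_zero, zero_mul, ne_eq, OfNat.ofNat_ne_zero, not_false_eq_true, zero_pow,
        zero_div, add_zero, sub_zero] at e
      linarith
    · simp only [G1_zero h1, G2_zero h1, mul_zero, zero_mul, zero_div, add_zero, sub_zero,
        neg_zero] at e
      linarith
  have hα := hπ.α2
  have h1 := K.unq.nb0 S π Λ z hG hh hb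
  have h2 := pt K.gd K.gx hS hπ hW hη1 η01 hz hh.2.1 hd hs hκ (K.unq.xi1 S π Λ z hG hh hb).2.2 h1.1
  have h3 : ‖S.lv z‖ ^ 2 ≤ 8 * π.α ^ 2 * S.A2 z.1 :=
    (hS.norm_lv_le hz hh.2.1 hb.2.2.2.1).trans (by
      have := A2_nonneg S z.1
      gcongr
      exact hs.c1)
  have h4 : 0 ≤ 12 * Cc * d₁ := by
    have := Cc_pos
    have : 0 ≤ d₁ := by linarith [hW.d0, hW.d12]
    positivity
  have h5 := mul_le_mul_of_nonneg_left (add_le_add (hN (by linarith [hs.N]))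
    (div_le_div_of_nonneg_right (mul_le_mul_of_nonneg_left h1.2 zero_le_two)
      (sq_nonneg π.ε))) h4
  refine ⟨⟨hs.x, by linarith [hs.c1], by linarith [hs.c2], hs.N, hs.d⟩, ?_, ?_⟩
  · linarith [O.one_sub_cs2 hz hh.2.1 (by linarith [hs.c1]), hs.c1, hs.sq]
  · rw [NS_mul]
    refine le_trans ?_ (le_of_eq (a := 280 * (6400 * (π.α ^ 2 + d₁ ^ 2) * S.A2 (yy z) +
      π.α ^ 2 * π.R ^ 2 / 2 + 32 * Cc ^ 2 * Real.exp (-π.R ^ 2 / 4) / π.R ^ 2 +
      4 * ‖gradient η z.1‖ ^ 2 + 100 * π.α ^ 2 * S.A2 z.1) + 437 * (8 * π.α ^ 2 * S.A2 z.1) +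
      12 * Cc * d₁ * (CN * S.NS π (fun z' => π.cu (S.cs2 z') * S.A2 (yy z')) z +
        2 * S.NS π (fun z' => π.sgb (S.cs2 z') / S.cs2 z') z / π.ε ^ 2)) (by ring))
    linarith

theorem fin {CM CN C α2 R2 d ex m a ge Λ X : ℝ} (hM : 0 < CM) (hN : 0 < CN) (hα : 0 < α2)
    (hR : 1 ≤ R2) (hd : 0 ≤ d) (hd1 : d ≤ 1 / 2) (hex : 0 ≤ ex) (hm : 0 ≤ m) (ha : 0 ≤ a)
    (hge : 0 ≤ ge) (hΛ : m ≤ 36 * Λ * R2) (hC : CM * (11000000 + 12 * Cc * CN + 24 * Cc) ≤ C)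
    (hX : X ≤ CM * (α2 * ((140 * α2 * R2 + 8960 * Cc ^ 2 * ex / R2) * m + 1120 * ge +
      31496 * α2 * a) + (3 * α2 + 2 * d ^ 2) * (1792000 * (α2 + d ^ 2) * a) +
      12 * Cc * d * CN * a + 24 * Cc * d * (m + a))) :
    X ≤ CM * (322560 * Cc ^ 2) * Λ * α2 * ex + C * ((α2 ^ 2 * R2 + d) * (m + a) + α2 * ge) := by
  have hc := Cc_pos
  obtain ⟨T, hT⟩ : ∃ T, T = (α2 ^ 2 * R2 + d) * (m + a) + α2 * ge := ⟨_, rfl⟩
  have p1 : 0 ≤ α2 ^ 2 * R2 * m := by positivity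
  have p2 : 0 ≤ α2 ^ 2 * R2 * a := by positivity
  have p3 : 0 ≤ d * m := by positivity
  have p4 : 0 ≤ d * a := by positivity
  have p5 : 0 ≤ α2 * ge := by positivity
  have p6 : α2 ^ 2 * a ≤ α2 ^ 2 * R2 * a := by nlinarith [mul_nonneg (sq_nonneg α2) ha]
  have p7 : (3 * α2 + 2 * d ^ 2) * (α2 + d ^ 2) ≤ 6 * (α2 ^ 2 + d) := by
    have : d ^ 4 ≤ d := by
      calc d ^ 4 = d ^ 3 * d := by ring
        _ ≤ 1 * d := by gcongr; exact pow_le_one₀ hd (by linarith)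
        _ = d := one_mul d
    nlinarith [sq_nonneg (α2 - d ^ 2), sq_nonneg (d ^ 2)]
  have p8 := mul_le_mul_of_nonneg_right p7 ha
  have p9 : 8960 * Cc ^ 2 * ex / R2 * m ≤ 322560 * Cc ^ 2 * Λ * ex := by
    calc _ ≤ 8960 * Cc ^ 2 * ex / R2 * (36 * Λ * R2) := by gcongr
      _ = _ := by field_simp; ring
  have q1 := mul_le_mul_of_nonneg_left p9 hα.le
  have q2 : d * a ≤ T := by rw [hT]; linarith
  have q3 : d * (m + a) ≤ T := by rw [hT]; linarith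
  have q4 := mul_le_mul_of_nonneg_left q2 (by positivity : 0 ≤ 12 * Cc * CN)
  have q5 := mul_le_mul_of_nonneg_left q3 (by positivity : 0 ≤ 24 * Cc)
  have q6 : α2 * (140 * α2 * R2 * m + 1120 * ge + 31496 * α2 * a) +
      (3 * α2 + 2 * d ^ 2) * (1792000 * (α2 + d ^ 2) * a) ≤ 11000000 * T := by
    rw [hT]; linarith
  have q7 := mul_le_mul_of_nonneg_right hC (by rw [hT]; positivity : 0 ≤ T)
  rw [← hT]
  refine hX.trans (le_trans (mul_le_mul_of_nonneg_left (c := 322560 * Cc ^ 2 * Λ * α2 * ex +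
    (11000000 + 12 * Cc * CN + 24 * Cc) * T) (by linarith) hM.le) (by linarith))

end Ma

open Ma Sf in
theorem ma (K : Kit) : MA := by
  obtain ⟨CM, hM, me⟩ := K.me
  obtain ⟨CN, hN, nb⟩ := K.nb
  have hc := Cc_pos
  refine ⟨CM * (322560 * Cc ^ 2), by positivity, fun Cw =>
    ⟨CM * (11000000 + 12 * Cc * CN + 24 * Cc) + 17920 * |Cw|, by positivity, ?_⟩⟩
  intro S π Λ e₀ κ d₁ d₂ L η th gb ga ch hG hη hW _ hκ
  obtain ⟨C, hC⟩ : ∃ C, C = CM * (11000000 + 12 * Cc * CN + 24 * Cc) + 17920 * |Cw| := ⟨_, rfl⟩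
  rw [← hC]
  have hS := hG.ok
  have hπ := hG.rg
  have hα := hπ.α2.1
  have hε := hπ.ε0
  have hR := hπ.R1
  have hd : 0 ≤ d₁ := by linarith [hW.d0, hW.d12]
  have := hS.fin
  obtain ⟨a1, e1⟩ := h0_int K.nsc hS hπ hη.sm hW.sth K.ca K.byd
  have a2 := cl_mul (-C) (cl_tb (κ := κ) K.nsc hS hπ hW.sgb)
  have gA := Me.cg_A2 hS
  have gη : S.Cg fun x => ‖gradient η x‖ ^ 2 := fun x _ =>
    ⟨((contDiff_grad hη.sm).continuous.norm.pow 2).continuousAt, sq_nonneg _⟩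
  have gc : ∀ {c : ℝ} {f : E → ℝ}, 0 ≤ c → S.Cg f → S.Cg fun x => c * f x := fun hc hf x hx =>
    ⟨continuousAt_const.mul (hf x hx).1, mul_nonneg hc (hf x hx).2⟩
  have g0 : ∀ {c : ℝ}, 0 ≤ c → S.Cg fun _ => c := fun hc x _ => ⟨continuousAt_const, hc⟩
  have ga' : ∀ {f g : E → ℝ}, S.Cg f → S.Cg g → S.Cg fun x => f x + g x := fun hf hg x hx =>
    ⟨(hf x hx).1.add (hg x hx).1, add_nonneg (hf x hx).2 (hg x hx).2⟩
  have ia : ∀ {f g : E → ℝ}, S.Cg f → S.Cg g →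
      S.IB π (fun x => f x + g x) = S.IB π f + S.IB π g := fun hf hg =>
    integral_add (Me.intOn hS hf _) (Me.intOn hS hg _)
  have im : ∀ (c : ℝ) (f : E → ℝ), S.IB π (fun x => c * f x) = c * S.IB π f := fun c f =>
    integral_const_mul _ _
  have ic : ∀ c : ℝ, S.IB π (fun _ => c) = c * S.μ.real (ball 0 (3 * π.R + 3)) := fun c => by
    simp [IB, mul_comm]
  have g1 : S.Cg fun _ => 140 * π.α ^ 2 * π.R ^ 2 +
      8960 * Cc ^ 2 * Real.exp (-π.R ^ 2 / 4) / π.R ^ 2 := g0 (by positivity)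
  have g2 := gc (by norm_num : (0 : ℝ) ≤ 1120) gη
  have g3 := gc (by positivity : 0 ≤ 31496 * π.α ^ 2) gA
  have hβ : √(3 * π.α ^ 2 + 2 * d₁ ^ 2) ^ 2 = 3 * π.α ^ 2 + 2 * d₁ ^ 2 :=
    Real.sq_sqrt (by positivity)
  have key := me S π Λ √(3 * π.α ^ 2 + 2 * d₁ ^ 2) 0 (24 * Cc * d₁ / π.ε ^ 2) 0 _ _ _ _
    (fun _ => 0) (fun _ => 0) hG (Real.sqrt_pos.2 (by positivity)) le_rfl (by positivity) le_rfl
    (cl_add a1 a2) (ga' (ga' g1 g2) g3) (gc (by positivity : 0 ≤ 1792000 * (π.α ^ 2 + d₁ ^ 2)) gA)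
    (gc (by positivity : 0 ≤ 12 * Cc * d₁ * CN) gA) (g0 le_rfl) (g0 le_rfl) (by simp)
    fun z hh hb h => by
      have := pw K hG hW hη.sm (fun x => ⟨hη.nn x, hη.le x⟩) hκ
        (by rw [hC]; exact le_add_of_nonneg_left (by positivity)) hh hb
        (fun h4 => (nb S π Λ z hG hh hb h4).1) h
      rw [hβ]
      simpa only [zero_mul, add_zero] using this
  have eA : S.AA π = S.μ.real (ball 0 (3 * π.R + 3)) + S.IB π S.A2 := by
    rw [AA, ia (g0 zero_le_one) gA, ic, one_mul]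
  have hm := hG.ar 0 (3 * π.R + 3) (by linarith)
  have hΛ : 0 ≤ Λ := nonneg_of_mul_nonneg_left (measureReal_nonneg.trans hm) (by positivity)
  rw [II_add K.ca hS hπ a1 a2, II_mul, e1, ia (ga' g1 g2) g3, ia g1 g2, im, im, im, im, ic, ic,
    hβ, eA, div_mul_cancel₀ _ hπ.ε2.1.ne'] at key
  have h36 : (3 * π.R + 3) ^ 2 ≤ 36 * π.R ^ 2 := by nlinarith
  have := fin (X := S.M0 π η th + S.S1 π η th + 9 / 10 * S.S2 π η th - S.Et π η th +
    -C * S.Tb π κ gb) (C := C) (Λ := Λ) hM hN hα (one_le_pow₀ (n := 2) hR) hd hW.d1h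
    (Real.exp_pos (-π.R ^ 2 / 4)).le measureReal_nonneg (Me.IB_nn hS π gA) (Me.IB_nn hS π gη)
    (by linarith [mul_le_mul_of_nonneg_left h36 hΛ])
    (by rw [hC]; exact le_add_of_nonneg_right (by positivity)) (key.trans (le_of_eq (by ring)))
  rw [eA, GE]
  linarith

end Vale.Agent.P218M1
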