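import Vale.Agent.P218M1.Alg

/-!
# P218M1: regularity and integrability of the sums over the hits
-/

open MeasureTheory Metric Filter Topology Set
open scoped ContDiff RealInnerProductSpace ENNReal

noncomputable section

namespace Vale.Agent.P218M1

namespace Ca

variable {S : Sf} {π : Par} {k : ℕ} {f : Q → ℝ}

theorem cont_yy : Continuous yy := by unfold yy; fun_prop

theorem cont_n (hS : S.Ok) {x : E} (hx : S.g x ≠ 0) : ContinuousAt S.n x := by
  have h := hS.sg.continuous.continuousAt (x := x)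
  exact (h.norm.inv₀ (norm_ne_zero_iff.2 hx)).smul h

/-- a function which vanishes off the box vanishes near the regular points off the box -/
theorem ev_nbox (hS : S.Ok) {z : Q} (h1 : S.g z.1 ≠ 0) (h2 : S.g (yy z) ≠ 0) (hb : ¬ S.Box π z) :
    ∀ᶠ z' in 𝓝 z, S.g z'.1 ≠ 0 ∧ S.g (yy z') ≠ 0 ∧ ¬ S.Box π z' := by
  have hg := hS.sg.continuous
  have c1 : ContinuousAt S.cs1 z :=
    (((cont_n hS h1).comp continuousAt_fst).inner (𝕜 := ℝ) continuousAt_snd.fst).pow 2
  have c2 : ContinuousAt S.cs2 z :=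
    (((cont_n hS h2).comp cont_yy.continuousAt).inner (𝕜 := ℝ) continuousAt_snd.fst).pow 2
  have c0 : ContinuousAt (fun z : Q => ‖z.1‖) z := by fun_prop
  have c3 : ContinuousAt (fun z : Q => z.2.2) z := by fun_prop
  refine ((hg.comp continuous_fst).continuousAt.eventually_ne h1).and
    (((hg.comp cont_yy).continuousAt.eventually_ne h2).and ?_)
  simp only [Sf.Box, not_and_or, not_le] at hb ⊢
  rcases hb with hb | hb | hb | hb | hb
  · exact (continuousAt_const.eventually_lt c0 hb).mono fun _ h => Or.inl h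
  · exact (c3.eventually_lt continuousAt_const hb).mono fun _ h => Or.inr (Or.inl h)
  · exact (continuousAt_const.eventually_lt c3 hb).mono fun _ h => Or.inr (Or.inr (Or.inl h))
  · exact (c1.eventually_lt continuousAt_const hb).mono fun _ h =>
      Or.inr (Or.inr (Or.inr (Or.inl h)))
  · exact (c2.eventually_lt continuousAt_const hb).mono fun _ h =>
      Or.inr (Or.inr (Or.inr (Or.inr h)))

theorem box_O (hπ : π.Rg) {z : Q} (hb : S.Box π z) : z ∈ S.O :=
  ⟨Sf.s_ne_of_sq (by norm_num) hb.2.2.2.1,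
    Sf.s_ne_of_sq (by have := hπ.η0; positivity) hb.2.2.2.2, (half_pos hπ.ρ0).trans_le hb.2.1⟩

theorem hasF (hS : S.Ok) (q : (E × E) × ℝ) (v : (E × E) × ℝ) :
    fderiv ℝ (fun q : (E × E) × ℝ => S.w (q.1.1 + q.2 • q.1.2)) q v =
      ⟪S.g (q.1.1 + q.2 • q.1.2), v.1.1 + (q.2 • v.1.2 + v.2 • q.1.2)⟫ := by
  have h0 := hasFDerivAt_fst (𝕜 := ℝ) (p := q)
  have h1 := h0.fst.fun_add ((hasFDerivAt_snd (𝕜 := ℝ) (p := q)).fun_smul h0.snd)
  have h2 := (hS.hw _).comp q h1
  exact (congrArg (fun L => L v) h2.fderiv).trans rfl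

theorem rsk (fs : FS) (hS : S.Ok) (hπ : π.Rg) (hf : S.Cl π k f) {x : E} (θ : E)
    (hx : S.g x ≠ 0) : ContDiffAt ℝ k (fun p : E × E => S.RS f p.1 p.2) (x, θ) ∧
    (1 ≤ k → ∀ e r, fderiv ℝ (fun p : E × E => S.RS f p.1 p.2) (x, θ) (e, r) =
      S.RS (fun z => fderiv ℝ f z (e, r, -⟪S.p2 z, e + z.2.2 • r⟫)) x θ) := by
  have hg := hS.sg.continuous
  have key := fs (E × E) ℝ (fun q => S.w (q.1.1 + q.2 • q.1.2))
    (f ∘ ContinuousLinearEquiv.prodAssoc ℝ E E ℝ) (x, θ) (π.ρ / 2) 2 k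
    (fun d _ => (hS.sm.comp (by fun_prop)).contDiffAt) ?_ fun d hd => ?_
  · refine ⟨key.1, fun hk e r => (key.2 hk (e, r)).trans ?_⟩
    refine finsum_congr fun d => finsum_congr fun _ => ?_
    rw [ContinuousLinearEquiv.comp_right_fderiv, hasF hS, hasF hS]
    simp [Sf.p2, Sf.p_inner, Sf.s, yy, div_eq_inv_mul]
  · filter_upwards [(hg.comp continuous_fst).continuousAt.eventually_ne (x := (x, θ)) hx]
      with y hy d hd hI
    exact hf.bx (y.1, y.2, d) hy (hS.reg _ hd) fun hb => hI ⟨hb.2.1, hb.2.2.1⟩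
  · by_cases hb : S.Box π (x, θ, d)
    · have hO := box_O hπ hb
      refine Or.inl ⟨⟨hb.2.1, hb.2.2.1⟩, ?_, ?_⟩
      · rw [hasF hS]
        simpa [Sf.s, yy] using hO.2.1
      · exact ContDiffAt.comp ((x, θ), d) (hf.sm _ hO)
          (ContinuousLinearEquiv.prodAssoc ℝ E E ℝ).contDiff.contDiffAt
    · refine Or.inr ?_
      have h := ev_nbox (π := π) (z := (x, θ, d)) hS hx (hS.reg _ hd) hb
      exact ((ContinuousLinearEquiv.prodAssoc ℝ E E ℝ).continuous.tendsto ((x, θ), d)).eventually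
        (h.mono fun z hz => hf.bx z hz.1 hz.2.1 hz.2.2)

theorem gam_small {u : E} (h : ‖u‖ ≤ 1) : gam u = 0 := by
  have : ct (‖u‖ ^ 2) = 1 :=
    Real.smoothTransition.one_of_one_le (by nlinarith [norm_nonneg u])
  simp [gam, this]

theorem gam_big {u : E} (h : 2 ≤ ‖u‖) : gam u = 0 := by
  have : ct (‖u‖ ^ 2 / 2) = 0 := Real.smoothTransition.zero_of_nonpos (by nlinarith)
  simp [gam, this]

theorem cont_gam : Continuous gam := by
  have := Real.smoothTransition.continuous
  unfold gam ct; fun_prop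

theorem cont_un {u : E} (h : u ≠ 0) : ContinuousAt un u :=
  (continuous_norm.continuousAt.inv₀ (norm_ne_zero_iff.2 h)).smul continuousAt_id

/-- the integrand of `II` -/
def Ph (S : Sf) (f : Q → ℝ) (p : E × E) : ℝ :=
  gam p.2 * (|S.cc p.1 (un p.2)| * S.RS f p.1 (un p.2))

theorem cont_Ph (fs : FS) (hS : S.Ok) (hπ : π.Rg) (hf : S.Cl π 0 f) {p : E × E}
    (hx : S.g p.1 ≠ 0) : ContinuousAt (Ph S f) p := by
  by_cases h : p.2 = 0
  · have h1 : ∀ᶠ q : E × E in 𝓝 p, ‖q.2‖ < 1 :=
      ContinuousAt.eventually_lt (by fun_prop) continuousAt_const (by simp [h])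
    refine (continuousAt_const (y := (0 : ℝ))).congr (h1.mono fun q hq => ?_)
    simp [Ph, gam_small hq.le]
  · have h1 : ContinuousAt (fun q : E × E => un q.2) p := (cont_un h).comp continuousAt_snd
    have h2 := (rsk fs hS hπ hf (un p.2) hx).1.continuousAt
    exact (cont_gam.comp continuous_snd).continuousAt.mul
      ((((cont_n hS hx).comp continuousAt_fst).inner (𝕜 := ℝ) h1).abs.mul
        (h2.comp_of_eq (f := fun q : E × E => (q.1, un q.2)) (continuousAt_fst.prodMk h1) rfl))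

theorem Ph_big (p : E × E) (h : p.2 ∉ closedBall (0 : E) 2) : Ph S f p = 0 := by
  rw [mem_closedBall_zero_iff, not_le] at h
  simp [Ph, gam_big h.le]

theorem RS_far (hS : S.Ok) (hf : S.Cl π k f) {x : E} (θ : E) (hx : S.g x ≠ 0)
    (h : 3 * π.R < ‖x‖) : S.RS f x θ = 0 :=
  finsum_mem_eq_zero_of_forall_eq_zero (s := {d | S.w (x + d • θ) = 0}) fun d hd =>
    hf.bx (x, θ, d) hx (hS.reg _ hd) fun hb => h.not_ge hb.1

theorem ix (fs : FS) (hS : S.Ok) (hπ : π.Rg) (hf : S.Cl π 0 f) :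
    Integrable (Ph S f) (S.μ.prod volume) := by
  have := hS.fin
  have hK : IsCompact (({x | S.w x = 0} ∩ closedBall (0 : E) (3 * π.R)) ×ˢ closedBall (0 : E) 2) :=
    ((isCompact_closedBall _ _).inter_left
      (isClosed_eq hS.sm.continuous continuous_const)).prod (isCompact_closedBall _ _)
  refine IntegrableOn.integrable_of_ae_notMem_eq_zero
    (ContinuousOn.integrableOn_compact hK fun p hp =>
      (cont_Ph fs hS hπ hf (hS.reg _ hp.1.1)).continuousWithinAt) ?_
  filter_upwards [Measure.quasiMeasurePreserving_fst.ae hS.sup] with p hp hn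
  by_cases h : p.2 ∈ closedBall (0 : E) 2
  · have h1 : 3 * π.R < ‖p.1‖ := not_le.1 fun h1 => hn ⟨⟨hp, mem_closedBall_zero_iff.2 h1⟩, h⟩
    simp [Ph, RS_far hS hf _ (hS.reg _ hp) h1]
  · exact Ph_big p h

end Ca

open Ca in
theorem ca (fs : FS) : CA where
  rsk _ _ _ _ _ θ hS hπ hf hx := rsk fs hS hπ hf θ hx
  iu S _ f x hS hπ hf hx := by
    have hc : Continuous fun u => Ph S f (x, u) := continuous_iff_continuousAt.2 fun u =>
      (cont_Ph fs hS hπ hf (p := (x, u)) hx).comp (f := fun u => (x, u)) (by fun_prop)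
    exact hc.integrable_of_hasCompactSupport
      (HasCompactSupport.intro (isCompact_closedBall 0 2) fun u hu => Ph_big (x, u) hu)
  ix _ _ _ hS hπ hf := ix fs hS hπ hf
  avc S _ f x hS hπ hf hx := by
    have h := continuousOn_integral_of_compact_support (μ := volume) (s := {x | S.g x ≠ 0})
      (f := fun x u => Ph S f (x, u)) (isCompact_closedBall (0 : E) 2)
      (fun p hp => (cont_Ph fs hS hπ hf hp.1).continuousWithinAt) fun x u _ hu => Ph_big (x, u) hu
    exact h.continuousAt (hS.sg.continuous.continuousAt.eventually_ne hx)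
  avi S _ _ hS hπ hf := by
    have := hS.fin
    exact (ix fs hS hπ hf).integral_prod_left

end Vale.Agent.P218M1
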