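import Vale.Agent.P218M1.Cut
import Vale.Agent.P218M1.Ca

/-!
# P218M1: the sums over the near hits where the energy is small
-/

open MeasureTheory Metric Filter Topology Set
open scoped ContDiff RealInnerProductSpace ENNReal

noncomputable section

namespace Vale.Agent.P218M1

namespace Cub

open Ca

variable {S : Sf} {π : Par} {Λ : ℝ} {x θ : E}

theorem cont_A2 (hS : S.Ok) (hx : S.g x ≠ 0) : ContinuousAt S.A2 x := by
  have h1 := cont_n hS hx
  have h2 := hS.sg.continuous.continuousAt (x := x)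
  have h3 := hS.sD2.continuous.continuousAt (x := x)
  have hP : ∀ {v : E → E}, ContinuousAt v x → ContinuousAt (fun y => S.P y (v y)) x := fun hv => by
    simp only [Sf.P_apply]
    exact hv.sub ((h1.inner (𝕜 := ℝ) hv).smul h1)
  unfold Sf.A2 hs
  refine tendsto_finsetSum _ fun i _ => ContinuousAt.tendsto (ContinuousAt.pow (.norm ?_) 2)
  simp only [Sf.A_apply]
  exact (h2.norm.inv₀ (norm_ne_zero_iff.2 hx)).neg.smul (hP (h3.clm_apply (hP continuousAt_const)))

theorem int_ball (hS : S.Ok) {f : E → ℝ} (hf : ∀ y, S.g y ≠ 0 → ContinuousAt f y) (x : E) (r : ℝ) :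
    IntegrableOn f (ball x r) S.μ := by
  have := hS.fin
  have hK : IsCompact ({y | S.w y = 0} ∩ closedBall x r) :=
    (isCompact_closedBall _ _).inter_left (isClosed_eq hS.sm.continuous continuous_const)
  refine (ContinuousOn.integrableOn_compact hK fun y hy =>
    (hf y (hS.reg _ hy.1)).continuousWithinAt).mono_set_ae ?_
  filter_upwards [hS.sup] with y hy hb
  exact ⟨hy, ball_subset_closedBall hb⟩

/-- the hits in the box are finitely many -/
theorem fin_hits (h : Good S π Λ) (hθ : ‖θ‖ = 1) :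
    {d : ℝ | S.w (x + d • θ) = 0 ∧ S.Box π (x, θ, d)}.Finite := by
  have hρ := h.rg.ρ0
  refine Finite.of_injOn (f := fun d => ⌊d / π.ρ⌋) (t := Icc 0 ⌊2 / π.ρ⌋) (fun d hd => ⟨?_, ?_⟩) ?_
    (finite_Icc _ _)
  · exact Int.floor_nonneg.2 (div_nonneg (by linarith [hd.2.2.1]) hρ.le)
  · exact Int.floor_mono (div_le_div_of_nonneg_right hd.2.2.2.1 hρ.le)
  · intro d hd d' hd' e
    wlog hlt : d < d' generalizing d d'
    · rcases (not_lt.1 hlt).eq_or_lt with h1 | h1
      · exact h1.symm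
      · exact (this hd' hd e.symm h1).symm
    have h1 := (abs_lt.1 (Int.abs_sub_lt_one_of_floor_eq_floor e)).1
    have e2 : yy (x + d • θ, θ, d' - d) = x + d' • θ := by simp [yy, sub_smul]
    have h2 := h.sp.sep (x + d • θ, θ, d' - d) ⟨hd.1, hθ, sub_pos.2 hlt, by rw [e2]; exact hd'.1⟩
      ((norm_add_le _ _).trans (add_le_add hd.2.1 (by
        rw [norm_smul, hθ, mul_one, Real.norm_of_nonneg (by linarith [hd.2.2.1])]
        exact hd.2.2.2.1))) hd.2.2.2.2.2 (by rw [Sf.cs2, e2]; exact hd'.2.2.2.2.2)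
    rw [← sub_div, lt_div_iff₀ hρ] at h1
    simp only at h2
    linarith

theorem sum_le_RS (h : Good S π Λ) (hθ : ‖θ‖ = 1) (hx : S.g x ≠ 0) {k : ℕ} {f : Q → ℝ}
    (hf : S.Cl π k f) (h0 : ∀ z, 0 ≤ f z) (T : Finset ℝ) (hT : ∀ d ∈ T, S.w (x + d • θ) = 0) :
    ∑ d ∈ T, f (x, θ, d) ≤ S.RS f x θ := by
  have hZ := fin_hits (x := x) h hθ
  have e : S.RS f x θ = ∑ d ∈ T ∪ hZ.toFinset, f (x, θ, d) :=
    finsum_mem_eq_sum_of_inter_support_eq (s := {d : ℝ | S.w (x + d • θ) = 0})
      (fun d => f (x, θ, d)) (by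
        ext d
        simp only [mem_inter_iff, mem_ofPred_eq, Function.mem_support, Finset.coe_union, mem_union,
          Finset.mem_coe, Finite.mem_toFinset]
        refine ⟨fun h1 => ⟨Or.inr ⟨h1.1, ?_⟩, h1.2⟩, fun h1 => ⟨h1.1.elim (hT d) And.left, h1.2⟩⟩
        by_contra hb
        exact h1.2 (hf.bx _ hx (h.ok.reg _ h1.1) hb))
  rw [e]
  exact Finset.sum_le_sum_of_subset_of_nonneg Finset.subset_union_left fun d _ _ => h0 _

theorem int_RS (ca : CA) (hS : S.Ok) (hπ : π.Rg) {f : Q → ℝ} (hf : S.Cl π 0 f) (hx : S.g x ≠ 0) :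
    Integrable fun u => gam u * S.RS f x (un u) := by
  refine Continuous.integrable_of_hasCompactSupport (continuous_iff_continuousAt.2 fun u => ?_)
    (HasCompactSupport.intro (isCompact_closedBall 0 2) fun u hu => by
      rw [mem_closedBall_zero_iff, not_le] at hu
      simp [gam_big hu.le])
  by_cases h : u = 0
  · have h1 : ∀ᶠ q : E in 𝓝 u, ‖q‖ < 1 :=
      ContinuousAt.eventually_lt (by fun_prop) continuousAt_const (by simp [h])
    refine (continuousAt_const (y := (0 : ℝ))).congr (h1.mono fun q hq => ?_)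
    simp [gam_small hq.le]
  · exact cont_gam.continuousAt.mul ((ca.rsk S π 0 f x (un u) hS hπ hf hx).1.continuousAt.comp_of_eq
      (f := fun q : E => (x, un q)) (continuousAt_const.prodMk (cont_un h)) rfl)

/-- the cutoff of the majorant -/
def cf (S : Sf) (π : Par) (z : Q) : ℝ :=
  ct (4 * (1 - S.cs1 z)) * ct (‖z.1‖ ^ 2 / (4 * π.R ^ 2)) * ct (z.2.2 / (2 * π.ε)) * π.xi z.2.2

/-- the majorant -/
def mj (S : Sf) (π : Par) (a b : ℝ) (z : Q) : ℝ :=
  cf S π z * (π.cu (S.cs2 z) * (a * (z.2.2 ^ 2 * S.A2 (yy z)) + b * S.cs2 z))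

theorem cf_nonneg (z : Q) : 0 ≤ cf S π z :=
  mul_nonneg (mul_nonneg (mul_nonneg (ct_nonneg _) (ct_nonneg _)) (ct_nonneg _)) (Par.xi_nonneg _)

theorem cf_le (z : Q) : cf S π z ≤ 1 :=
  mul_le_one₀ (mul_le_one₀ (mul_le_one₀ (ct_le_one _) (ct_nonneg _) (ct_le_one _)) (ct_nonneg _)
    (ct_le_one _)) (Par.xi_nonneg _) (Par.xi_le _)

theorem cf_ne (hπ : π.Rg) {z : Q} (h : cf S π z ≠ 0) :
    ‖z.1‖ ≤ 3 * π.R ∧ π.ρ / 2 ≤ z.2.2 ∧ z.2.2 < 4 * π.ε ∧ 1 / 2 ≤ S.cs1 z := by
  simp only [cf, mul_ne_zero_iff] at h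
  have hR := hπ.R0
  have h1 := (div_lt_iff₀ (by positivity)).1 (lt_of_ct_ne h.1.1.2)
  have h2 := (div_lt_iff₀ (by linarith [hπ.ε0])).1 (lt_of_ct_ne h.1.2)
  exact ⟨(abs_le_of_sq_le_sq' (by nlinarith) (by positivity)).2, (hπ.xi_ne h.2).le, by linarith,
    by linarith [lt_of_ct_ne h.1.1.1]⟩

variable {a b : ℝ}

theorem mj_nonneg (ha : 0 ≤ a) (hb : 0 ≤ b) (z : Q) : 0 ≤ mj S π a b z := by
  have := S.A2_nonneg (yy z)
  have := S.cs2_nonneg z
  exact mul_nonneg (cf_nonneg z) (mul_nonneg (Par.cu_nonneg _) (by positivity))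

theorem mj_cl (hS : S.Ok) (hπ : π.Rg) : S.Cl π 0 (mj S π a b) where
  sm z hz := by
    have hg := hS.sg.continuous
    refine contDiffAt_zero.2 ⟨_, ((hg.comp continuous_fst).continuousAt.eventually_ne
      (Sf.O.g1 hz)).and ((hg.comp cont_yy).continuousAt.eventually_ne (Sf.O.g2 hz)),
      fun z hz => ContinuousAt.continuousWithinAt ?_⟩
    have c1 : ContinuousAt S.cs1 z :=
      (((cont_n hS hz.1).comp continuousAt_fst).inner (𝕜 := ℝ) continuousAt_snd.fst).pow 2
    have c2 : ContinuousAt S.cs2 z :=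
      (((cont_n hS hz.2).comp cont_yy.continuousAt).inner (𝕜 := ℝ) continuousAt_snd.fst).pow 2
    have c3 : ContinuousAt (fun z => S.A2 (yy z)) z := (cont_A2 hS hz.2).comp cont_yy.continuousAt
    have c4 := π.xi_smooth.continuous
    have c5 := π.cu_smooth.continuous
    unfold mj cf
    fun_prop
  bx z _ _ hb := by
    by_contra h
    simp only [mj, mul_eq_zero, not_or] at h
    obtain ⟨h1, h2, h3, h4⟩ := cf_ne hπ h.1
    exact hb ⟨h1, h2, by linarith [hπ.ε1], h4, not_lt.1 fun h5 => h.2.1 (hπ.cu_zero h5.le)⟩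

/-- the majorant, seen from the second point -/
theorem mj_le (hπ : π.Rg) (ha : 0 ≤ a) (hb : 0 ≤ b) (x y : E) :
    ‖mj S π a b (x, un (y - x), ‖y - x‖) * |S.cc y (un (y - x))| / ‖y - x‖ ^ 2‖ₑ ≤
      (ball x (4 * π.ε)).indicator (fun y => ENNReal.ofReal (a * S.A2 y) +
        ENNReal.ofReal b * ENNReal.ofReal (1 * ⟪y - x, S.n y⟫ ^ 2 / ‖y - x‖ ^ 4)) y := by
  by_cases h : y - x = 0
  · simp [h]
  by_cases h1 : cf S π (x, un (y - x), ‖y - x‖) = 0
  · simp [mj, h1]
  have h2 := norm_pos_iff.2 h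
  have e : yy (x, un (y - x), ‖y - x‖) = y := by simp [yy, un, smul_smul, h2.ne']
  have hA := S.A2_nonneg y
  rw [indicator_of_mem (mem_ball_iff_norm.2 (cf_ne hπ h1).2.2.1), Real.enorm_eq_ofReal
    (div_nonneg (mul_nonneg (mj_nonneg ha hb _) (abs_nonneg _)) (sq_nonneg _)),
    ← ENNReal.ofReal_mul hb, ← ENNReal.ofReal_add (by positivity) (by positivity)]
  refine ENNReal.ofReal_le_ofReal ?_
  have e2 : S.cs2 (x, un (y - x), ‖y - x‖) = ⟪y - x, S.n y⟫ ^ 2 / ‖y - x‖ ^ 2 := by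
    rw [Sf.cs2, e, Sf.cc, un, real_inner_smul_right, real_inner_comm]
    field_simp
  rw [div_le_iff₀ (by positivity), mj, e]
  refine (mul_le_of_le_one_right (mul_nonneg (cf_nonneg _) (mul_nonneg (Par.cu_nonneg _)
    (by rw [e2]; positivity))) (Sf.abs_cc_le S y (norm_un h))).trans ?_
  refine (mul_le_of_le_one_left (mul_nonneg (Par.cu_nonneg _) (by rw [e2]; positivity))
    (cf_le _)).trans ((mul_le_of_le_one_left (by rw [e2]; positivity) (Par.cu_le _)).trans_eq ?_)
  rw [e2]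
  field_simp

end Cub

open Cub in
theorem cub (ca : CA) (rad : RAD) (mono : MONO) : CUB := by
  obtain ⟨c, hc, rad⟩ := rad
  obtain ⟨C, hC, mono⟩ := mono
  refine ⟨c * (1 + 4 * C), by positivity, fun S π Λ e₀ x F h hx hR he hF a b ha hb H => ?_⟩
  have hS := h.ok
  have hπ := h.rg
  have hg := hS.reg x hx
  have hε := hπ.ε0
  have iA := int_ball hS (fun y => cont_A2 hS) x (10 * π.ε)
  have he0 : 0 ≤ e₀ := (integral_nonneg S.A2_nonneg).trans he
  have hΛ : 0 ≤ Λ := by simpa using measureReal_nonneg.trans (h.ar 0 1 one_pos)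
  have lA : ∀ k r : ℝ, 0 ≤ k → r ≤ 10 * π.ε →
      ∫⁻ y in ball x r, ENNReal.ofReal (k * S.A2 y) ∂S.μ ≤ ENNReal.ofReal (k * e₀) := by
    intro k r hk hr
    refine (lintegral_mono_set (ball_subset_ball hr)).trans ?_
    rw [← ofReal_integral_eq_lintegral_ofReal (iA.const_mul k)
      (.of_forall fun y => mul_nonneg hk (S.A2_nonneg y)), integral_const_mul]
    exact ENNReal.ofReal_le_ofReal (by gcongr)
  have h1 : ∫ u, gam u * F u ≤ ∫ u, gam u * S.RS (mj S π a b) x (un u) := by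
    refine integral_mono hF (int_RS ca hS hπ (mj_cl hS hπ) hg) fun u => ?_
    by_cases hu : u = 0
    · simp [hu, Ca.gam_small]
    refine mul_le_mul_of_nonneg_left ?_ (mul_nonneg (ct_nonneg _) (one_sub_ct_nonneg _))
    have key := sum_le_RS h (norm_un hu) hg (mj_cl hS hπ) (mj_nonneg ha hb)
    rcases le_or_gt (F u) 0 with h0 | h0
    · exact h0.trans (by simpa using key ∅)
    obtain ⟨h2, T, h3, h4⟩ := H u hu h0
    refine h4.trans (le_trans (le_of_eq (Finset.sum_congr rfl fun l hl => ?_))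
      (key T fun l hl => (h3 l hl).1.2.2.2))
    have h5 := h.sp.sep _ (h3 l hl).1 (by linarith [hπ.R0])
      (le_trans (by linarith [hπ.η2.2]) h2) (h3 l hl).2.2
    have hR0 := hπ.R0
    rw [mj, cf, ct_one (by rw [Sf.cs1]; linarith), ct_one ((div_le_one (by positivity)).2
      (by nlinarith [norm_nonneg x])), ct_one ((div_le_one (by positivity)).2 (h3 l hl).2.1),
      hπ.xi_one (by linarith [hπ.ρ0])]
    simp [yy]
  have h2 : ∫⁻ y in ball x (4 * π.ε), ENNReal.ofReal (1 * ⟪y - x, S.n y⟫ ^ 2 / ‖y - x‖ ^ 4) ∂S.μ ≤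
      ENNReal.ofReal (C * (4 * Λ + 3 * e₀)) := by
    refine le_add_self.trans ((mono S (fun _ => 1) x (4 * π.ε) hS hx (by positivity)
      fun y _ => ⟨contDiffAt_const, zero_le_one⟩).trans ?_)
    rw [ENNReal.ofReal_mul hC.le, ENNReal.ofReal_add (by positivity) (by positivity)]
    gcongr
    refine (lintegral_mono (g := fun y => ENNReal.ofReal (1 / (4 * π.ε) ^ 2) +
      ENNReal.ofReal (3 * S.A2 y)) fun y => ?_).trans ?_
    · have := S.A2_nonneg y
      simp only
      rw [← ENNReal.ofReal_add (by positivity) (by positivity)]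
      refine ENNReal.ofReal_le_ofReal ?_
      simpa using S.H_sq_le y
    · have := hS.fin
      rw [lintegral_add_left measurable_const, setLIntegral_const,
        ← ofReal_measureReal measure_ball_lt_top.ne, ← ENNReal.ofReal_mul (by positivity)]
      refine add_le_add (ENNReal.ofReal_le_ofReal ?_) (lA 3 _ (by norm_num) (by linarith))
      refine (mul_le_mul_of_nonneg_left (h.ar x _ (by positivity)) (by positivity)).trans_eq ?_
      field_simp
      ring
  refine h1.trans ?_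
  rw [rad S π _ x hS hπ (mj_cl hS hπ) hg, mul_assoc]
  gcongr
  refine le_trans ((ENNReal.ofReal_le_ofReal_iff (q := a * e₀ + b * (C * (4 * Λ + 3 * e₀)))
    (by positivity)).1 ?_) ?_
  · refine (Real.ofReal_le_enorm _).trans ((enorm_integral_le_lintegral_enorm _).trans
      ((lintegral_mono (mj_le hπ ha hb x)).trans ?_))
    rw [lintegral_indicator measurableSet_ball, lintegral_add_left'
      ((iA.mono_set (ball_subset_ball (by linarith))).const_mul a).aemeasurable.ennreal_ofReal,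
      lintegral_const_mul' _ _ ENNReal.ofReal_ne_top,
      ENNReal.ofReal_add (by positivity) (by positivity), ENNReal.ofReal_mul hb]
    gcongr
    exact lA a _ ha (by linarith)
  · nlinarith [mul_nonneg ha he0, mul_nonneg hb he0, mul_nonneg hb hΛ,
      mul_nonneg hC.le (mul_nonneg ha he0), mul_nonneg hC.le (mul_nonneg hb he0)]

end Vale.Agent.P218M1
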