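import Vale.Agent.P218M1.Alg

/-!
# P218M1: the derivatives of the geometric quantities along `D` and `R`
-/

open MeasureTheory Metric Filter Topology Set
open scoped ContDiff RealInnerProductSpace ENNReal

noncomputable section

namespace Vale.Agent.P218M1

namespace Gd

/-- `f` is differentiable at `z`, with derivative `f'` in the direction `V` -/
def HD {F : Type} [NormedAddCommGroup F] [NormedSpace ℝ F] (f : Q → F) (z V : Q) (f' : F) : Prop :=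
  DifferentiableAt ℝ f z ∧ fderiv ℝ f z V = f'

section calculus

variable {F G : Type} [NormedAddCommGroup F] [NormedSpace ℝ F] [NormedAddCommGroup G]
  [NormedSpace ℝ G] {z V : Q}

theorem HD.of {f : Q → F} {L : Q →L[ℝ] F} {f' : F} (h : HasFDerivAt f L z) (e : L V = f') :
    HD f z V f' := ⟨h.differentiableAt, by rw [h.fderiv, e]⟩

theorem HD.self {f : Q → F} (h : DifferentiableAt ℝ f z) (V : Q) : HD f z V (fderiv ℝ f z V) :=
  ⟨h, rfl⟩

theorem HD.val {f : Q → F} {a b : F} (h : HD f z V a) (e : a = b) : HD f z V b := e ▸ h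

theorem HD.const (c : F) : HD (fun _ => c) z V 0 := HD.of (hasFDerivAt_const c z) rfl

theorem HD.add {f g : Q → F} {a b : F} (hf : HD f z V a) (hg : HD g z V b) :
    HD (fun y => f y + g y) z V (a + b) :=
  HD.of (hf.1.hasFDerivAt.add hg.1.hasFDerivAt) (by simp [hf.2, hg.2])

theorem HD.sub {f g : Q → F} {a b : F} (hf : HD f z V a) (hg : HD g z V b) :
    HD (fun y => f y - g y) z V (a - b) :=
  HD.of (hf.1.hasFDerivAt.sub hg.1.hasFDerivAt) (by simp [hf.2, hg.2])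

theorem HD.neg {f : Q → F} {a : F} (hf : HD f z V a) : HD (fun y => -f y) z V (-a) :=
  HD.of hf.1.hasFDerivAt.neg (by simp [hf.2])

theorem HD.smul {c : Q → ℝ} {f : Q → F} {c' : ℝ} {a : F} (hc : HD c z V c') (hf : HD f z V a) :
    HD (fun y => c y • f y) z V (c z • a + c' • f z) :=
  HD.of (hc.1.hasFDerivAt.smul hf.1.hasFDerivAt) (by simp [hf.2, hc.2])

theorem HD.mul {c f : Q → ℝ} {c' a : ℝ} (hc : HD c z V c') (hf : HD f z V a) :
    HD (fun y => c y * f y) z V (c z * a + c' * f z) := hc.smul hf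

theorem HD.inner {f g : Q → E} {a b : E} (hf : HD f z V a) (hg : HD g z V b) :
    HD (fun y => ⟪f y, g y⟫) z V (⟪f z, b⟫ + ⟪a, g z⟫) :=
  ⟨hf.1.inner ℝ hg.1, by rw [fderiv_inner_apply ℝ hf.1 hg.1, hf.2, hg.2]⟩

theorem HD.comp {f : Q → F} {a : F} {φ : F → G} {L : F →L[ℝ] G} (hf : HD f z V a)
    (hφ : HasFDerivAt φ L (f z)) : HD (fun y => φ (f y)) z V (L a) :=
  HD.of (hφ.comp z hf.1.hasFDerivAt) (by simp [hf.2])

theorem HD.rcomp {f : Q → ℝ} {a : ℝ} {φ : ℝ → ℝ} {l : ℝ} (hf : HD f z V a)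
    (hφ : HasDerivAt φ l (f z)) : HD (fun y => φ (f y)) z V (l * a) :=
  HD.of (hφ.comp_hasFDerivAt z hf.1.hasFDerivAt) (by simp [hf.2])

theorem HD.inv {f : Q → ℝ} {a : ℝ} (hf : HD f z V a) (h : f z ≠ 0) :
    HD (fun y => (f y)⁻¹) z V (-(f z ^ 2)⁻¹ * a) := hf.rcomp (hasDerivAt_inv h)

theorem HD.sq {f : Q → ℝ} {a : ℝ} (hf : HD f z V a) :
    HD (fun y => f y ^ 2) z V (2 * f z * a) :=
  (hf.rcomp (hasDerivAt_pow 2 (f z))).val (by simp)

theorem HD.div_const {f : Q → ℝ} {a : ℝ} (hf : HD f z V a) (c : ℝ) :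
    HD (fun y => f y / c) z V (a / c) :=
  (hf.rcomp ((hasDerivAt_id' (f z)).div_const c)).val (by ring)

theorem HD.abs {f : Q → ℝ} {a : ℝ} (hf : HD f z V (f z * a)) (h : f z ≠ 0) :
    HD (fun y => |f y|) z V (|f z| * a) :=
  (hf.rcomp (hasDerivAt_abs h)).val (by rw [← mul_assoc, sign_mul_self])

theorem HD.normsq {f : Q → E} {a : E} (hf : HD f z V a) :
    HD (fun y => ‖f y‖ ^ 2) z V (2 * ⟪f z, a⟫) := by
  have h := hf.inner hf
  simp only [real_inner_self_eq_norm_sq] at h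
  exact h.val (by rw [real_inner_comm (f z) a]; ring)

theorem HD.norm {f : Q → E} {a : E} (hf : HD f z V a) (h : f z ≠ 0) :
    HD (fun y => ‖f y‖) z V (‖f z‖⁻¹ * ⟪f z, a⟫) := by
  have h0 : ‖f z‖ ≠ 0 := norm_ne_zero_iff.2 h
  have h1 := hf.normsq.rcomp (Real.hasDerivAt_sqrt (pow_ne_zero 2 h0))
  simp only [Real.sqrt_sq (norm_nonneg _)] at h1
  exact h1.val (by field_simp)

theorem HD.clm {c : Q → F →L[ℝ] G} {u : Q → F} {c' : F →L[ℝ] G} {a : F} (hc : HD c z V c')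
    (hu : HD u z V a) : HD (fun y => c y (u y)) z V (c z a + c' (u z)) :=
  HD.of (hc.1.hasFDerivAt.clm_apply hu.1.hasFDerivAt) (by simp [hu.2, hc.2])

theorem HD.prod {f : Q → F} {g : Q → G} {a : F} {b : G} (hf : HD f z V a) (hg : HD g z V b) :
    HD (fun y => (f y, g y)) z V (a, b) :=
  HD.of (hf.1.hasFDerivAt.prodMk hg.1.hasFDerivAt) (by simp [hf.2, hg.2])

/-- functions which agree along the line have the same derivative in its direction -/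
theorem HD.line {f g : Q → F} {a b : F} (hf : HD f z V a) (hg : HD g z V b)
    (h : ∀ᶠ t in 𝓝 (0 : ℝ), f (z + t • V) = g (z + t • V)) : a = b := by
  have h1 : HasDerivAt (fun t : ℝ => f (z + t • V)) _ 0 := hf.1.hasFDerivAt.hasLineDerivAt V
  have h2 : HasDerivAt (fun t : ℝ => g (z + t • V)) _ 0 := hg.1.hasFDerivAt.hasLineDerivAt V
  rw [← hf.2, ← hg.2]
  exact h1.unique (h2.congr_of_eventuallyEq h)

theorem hx (z V : Q) : HD (fun y : Q => y.1) z V V.1 := HD.of hasFDerivAt_fst rfl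

theorem hθ (z V : Q) : HD (fun y : Q => y.2.1) z V V.2.1 :=
  HD.of (hasFDerivAt_fst.comp z hasFDerivAt_snd) rfl

theorem hd (z V : Q) : HD (fun y : Q => y.2.2) z V V.2.2 :=
  HD.of (hasFDerivAt_snd.comp z hasFDerivAt_snd) rfl

theorem hy (z V : Q) : HD yy z V (V.1 + (z.2.2 • V.2.1 + V.2.2 • z.2.1)) :=
  (hx z V).add ((hd z V).smul (hθ z V))

end calculus

/-! ### the master formulas -/

section master

variable {S : Sf} {z V : Q} {a θ : Q → E} {u r : E}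

theorem hg (hS : S.Ok) (ha : HD a z V u) : HD (fun y => S.g (a y)) z V (S.D2 (a z) u) :=
  ha.comp (hS.hg _)

theorem hs (hS : S.Ok) (ha : HD a z V u) (ht : HD θ z V r) :
    HD (fun y => S.s (a y) (θ y)) z V (⟪S.g (a z), r⟫ + ⟪S.D2 (a z) u, θ z⟫) :=
  (hg hS ha).inner ht

theorem hp (hS : S.Ok) {e : E} (ha : HD a z V (S.Pi (a z) (θ z) e)) (ht : HD θ z V r)
    (h : S.s (a z) (θ z) ≠ 0) :
    HD (fun y => S.p (a y) (θ y)) z V
      (-S.X (a z) (θ z) e - ⟪S.p (a z) (θ z), r⟫ • S.p (a z) (θ z)) := by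
  refine (((hs hS ha ht).inv h).smul (hg hS ha)).val ?_
  rw [Sf.X_apply, Sf.Pt_apply, Sf.p_inner, real_inner_comm (θ z)]
  simp only [Sf.p]
  match_scalars <;> field_simp <;> ring

theorem hn (hS : S.Ok) (ha : HD a z V u) (h : S.g (a z) ≠ 0) (hu : ⟪S.g (a z), u⟫ = 0) :
    HD (fun y => S.n (a y)) z V (-S.A (a z) u) := by
  have h0 : ‖S.g (a z)‖ ≠ 0 := norm_ne_zero_iff.2 h
  refine ((((hg hS ha).norm h).inv h0).smul (hg hS ha)).val ?_
  rw [Sf.A_apply, Sf.P_tan hu, Sf.P_apply, Sf.n_inner]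
  simp only [Sf.n]
  match_scalars <;> field_simp

theorem X_p (hS : S.Ok) {x t : E} (h : S.s x t ≠ 0) (e : E) :
    ⟪-S.A x (S.Pi x t e), t⟫ = S.cc x t * (S.cc x t ^ 2 * ⟪S.X x t (S.p x t), e⟫) := by
  have h1 := hS.lv_tan (z := (x, t, 0)) h (Sf.g_Pi h e)
  have hc := Sf.cc_ne h
  simp only [Sf.lv, Sf.cs1, Sf.X1, Sf.p1, real_inner_smul_left] at h1
  rw [Sf.Pi_apply, inner_sub_right, real_inner_smul_right, Sf.X_inner_θ h, mul_zero, sub_zero,
    ← Sf.Pi_apply] at h1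
  rw [h1, inner_neg_left, hS.A_sym, real_inner_comm]
  field_simp

theorem hc (hS : S.Ok) {e : E} (ha : HD a z V (S.Pi (a z) (θ z) e)) (ht : HD θ z V r)
    (h : S.s (a z) (θ z) ≠ 0) :
    HD (fun y => S.cc (a y) (θ y)) z V (S.cc (a z) (θ z) *
      (S.cc (a z) (θ z) ^ 2 * ⟪S.X (a z) (θ z) (S.p (a z) (θ z)), e⟫ + ⟪S.p (a z) (θ z), r⟫)) := by
  refine ((hn hS ha (Sf.g_ne h) (Sf.g_Pi h e)).inner ht).val ?_
  rw [X_p hS h, Sf.n_eq h, real_inner_smul_left]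
  ring

end master

/-! ### the combined direction -/

/-- translation by `e` and rotation by `r` -/
def W (S : Sf) (e r : E) (z : Q) : Q :=
  (S.Pi z.1 z.2.1 e, r, ⟪S.Pv z, e⟫ - z.2.2 * ⟪S.p2 z, r⟫)

theorem VD_eq (S : Sf) (e : E) (z : Q) : S.VD e z = W S e 0 z := by simp [Sf.VD, W]

theorem VR_eq (S : Sf) (τ ν : E) (z : Q) : S.VR τ ν z = W S 0 (rot τ ν z.2.1) z := by
  simp [Sf.VR, W]

section along

variable {S : Sf} {z : Q} (e r : E)

theorem wy (S : Sf) (z : Q) : HD yy z (W S e r z) (S.Pi (yy z) z.2.1 (e + z.2.2 • r)) := by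
  refine (hy z _).val ?_
  simp only [W, Sf.Pi_apply, Sf.Pv, Sf.p1, Sf.p2, inner_sub_left, inner_add_right,
    real_inner_smul_right]
  module

theorem wp1 (hS : S.Ok) (hz : z ∈ S.O) :
    HD S.p1 z (W S e r z) (-S.X1 z e - ⟪S.p1 z, r⟫ • S.p1 z) :=
  hp (a := fun y => y.1) (θ := fun y => y.2.1) hS (hx z _) (hθ z _) hz.1

theorem wp2 (hS : S.Ok) (hz : z ∈ S.O) :
    HD S.p2 z (W S e r z) (-S.X2 z (e + z.2.2 • r) - ⟪S.p2 z, r⟫ • S.p2 z) :=
  hp (a := yy) (θ := fun y => y.2.1) hS (wy e r S z) (hθ z _) hz.2.1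

theorem wPv (hS : S.Ok) (hz : z ∈ S.O) :
    HD S.Pv z (W S e r z)
      (S.Z z e + z.2.2 • S.X2 z r - ⟪S.p1 z, r⟫ • S.p1 z + ⟪S.p2 z, r⟫ • S.p2 z) := by
  refine ((wp1 e r hS hz).sub (wp2 e r hS hz)).val ?_
  simp only [Sf.Z, ContinuousLinearMap.sub_apply, map_add, map_smul]
  module

theorem wcc (hS : S.Ok) (hz : z ∈ S.O) :
    HD (fun y => S.cc y.1 y.2.1) z (W S e r z)
      (S.cc z.1 z.2.1 * (⟪S.lv z, e⟫ + ⟪S.p1 z, r⟫)) := by
  refine (hc (a := fun y => y.1) (θ := fun y => y.2.1) hS (hx z _) (hθ z _) hz.1).val ?_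
  rw [Sf.lv, real_inner_smul_left]
  rfl

theorem wc1 (hS : S.Ok) (hz : z ∈ S.O) :
    HD S.cs1 z (W S e r z) (2 * S.cs1 z * (⟪S.lv z, e⟫ + ⟪S.p1 z, r⟫)) :=
  (wcc e r hS hz).sq.val (by simp only [Sf.cs1]; ring)

theorem wc2 (hS : S.Ok) (hz : z ∈ S.O) :
    HD S.cs2 z (W S e r z) (2 * S.cs2 z ^ 2 * ⟪S.X2 z (S.p2 z), e + z.2.2 • r⟫ +
      2 * S.cs2 z * ⟪S.p2 z, r⟫) :=
  (hc (a := yy) (θ := fun y => y.2.1) hS (wy e r S z) (hθ z _) hz.2.1).sq.val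
    (by simp only [Sf.cs2, Sf.X2, Sf.p2, W]; ring)

theorem wk (hS : S.Ok) (hz : z ∈ S.O) :
    HD S.kk z (W S e r z) (S.kk z * (⟪S.lv z, e⟫ + ⟪S.p1 z, r⟫)) :=
  (wcc e r hS hz).abs (Sf.cc_ne hz.1)

theorem wt (π : Par) (hS : S.Ok) (hz : z ∈ S.O) :
    HD (S.tt π) z (W S e r z) (⟪S.gt π z, e⟫ + S.tt π z * ⟪S.Pv z, r⟫) := by
  refine (((hd z _).mul (wk e r hS hz)).div_const π.ε).val ?_
  simp only [W, Sf.gt, Sf.Uv, Sf.tt, Sf.Pv, inner_add_left, inner_sub_left, real_inner_smul_left]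
  ring

theorem wsq (hS : S.Ok) (hz : z ∈ S.O) :
    HD S.sq z (W S e r z) (2 * ⟪S.Z z (S.Pv z), e⟫ + 2 * (z.2.2 * ⟪S.X2 z (S.Pv z), r⟫ -
      S.sq z * ⟪S.p1 z, r⟫ - ⟪S.Pv z, S.p2 z⟫ * ⟪S.Pv z, r⟫)) := by
  refine (wPv e r hS hz).normsq.val ?_
  have h1 : ⟪S.Pv z, S.p1 z⟫ = S.sq z + ⟪S.Pv z, S.p2 z⟫ := by
    rw [Sf.sq, ← real_inner_self_eq_norm_sq, ← inner_add_right, Sf.Pv, sub_add_cancel]
  have h2 : ⟪S.Pv z, r⟫ = ⟪S.p1 z, r⟫ - ⟪S.p2 z, r⟫ := by rw [Sf.Pv, inner_sub_left]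
  rw [inner_add_right, inner_sub_right, inner_add_right, real_inner_smul_right,
    real_inner_smul_right, real_inner_smul_right, h1, h2, hS.Z_sym, Sf.X2, hS.X_sym]
  ring

theorem dlv (hS : S.Ok) (hz : z ∈ S.O) : DifferentiableAt ℝ S.lv z := by
  have h1 := wp1 0 0 hS hz
  have h2 : HD (fun y : Q => S.D2 y.1) z (W S 0 0 z) _ :=
    (hx z _).comp (hS.sD2.differentiable (by simp) z.1).hasFDerivAt
  have h3 := h2.clm (h1.sub ((h1.inner h1).smul (hθ z _)))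
  have h4 := (hs (a := fun y => y.1) (θ := fun y => y.2.1) hS (hx z (W S 0 0 z)) (hθ z _)).inv hz.1
  have h5 := (wc1 0 0 hS hz).smul (h4.neg.smul (h3.sub (((hθ z _).inner h3).smul h1)))
  refine h5.1.congr_of_eventuallyEq (Eventually.of_forall fun y => ?_)
  simp only [Sf.lv, Sf.X1, Sf.X_apply, Sf.Pt_apply, Sf.Pi_apply, Sf.p1]

/-- the rotation of the vector `lv`, tested against a tangent vector -/
theorem rlv (hS : S.Ok) (hz : z ∈ S.O) (he : ⟪S.g z.1, e⟫ = 0) :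
    ⟪fderiv ℝ S.lv z (W S 0 r z), e⟫ = -⟪S.X1 z r, e⟫ := by
  have hc := Sf.cc_ne hz.1
  have h1 := (HD.self (dlv hS hz) (W S 0 r z)).inner (HD.const e)
  have h2 := (((hθ z (W S 0 r z)).comp (S.A z.1).hasFDerivAt).inner (HD.const e)).neg.mul
    (((HD.const (S.n z.1)).inner (hθ z _)).inv hc)
  have h3 := h1.line h2 (by
    have hcont : ContinuousAt (fun t : ℝ => ⟪S.g z.1, z.2.1 + t • r⟫) 0 := by fun_prop
    have hne := hcont.eventually_ne (y := 0) (by rw [zero_smul, add_zero]; exact hz.1)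
    filter_upwards [hne] with t ht
    have e1 : (z + t • W S 0 r z).1 = z.1 := by simp [W]
    have e2 : (z + t • W S 0 r z).2.1 = z.2.1 + t • r := rfl
    rw [hS.lv_tan (by rw [e1, e2]; exact ht) (by rw [e1]; exact he), e1, div_eq_mul_inv]
    rfl)
  have e3 : (W S 0 r z).2.1 = r := rfl
  simp only [inner_zero_right, inner_zero_left, zero_add, add_zero, e3] at h3
  rw [h3, Sf.X1, Sf.X_inner hz.1, Sf.Pi_tan he, Sf.Pi_apply, map_sub, map_smul, inner_sub_left,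
    real_inner_smul_left, Sf.p_eq hz.1, real_inner_smul_left]
  unfold Sf.cc at hc ⊢
  field_simp
  ring

theorem wVD (hS : S.Ok) (hz : z ∈ S.O) (e' : E) :
    HD (S.VD e') z (S.VD e z) (⟪S.X1 z e, e'⟫ • z.2.1, 0, ⟪S.Z z e, e'⟫) := by
  rw [VD_eq S e z]
  have h1 := (HD.const e').sub (((wp1 e 0 hS hz).inner (HD.const e')).smul (hθ z _))
  have h2 := (wPv e 0 hS hz).inner (HD.const e')
  have h3 := h1.prod ((HD.const (0 : E)).prod h2)
  have e3 : S.VD e' = fun y => (e' - ⟪S.p1 y, e'⟫ • y.2.1, (0 : E), ⟪S.Pv y, e'⟫) := by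
    funext y
    simp only [Sf.VD, Sf.Pi_apply, Sf.p1]
  rw [e3]
  refine h3.val ?_
  simp [W]

theorem dd (hS : S.Ok) (hz : z ∈ S.O) (e' : E) {f : Q → ℝ} (hf : ContDiffAt ℝ 2 f z) :
    S.D e (S.D e' f) z = fderiv ℝ f z (⟪S.X1 z e, e'⟫ • z.2.1, 0, ⟪S.Z z e, e'⟫) +
      fderiv ℝ (fderiv ℝ f) z (S.VD e z) (S.VD e' z) := by
  have h1 : DifferentiableAt ℝ (fderiv ℝ f) z :=
    (hf.fderiv_right (m := 1) (by norm_num)).differentiableAt (by simp)
  exact ((HD.self h1 _).clm (wVD e hS hz e')).2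

end along

end Gd

open Gd in
/-- **GD** -/
theorem gd : GD where
  Dx S z e f _ hf := ((hx z (S.VD e z)).comp hf.hasFDerivAt).2
  Dy S z e f _ hf := by
    rw [Sf.D, VD_eq, ((wy e 0 S z).comp hf.hasFDerivAt).2, smul_zero, add_zero]
  Dd S z e := (hd z (S.VD e z)).2
  Dp1 S z e hS hz := by rw [Sf.D, VD_eq, (wp1 e 0 hS hz).2]; simp
  Dp2 S z e hS hz := by rw [Sf.D, VD_eq, (wp2 e 0 hS hz).2]; simp
  DPv S z e hS hz := by rw [Sf.D, VD_eq, (wPv e 0 hS hz).2]; simp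
  Dsq S z e hS hz := by rw [Sf.D, VD_eq, (wsq e 0 hS hz).2]; simp
  Dc1 S z e hS hz := by rw [Sf.D, VD_eq, (wc1 e 0 hS hz).2]; simp
  Dc2 S z e hS hz := by rw [Sf.D, VD_eq, (wc2 e 0 hS hz).2]; simp
  Dcc S z e hS hz := by rw [Sf.D, VD_eq, (wcc e 0 hS hz).2]; simp
  Dk S z e hS hz := by rw [Sf.D, VD_eq, (wk e 0 hS hz).2]; simp
  Dt S π z e hS hz := by rw [Sf.D, VD_eq, (wt e 0 π hS hz).2]; simp
  Dn S z e hS hz :=
    (hn (a := fun y => y.1) hS (hx z (S.VD e z)) (Sf.O.g1 hz) (Sf.g_Pi hz.1 e)).2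
  DD S z e e' f hS hz hf := by
    rw [dd e hS hz e' hf, dd e' hS hz e hf, (hf.isSymmSndFDerivAt (by simp)).eq, hS.Z_sym, Sf.X1,
      hS.X_sym, real_inner_comm e, real_inner_comm e]
  Rx S z τ ν V _ _ f := by
    by_cases h : DifferentiableAt ℝ (fun y : Q => f y.1) z
    · exact (HD.self h (S.VR τ ν z)).line (HD.const (f z.1))
        (Eventually.of_forall fun t => by simp [Sf.VR])
    · rw [Sf.R, fderiv_zero_of_not_differentiableAt h]; rfl
  Rd S z τ ν := (hd z (S.VR τ ν z)).2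
  Rp1 S z τ ν hS hz := by rw [Sf.R, VR_eq, (wp1 0 _ hS hz).2]; simp
  Rp2 S z τ ν hS hz := by rw [Sf.R, VR_eq, (wp2 0 _ hS hz).2]; simp
  Rsq S z τ ν hS hz := by rw [Sf.R, VR_eq, (wsq 0 _ hS hz).2]; simp
  Rc1 S z τ ν hS hz := by rw [Sf.R, VR_eq, (wc1 0 _ hS hz).2]; simp
  Rc2 S z τ ν hS hz := by rw [Sf.R, VR_eq, (wc2 0 _ hS hz).2]; simp [real_inner_smul_right]
  Rcc S z τ ν hS hz := by rw [Sf.R, VR_eq, (wcc 0 _ hS hz).2]; simp
  Rt S π z τ ν hS hz := by rw [Sf.R, VR_eq, (wt 0 _ π hS hz).2]; simp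
  Rg S π z τ ν e hS hz he := by
    generalize hr : rot τ ν z.2.1 = r
    have h := (((wk 0 r hS hz).div_const π.ε).smul (wPv 0 r hS hz)).add
      ((wt 0 r π hS hz).smul (HD.self (dlv hS hz) _))
    have h1 : ⟪S.p1 z, e⟫ = 0 := Sf.p_tan he
    have h2 : fderiv ℝ (S.gt π) z (W S 0 r z) = _ := h.2
    rw [Sf.R, VR_eq, hr, h2]
    simp only [inner_add_left, inner_sub_left, real_inner_smul_left, rlv e r hS hz he, h1,
      map_zero, inner_zero_left, inner_zero_right, Sf.Z, ContinuousLinearMap.sub_apply, Sf.gt,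
      Sf.Uv, Sf.Pv, Sf.tt]
    ring

end Vale.Agent.P218M1
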