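import Vale.Agent.P218M1.Ca

/-!
# P218M1: the second point as base point, integration by parts for translations
-/

open MeasureTheory Metric Filter Topology Set
open scoped ContDiff RealInnerProductSpace ENNReal

noncomputable section

namespace Vale.Agent.P218M1

namespace Swp

open Sf Ca

variable {S : Sf} {π : Par} {f : Q → ℝ} {k : ℕ} {z : Q} {x θ : E}

theorem fz {p : ℝ → Prop} {g : ℝ → ℝ} (h : ∀ d, p d → g d = 0) :
    ∑ᶠ (d : ℝ) (_ : p d), g d = 0 :=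
  finsum_mem_eq_zero_of_forall_eq_zero (s := {d | p d}) h

theorem fc {p : ℝ → Prop} {g g' : ℝ → ℝ} (h : ∀ d, p d → g d = g' d) :
    ∑ᶠ (d : ℝ) (_ : p d), g d = ∑ᶠ (d : ℝ) (_ : p d), g' d :=
  finsum_congr fun d => finsum_congr fun hd => h d hd

theorem c_cc (hS : S.Ok) (h : S.g x ≠ 0) :
    ContinuousAt (fun p : E × E => S.cc p.1 p.2) (x, θ) :=
  ((cont_n hS h).comp_of_eq continuousAt_fst rfl).inner (𝕜 := ℝ) continuousAt_snd

theorem nb (hS : S.Ok) (hf : S.Cl π k f) (h1 : S.g z.1 ≠ 0) (h2 : S.g (yy z) ≠ 0)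
    (h : ¬ S.Box π z) : f =ᶠ[𝓝 z] 0 :=
  (ev_nbox hS h1 h2 h).mono fun z hz => hf.bx z hz.1 hz.2.1 hz.2.2

theorem ev_out (hS : S.Ok) (h1 : S.g x ≠ 0) {r c : ℝ} (h : ¬ (‖x‖ ≤ r ∧ c ≤ S.cc x θ ^ 2)) :
    ∀ᶠ y in 𝓝 x, S.g y ≠ 0 ∧ ¬ (‖y‖ ≤ r ∧ c ≤ S.cc y θ ^ 2) := by
  refine (hS.sg.continuous.continuousAt.eventually_ne h1).and ?_
  simp only [not_and_or, not_le] at h ⊢
  exact h.elim (fun h => (continuousAt_const.eventually_lt continuous_norm.continuousAt h).mono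
    fun _ => .inl) fun h => ((((c_cc hS h1).comp_of_eq (f := fun y : E => (y, θ)) (by fun_prop)
      rfl).pow 2).eventually_lt continuousAt_const h).mono fun _ => .inr

theorem rs0 (hS : S.Ok) (hf : S.Cl π k f) (h1 : S.g x ≠ 0)
    (h : ¬ (‖x‖ ≤ 3 * π.R ∧ 1 / 2 ≤ S.cc x θ ^ 2)) : S.RS f x θ = 0 :=
  fz fun d h2 => hf.bx (x, θ, d) h1 (hS.reg _ h2) fun h3 => h ⟨h3.1, h3.2.2.2.1⟩

theorem yy_sub (y θ : E) (d : ℝ) : yy (y - d • θ, θ, d) = y := sub_add_cancel _ _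

theorem rb0 (hS : S.Ok) (hπ : π.Rg) (hf : S.Cl π k f) (hθ : ‖θ‖ = 1) (h1 : S.g x ≠ 0)
    (h : ¬ (‖x‖ ≤ 3 * π.R + 2 ∧ π.η ^ 2 / 2 ≤ S.cc x θ ^ 2)) : S.RB f x θ = 0 := by
  refine fz fun d h2 => hf.bx (x - d • θ, θ, d) (hS.reg _ h2) (by rwa [yy_sub])
    fun h3 => h ⟨?_, ?_⟩
  · have := norm_add_le (x - d • θ) (d • θ)
    rw [sub_add_cancel, norm_smul, hθ, Real.norm_of_nonneg (box_O hπ h3).2.2.le] at this
    linarith [h3.1, h3.2.2.1]
  · simpa only [Sf.cs2, yy_sub] using h3.2.2.2.2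

theorem rb_cd (fs : FS) (hS : S.Ok) (hπ : π.Rg) (hf : S.Cl π k f) (h1 : S.g x ≠ 0) :
    ContDiffAt ℝ k (fun p : E × E => S.RB f p.1 p.2) (x, θ) := by
  have cφ : ContDiff ℝ ∞ fun q : (E × E) × ℝ => ((q.1.1 - q.2 • q.1.2, q.1.2, q.2) : Q) := by
    fun_prop
  refine (fs (E × E) ℝ (fun q => S.w (q.1.1 - q.2 • q.1.2))
    (fun q => f (q.1.1 - q.2 • q.1.2, q.1.2, q.2)) (x, θ) (π.ρ / 2) 2 k
    (fun d _ => (hS.sm.comp cφ.fst).contDiffAt) ?_ fun d hd => ?_).1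
  · filter_upwards [(hS.sg.continuous.comp continuous_fst).continuousAt.eventually_ne
      (x := (x, θ)) h1] with y h2 d h3 h4
    exact hf.bx (y.1 - d • y.2, y.2, d) (hS.reg _ h3) (by rwa [yy_sub])
      fun h => h4 ⟨h.2.1, h.2.2.1⟩
  · by_cases h : S.Box π (x - d • θ, θ, d)
    · refine .inl ⟨⟨h.2.1, h.2.2.1⟩, ?_, (hf.sm _ (box_O hπ h)).comp ((x, θ), d)
        (cφ.contDiffAt.of_le (cast_le_inf k))⟩
      have h0 := hasFDerivAt_fst (𝕜 := ℝ) (p := (((x, θ), d) : (E × E) × ℝ))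
      have h2 := ((hS.hw (x - d • θ)).comp ((x, θ), d) (h0.fst.fun_sub
        ((hasFDerivAt_snd (𝕜 := ℝ) (p := (((x, θ), d) : (E × E) × ℝ))).fun_smul h0.snd))).fderiv
      rw [show (fun q : (E × E) × ℝ => S.w (q.1.1 - q.2 • q.1.2)) =
        S.w ∘ fun q => q.1.1 - q.2 • q.1.2 from rfl, h2]
      simpa [Sf.s] using (box_O hπ h).1
    · exact .inr ((cφ.continuous.tendsto ((x, θ), d)).eventually
        (nb hS hf (z := (x - d • θ, θ, d)) (hS.reg _ hd) (by rwa [yy_sub]) h))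

theorem fin (hS : S.Ok) (x θ : E) (a b : ℝ) {c : ℝ} (hc : 0 < c) :
    {l ∈ Icc a b | S.w (x + l • θ) = 0 ∧ c ≤ S.cc (x + l • θ) θ ^ 2}.Finite := by
  have cw := hS.sm.continuous
  have cg := hS.sg.continuous
  refine (IsCompact.finite (s := {l ∈ Icc a b | S.w (x + l • θ) = 0 ∧
    c * ‖S.g (x + l • θ)‖ ^ 2 ≤ ⟪S.g (x + l • θ), θ⟫ ^ 2}) (isCompact_Icc.inter_right
      ((isClosed_eq (by fun_prop) continuous_const).inter (isClosed_le (by fun_prop) (by fun_prop))))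
      (isDiscrete_iff_nhdsNE.2 fun l hl => inf_principal_eq_bot.2 ?_)).subset fun l hl => ?_
  · have h1 : 0 < ‖S.g (x + l • θ)‖ := norm_pos_iff.2 (hS.reg _ hl.2.1)
    have := (hS.hw (x + l • θ)).comp_hasDerivAt l (((hasDerivAt_id l).smul_const θ).const_add x)
    refine (this.eventually_ne (c := 0) fun h => ?_).mono fun y hy h => hy h.2.1
    have h2 := hl.2.2
    rw [one_smul, innerSL_apply_apply] at h
    rw [h] at h2
    nlinarith [mul_pos hc (pow_pos h1 2)]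
  · refine ⟨hl.1, hl.2.1, ?_⟩
    have := s_eq (θ := θ) (hS.reg _ hl.2.1)
    rw [Sf.s] at this
    rw [this, mul_pow, mul_comm]
    exact mul_le_mul_of_nonneg_left hl.2.2 (sq_nonneg _)

theorem abs_le_of (hθ : ‖θ‖ = 1) (x : E) (l : ℝ) : |l| ≤ ‖x + l • θ‖ + ‖x‖ := by
  simpa [norm_smul, hθ] using norm_sub_le (x + l • θ) x

theorem ls_swap (hS : S.Ok) (hπ : π.Rg) (hf : S.Cl π k f) (hθ : ‖θ‖ = 1) (x : E) :
    S.LS (S.RS f · θ) x θ = S.LS (S.RB f · θ) x θ := by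
  classical
  let G : ℝ × ℝ → ℝ := fun q => if S.w (x + q.1 • θ) = 0 then
    if S.w (x + q.1 • θ + q.2 • θ) = 0 then f (x + q.1 • θ, θ, q.2) else 0 else 0
  let e : ℝ × ℝ ≃ ℝ × ℝ := ⟨fun q => (q.1 - q.2, q.2), fun q => (q.1 + q.2, q.2),
    fun q => by simp, fun q => by simp⟩
  have hG : (Function.support G).Finite := by
    refine (((fin hS x θ (-(3 * π.R + ‖x‖)) (3 * π.R + ‖x‖) one_half_pos).prod (fin hS x θ
      (-(3 * π.R + ‖x‖)) (3 * π.R + ‖x‖ + 2) (half_pos (pow_pos hπ.η0 2)))).image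
      fun q => (q.1, q.2 - q.1)).subset fun q hq => ⟨(q.1, q.1 + q.2), ?_, by simp⟩
    simp only [Function.mem_support, G, ne_eq, ite_eq_right_iff, not_forall] at hq
    obtain ⟨h1, h2, h3⟩ := hq
    have hb : S.Box π (x + q.1 • θ, θ, q.2) :=
      by_contra fun h => h3 (hf.bx _ (hS.reg _ h1) (hS.reg _ h2) h)
    have h4 := abs_le.1 ((abs_le_of hθ x q.1).trans (add_le_add_left hb.1 _))
    have h5 := (box_O hπ hb).2.2
    have h6 := hb.2.2.1
    rw [mem_prod, mem_ofPred_eq, mem_ofPred_eq, add_smul, ← add_assoc]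
    exact ⟨⟨h4, h1, hb.2.2.2.1⟩, ⟨by linarith [h4.1], by linarith [h4.2]⟩, h2, hb.2.2.2.2⟩
  have hG' : (Function.support fun q => G (e q)).Finite :=
    hG.preimage (f := e) e.injective.injOn
  calc _ = ∑ᶠ (l) (d), G (l, d) := finsum_congr fun l => by
        simp only [finsum_eq_if, Sf.RS, G]
        split_ifs <;> simp
    _ = ∑ᶠ (l) (d), G (e (l, d)) := by
        rw [← finsum_curry G hG, ← finsum_comp_equiv e, finsum_curry _ hG']
    _ = _ := finsum_congr fun l => by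
        have e1 (d : ℝ) : x + (l - d) • θ = x + l • θ - d • θ := by rw [sub_smul, add_sub_assoc]
        simp only [finsum_eq_if, Sf.RB, G, e, Equiv.coe_fn_mk, e1, sub_add_cancel]
        split_ifs <;> simp

theorem lin_of (lin : LIN) (hS : S.Ok) (hθ : ‖θ‖ = 1) {H : E × E → ℝ} {r c : ℝ} (hc : 0 < c)
    (h1 : ∀ x, S.g x ≠ 0 → ContDiffAt ℝ (0 : ℕ) H (x, θ))
    (h2 : ∀ x, S.g x ≠ 0 → ¬ (‖x‖ ≤ r ∧ c ≤ S.cc x θ ^ 2) → H (x, θ) = 0) :
    Integrable (fun p => bet ⟪p, θ⟫ * S.LS (fun x => H (x, θ)) p θ) ∧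
    ∫ x, |S.cc x θ| * H (x, θ) ∂S.μ = ∫ p, bet ⟪p, θ⟫ * S.LS (fun x => H (x, θ)) p θ := by
  refine lin S θ _ r hS hθ fun x hx => ?_
  have hg := hS.reg _ hx
  by_cases h : ‖x‖ ≤ r ∧ c ≤ S.cc x θ ^ 2
  · exact .inl ⟨h.1, s_ne_of_sq hc h.2, (h1 x hg).comp x (f := fun x => (x, θ)) (by fun_prop)⟩
  · exact .inr ((ev_out hS hg h).mono fun y hy => h2 y hy.1 hy.2)

theorem lin_rs (ca : CA) (lin : LIN) (hS : S.Ok) (hπ : π.Rg) (hf : S.Cl π 0 f) (hθ : ‖θ‖ = 1) :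
    Integrable (fun p => bet ⟪p, θ⟫ * S.LS (S.RS f · θ) p θ) ∧
    ∫ x, |S.cc x θ| * S.RS f x θ ∂S.μ = ∫ p, bet ⟪p, θ⟫ * S.LS (S.RS f · θ) p θ :=
  lin_of lin hS hθ (H := fun p => S.RS f p.1 p.2) one_half_pos
    (fun x hx => (ca.rsk S π 0 f x θ hS hπ hf hx).1) fun _ hx h => rs0 hS hf hx h

theorem ib (fs : FS) (hS : S.Ok) (hπ : π.Rg) (hf : S.Cl π 0 f) :
    Integrable (fun p : E × E => gam p.2 * (|S.cc p.1 (un p.2)| * S.RB f p.1 (un p.2)))
      (S.μ.prod volume) := by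
  have := hS.fin
  have hK : IsCompact (({x | S.w x = 0} ∩ closedBall (0 : E) (3 * π.R + 2)) ×ˢ
      closedBall (0 : E) 2) := ((isCompact_closedBall _ _).inter_left
      (isClosed_eq hS.sm.continuous continuous_const)).prod (isCompact_closedBall _ _)
  refine IntegrableOn.integrable_of_ae_notMem_eq_zero
    (ContinuousOn.integrableOn_compact hK fun p hp => ContinuousAt.continuousWithinAt ?_) ?_
  · have hx := hS.reg _ hp.1.1
    by_cases h : p.2 = 0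
    · have h1 : ∀ᶠ q : E × E in 𝓝 p, ‖q.2‖ < 1 :=
        ContinuousAt.eventually_lt (by fun_prop) continuousAt_const (by simp [h])
      refine (continuousAt_const (y := (0 : ℝ))).congr (h1.mono fun q hq => ?_)
      simp [gam_small hq.le]
    · have h1 : ContinuousAt (fun q : E × E => (q.1, un q.2)) p :=
        continuousAt_fst.prodMk ((cont_un h).comp continuousAt_snd)
      exact (cont_gam.comp continuous_snd).continuousAt.mul
        (((c_cc hS hx).comp_of_eq h1 rfl).abs.mul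
          ((rb_cd fs hS hπ hf hx).continuousAt.comp_of_eq h1 rfl))
  · filter_upwards [Measure.quasiMeasurePreserving_fst.ae hS.sup] with p hp hn
    by_cases h : ‖p.2‖ ≤ 2
    · by_cases h0 : p.2 = 0
      · simp [h0, gam_small]
      · rw [rb0 hS hπ hf (norm_un h0) (hS.reg _ hp) fun h1 =>
          hn ⟨⟨hp, mem_closedBall_zero_iff.2 h1.1⟩, mem_closedBall_zero_iff.2 h⟩]
        simp
    · simp [gam_big (not_le.1 h).le]

theorem clD (hS : S.Ok) (hf : S.Cl π 1 f) (e : E) : S.Cl π 0 (S.D e f) where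
  sm z hz := by
    have hg : ContDiff ℝ 0 S.g := hS.sg.of_le (by simp)
    have hθ : ContDiffAt ℝ 0 (fun z : Q => z.2.1) z := by fun_prop
    have hp {a : Q → E} (ha : ContDiffAt ℝ 0 a z) (h : S.s (a z) z.2.1 ≠ 0) :
        ContDiffAt ℝ 0 (fun z : Q => S.p (a z) z.2.1) z :=
      (((hg.contDiffAt.comp z ha).inner ℝ hθ).inv h).smul (hg.contDiffAt.comp z ha)
    have h1 := hp contDiffAt_fst hz.1
    have h2 := hp (a := yy) (by unfold yy; fun_prop) hz.2.1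
    refine ((hf.sm z hz).fderiv_right (m := 0) (by simp)).clm_apply ?_
    unfold Sf.VD
    simp only [Pi_apply]
    exact (contDiffAt_const.sub ((h1.inner ℝ contDiffAt_const).smul hθ)).prodMk
      (contDiffAt_const.prodMk ((h1.sub h2).inner ℝ contDiffAt_const))
  bx z h1 h2 h := by simp [Sf.D, (nb hS hf h1 h2 h).fderiv_eq]

theorem hasG (hS : S.Ok) (θ : E) (q v : E × ℝ) :
    fderiv ℝ (fun q : E × ℝ => S.w (q.1 + q.2 • θ)) q v = ⟪S.g (q.1 + q.2 • θ), v.1 + v.2 • θ⟫ :=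
  (congrArg (fun L => L v) ((hS.hw _).comp q ((hasFDerivAt_fst (𝕜 := ℝ) (p := q)).fun_add
    ((hasFDerivAt_snd (𝕜 := ℝ) (p := q)).smul_const θ))).fderiv).trans rfl

theorem dls (fs : FS) (ca : CA) (hS : S.Ok) (hπ : π.Rg) (hf : S.Cl π 1 f) (hθ : ‖θ‖ = 1) (p : E) :
    DifferentiableAt ℝ (fun p => S.LS (S.RS f · θ) p θ) p ∧ ∀ v,
      fderiv ℝ (fun p => S.LS (S.RS f · θ) p θ) p v = S.LS (S.RS (S.D v f) · θ) p θ := by
  have cφ : ContDiff ℝ ∞ fun q : E × ℝ => q.1 + q.2 • θ := by fun_prop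
  have key := fs E ℝ (fun q => S.w (q.1 + q.2 • θ)) (fun q => S.RS f (q.1 + q.2 • θ) θ) p
    (-(3 * π.R + (‖p‖ + 1))) (3 * π.R + (‖p‖ + 1)) 1
    (fun d _ => (hS.sm.comp cφ).contDiffAt) ?_ fun l hl => ?_
  · refine ⟨key.1.differentiableAt (by simp), fun v => (key.2 le_rfl v).trans (fc fun l hl => ?_)⟩
    obtain ⟨h1, h2⟩ := ca.rsk S π 1 f (p + l • θ) θ hS hπ hf (hS.reg _ hl)
    have h3 := ((h1.differentiableAt (by simp)).hasFDerivAt.comp (p, l)
      (((hasFDerivAt_fst (𝕜 := ℝ) (p := (p, l))).fun_add ((hasFDerivAt_snd (𝕜 := ℝ)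
        (p := (p, l))).smul_const θ)).prodMk (hasFDerivAt_const θ _))).fderiv
    have h4 (t : ℝ) : fderiv ℝ (fun q : E × ℝ => S.RS f (q.1 + q.2 • θ) θ) (p, l) (v, t) = _ :=
      (congrArg (fun L => L (v, t)) h3).trans (h2 le_rfl (v + t • θ) 0)
    rw [h4, hasG hS, hasG hS]
    refine fc fun d hd => ?_
    by_cases hb : S.Box π (p + l • θ, θ, d)
    · have h5 : ⟪S.p2 (p + l • θ, θ, d), θ⟫ = 1 := p_θ (box_O hπ hb).2.1
      simp only [Sf.D, Sf.VD, Pi_apply, Sf.Pv, Sf.p1, p_inner, inner_sub_left, inner_add_right,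
        real_inner_smul_right, h5]
      congr 2
      · simp [Sf.s, div_eq_inv_mul, sub_eq_add_neg]
      · simp [Sf.s, div_eq_inv_mul, sub_eq_add_neg]
    · simp [Sf.D, (nb hS hf (z := (p + l • θ, θ, d)) (hS.reg _ hl) (hS.reg _ hd) hb).fderiv_eq]
  · filter_upwards [continuous_norm.continuousAt.eventually_lt continuousAt_const
      (lt_add_one ‖p‖)] with y hy l hl hI
    refine rs0 hS hf (hS.reg _ hl) fun h => hI (abs_le.1 ?_)
    linarith [abs_le_of hθ y l, h.1]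
  · have hg := hS.reg _ hl
    by_cases h : ‖p + l • θ‖ ≤ 3 * π.R ∧ 1 / 2 ≤ S.cc (p + l • θ) θ ^ 2
    · refine .inl ⟨abs_le.1 (by linarith [abs_le_of hθ p l, h.1]), ?_,
        (ca.rsk S π 1 f _ θ hS hπ hf hg).1.comp (p, l) (f := fun q : E × ℝ => (q.1 + q.2 • θ, θ))
          (by fun_prop)⟩
      simpa [hasG hS, Sf.s] using s_ne_of_sq one_half_pos h.2
    · exact .inr ((cφ.continuous.tendsto (p, l)).eventually
        ((ev_out hS hg h).mono fun y hy => rs0 hS hf hy.1 hy.2))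

theorem byl (fs : FS) (ca : CA) (lin : LIN) (hS : S.Ok) (hπ : π.Rg) (hf : S.Cl π 1 f)
    (hθ : ‖θ‖ = 1) (e : E) : ∫ x, |S.cc x θ| * S.RS (S.D e f) x θ ∂S.μ = 0 := by
  have hd := dls fs ca hS hπ hf hθ
  have h0 (p : E) : fderiv ℝ (fun p => S.LS (S.RS f · θ) p θ) p θ = 0 := by
    refine ((hd p).2 θ).trans (fz fun l hl => fz fun d hd => ?_)
    by_cases hb : S.Box π (p + l • θ, θ, d)
    · have h4 := box_O hπ hb
      have h5 := O.Pv_θ h4
      simp only [Sf.D, Sf.VD, Pi_θ h4.1] at h5 ⊢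
      rw [h5]
      exact map_zero _
    · simp [Sf.D, (nb hS hf (z := (p + l • θ, θ, d)) (hS.reg _ hl) (hS.reg _ hd) hb).fderiv_eq]
  have h1 (p : E) : S.LS (S.RS (S.D e f) · θ) p θ =
      S.LS (S.RS (S.D (e - ⟪e, θ⟫ • θ) f) · θ) p θ := by
    rw [← (hd p).2, ← (hd p).2, map_sub, map_smul, h0, smul_zero, sub_zero]
  have h2 : ⟪e - ⟪e, θ⟫ • θ, θ⟫ = 0 := by
    simp [inner_sub_left, real_inner_smul_left, hθ]
  rw [(lin_rs ca lin hS hπ (clD hS hf e) hθ).2]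
  simp only [h1]
  simpa using integral_bilinear_hasLineDerivAt_right_eq_neg_left_of_integrable (μ := volume)
    (f := fun p => bet ⟪p, θ⟫) (f' := fun _ => 0) (B := ContinuousLinearMap.mul ℝ ℝ)
    (v := e - ⟪e, θ⟫ • θ) (by simp) (lin_rs ca lin hS hπ (clD hS hf _) hθ).1
    (lin_rs ca lin hS hπ ⟨fun z hz => (hf.sm z hz).of_le (by simp), hf.bx⟩ hθ).1
    (fun p _ => by simpa [HasLineDerivAt, inner_add_left, real_inner_smul_left, h2] using
      hasDerivAt_const (0 : ℝ) (bet ⟪p, θ⟫))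
    fun p _ => (hd p).2 _ ▸ (hd p).1.hasFDerivAt.hasLineDerivAt _

end Swp

open Swp Ca

theorem swp (fs : FS) (ca : CA) (lin : LIN) : SWP := fun S π f hS hπ hf => by
  have := hS.fin
  refine ⟨ib fs hS hπ hf, ?_⟩
  unfold Sf.II Sf.AV
  refine (integral_integral_swap (ca.ix S π f hS hπ hf)).trans ((integral_congr_ae
    (.of_forall fun u => ?_)).trans (integral_integral_swap (ib fs hS hπ hf)).symm)
  by_cases h : u = 0
  · simp [h, gam_small]
  have hθ := norm_un h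
  simp only [integral_const_mul]
  rw [(lin_rs ca lin hS hπ hf hθ).2, (lin_of lin hS hθ (H := fun p => S.RB f p.1 p.2)
    (half_pos (pow_pos hπ.η0 2)) (fun _ => rb_cd fs hS hπ hf) fun _ => rb0 hS hπ hf hθ).2]
  simp only [ls_swap hS hπ hf hθ]

theorem byd (fs : FS) (ca : CA) (lin : LIN) : BYD := fun S π f e hS hπ hf => by
  have := hS.fin
  unfold Sf.II Sf.AV
  rw [integral_integral_swap (ca.ix S π _ hS hπ (clD hS hf e))]
  refine (integral_congr_ae (.of_forall fun u => ?_)).trans (integral_zero _ _)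
  by_cases h : u = 0
  · simp [h, gam_small]
  simp only [integral_const_mul, byl fs ca lin hS hπ hf (norm_un h), mul_zero]

end Vale.Agent.P218M1
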