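import Vale.Agent.P218M1.Spec
import Vale.Agent.P218M1.Alg

/-!
# P218M1: the transfer estimates
-/

open MeasureTheory Metric Filter Topology Set
open scoped ContDiff RealInnerProductSpace ENNReal

noncomputable section

namespace Vale.Agent.P218M1

namespace Tr

variable {S : Sf} {π : Par} {Λ : ℝ} {x θ : E} {z : Q} {k : ℝ → ℝ} {f : E → ℝ}

theorem ct0 (s : ℝ) : 0 ≤ ct s := Real.smoothTransition.nonneg _
theorem ct1 (s : ℝ) : ct s ≤ 1 := Real.smoothTransition.le_one _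
theorem ct_one {s : ℝ} (h : s ≤ 1) : ct s = 1 := Real.smoothTransition.one_of_one_le (by linarith)
theorem ct_zero {s : ℝ} (h : 2 ≤ s) : ct s = 0 :=
  Real.smoothTransition.zero_of_nonpos (by linarith)
theorem ct_lt {s : ℝ} (h : ct s ≠ 0) : s < 2 := not_le.1 fun a => h (ct_zero a)
theorem ct_gt {s : ℝ} (h : 1 - ct s ≠ 0) : 1 < s := not_le.1 fun a => h (by rw [ct_one a, sub_self])
theorem cct : Continuous ct := Real.smoothTransition.continuous.comp (by fun_prop)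

theorem cu_ne (r : π.Rg) {c : ℝ} (h : π.cu c ≠ 0) : π.η ^ 2 / 2 ≤ c := by
  have := (one_lt_div (by have := r.η0; positivity)).1 (ct_gt h)
  linarith

theorem cu_one (r : π.Rg) {c : ℝ} (h : π.η ^ 2 ≤ c) : π.cu c = 1 := by
  rw [Par.cu, ct_zero ((le_div_iff₀ (by have := r.η0; positivity)).2 (by linarith)), sub_zero]

theorem gam0 (u : E) : 0 ≤ gam u := mul_nonneg (ct0 _) (sub_nonneg.2 (ct1 _))

theorem gam_zero : gam 0 = 0 := by simp [gam, ct_one]

theorem int_gam : Integrable gam := by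
  have := cct
  refine Continuous.integrable_of_hasCompactSupport (by unfold gam; fun_prop)
    (HasCompactSupport.intro (isCompact_closedBall 0 2) fun u hu => ?_)
  rw [mem_closedBall_zero_iff, not_le] at hu
  rw [gam, ct_zero (by nlinarith), zero_mul]

theorem int_cone (n : E) (b : ℝ) :
    Integrable fun u => gam u * indicator {u | 1 - ⟪n, un u⟫ ^ 2 ≤ b} 1 u := by
  have m : Measurable un := by unfold un; fun_prop
  refine (int_gam.indicator (s := {u | 1 - ⟪n, un u⟫ ^ 2 ≤ b})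
    (measurableSet_le (by fun_prop) measurable_const)).congr (Eventually.of_forall fun u => ?_)
  simp only [indicator]
  split_ifs <;> simp

theorem int_ball (hS : S.Ok) (hf : S.Cg f) (r : ℝ) : IntegrableOn f (ball 0 r) S.μ := by
  have := hS.fin
  have c : IsClosed S.M := isClosed_eq hS.sm.continuous continuous_const
  have h1 : IntegrableOn f (closedBall 0 r ∩ S.M) S.μ :=
    ContinuousOn.integrableOn_compact ((isCompact_closedBall 0 r).inter_right c) fun y hy =>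
      (hf y (hS.reg y hy.2)).1.continuousWithinAt
  refine h1.mono_set_ae ?_
  filter_upwards [hS.sup] with y a b using ⟨ball_subset_closedBall b, a⟩

/-- the majorant of the weights -/
def ow (S : Sf) (π : Par) (z : Q) : ℝ := ct (‖z.1‖ ^ 2 / (4 * π.R ^ 2)) *
  ct ((1 - S.cs1 z) / (4 * π.α ^ 2)) * ct (S.N π z / 2) * ct z.2.2 * π.xi z.2.2

/-- the majorant for a function of the second point -/
def MM (S : Sf) (π : Par) (k : ℝ → ℝ) (f : E → ℝ) (z : Q) : ℝ :=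
  ow S π z * (k (S.cs2 z) * f (yy z))

theorem ow0 : 0 ≤ ow S π z :=
  mul_nonneg (mul_nonneg (mul_nonneg (mul_nonneg (ct0 _) (ct0 _)) (ct0 _)) (ct0 _))
    (sub_nonneg.2 (ct1 _))

theorem ow1 : ow S π z ≤ 1 :=
  mul_le_one₀ (mul_le_one₀ (mul_le_one₀ (mul_le_one₀ (ct1 _) (ct0 _) (ct1 _)) (ct0 _) (ct1 _))
    (ct0 _) (ct1 _)) (sub_nonneg.2 (ct1 _)) (sub_le_self _ (ct0 _))

theorem ow_ne (r : π.Rg) (h : ow S π z ≠ 0) : ‖z.1‖ ≤ 3 * π.R ∧ π.ρ / 2 ≤ z.2.2 ∧ z.2.2 ≤ 2 ∧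
    9 / 10 ≤ S.cs1 z ∧ S.N π z < 4 := by
  simp only [ow, mul_ne_zero_iff] at h
  obtain ⟨⟨⟨⟨a, b⟩, c⟩, d⟩, e⟩ := h
  have R0 := r.R1
  have α0 := r.α0
  have α1 := r.α1
  have a' := (div_lt_iff₀ (by positivity)).1 (ct_lt a)
  have b' := (div_lt_iff₀ (by positivity)).1 (ct_lt b)
  have e' := (one_lt_div r.ρ0).1 (ct_gt e)
  exact ⟨by nlinarith [norm_nonneg z.1], by linarith, (ct_lt d).le, by nlinarith,
    by linarith [ct_lt c]⟩

theorem ow_one (hu : UNQ) (hG : Good S π Λ) (h1 : S.Hit z) (h2 : S.Box π z) (a : ‖z.1‖ ≤ 2 * π.R)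
    (b : 1 - S.cs1 z ≤ 4 * π.α ^ 2) (c : S.N π z ≤ 2) (d : z.2.2 ≤ 1) : ow S π z = 1 := by
  have R0 := hG.rg.R1
  have α0 := hG.rg.α0
  rw [ow, ct_one ((div_le_one (by positivity)).2 (by nlinarith [norm_nonneg z.1])),
    ct_one ((div_le_one (by positivity)).2 b), ct_one (by linarith), ct_one d,
    (hu.xi1 S π Λ z hG h1 h2).2.1]
  norm_num

theorem MM_box (r : π.Rg) (hk : ∀ c, k c ≠ 0 → π.η ^ 2 / 2 ≤ c) (h : MM S π k f z ≠ 0) :
    S.Box π z := by
  obtain ⟨a, b, c, d, -⟩ := ow_ne r (left_ne_zero_of_mul h)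
  exact ⟨a, b, c, by linarith, hk _ (left_ne_zero_of_mul (right_ne_zero_of_mul h))⟩

theorem cyy : Continuous yy := by unfold yy; fun_prop

theorem c_cc (hS : S.Ok) {a : Q → E} (ha : Continuous a) (h : S.s (a z) z.2.1 ≠ 0) (m : ℕ) :
    ContDiffAt ℝ 0 (fun z => S.cc (a z) z.2.1 ^ m) z := by
  have h1 : ContDiffAt ℝ 0 (fun z => S.g (a z)) z :=
    (contDiff_zero.2 (hS.sg.continuous.comp ha)).contDiffAt
  exact (((((h1.norm ℝ (Sf.g_ne h)).inv (norm_ne_zero_iff.2 (Sf.g_ne h))).smul h1).inner ℝ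
    (contDiff_zero.2 (by fun_prop)).contDiffAt)).pow m

theorem c_comp {k : ℝ → ℝ} (hk : Continuous k) {a : Q → ℝ} (ha : ContDiffAt ℝ 0 a z) :
    ContDiffAt ℝ 0 (fun z => k (a z)) z := (contDiff_zero.2 hk).contDiffAt.comp z ha

theorem MM_cl (hn : NSC) (hS : S.Ok) (r : π.Rg) (hc : Continuous k)
    (hk : ∀ c, k c ≠ 0 → π.η ^ 2 / 2 ≤ c) (hf : S.Cg f) : S.Cl π 0 (MM S π k f) := by
  have := cct
  refine ⟨fun z hz => ?_, fun z _ _ h => by_contra fun a => h (MM_box r hk a)⟩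
  have hN : ContDiffAt ℝ 0 (S.N π) z := hn.sm S π 0 _ hS r ⟨fun z hz => c_comp
    (k := fun c => π.sg0 c ^ 2) (by unfold Par.sg0; fun_prop) (c_cc hS cyy hz.2.1 2), fun z _ h => by
      have := r.η0
      rw [Par.sg0, ct_one ((div_le_one (by positivity)).2 (by unfold Sf.cs2 at h; nlinarith))]
      simp⟩ z hz
  have hf' : ContDiffAt ℝ 0 (fun z => f (yy z)) z := contDiffAt_zero.2
    ⟨{z | S.g (yy z) ≠ 0}, (hS.sg.continuous.comp cyy).continuousAt.eventually_ne (Sf.g_ne hz.2.1),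
      fun z h => ((hf _ h).1.comp cyy.continuousAt).continuousWithinAt⟩
  exact (((((contDiff_zero.2 (by fun_prop)).contDiffAt.mul (c_comp
    (k := fun c => ct ((1 - c) / (4 * π.α ^ 2))) (by fun_prop) (c_cc hS continuous_fst hz.1 2))).mul
    (c_comp (k := fun c => ct (c / 2)) (by fun_prop) hN)).mul
    (contDiff_zero.2 (by fun_prop)).contDiffAt).mul
    (contDiff_zero.2 (by unfold Par.xi; fun_prop)).contDiffAt).mul
    ((c_comp hc (c_cc hS cyy hz.2.1 2)).mul hf')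

theorem fin (hG : Good S π Λ) (hθ : ‖θ‖ = 1) :
    {d : ℝ | S.w (x + d • θ) = 0 ∧ S.Box π (x, θ, d)}.Finite := by
  have ρ0 := hG.rg.ρ0
  have key : ∀ d ∈ {d : ℝ | S.w (x + d • θ) = 0 ∧ S.Box π (x, θ, d)},
      ∀ d' ∈ {d : ℝ | S.w (x + d • θ) = 0 ∧ S.Box π (x, θ, d)}, d < d' →
        ⌊d / π.ρ⌋₊ < ⌊d' / π.ρ⌋₊ := fun d ⟨a, b1, b2, b3, _, b5⟩ d' ⟨a', b'⟩ h => by
    have e : yy (x + d • θ, θ, d' - d) = x + d' • θ := by simp [yy, sub_smul]
    have d0 : 0 ≤ d := by linarith [show π.ρ / 2 ≤ d from b2]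
    have := hG.sp.sep (x + d • θ, θ, d' - d) ⟨a, hθ, sub_pos.2 h, by rw [e]; exact a'⟩
      ((norm_add_le _ _).trans (by
        rw [norm_smul, hθ, mul_one, Real.norm_of_nonneg d0]; exact add_le_add b1 b3)) b5
      (by rw [Sf.cs2, e]; exact b'.2.2.2.2)
    refine Nat.lt_of_add_one_le ?_
    rw [← Nat.floor_add_one (by positivity)]
    refine Nat.floor_mono ?_
    rw [div_add_one ρ0.ne']
    exact div_le_div_of_nonneg_right (by dsimp only at this; linarith) ρ0.le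
  refine Finite.of_injOn (f := fun d => ⌊d / π.ρ⌋₊) (t := Iic ⌊2 / π.ρ⌋₊) (fun d hd =>
    Nat.floor_mono (div_le_div_of_nonneg_right hd.2.2.2.1 ρ0.le)) (fun d hd d' hd' e => ?_)
    (finite_Iic _)
  rcases lt_trichotomy d d' with h | h | h
  exacts [absurd e (key d hd d' hd' h).ne, h, absurd e (key d' hd' d hd h).ne']

theorem RS_eq (hG : Good S π Λ) (hθ : ‖θ‖ = 1) {h : Q → ℝ}
    (hb : ∀ d : ℝ, S.w (x + d • θ) = 0 → h (x, θ, d) ≠ 0 → S.Box π (x, θ, d)) :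
    S.RS h x θ = ∑ d ∈ (fin (x := x) hG hθ).toFinset, h (x, θ, d) :=
  finsum_mem_eq_sum_of_inter_support_eq (s := {d : ℝ | S.w (x + d • θ) = 0}) _ (by
    ext d
    simp only [Finite.coe_toFinset, mem_inter_iff, mem_ofPred_eq, Function.mem_support]
    exact ⟨fun a => ⟨⟨a.1, hb d a.1 a.2⟩, a.2⟩, fun a => ⟨a.1.1, a.2⟩⟩)

/-- at most one first point -/
theorem RB_le (hu : UNQ) (hG : Good S π Λ) (hθ : ‖θ‖ = 1) {b : ℝ} (k0 : ∀ c, 0 ≤ k c ∧ k c ≤ 1)
    (hk : ∀ c, k c ≠ 0 → π.η ^ 2 / 2 ≤ c ∧ 1 - c ≤ b) (hf : S.Cg f) {y : E} (hy : S.w y = 0) :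
    0 ≤ S.RB (MM S π k f) y θ ∧ S.RB (MM S π k f) y θ ≤
      indicator (ball 0 (3 * π.R + 3)) f y * indicator {θ | 1 - ⟪S.n y, θ⟫ ^ 2 ≤ b} 1 θ := by
  have f0 := (hf y (hG.ok.reg y hy)).2
  have e : ∀ d : ℝ, yy (y - d • θ, θ, d) = y := fun d => by simp [yy]
  refine ⟨finsum_nonneg fun d => finsum_nonneg fun _ =>
    mul_nonneg ow0 (mul_nonneg (k0 _).1 (by rw [e]; exact f0)), ?_⟩
  have key : ∀ d d' : ℝ, S.w (y - d • θ) = 0 → MM S π k f (y - d • θ, θ, d) ≠ 0 →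
      S.w (y - d' • θ) = 0 → MM S π k f (y - d' • θ, θ, d') ≠ 0 → ¬ d < d' := fun d d' a b a' b' h => by
    obtain ⟨-, c2, -, c4, -⟩ := ow_ne hG.rg (left_ne_zero_of_mul b)
    have d0 : 0 < d := by linarith [hG.rg.ρ0, show π.ρ / 2 ≤ d from c2]
    have e' : yy (y - d' • θ, θ, d' - d) = y - d • θ := by simp [yy, sub_smul]
    have c5 : 9 / 10 ≤ S.cs2 (y - d' • θ, θ, d' - d) := by rw [Sf.cs2, e']; exact c4
    have := (hu.u1 S π Λ (y - d' • θ) θ (d' - d) d' hG ⟨a', hθ, sub_pos.2 h, by rw [e']; exact a⟩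
      ⟨a', hθ, d0.trans h, by rw [e]; exact hy⟩ (MM_box hG.rg (fun c h => (hk c h).1) b')
      (by linarith) (by linarith)).2 c5
    linarith [(ow_ne hG.rg (left_ne_zero_of_mul b')).2.2.2.2]
  have z0 : ∀ d : ℝ, (S.w (y - d • θ) = 0 → MM S π k f (y - d • θ, θ, d) ≠ 0 → False) →
      ∑ᶠ (_ : S.w (y - d • θ) = 0), MM S π k f (y - d • θ, θ, d) = 0 := fun d h => by
    rw [finsum_eq_if]
    split_ifs with a
    exacts [by_contra (h a), rfl]
  by_cases h : ∃ d : ℝ, S.w (y - d • θ) = 0 ∧ MM S π k f (y - d • θ, θ, d) ≠ 0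
  · obtain ⟨d, a, b⟩ := h
    obtain ⟨c1, c2, c3, -, -⟩ := ow_ne hG.rg (left_ne_zero_of_mul b)
    have c4 := (hk _ (left_ne_zero_of_mul (right_ne_zero_of_mul b))).2
    rw [Sf.cs2, e] at c4
    have c5 : y ∈ ball (0 : E) (3 * π.R + 3) := by
      have := norm_add_le (y - d • θ) (d • θ)
      rw [sub_add_cancel, norm_smul, hθ, mul_one, Real.norm_of_nonneg
        (by linarith [hG.rg.ρ0, show π.ρ / 2 ≤ d from c2])] at this
      rw [mem_ball_zero_iff]
      linarith [show ‖y - d • θ‖ ≤ 3 * π.R from c1, show d ≤ 2 from c3]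
    rw [Sf.RB, finsum_eq_single _ d fun d' hd => z0 d' fun a' b' => hd (le_antisymm
        (not_lt.1 (key d d' a b a' b')) (not_lt.1 (key d' d a' b' a b))), finsum_eq_if, if_pos a, indicator_of_mem c5,
      indicator_of_mem (show θ ∈ {θ | 1 - ⟪S.n y, θ⟫ ^ 2 ≤ _} from c4), Pi.one_apply, mul_one, MM, e]
    exact (mul_le_of_le_one_left (mul_nonneg (k0 _).1 f0) ow1).trans
      (mul_le_of_le_one_left f0 (k0 _).2)
  · rw [Sf.RB, finsum_eq_zero_of_forall_eq_zero fun d => z0 d fun a b => h ⟨d, a, b⟩]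
    exact mul_nonneg (indicator_apply_nonneg fun _ => f0) (indicator_apply_nonneg fun _ => zero_le_one)

/-- transfer to the second point -/
theorem II_le (hs : SWP) (hn : NSC) (hu : UNQ) (hG : Good S π Λ) {C γ : ℝ}
    (hC : ∀ n : E, ‖n‖ = 1 → ∫ u, gam u * indicator {u | 1 - ⟪n, un u⟫ ^ 2 ≤ γ ^ 2} 1 u ≤ C * γ ^ 2)
    (hc : Continuous k) (k0 : ∀ c, 0 ≤ k c ∧ k c ≤ 1)
    (hk : ∀ c, k c ≠ 0 → π.η ^ 2 / 2 ≤ c ∧ 1 - c ≤ γ ^ 2) (hf : S.Cg f) :
    S.II (MM S π k f) ≤ C * γ ^ 2 * S.IB π f := by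
  rw [(hs S π _ hG.ok hG.rg (MM_cl hn hG.ok hG.rg hc (fun c h => (hk c h).1) hf)).2, Sf.IB,
    ← integral_indicator measurableSet_ball, ← integral_const_mul]
  have h0 : ∀ y u, S.w y = 0 → 0 ≤ gam u * (|S.cc y (un u)| * S.RB (MM S π k f) y (un u)) :=
    fun y u hy => by
      by_cases h : u = 0
      · simp [h, gam_zero]
      · exact mul_nonneg (gam0 u) (mul_nonneg (abs_nonneg _) (RB_le hu hG (norm_un h) k0 hk hf hy).1)
  refine integral_mono_of_nonneg (hG.ok.sup.mono fun y hy => integral_nonneg fun u => h0 y u hy)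
    (((integrable_indicator_iff measurableSet_ball).2 (int_ball hG.ok hf _)).const_mul _) ?_
  filter_upwards [hG.ok.sup] with y hy
  have f0 : 0 ≤ indicator (ball 0 (3 * π.R + 3)) f y :=
    indicator_apply_nonneg fun _ => (hf y (hG.ok.reg y hy)).2
  refine (integral_mono_of_nonneg (Eventually.of_forall fun u => h0 y u hy)
    ((int_cone (S.n y) (γ ^ 2)).mul_const (indicator (ball 0 (3 * π.R + 3)) f y))
    (Eventually.of_forall fun u => ?_)).trans ?_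
  · by_cases h : u = 0
    · simp [h, gam_zero]
    · obtain ⟨a, b⟩ := RB_le hu hG (norm_un h) k0 hk hf hy
      simp only [mul_assoc]
      exact mul_le_mul_of_nonneg_left ((mul_le_of_le_one_left a (S.abs_cc_le y (norm_un h))).trans
        (b.trans_eq (mul_comm _ _))) (gam0 u)
  · rw [integral_mul_const]
    exact mul_le_mul_of_nonneg_right (hC _ (Sf.norm_n (hG.ok.reg y hy))) f0

/-- the estimate on one ray -/
theorem RS_le (hu : UNQ) (hG : Good S π Λ) (hx : S.w x = 0) (hθ : ‖θ‖ = 1) {β : ℝ} (hβ : 0 < β)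
    {h : Q → ℝ} {f₁ f₂ f₃ : E → ℝ} (hh : S.Cl π 0 h) (h1 : S.Cg f₁) (h2 : S.Cg f₂) (h3 : S.Cg f₃)
    (H : ∀ z, S.Hit z → S.Box π z → 0 < h z → S.Sp π z ∧ 1 - S.cs2 z ≤ β ^ 2 ∧ h z ≤ S.cs2 z ^ 4 *
      (f₁ z.1 + S.NS π (fun z' => π.cu (S.cs2 z') * f₃ (yy z')) z) + f₂ (yy z)) :
    S.RS h x θ ≤ 2 * (indicator {θ | 1 - ⟪S.n x, θ⟫ ^ 2 ≤ (2 * π.α) ^ 2} 1 θ *
      indicator (ball 0 (3 * π.R + 3)) f₁ x + S.RS (MM S π π.cu f₃) x θ) +
      S.RS (MM S π (fun c => π.cu c * ct ((1 - c) / β ^ 2)) f₂) x θ := by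
  have r := hG.rg
  have cu0 : ∀ c, 0 ≤ π.cu c := fun c => sub_nonneg.2 (ct1 _)
  rw [RS_eq hG hθ fun d a b => by_contra fun c => b (hh.bx _ (hG.ok.reg x hx) (hG.ok.reg _ a) c),
    RS_eq hG hθ fun d _ b => MM_box r (fun c => cu_ne r) b,
    RS_eq hG hθ fun d _ b => MM_box r (fun c a => cu_ne r (left_ne_zero_of_mul a)) b]
  set D := (fin (x := x) hG hθ).toFinset
  have hD : ∀ d, d ∈ D ↔ S.w (x + d • θ) = 0 ∧ S.Box π (x, θ, d) := fun d => Finite.mem_toFinset _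
  have hit : ∀ d ∈ D, S.Hit (x, θ, d) := fun d hd =>
    ⟨hx, hθ, by linarith [r.ρ0, ((hD d).1 hd).2.2.1], ((hD d).1 hd).1⟩
  have m3 : ∀ d ∈ D, 0 ≤ MM S π π.cu f₃ (x, θ, d) := fun d hd =>
    mul_nonneg ow0 (mul_nonneg (cu0 _) (h3 _ (hG.ok.reg _ ((hD d).1 hd).1)).2)
  have m2 : ∀ d ∈ D, 0 ≤ MM S π (fun c => π.cu c * ct ((1 - c) / β ^ 2)) f₂ (x, θ, d) := fun d hd =>
    mul_nonneg ow0 (mul_nonneg (mul_nonneg (cu0 _) (ct0 _)) (h2 _ (hG.ok.reg _ ((hD d).1 hd).1)).2)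
  set A := indicator {θ | 1 - ⟪S.n x, θ⟫ ^ 2 ≤ (2 * π.α) ^ 2} 1 θ *
      indicator (ball 0 (3 * π.R + 3)) f₁ x + ∑ d ∈ D, MM S π π.cu f₃ (x, θ, d) with hA
  have A0 : 0 ≤ A := add_nonneg (mul_nonneg (indicator_apply_nonneg fun _ => zero_le_one)
    (indicator_apply_nonneg fun _ => (h1 x (hG.ok.reg x hx)).2)) (Finset.sum_nonneg m3)
  set T := D.filter fun d => 0 < h (x, θ, d)
  have hT : ∀ d ∈ T, _ := fun d hd => H _ (hit d (Finset.mem_filter.1 hd).1)
    ((hD d).1 (Finset.mem_filter.1 hd).1).2 (Finset.mem_filter.1 hd).2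
  have s1 : ∑ d ∈ T, S.cs2 (x, θ, d) ^ 4 ≤ 2 := by
    have := hu.u2 S π Λ x θ T hG fun d hd => ⟨hit d (Finset.mem_filter.1 hd).1,
      ((hD d).1 (Finset.mem_filter.1 hd).1).2, by linarith [(hT d hd).1.2.2.2.1]⟩
    rw [Finset.sum_congr rfl fun d hd => by rw [Par.sgb, cu_one r (hT d hd).1.2.2.1, mul_one],
      ← Finset.mul_sum] at this
    linarith
  calc ∑ d ∈ D, h (x, θ, d) ≤ ∑ d ∈ T, h (x, θ, d) := by
        rw [← Finset.sum_filter_add_sum_filter_not D fun d => 0 < h (x, θ, d)]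
        exact add_le_of_nonpos_right (Finset.sum_nonpos fun d hd =>
          not_lt.1 (Finset.mem_filter.1 hd).2)
    _ ≤ ∑ d ∈ T, (S.cs2 (x, θ, d) ^ 4 * A +
          MM S π (fun c => π.cu c * ct ((1 - c) / β ^ 2)) f₂ (x, θ, d)) := by
        refine Finset.sum_le_sum fun d hd => ?_
        obtain ⟨⟨a1, a2, a3, a4, a5⟩, a6, a7⟩ := hT d hd
        have b1 := hit d (Finset.mem_filter.1 hd).1
        have b2 := ((hD d).1 (Finset.mem_filter.1 hd).1).2
        refine a7.trans (add_le_add (mul_le_mul_of_nonneg_left (add_le_add ?_ ?_)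
          (by positivity)) ?_)
        · rw [indicator_of_mem (show θ ∈ {θ | 1 - ⟪S.n x, θ⟫ ^ 2 ≤ (2 * π.α) ^ 2} from
            a2.trans_eq (by ring)), indicator_of_mem (mem_ball_zero_iff.2
              (by linarith [r.R1, show ‖x‖ ≤ 2 * π.R from a1])), Pi.one_apply, one_mul]
        · obtain ⟨T', c1, c2⟩ := hu.ns S π Λ _ hG b1 b2
          have c3 : ∀ l ∈ T', l ∈ D := fun l hl => by
            obtain ⟨e1, e2, e3, e4⟩ := (c1 l).1 hl
            have := hG.sp.sep (x, θ, l) ⟨hx, hθ, e1, e3⟩ (by linarith [b2.1])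
              (by nlinarith [r.η0, r.η1, show 1 / 2 ≤ S.cs1 (x, θ, l) from b2.2.2.2.1]) e4
            exact (hD l).2 ⟨e3, b2.1, by linarith [r.ρ0], e2.le.trans b2.2.2.1, b2.2.2.2.1, e4⟩
          rw [c2 _ fun z' _ a => by
            rw [show π.cu (S.cs2 z') = 0 from by_contra fun b => a.not_ge (cu_ne r b), zero_mul]]
          refine le_trans (Finset.sum_le_sum fun l hl => ?_)
            (Finset.sum_le_sum_of_subset_of_nonneg c3 fun l hl _ => m3 l hl)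
          have e := ((c1 l).1 hl).2.1.le
          rw [MM, ow_one hu hG (hit l (c3 l hl)) ((hD l).1 (c3 l hl)).2 a1 a2 ((hu.mono S π Λ x θ l d
            hG (hit l (c3 l hl)) ((hD l).1 (c3 l hl)).2 b1 b2 e).trans a4) (e.trans a5), one_mul]
        · rw [MM, ow_one hu hG b1 b2 a1 a2 a4 a5, cu_one r a3,
            ct_one ((div_le_one (by positivity)).2 a6), one_mul, one_mul, one_mul]
    _ ≤ _ := by
        rw [Finset.sum_add_distrib, ← Finset.sum_mul]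
        exact add_le_add (mul_le_mul_of_nonneg_right s1 A0) (Finset.sum_le_sum_of_subset_of_nonneg
          (Finset.filter_subset _ _) fun d hd _ => m2 d hd)

end Tr

open Tr

theorem tr (ha : CA) (hs : SWP) (hn : NSC) (hc : CON) (hu : UNQ) : TR := by
  obtain ⟨C, C0, hC⟩ := hc.up
  refine ⟨8 * C, by positivity, fun S π Λ β h f₁ f₂ f₃ hG hβ hh h1 h2 h3 H => ?_⟩
  have r := hG.rg
  have hS := hG.ok
  have := cct
  have cu0 : ∀ c, 0 ≤ π.cu c ∧ π.cu c ≤ 1 := fun c => ⟨sub_nonneg.2 (ct1 _), sub_le_self _ (ct0 _)⟩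
  have ccu : Continuous π.cu := by unfold Par.cu; fun_prop
  have ck : Continuous fun c => π.cu c * ct ((1 - c) / β ^ 2) := by fun_prop
  have l3 := MM_cl hn hS r ccu (fun c => cu_ne r) h3
  have l2 := MM_cl hn hS r ck (fun c a => cu_ne r (left_ne_zero_of_mul a)) h2
  have e3 := II_le hs hn hu hG (γ := 1) (fun n a => hC n 1 a) ccu cu0
    (fun c a => ⟨cu_ne r a, by nlinarith [cu_ne r a, sq_nonneg π.η]⟩) h3
  have e2 := II_le hs hn hu hG (γ := 2 * β) (fun n a => hC n _ a) ck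
    (fun c => ⟨mul_nonneg (cu0 c).1 (ct0 _), mul_le_one₀ (cu0 c).2 (ct0 _) (ct1 _)⟩)
    (fun c a => ⟨cu_ne r (left_ne_zero_of_mul a), by
      have := (div_lt_iff₀ (by positivity)).1 (ct_lt (right_ne_zero_of_mul a))
      nlinarith⟩) h2
  have i1 := (integrable_indicator_iff measurableSet_ball).2 (int_ball hS h1 (3 * π.R + 3))
  have key : S.II h ≤ 2 * (C * (2 * π.α) ^ 2 * S.IB π f₁ + S.II (MM S π π.cu f₃)) +
      S.II (MM S π (fun c => π.cu c * ct ((1 - c) / β ^ 2)) f₂) := by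
    have j3 := ha.avi S π _ hS r l3
    have j2 := ha.avi S π _ hS r l2
    have j1 := ((i1.const_mul (C * (2 * π.α) ^ 2)).add j3).const_mul 2
    simp only [Sf.II, Sf.IB]
    rw [← integral_indicator measurableSet_ball, ← integral_const_mul,
      ← integral_add (i1.const_mul _) j3, ← integral_const_mul]
    refine le_trans (integral_mono_ae (ha.avi S π _ hS r hh) (j1.add j2) ?_)
      (integral_add j1 j2).le
    filter_upwards [hS.sup] with x hx
    have g0 := hS.reg x hx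
    have f0 : 0 ≤ indicator (ball 0 (3 * π.R + 3)) f₁ x := indicator_apply_nonneg fun _ => (h1 x g0).2
    have k3 := ha.iu S π _ x hS r l3 g0
    have k2 := ha.iu S π _ x hS r l2 g0
    have k0 := (int_cone (S.n x) ((2 * π.α) ^ 2)).mul_const (indicator (ball 0 (3 * π.R + 3)) f₁ x)
    have k1 := (k0.add k3).const_mul 2
    refine (integral_mono (ha.iu S π _ x hS r hh g0) (k1.add k2) fun u => ?_).trans ?_
    · by_cases e : u = 0
      · simp [e, gam_zero]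
      have a1 := mul_le_mul_of_nonneg_left (RS_le hu hG hx (norm_un e) hβ hh h1 h2 h3 H)
        (mul_nonneg (gam0 u) (abs_nonneg (S.cc x (un u))))
      have a2 := mul_le_mul_of_nonneg_left (S.abs_cc_le x (norm_un e)) (mul_nonneg (gam0 u)
        (mul_nonneg (indicator_apply_nonneg (s := {θ | 1 - ⟪S.n x, θ⟫ ^ 2 ≤ (2 * π.α) ^ 2})
          (f := (1 : E → ℝ)) (a := un u) fun _ => zero_le_one) f0))
      have a3 : indicator {u | 1 - ⟪S.n x, un u⟫ ^ 2 ≤ (2 * π.α) ^ 2} (1 : E → ℝ) u =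
        indicator {θ | 1 - ⟪S.n x, θ⟫ ^ 2 ≤ (2 * π.α) ^ 2} 1 (un u) := rfl
      simp only [Pi.add_apply, a3]
      linarith
    · refine (integral_add k1 k2).trans_le (add_le_add_left ?_ _)
      rw [integral_const_mul]
      refine mul_le_mul_of_nonneg_left ((integral_add k0 k3).trans_le (add_le_add_left ?_ _))
        zero_le_two
      rw [integral_mul_const]
      exact mul_le_mul_of_nonneg_right (hC _ _ (Sf.norm_n g0)) f0
  have p : ∀ {f}, S.Cg f → 0 ≤ S.IB π f := fun hf => integral_nonneg_of_ae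
    (ae_restrict_of_ae (hS.sup.mono fun x hx => (hf x (hS.reg x hx)).2))
  nlinarith [mul_nonneg C0.le (p h3), mul_nonneg C0.le (mul_nonneg (sq_nonneg β) (p h2))]

end Vale.Agent.P218M1
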