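import Vale.Agent.P218M1.Cut
import Vale.Agent.P218M1.Gd
import Vale.Agent.P218M1.Gx
import Vale.Agent.P218M1.Tr
import Vale.Agent.P218M1.Swp
import Vale.Agent.P218M1.Cub

/-!
# P218M1: the Gagliardo-Nirenberg type bound and the energy of the weight
-/

open MeasureTheory Metric Filter Topology Set
open scoped ContDiff RealInnerProductSpace ENNReal

noncomputable section

namespace Vale.Agent.P218M1

namespace Gn

open Gd

variable {S : Sf} {π : Par} {B K T : ℝ → ℝ} {z : Q}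

/-- the general weight -/
def ze (S : Sf) (π : Par) (B K T : ℝ → ℝ) (z : Q) : ℝ :=
  π.pt z.1 * B (S.cs1 z) * K (S.cs2 z) * T (S.N π z) * ct (2 * z.2.2) * π.xi z.2.2

/-- admissible profiles -/
structure Adm (π : Par) (B K T : ℝ → ℝ) : Prop where
  sB : ContDiff ℝ ∞ B
  sK : ContDiff ℝ ∞ K
  sT : ContDiff ℝ ∞ T
  B1 : ∀ c, B c ^ 2 ≤ 1
  dB : ∀ c, deriv B c ^ 2 ≤ (2 * Cc / π.α ^ 2) ^ 2
  Bz : ∀ c, 4 * π.α ^ 2 ≤ 1 - c → B c = 0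
  K1 : ∀ c, K c ^ 2 ≤ 256 * c ^ 4
  dK : ∀ c, 0 ≤ c → c ≤ 1 → deriv K c ^ 2 ≤ (64 * Cc) ^ 2
  Kz : ∀ c, c ≤ π.η ^ 2 → K c = 0
  T1 : ∀ c, T c ^ 2 ≤ 1
  dT : ∀ c, deriv T c ^ 2 ≤ (2 * Cc) ^ 2
  Tz : ∀ c, 2 ≤ c → T c = 0

theorem sq_le_of_abs {a b : ℝ} (h : |a| ≤ b) : a ^ 2 ≤ b ^ 2 := by
  rw [← sq_abs]; exact pow_le_pow_left₀ (abs_nonneg _) h 2

theorem adm_g (h : π.Rg) : Adm π π.Bt π.sg0 ct where
  sB := π.Bt_smooth
  sK := π.sg0_smooth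
  sT := ct_smooth
  B1 _ := ct_sq_le _
  dB c := sq_le_of_abs ((π.abs_dBt_le c).trans (by have := Cc_pos; gcongr; linarith))
  Bz _ := h.Bt_zero
  K1 c := (h.sg0_sq_le c).trans (Par.sgb_le c)
  dK c h0 h1 := sq_le_of_abs ((π.abs_dsg0_le h0).trans (by nlinarith [Cc_pos]))
  Kz _ := h.sg0_zero
  T1 _ := ct_sq_le _
  dT c := sq_le_of_abs ((abs_dct_le c).trans (by linarith [Cc_pos]))
  Tz _ := ct_zero

theorem hd_ct2 (s : ℝ) : HasDerivAt (fun s => ct (2 * s)) (2 * deriv ct (2 * s)) s := by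
  simpa using hasDerivAt_ct_lin 2 0 s

theorem adm_a (h : π.Rg) : Adm π π.B0 Par.K0 fun s => ct (2 * s) where
  sB := π.B0_smooth
  sK := Par.K0_smooth
  sT := ct_smooth.comp (contDiff_const.mul contDiff_id)
  B1 _ := ct_sq_le _
  dB c := sq_le_of_abs (π.abs_dB0_le c)
  Bz c hc := h.B0_zero (by linarith [h.α2.1])
  K1 c := by
    by_cases h0 : Par.K0 c = 0
    · rw [h0]; simp; positivity
    · have h1 := Par.K0_ne h0
      have h2 : (1 / 4 : ℝ) ^ 4 ≤ c ^ 4 := by gcongr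
      nlinarith [Par.K0_nonneg c, Par.K0_le c]
  dK c _ _ := sq_le_of_abs ((Par.abs_dK0_le c).trans (by linarith [Cc_pos]))
  Kz c hc := Par.K0_zero (by linarith [h.η2.2])
  T1 _ := ct_sq_le _
  dT c := sq_le_of_abs (by
    rw [(hd_ct2 c).deriv, abs_mul, abs_two]; linarith [abs_dct_le (2 * c)])
  Tz c hc := ct_zero (by linarith)

theorem zg_eq (S : Sf) (π : Par) : S.zg π = ze S π π.Bt π.sg0 ct := rfl

theorem za_eq (S : Sf) (π : Par) : S.za π = ze S π π.B0 Par.K0 fun s => ct (2 * s) := by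
  funext z
  simp only [Sf.za, Sf.o0, ze]; ring

theorem five {a b c d e a' b' c' d' e' : ℝ} (ha : a ^ 2 ≤ 1) (hb : b ^ 2 ≤ 1) (hd : d ^ 2 ≤ 1)
    (he : e ^ 2 ≤ 1) :
    (a' * b * c * d * e + a * b' * c * d * e + a * b * c' * d * e + a * b * c * d' * e +
      a * b * c * d * e') ^ 2 ≤ 5 * (c ^ 2 * (a' ^ 2 + b' ^ 2 + d' ^ 2 + e' ^ 2) + c' ^ 2) := by
  have key : ∀ p q r u : ℝ, p ^ 2 ≤ 1 → q ^ 2 ≤ 1 → r ^ 2 ≤ 1 → (p * q * r * u) ^ 2 ≤ u ^ 2 := by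
    intro p q r u hp hq hr
    calc _ = p ^ 2 * q ^ 2 * r ^ 2 * u ^ 2 := by ring
      _ ≤ 1 * 1 * 1 * u ^ 2 := by gcongr
      _ = _ := by ring
  have h1 := key b d e (c * a') hb hd he
  have h2 := key a d e (c * b') ha hd he
  have h3 := key a b (d * e) c' ha hb (by
    rw [mul_pow]; exact mul_le_one₀ hd (sq_nonneg _) he)
  have h4 := key a b e (c * d') ha hb he
  have h5 := key a b d (c * e') ha hb hd
  have cs : ∀ p q r s t : ℝ, (p + q + r + s + t) ^ 2 ≤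
      5 * (p ^ 2 + q ^ 2 + r ^ 2 + s ^ 2 + t ^ 2) := by
    intro p q r s t
    nlinarith [sq_nonneg (p - q), sq_nonneg (p - r), sq_nonneg (p - s), sq_nonneg (p - t),
      sq_nonneg (q - r), sq_nonneg (q - s), sq_nonneg (q - t), sq_nonneg (r - s),
      sq_nonneg (r - t), sq_nonneg (s - t)]
  have := cs (b * d * e * (c * a')) (a * d * e * (c * b')) (a * b * (d * e) * c')
    (a * b * e * (c * d')) (a * b * d * (c * e'))
  nlinarith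

theorem hder {f : ℝ → ℝ} (hf : ContDiff ℝ ∞ f) (c : ℝ) : HasDerivAt f (deriv f c) c :=
  (hf.differentiable (by simp) c).hasDerivAt

theorem hd_ze (hS : S.Ok) (hA : Adm π B K T) (hz : z ∈ S.O) (hN : DifferentiableAt ℝ (S.N π) z)
    (x1 : π.xi z.2.2 = 1) (x2 : deriv π.xi z.2.2 = 0) (e : E) :
    HD (ze S π B K T) z (S.VD e z)
      (fderiv ℝ π.pt z.1 (S.Pi z.1 z.2.1 e) * B (S.cs1 z) * K (S.cs2 z) * T (S.N π z) *
          ct (2 * z.2.2) +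
        π.pt z.1 * (deriv B (S.cs1 z) * (2 * S.cs1 z * ⟪S.lv z, e⟫)) * K (S.cs2 z) * T (S.N π z) *
          ct (2 * z.2.2) +
        π.pt z.1 * B (S.cs1 z) * (deriv K (S.cs2 z) * (2 * S.cs2 z ^ 2 * ⟪S.X2 z (S.p2 z), e⟫)) *
          T (S.N π z) * ct (2 * z.2.2) +
        π.pt z.1 * B (S.cs1 z) * K (S.cs2 z) * (deriv T (S.N π z) * S.D e (S.N π) z) *
          ct (2 * z.2.2) +
        π.pt z.1 * B (S.cs1 z) * K (S.cs2 z) * T (S.N π z) *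
          (2 * deriv ct (2 * z.2.2) * ⟪S.Pv z, e⟫)) := by
  have h1 := (hx z (S.VD e z)).comp (π.pt_smooth.differentiable (by simp) z.1).hasFDerivAt
  have h2 := (wc1 e 0 hS hz).rcomp (hder hA.sB _)
  have h3 := (wc2 e 0 hS hz).rcomp (hder hA.sK _)
  rw [← VD_eq] at h2 h3
  have h4 := (HD.self hN (S.VD e z)).rcomp (hder hA.sT _)
  have h5 := (hd z (S.VD e z)).rcomp (hd_ct2 _)
  have h6 := (hd z (S.VD e z)).rcomp (hder π.xi_smooth _)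
  refine (((((h1.mul h2).mul h3).mul h4).mul h5).mul h6).val ?_
  simp only [x1, x2, Sf.VD, Sf.D, inner_zero_right, smul_zero, add_zero, mul_zero]
  ring

/-- the bound for one derivative -/
theorem D_ze_sq (hS : S.Ok) (hπ : π.Rg) (hA : Adm π B K T) (hz : z ∈ S.O) (hθ : ‖z.2.1‖ = 1)
    (hN : DifferentiableAt ℝ (S.N π) z) (x1 : π.xi z.2.2 = 1) (x2 : deriv π.xi z.2.2 = 0)
    (hp : S.Sp π z) (i : Fin 3) : S.D (ee i) (ze S π B K T) z ^ 2 ≤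
      10 ^ 6 * Cc ^ 2 * (S.cs2 z ^ 4 * ((1 + S.A2 z.1) / π.α ^ 2 + S.D (ee i) (S.N π) z ^ 2) +
        (1 + S.A2 (yy z))) := by
  have ha := hπ.α2
  have hC := one_le_Cc
  have hc1 : 1 / 2 ≤ S.cs1 z := by linarith [hp.2.1, ha.2]
  have hc1' := S.cs1_le hθ
  have hc2 := Sf.O.cs2_pos hz
  have hc2' := S.cs2_le hθ
  have hA1 := S.A2_nonneg z.1
  have hA2 := S.A2_nonneg (yy z)
  rw [Sf.D, (hd_ze hS hA hz hN x1 x2 (ee i)).2]
  refine (five (ct_sq_le _) (hA.B1 _) (hA.T1 _) (ct_sq_le _)).trans ?_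
  have b1 : fderiv ℝ π.pt z.1 (S.Pi z.1 z.2.1 (ee i)) ^ 2 ≤ 8 * Cc ^ 2 / π.α ^ 2 := by
    have h1 := hπ.fderiv_pt_sq z.1 (S.Pi z.1 z.2.1 (ee i))
    have h2 := Sf.norm_Pi_sq hz.1 hθ (ee i)
    rw [norm_ee, one_pow, mul_one] at h2
    have h3 : (S.cc z.1 z.2.1 ^ 2)⁻¹ ≤ 2 := by
      change (S.cs1 z)⁻¹ ≤ 2
      rw [inv_le_comm₀ (Sf.O.cs1_pos hz) two_pos]; simpa using hc1
    have h4 : 1 ≤ π.R ^ 2 := one_le_pow₀ hπ.R1
    calc _ ≤ 8 * Cc ^ 2 / (2 * 1) * 2 := h1.trans (by gcongr; exact h2.trans h3)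
      _ = 8 * Cc ^ 2 / 1 := by ring
      _ ≤ _ := by gcongr; exacts [ha.1, by linarith [ha.2]]
  have b2 : (deriv B (S.cs1 z) * (2 * S.cs1 z * ⟪S.lv z, ee i⟫)) ^ 2 ≤
      512 * Cc ^ 2 * S.A2 z.1 / π.α ^ 2 := by
    have h1 := inner_sq_le (S.lv z) (ee i)
    rw [norm_ee, one_pow, mul_one] at h1
    have h2 := h1.trans (hS.norm_lv_le hz hθ hc1)
    have h3 := hp.2.1
    have h4 : ⟪S.lv z, ee i⟫ ^ 2 ≤ 8 * (4 * π.α ^ 2) * S.A2 z.1 := h2.trans (by gcongr)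
    have h5 := hA.dB (S.cs1 z)
    calc _ = deriv B (S.cs1 z) ^ 2 * (4 * S.cs1 z ^ 2 * ⟪S.lv z, ee i⟫ ^ 2) := by ring
      _ ≤ (2 * Cc / π.α ^ 2) ^ 2 * (4 * 1 ^ 2 * (8 * (4 * π.α ^ 2) * S.A2 z.1)) := by gcongr
      _ = _ := by have := hπ.α0.ne'; field_simp; ring
  have b3 : (deriv K (S.cs2 z) * (2 * S.cs2 z ^ 2 * ⟪S.X2 z (S.p2 z), ee i⟫)) ^ 2 ≤
      16384 * Cc ^ 2 * S.A2 (yy z) := by
    have h1 := inner_apply_sq_le (S.X2 z) (S.p2 z) (ee i)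
    rw [norm_ee, one_pow, mul_one] at h1
    have h2 := hS.hs_X2 hz hθ
    have h3 := Sf.O.cs2_p2 hz
    have h4 : S.cs2 z ^ 4 * ⟪S.X2 z (S.p2 z), ee i⟫ ^ 2 ≤ S.A2 (yy z) :=
      calc _ ≤ S.cs2 z ^ 4 * (hs (S.X2 z) * ‖S.p2 z‖ ^ 2) := by gcongr
        _ = S.cs2 z ^ 3 * hs (S.X2 z) * (S.cs2 z * ‖S.p2 z‖ ^ 2) := by ring
        _ ≤ _ := by rw [h3, mul_one]; exact h2
    have h5 := hA.dK _ hc2.le hc2'
    calc _ = deriv K (S.cs2 z) ^ 2 * (4 * (S.cs2 z ^ 4 * ⟪S.X2 z (S.p2 z), ee i⟫ ^ 2)) := by ring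
      _ ≤ (64 * Cc) ^ 2 * (4 * S.A2 (yy z)) := by gcongr
      _ = _ := by ring
  have b4 : (deriv T (S.N π z) * S.D (ee i) (S.N π) z) ^ 2 ≤
      4 * Cc ^ 2 * S.D (ee i) (S.N π) z ^ 2 := by
    rw [mul_pow]
    exact mul_le_mul_of_nonneg_right ((hA.dT _).trans (le_of_eq (by ring))) (sq_nonneg _)
  have b5 : S.cs2 z ^ 4 * (2 * deriv ct (2 * z.2.2) * ⟪S.Pv z, ee i⟫) ^ 2 ≤ 16 * Cc ^ 2 := by
    have h1 := inner_sq_le (S.Pv z) (ee i)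
    rw [norm_ee, one_pow, mul_one] at h1
    have h2 : S.cs2 z * ⟪S.Pv z, ee i⟫ ^ 2 ≤ 4 :=
      (mul_le_mul_of_nonneg_left h1 hc2.le).trans (Sf.O.sq_le hz hθ hc1)
    have h3 := dct_sq_le (2 * z.2.2)
    calc _ = 4 * deriv ct (2 * z.2.2) ^ 2 * S.cs2 z ^ 3 * (S.cs2 z * ⟪S.Pv z, ee i⟫ ^ 2) := by ring
      _ ≤ 4 * Cc ^ 2 * 1 ^ 3 * 4 := by gcongr
      _ = _ := by ring
  have hK := hA.K1 (S.cs2 z)
  have e1 : (1 + S.A2 z.1) / π.α ^ 2 = 1 / π.α ^ 2 + S.A2 z.1 / π.α ^ 2 := add_div _ _ _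
  have p1 : 0 ≤ S.cs2 z ^ 4 * (Cc ^ 2 / π.α ^ 2) := by positivity
  have p2 : 0 ≤ S.cs2 z ^ 4 * (Cc ^ 2 * S.A2 z.1 / π.α ^ 2) := by positivity
  have p3 : 0 ≤ S.cs2 z ^ 4 * (Cc ^ 2 * S.D (ee i) (S.N π) z ^ 2) := by positivity
  have p4 : 0 ≤ Cc ^ 2 * S.A2 (yy z) := by positivity
  have p5 : 0 ≤ Cc ^ 2 := by positivity
  calc _ ≤ 5 * (256 * S.cs2 z ^ 4 * (8 * Cc ^ 2 / π.α ^ 2 + 512 * Cc ^ 2 * S.A2 z.1 / π.α ^ 2 +
        4 * Cc ^ 2 * S.D (ee i) (S.N π) z ^ 2 + (2 * deriv ct (2 * z.2.2) * ⟪S.Pv z, ee i⟫) ^ 2) +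
        16384 * Cc ^ 2 * S.A2 (yy z)) := by gcongr
    _ = 10240 * (S.cs2 z ^ 4 * (Cc ^ 2 / π.α ^ 2)) +
        655360 * (S.cs2 z ^ 4 * (Cc ^ 2 * S.A2 z.1 / π.α ^ 2)) +
        5120 * (S.cs2 z ^ 4 * (Cc ^ 2 * S.D (ee i) (S.N π) z ^ 2)) +
        1280 * (S.cs2 z ^ 4 * (2 * deriv ct (2 * z.2.2) * ⟪S.Pv z, ee i⟫) ^ 2) +
        81920 * (Cc ^ 2 * S.A2 (yy z)) := by ring
    _ ≤ 10 ^ 6 * (S.cs2 z ^ 4 * (Cc ^ 2 / π.α ^ 2)) +
        10 ^ 6 * (S.cs2 z ^ 4 * (Cc ^ 2 * S.A2 z.1 / π.α ^ 2)) +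
        10 ^ 6 * (S.cs2 z ^ 4 * (Cc ^ 2 * S.D (ee i) (S.N π) z ^ 2)) +
        10 ^ 6 * Cc ^ 2 + 10 ^ 6 * (Cc ^ 2 * S.A2 (yy z)) := by linarith
    _ = _ := by ring

theorem norm_DG (S : Sf) (f : Q → ℝ) (z : Q) : ‖S.DG f z‖ ^ 2 = ∑ i, S.D (ee i) f z ^ 2 := by
  simp only [norm_sq_eq_sum, Sf.DG, sum_smul_ee_apply]

theorem DG_ze_sq (hS : S.Ok) (hπ : π.Rg) (hA : Adm π B K T) (hz : z ∈ S.O) (hθ : ‖z.2.1‖ = 1)
    (hN : DifferentiableAt ℝ (S.N π) z) (x1 : π.xi z.2.2 = 1) (x2 : deriv π.xi z.2.2 = 0)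
    (hp : S.Sp π z) : ‖S.DG (ze S π B K T) z‖ ^ 2 ≤
      3 * 10 ^ 6 * Cc ^ 2 * (S.cs2 z ^ 4 * ((1 + S.A2 z.1) / π.α ^ 2 + ‖S.DG (S.N π) z‖ ^ 2) +
        (1 + S.A2 (yy z))) := by
  have h := fun i => D_ze_sq hS hπ hA hz hθ hN x1 x2 hp i
  rw [norm_DG, norm_DG]
  simp only [Fin.sum_univ_three]
  have p : ∀ i, 0 ≤ Cc ^ 2 * (S.cs2 z ^ 4 * S.D (ee i) (S.N π) z ^ 2) := fun i => by positivity
  nlinarith [h 0, h 1, h 2, p 0, p 1, p 2]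

/-- the vector field for the integration by parts -/
def fv (S : Sf) (π : Par) (i : Fin 3) (z : Q) : ℝ :=
  S.zg π z ^ 2 * (S.sq z * (1 + S.sq z)⁻¹ * ⟪S.Pv z, ee i⟫ * (z.2.2)⁻¹)

theorem young {x a b : ℝ} (ha : 0 ≤ a) (hb : 0 ≤ b) (h : x ^ 2 ≤ 4 * a * b) : x ≤ a + b :=
  (abs_le_of_sq_le_sq' (by nlinarith [sq_nonneg (a - b)]) (by positivity)).2

theorem ineq {ζ s r c u g t w h : ℝ} (hr : 0 ≤ r) (hr1 : r ≤ 1) (hsr : s * r ≤ 1)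
    (hg : 0 ≤ g) (hh : 0 ≤ h) (hu : u ^ 2 ≤ g * s) (ht : t ^ 2 ≤ 3 * h) (hw : w ^ 2 ≤ h * s * s) :
    2 * ζ * (s * r) * c * u + ζ ^ 2 * c * (s * r * t + 2 * r ^ 2 * w) ≤
      ζ ^ 2 * (s ^ 2 * r) * c ^ 2 / 2 + 4 * g + 16 * (ζ ^ 2 * h) := by
  have h0 : 0 ≤ ζ ^ 2 * (s ^ 2 * r) * c ^ 2 / 4 := by positivity
  have h1 : 2 * ζ * (s * r) * c * u ≤ ζ ^ 2 * (s ^ 2 * r) * c ^ 2 / 4 + 4 * g := by
    refine young h0 (by positivity) ?_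
    calc _ = 4 * ζ ^ 2 * (s * r) ^ 2 * c ^ 2 * u ^ 2 := by ring
      _ ≤ 4 * ζ ^ 2 * (s * r) ^ 2 * c ^ 2 * (g * s) := by gcongr
      _ = 4 * ζ ^ 2 * (s ^ 2 * r) * c ^ 2 * g * (s * r) := by ring
      _ ≤ 4 * ζ ^ 2 * (s ^ 2 * r) * c ^ 2 * g * 1 := by gcongr
      _ = _ := by ring
  have h2 : (s * r * t + 2 * r ^ 2 * w) ^ 2 ≤ 16 * (s ^ 2 * r) * h := by
    have a1 : (s * r * t) ^ 2 ≤ 3 * (s ^ 2 * r * h) :=
      calc _ = s ^ 2 * r * r * t ^ 2 := by ring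
        _ ≤ s ^ 2 * r * 1 * (3 * h) := by gcongr
        _ = _ := by ring
    have a2 : (r ^ 2 * w) ^ 2 ≤ s ^ 2 * r * h :=
      calc _ = r * r ^ 3 * w ^ 2 := by ring
        _ ≤ r * 1 ^ 3 * (h * s * s) := by gcongr
        _ = _ := by ring
    have a3 : 0 ≤ s ^ 2 * r * h := by positivity
    nlinarith [sq_nonneg (s * r * t - 2 * r ^ 2 * w)]
  have h3 : ζ ^ 2 * c * (s * r * t + 2 * r ^ 2 * w) ≤
      ζ ^ 2 * (s ^ 2 * r) * c ^ 2 / 4 + 16 * (ζ ^ 2 * h) := by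
    refine young h0 (by positivity) ?_
    calc _ = ζ ^ 4 * c ^ 2 * (s * r * t + 2 * r ^ 2 * w) ^ 2 := by ring
      _ ≤ ζ ^ 4 * c ^ 2 * (16 * (s ^ 2 * r) * h) := by gcongr
      _ = _ := by ring
  linarith

theorem D_fv (hS : S.Ok) (hz : z ∈ S.O) (hg : DifferentiableAt ℝ (S.zg π) z) (i : Fin 3) :
    S.D (ee i) (fv S π i) z =
      2 * S.zg π z * (S.sq z * (1 + S.sq z)⁻¹) * (z.2.2)⁻¹ * (S.D (ee i) (S.zg π) z * S.Pv z i) +
      S.zg π z ^ 2 * (z.2.2)⁻¹ * (S.sq z * (1 + S.sq z)⁻¹ * S.Z z (ee i) i +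
        2 * (1 + S.sq z)⁻¹ ^ 2 * (S.Z z (S.Pv z) i * S.Pv z i)) -
      S.zg π z ^ 2 * (S.sq z * (1 + S.sq z)⁻¹) * (z.2.2)⁻¹ ^ 2 * S.Pv z i ^ 2 := by
  have h0 : 1 + S.sq z ≠ 0 := by have := S.sq_nonneg' z; positivity
  have h1 := (HD.self hg (S.VD (ee i) z)).sq
  have h2 := wsq (ee i) 0 hS hz
  have h3 := (wPv (ee i) 0 hS hz).inner (HD.const (ee i))
  rw [← VD_eq] at h2 h3
  have h4 := ((HD.const 1).add h2).inv h0
  have h5 := (hd z (S.VD (ee i) z)).inv hz.2.2.ne'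
  have h := (h1.mul (((h2.mul h4).mul h3).mul h5)).2
  refine Eq.trans h ?_
  have := hz.2.2.ne'
  simp only [Sf.VD, Sf.D, inner_zero_right, map_zero, smul_zero, zero_smul, add_zero, mul_zero,
    sub_zero, zero_add, inner_ee]
  field_simp
  ring

theorem ig_eq (S : Sf) (π : Par) (z : Q) :
    S.ig π z = S.zg π z ^ 2 * (S.sq z ^ 2 * (1 + S.sq z)⁻¹) * (z.2.2)⁻¹ ^ 2 := by
  simp only [Sf.ig, div_eq_mul_inv, inv_pow]

theorem div_fv (hS : S.Ok) (hz : z ∈ S.O) (hg : DifferentiableAt ℝ (S.zg π) z) :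
    ∑ i, S.D (ee i) (fv S π i) z + S.ig π z / 2 ≤
      4 * ‖S.DG (S.zg π) z‖ ^ 2 + 16 * (S.zg π z ^ 2 * hs (S.Z z)) := by
  have hs0 := S.sq_nonneg' z
  have h := ineq (ζ := S.zg π z) (s := S.sq z) (c := (z.2.2)⁻¹) (r := (1 + S.sq z)⁻¹) (by positivity)
    (inv_le_one_of_one_le₀ (by linarith))
    (by rw [← div_eq_mul_inv, div_le_one (by positivity)]; linarith) (sq_nonneg _) (hs_nonneg _)
    (inner_sq_le (S.DG (S.zg π) z) (S.Pv z)) (trc_sq_le (S.Z z))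
    (inner_apply_sq_le (S.Z z) (S.Pv z) (S.Pv z))
  have e1 : S.sq z = ∑ i, S.Pv z i ^ 2 := norm_sq_eq_sum _
  simp only [D_fv hS hz hg, Finset.sum_add_distrib, Finset.sum_sub_distrib, ← Finset.mul_sum]
  rw [← e1, ← inner_eq_sum, ← inner_sum_ee, ig_eq]
  unfold trc Sf.DG at h
  unfold Sf.DG
  linarith

/-! ### classes and linearity -/

variable {Λ : ℝ} {f g : Q → ℝ} {k : ℕ}

theorem sm_c1 (hS : S.Ok) (hz : z ∈ S.O) : ContDiffAt ℝ ∞ S.cs1 z :=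
  ((Gx.sm_n hS contDiffAt_fst (Sf.O.g1 hz)).inner ℝ Gx.sm_θ).pow 2

theorem sm_c2 (hS : S.Ok) (hz : z ∈ S.O) : ContDiffAt ℝ ∞ S.cs2 z :=
  ((Gx.sm_n hS Gx.sm_yy.contDiffAt (Sf.O.g2 hz)).inner ℝ Gx.sm_θ).pow 2

theorem sm_sq (hS : S.Ok) (hz : z ∈ S.O) : ContDiffAt ℝ ∞ S.sq z := (Gx.sm_Pv hS hz).norm_sq ℝ

theorem sm_N (hn : NSC) (hS : S.Ok) (hπ : π.Rg) (k : ℕ) : S.Sm k (S.N π) :=
  hn.sm S π k _ hS hπ ⟨fun _ hz => ((π.sg0_smooth.contDiffAt.comp _ (sm_c2 hS hz)).pow 2).of_le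
    (cast_le_inf k), fun z _ h => by rw [hπ.sg0_zero (by linarith [hπ.η2.1])]; simp⟩

theorem ze_ne (hπ : π.Rg) (hA : Adm π B K T) (h : ze S π B K T z ≠ 0) :
    S.Sp π z ∧ π.ρ / 2 ≤ z.2.2 := by
  simp only [ze, mul_ne_zero_iff] at h
  obtain ⟨⟨⟨⟨⟨h1, h2⟩, h3⟩, h4⟩, h5⟩, h6⟩ := h
  exact ⟨⟨(hπ.pt_ne h1).le, (not_le.1 fun a => h2 (hA.Bz _ a)).le,
    (not_le.1 fun a => h3 (hA.Kz _ a)).le, (not_le.1 fun a => h4 (hA.Tz _ a)).le,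
    by linarith [lt_of_ct_ne h5]⟩, (hπ.xi_ne h6).le⟩

theorem ze_cl (hn : NSC) (hS : S.Ok) (hπ : π.Rg) (hA : Adm π B K T) (k : ℕ) :
    S.Cl π k (ze S π B K T) where
  sm z hz := by
    have l := cast_le_inf k
    have h1 := (hA.sB.contDiffAt.comp z (sm_c1 hS hz)).of_le l
    have h2 := (hA.sK.contDiffAt.comp z (sm_c2 hS hz)).of_le l
    have h3 := (hA.sT.of_le l).contDiffAt.comp z (sm_N hn hS hπ k z hz)
    exact (((((Par.pt_cd.contDiffAt.comp z contDiffAt_fst).mul h1).mul h2).mul h3).mul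
      (by fun_prop)).mul (by fun_prop)
  bx z _ _ hb := by
    by_contra h
    obtain ⟨⟨a, b, c, -, d⟩, e⟩ := ze_ne hπ hA h
    exact hb ⟨by linarith [hπ.R0], e, by linarith, by linarith [hπ.α2.2], by linarith [hπ.η2.1]⟩

theorem ze_ev (hn : NSC) (hS : S.Ok) (hπ : π.Rg) (hA : Adm π B K T) (hz : z ∈ S.O)
    (hp : ¬ S.Sp π z) : ze S π B K T =ᶠ[𝓝 z] 0 := by
  have c1 := (sm_c1 hS hz).continuousAt
  have c2 := (sm_c2 hS hz).continuousAt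
  have c3 := (sm_N hn hS hπ 0 z hz).continuousAt
  have c0 : ContinuousAt (fun z : Q => ‖z.1‖) z := by fun_prop
  have c4 : ContinuousAt (fun z : Q => z.2.2) z := by fun_prop
  have h : ∀ᶠ z' in 𝓝 z, ¬ S.Sp π z' := by
    simp only [Sf.Sp, not_and_or, not_le] at hp ⊢
    rcases hp with h | h | h | h | h
    · exact (continuousAt_const.eventually_lt c0 h).mono fun _ => Or.inl
    · exact (continuousAt_const.eventually_lt (continuousAt_const.sub c1) h).mono fun _ h =>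
        Or.inr (Or.inl h)
    · exact (c2.eventually_lt continuousAt_const h).mono fun _ h => Or.inr (Or.inr (Or.inl h))
    · exact (continuousAt_const.eventually_lt c3 h).mono fun _ h =>
        Or.inr (Or.inr (Or.inr (Or.inl h)))
    · exact (continuousAt_const.eventually_lt c4 h).mono fun _ h =>
        Or.inr (Or.inr (Or.inr (Or.inr h)))
  exact h.mono fun z' h' => by_contra fun h0 => h' (ze_ne hπ hA h0).1

theorem cl_add (hf : S.Cl π k f) (hg : S.Cl π k g) : S.Cl π k fun z => f z + g z :=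
  ⟨fun z hz => (hf.sm z hz).add (hg.sm z hz),
    fun z a b c => by rw [hf.bx z a b c, hg.bx z a b c, add_zero]⟩

theorem cl_mul (hf : S.Cl π k f) (hg : S.Sm k g) : S.Cl π k fun z => f z * g z :=
  ⟨fun z hz => (hf.sm z hz).mul (hg z hz), fun z a b c => by rw [hf.bx z a b c, zero_mul]⟩

theorem II_add (ca : CA) (hG : Good S π Λ) (hf : S.Cl π 0 f) (hg : S.Cl π 0 g) :
    S.II (fun z => f z + g z) = S.II f + S.II g := by
  have hS := hG.ok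
  rw [Sf.II, Sf.II, Sf.II, ← integral_add (ca.avi S π f hS hG.rg hf) (ca.avi S π g hS hG.rg hg)]
  refine integral_congr_ae (hS.sup.mono fun x hx => ?_)
  have hx' := hS.reg x hx
  change S.AV _ x = S.AV f x + S.AV g x
  rw [Sf.AV, Sf.AV, Sf.AV, ← integral_add (ca.iu S π f x hS hG.rg hf hx')
    (ca.iu S π g x hS hG.rg hg hx')]
  refine integral_congr_ae (Eventually.of_forall fun u => ?_)
  by_cases hu : u = 0
  · simp [hu, gam_zero]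
  have key : ∀ {h : Q → ℝ}, S.Cl π 0 h → S.RS h x (un u) =
      ∑ d ∈ (Tr.fin (x := x) hG (norm_un hu)).toFinset, h (x, un u, d) := fun hh =>
    Tr.RS_eq hG (norm_un hu) fun d hd h0 => by_contra fun hb =>
      h0 (hh.bx _ hx' (hS.reg _ hd) hb)
  simp only [key hf, key hg, key (cl_add hf hg), Finset.sum_add_distrib]
  ring

theorem II_half (S : Sf) (f : Q → ℝ) : S.II (fun z => f z / 2) = S.II f / 2 := by
  simp only [Sf.II, Sf.AV, ← integral_div]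
  refine integral_congr_ae (Eventually.of_forall fun x => ?_)
  refine integral_congr_ae (Eventually.of_forall fun u => ?_)
  have : S.RS (fun z => f z / 2) x (un u) = 2⁻¹ * S.RS f x (un u) := by
    simp only [div_eq_inv_mul]
    exact (mul_finsum_mem (s := {d | S.w (x + d • un u) = 0}) (fun d => f (x, un u, d)) 2⁻¹).symm
  simp only [this]
  ring

theorem DG_cl (hS : S.Ok) (hf : S.Cl π 1 f) : S.Cl π 0 fun z => ‖S.DG f z‖ ^ 2 := by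
  simp only [norm_DG, Fin.sum_univ_three]
  simp only [sq]
  have h := fun i => cl_mul (Swp.clD hS hf (ee i)) (Swp.clD hS hf (ee i)).sm
  exact cl_add (cl_add (h 0) (h 1)) (h 2)

theorem sm_inv (hS : S.Ok) (k : ℕ) : S.Sm k (fun z => (1 + S.sq z)⁻¹) ∧
    S.Sm k fun z : Q => (z.2.2)⁻¹ :=
  ⟨fun z hz => ((contDiffAt_const.add (sm_sq hS hz)).inv
    (by have := S.sq_nonneg' z; positivity)).of_le (cast_le_inf k),
    fun z hz => ContDiffAt.inv (by fun_prop) hz.2.2.ne'⟩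

theorem zg2_cl (hn : NSC) (hS : S.Ok) (hπ : π.Rg) (k : ℕ) : S.Cl π k fun z => S.zg π z ^ 2 := by
  simp only [sq]
  exact cl_mul (ze_cl hn hS hπ (adm_g hπ) k) (ze_cl hn hS hπ (adm_g hπ) k).sm

theorem fv_cl (hn : NSC) (hS : S.Ok) (hπ : π.Rg) (i : Fin 3) : S.Cl π 1 (fv S π i) :=
  cl_mul (zg2_cl hn hS hπ 1) fun z hz =>
    ((((sm_sq hS hz).of_le (cast_le_inf 1)).mul ((sm_inv hS 1).1 z hz)).mul
      (((Gx.sm_Pv hS hz).of_le (cast_le_inf 1)).inner ℝ contDiffAt_const)).mul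
      ((sm_inv hS 1).2 z hz)

theorem ig_cl (hn : NSC) (hS : S.Ok) (hπ : π.Rg) (k : ℕ) : S.Cl π k (S.ig π) := by
  rw [funext (ig_eq S π)]
  exact cl_mul (cl_mul (zg2_cl hn hS hπ k) fun z hz =>
    (((sm_sq hS hz).of_le (cast_le_inf k)).pow 2).mul ((sm_inv hS k).1 z hz))
    fun z hz => ((sm_inv hS k).2 z hz).pow 2

/-- the transfer, for integrands with the standard majorant -/
theorem trans (hu : UNQ) (tr : TR) : ∃ C : ℝ, 0 < C ∧ ∀ (S : Sf) (π : Par) (Λ c : ℝ) (h : Q → ℝ),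
    Good S π Λ → 0 ≤ c → S.Cl π 0 h → (∀ z, S.Hit z → S.Box π z → 0 < h z → S.Sp π z ∧
      h z ≤ c * (S.cs2 z ^ 4 * ((1 + S.A2 z.1) / π.α ^ 2 +
        S.NS π (fun z' => π.cu (S.cs2 z') * S.A2 (yy z')) z) + (1 + S.A2 (yy z)))) →
    S.II h ≤ C * c * S.AA π := by
  obtain ⟨C, C0, hC⟩ := tr
  refine ⟨3 * C, by positivity, fun S π Λ c h hG hc hh H => ?_⟩
  have cg : ∀ a : ℝ, 0 ≤ a → S.Cg fun x => a * (1 + S.A2 x) := fun a ha x hx =>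
    ⟨continuousAt_const.mul (continuousAt_const.add (Cub.cont_A2 hG.ok hx)),
      by have := S.A2_nonneg x; positivity⟩
  have ib : ∀ a : ℝ, S.IB π (fun x => a * (1 + S.A2 x)) = a * S.AA π := fun a =>
    integral_const_mul _ _
  have := hC S π Λ 1 h _ _ _ hG one_pos hh (cg (c / π.α ^ 2) (by positivity)) (cg c hc) (cg c hc)
    fun z h1 h2 h3 => by
      obtain ⟨a, b⟩ := H z h1 h2 h3
      refine ⟨a, by linarith [S.cs2_nonneg z], b.trans ?_⟩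
      obtain ⟨T, -, hT⟩ := hu.ns S π Λ z hG h1 h2
      rw [hT _ fun z' _ h => by rw [hG.rg.cu_zero h.le, zero_mul],
        hT _ fun z' _ h => by rw [hG.rg.cu_zero h.le, zero_mul]]
      have e : c * ∑ l ∈ T, π.cu (S.cs2 (z.1, z.2.1, l)) * S.A2 (yy (z.1, z.2.1, l)) ≤
          ∑ l ∈ T, π.cu (S.cs2 (z.1, z.2.1, l)) * (c * (1 + S.A2 (yy (z.1, z.2.1, l)))) := by
        rw [Finset.mul_sum]
        refine Finset.sum_le_sum fun l _ => ?_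
        nlinarith [mul_nonneg hc (Par.cu_nonneg (π := π) (S.cs2 (z.1, z.2.1, l)))]
      have e2 := mul_le_mul_of_nonneg_left e (show 0 ≤ S.cs2 z ^ 4 by positivity)
      have e3 : c / π.α ^ 2 * (1 + S.A2 z.1) = c * ((1 + S.A2 z.1) / π.α ^ 2) := by ring
      rw [e3]
      linarith
  rw [ib, ib] at this
  refine this.trans (le_of_eq ?_)
  have := hG.rg.α0.ne'
  field_simp
  ring

/-- the gradient of a general weight -/
theorem DG_le (hn : NSC) (hu : UNQ) (nb : NB) : ∃ c : ℝ, 0 < c ∧ ∀ (S : Sf) (π : Par) (Λ : ℝ)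
    (B K T : ℝ → ℝ) (z : Q), Good S π Λ → Adm π B K T → S.Hit z → S.Box π z → S.Sp π z →
    0 ≤ S.NS π (fun z' => π.cu (S.cs2 z') * S.A2 (yy z')) z ∧ ‖S.DG (ze S π B K T) z‖ ^ 2 ≤
      c * (S.cs2 z ^ 4 * ((1 + S.A2 z.1) / π.α ^ 2 +
        S.NS π (fun z' => π.cu (S.cs2 z') * S.A2 (yy z')) z) + (1 + S.A2 (yy z))) := by
  obtain ⟨C, C0, hC⟩ := nb
  have hc := Cc_pos
  refine ⟨3 * 10 ^ 6 * Cc ^ 2 * (1 + C), by positivity, fun S π Λ B K T z hG hA h1 h2 h3 => ?_⟩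
  have hz := Ca.box_O hG.rg h2
  obtain ⟨-, x1, x2⟩ := hu.xi1 S π Λ z hG h1 h2
  have a := (hC S π Λ z hG h1 h2 (by linarith [h3.2.2.2.1])).1
  have b : 0 ≤ S.NS π (fun z' => π.cu (S.cs2 z') * S.A2 (yy z')) z :=
    nonneg_of_mul_nonneg_right ((sq_nonneg _).trans a) C0
  refine ⟨b, (DG_ze_sq hG.ok hG.rg hA hz h1.2.1
    ((sm_N hn hG.ok hG.rg 1 z hz).differentiableAt (by simp)) x1 x2 h3).trans ?_⟩
  rw [mul_assoc _ (1 + C)]
  refine mul_le_mul_of_nonneg_left ?_ (by positivity)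
  have p1 : 0 ≤ (1 + S.A2 z.1) / π.α ^ 2 := by have := S.A2_nonneg z.1; positivity
  have p2 := S.A2_nonneg (yy z)
  have p3 : 0 ≤ S.cs2 z ^ 4 := by positivity
  nlinarith [mul_le_mul_of_nonneg_left a p3, mul_nonneg p3 b, mul_nonneg C0.le (mul_nonneg p3 p1),
    mul_nonneg C0.le p2]

theorem DG_zero (h : f =ᶠ[𝓝 z] 0) : S.DG f z = 0 := by
  simp [Sf.DG, Sf.D, h.fderiv_eq]

theorem zg_hs (hS : S.Ok) (hπ : π.Rg) (hz : z ∈ S.O) (hθ : ‖z.2.1‖ = 1) (hp : S.Sp π z) :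
    S.zg π z ^ 2 * hs (S.Z z) ≤
      4096 * (S.cs2 z ^ 4 * ((1 + S.A2 z.1) / π.α ^ 2) + (1 + S.A2 (yy z))) := by
  have ha := hπ.α2
  have hc1 : 1 / 2 ≤ S.cs1 z := by linarith [hp.2.1, ha.2]
  have hc2 := Sf.O.cs2_pos hz
  have hA := adm_g hπ
  have a1 := S.A2_nonneg z.1
  have a2 := S.A2_nonneg (yy z)
  have h1 : S.zg π z ^ 2 ≤ 256 * S.cs2 z ^ 4 := by
    have b1 : π.pt z.1 ^ 2 ≤ 1 := ct_sq_le _
    have b2 := hA.B1 (S.cs1 z)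
    have b3 := hA.K1 (S.cs2 z)
    have b4 := ct_sq_le (S.N π z)
    have b5 := ct_sq_le (2 * z.2.2)
    have b6 : π.xi z.2.2 ^ 2 ≤ 1 := pow_le_one₀ (Par.xi_nonneg _) (Par.xi_le _)
    simp only [Sf.zg, mul_pow]
    calc _ ≤ 1 * 1 * (256 * S.cs2 z ^ 4) * 1 * 1 * 1 := by gcongr
      _ = _ := by ring
  have h2 := hS.hs_X1_le hz hθ hc1
  have h3 : S.cs2 z ^ 4 * hs (S.X2 z) ≤ S.A2 (yy z) :=
    le_trans (mul_le_mul_of_nonneg_right (pow_le_pow_of_le_one hc2.le (S.cs2_le hθ) (by norm_num))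
      (hs_nonneg _)) (hS.hs_X2 hz hθ)
  have h4 : S.A2 z.1 ≤ (1 + S.A2 z.1) / π.α ^ 2 := by
    rw [le_div_iff₀ ha.1]; nlinarith [ha.2]
  have p3 : 0 ≤ S.cs2 z ^ 4 := by positivity
  have h5 := mul_le_mul h1 (S.hs_Z_le z) (hs_nonneg _) (by positivity)
  nlinarith [mul_le_mul_of_nonneg_left h2 p3, mul_le_mul_of_nonneg_left h4 p3]

end Gn

open Gn in
/-- **GN** -/
theorem gn (ca : CA) (byd : BYD) (hn : NSC) (hu : UNQ) (nb : NB) (tr : TR) : GN := by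
  obtain ⟨C, C0, hC⟩ := trans hu tr
  obtain ⟨c, c0, hc⟩ := DG_le hn hu nb
  refine ⟨2 * (C * (4 * c + 16 * 4096)), by positivity, fun S π Λ hG => ⟨?_, ?_⟩⟩
  · have hS := hG.ok
    have hπ := hG.rg
    have d := fun i => Swp.clD hS (fv_cl hn hS hπ i) (ee i)
    have i2 : S.Cl π 0 fun z => S.ig π z / 2 := cl_mul (ig_cl hn hS hπ 0) fun _ _ => contDiffAt_const
    have key := hC S π Λ (4 * c + 16 * 4096) _ hG (by positivity)
      (cl_add (cl_add (cl_add (d 0) (d 1)) (d 2)) i2) fun z h1 h2 h3 => by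
        have hz := Ca.box_O hπ h2
        have h4 := div_fv hS hz (((ze_cl hn hS hπ (adm_g hπ) 1).sm z hz).differentiableAt (by simp))
        rw [Fin.sum_univ_three] at h4
        have hp : S.Sp π z := by
          by_contra hp
          have h5 := ze_ev hn hS hπ (adm_g hπ) hz hp
          rw [zg_eq, DG_zero h5, h5.self_of_nhds] at h4
          simp only [norm_zero, Pi.zero_apply] at h4
          linarith
        obtain ⟨b, h5⟩ := hc S π Λ _ _ _ z hG (adm_g hπ) h1 h2 hp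
        refine ⟨hp, h4.trans ?_⟩
        have h6 := zg_hs hS hπ hz h1.2.1 hp
        rw [zg_eq] at h6 ⊢
        nlinarith [mul_nonneg (show 0 ≤ S.cs2 z ^ 4 by positivity) b]
    rw [II_add ca hG (cl_add (cl_add (d 0) (d 1)) (d 2)) i2, II_add ca hG (cl_add (d 0) (d 1)) (d 2),
      II_add ca hG (d 0) (d 1), byd S π _ _ hS hπ (fv_cl hn hS hπ 0),
      byd S π _ _ hS hπ (fv_cl hn hS hπ 1), byd S π _ _ hS hπ (fv_cl hn hS hπ 2), II_half] at key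
    linarith
  · have hS := hG.ok
    have hπ := hG.rg
    rw [za_eq]
    have key := hC S π Λ c _ hG c0.le (DG_cl hS (ze_cl hn hS hπ (adm_a hπ) 1)) fun z h1 h2 h3 => by
      have hp : S.Sp π z := by
        by_contra hp
        rw [DG_zero (ze_ev hn hS hπ (adm_a hπ) (Ca.box_O hπ h2) hp)] at h3
        simp at h3
      exact ⟨hp, (hc S π Λ _ _ _ z hG (adm_a hπ) h1 h2 hp).2⟩
    have : 0 ≤ S.AA π := integral_nonneg fun x => by have := S.A2_nonneg x; positivity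
    refine key.trans (mul_le_mul_of_nonneg_right ?_ this)
    nlinarith [mul_pos C0 c0]

end Vale.Agent.P218M1
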