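import Vale.Agent.P218M1.MainA
import Vale.Agent.P218M1.Gn

/-!
# P218M1: the row MAIN
-/

open MeasureTheory Metric Filter Topology Set
open scoped ContDiff RealInnerProductSpace

noncomputable section

namespace Vale.Agent.P218M1

namespace Main

theorem II_nn (S : Sf) {f : Q → ℝ} (h : ∀ z, 0 ≤ f z) : 0 ≤ S.II f :=
  integral_nonneg fun _ => integral_nonneg fun u => mul_nonneg (gam_nonneg u)
    (mul_nonneg (abs_nonneg _) (finsum_nonneg fun _ => finsum_nonneg fun _ => h _))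

theorem S2_nn (S : Sf) (π : Par) (η : E → ℝ) (th : ℝ → ℝ) : 0 ≤ S.S2 π η th :=
  II_nn S fun z => by
    refine mul_nonneg (mul_nonneg (mul_nonneg (mul_nonneg (Par.W_nonneg _) (sq_nonneg _))
      (by positivity)) (G2_nonneg _)) ?_
    have h := inner_sq_le (S.n z.1) (S.gt π z)
    have h1 := pow_le_one₀ (n := 2) (norm_nonneg _) (S.norm_n_le z.1)
    rw [Sf.inner_P]
    nlinarith [sq_nonneg ‖S.gt π z‖]

theorem pig (K : Kit) {S : Sf} {π : Par} {Λ : ℝ} (h : Good S π Λ) {ch : ℕ → ℝ → ℝ}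
    (hc : ∀ k, Continuous (ch k)) (n : ℕ) (hs : ∀ s, ∑ k ∈ Finset.range n, ch k s ≤ 1) :
    ∑ k ∈ Finset.range n, S.En π (ch k) ≤ S.II fun z => ‖S.DG (S.za π) z‖ ^ 2 := by
  have h1 := Gn.DG_cl h.ok (Gn.za_eq S π ▸ Gn.ze_cl K.nsc h.ok h.rg (Gn.adm_a h.rg) 1)
  have h2 : ∀ c : ℝ → ℝ, Continuous c → S.Cl π 0 fun z => c (S.sq z) * ‖S.DG (S.za π) z‖ ^ 2 :=
    fun c hc => by
      simpa only [mul_comm] using Gn.cl_mul h1 fun z hz =>
        Tr.c_comp hc ((Gn.sm_sq h.ok hz).of_le (cast_le_inf 0))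
  have h3 : ∀ c c' : ℝ → ℝ, Continuous c → Continuous c' →
      S.En π (fun s => c s + c' s) = S.En π c + S.En π c' := fun c c' hc hc' => by
    simpa only [Sf.En, add_mul] using Gn.II_add K.ca h (h2 c hc) (h2 c' hc')
  have h4 : ∀ n, ∑ k ∈ Finset.range n, S.En π (ch k) =
      S.En π fun s => ∑ k ∈ Finset.range n, ch k s := fun n => by
    induction n with
    | zero => simp [Sf.En, Sf.II, Sf.AV, Sf.RS]
    | succ n ih =>
      simp only [Finset.sum_range_succ, ih]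
      exact (h3 _ _ (by fun_prop) (hc n)).symm
  have h5 := h3 (fun s => ∑ k ∈ Finset.range n, ch k s) (fun s => 1 - ∑ k ∈ Finset.range n, ch k s)
    (by fun_prop) (by fun_prop)
  have h6 : 0 ≤ S.En π fun s => 1 - ∑ k ∈ Finset.range n, ch k s :=
    II_nn S fun z => mul_nonneg (sub_nonneg.2 (hs _)) (sq_nonneg _)
  simp only [add_sub_cancel] at h5
  rw [h4]
  refine (le_add_of_nonneg_right h6).trans_eq (h5.symm.trans ?_)
  simp only [Sf.En, one_mul]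

end Main

open Main

theorem main (K : Kit) (hW : WIN) (hE : ETA) (hT : TB) (hB : BB) (hH : HW) (hS : SPL) (hA : MA)
    (hM : MB) : MAIN := by
  obtain ⟨Cw, -, hW⟩ := hW
  obtain ⟨CE, cE, hE⟩ := hE
  obtain ⟨CT, cT, hT⟩ := hT Cw
  obtain ⟨Cb, cb, hB⟩ := hB Cw
  obtain ⟨CS, cS, hS⟩ := hS
  obtain ⟨C₀, c0, hA⟩ := hA
  obtain ⟨CA, cA, hA⟩ := hA Cw
  obtain ⟨CB, cB, hM⟩ := hM Cw
  obtain ⟨CG, cG, hG⟩ := K.gn
  refine ⟨C₀, c0, fun Λ R de de0 => ?_⟩
  have l0 := abs_nonneg Λ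
  obtain ⟨b, b0, b1, b2⟩ := exists_small (a := CA * R ^ 2 + CB * (1 + |Λ|)) (by positivity)
    (lt_min one_pos (show 0 < de / 5 by positivity))
  refine ⟨b ^ 2, by positivity, fun α α0 α1 => ?_⟩
  obtain ⟨s, s0, -, s1⟩ := exists_small cB.le (show 0 < de / 5 by positivity)
  have q0 : 0 < de / 5 * α ^ 2 := by positivity
  obtain ⟨u, u0, u1, u2⟩ := exists_small
    (a := 2 * CA + 5 * (CA * CT) + 4 * (CB * Cb / s) + 3 * CB) (by positivity)
    (lt_min (show (0 : ℝ) < 1 / 2 by norm_num) q0)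
  replace u1 := u1.trans (min_le_left _ _)
  obtain ⟨n, hn⟩ := exists_nat_gt (CG / u)
  have n0 : (0 : ℝ) < n := lt_trans (by positivity) hn
  have D0 : 0 < u / (R ^ 2 + 1) := by positivity
  have M0 : 0 ≤ (R ^ 2 + 1) / u := by positivity
  have a0 := sq_pos (M := (R ^ 2 + 1) / u) D0
  have a1 := fun k => win u0 u1 (a0 k) (sq_anti D0 M0 (Nat.zero_le k))
  choose th gb ga ch hw using fun k => hW _ _ (a0 k) ((a1 k).1.trans u1) (a1 k).2.1
  have d0 := a0 n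
  have d1 := ((a1 n).1.trans u1).trans one_half_lt_one.le
  set d := sq (u / (R ^ 2 + 1)) ((R ^ 2 + 1) / u) n with hd
  have e0 : 0 < u * d ^ 2 := by positivity
  have e1 : u * d ^ 2 ≤ 1 :=
    mul_le_one₀ (u1.trans one_half_lt_one.le) (by positivity) (pow_le_one₀ d0.le d1)
  have k0 : 0 < u * d ^ 4 := by positivity
  have k1 : u * d ^ 4 ≤ 1 :=
    mul_le_one₀ (u1.trans one_half_lt_one.le) (by positivity) (pow_le_one₀ d0.le d1)
  set L' := 1 + CE * |Λ| / (u * d ^ 2 * u) with hL'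
  have L'1 : 1 ≤ L' := le_add_of_nonneg_right (by positivity)
  set Ca := CE * (|Λ| + 1) * Real.exp L' / (u * d ^ 2) with hCa
  have Ca0 : 0 < Ca := by positivity
  obtain ⟨t, t0, t1, t2⟩ := exists_small (a := 1 + (CS + 1) * (Ca + 1 / d ^ 4)) (by positivity)
    (lt_min (show (0 : ℝ) < 1 / 20 by norm_num) q0)
  obtain ⟨CH, cH, hH⟩ := hH R α t t0
  refine ⟨CH + CS / t + CA * CT / d ^ 2 + CB * Cb / s, Ca, d,
    min u ((u * d ^ 2) ^ (2 * (u * d ^ 4))⁻¹ / 2), by positivity, Ca0, d0, d1, by positivity,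
    fun S π v h hR hα hε hv => ?_⟩
  have A0 : 0 ≤ S.AA π := integral_nonneg fun x => add_nonneg zero_le_one (S.A2_nonneg x)
  have Λ0 : 0 ≤ Λ := by simpa using measureReal_nonneg.trans (h.ar 0 1 one_pos)
  have ε0 := h.rg.ε0
  have ε2 : (2 * π.ε) ^ (2 * (u * d ^ 4)) ≤ u * d ^ 2 :=
    (Real.rpow_le_rpow (by positivity) (by linarith only [hε.trans (min_le_right _ _)])
      (by positivity)).trans_eq (Real.rpow_inv_rpow e0.le (by positivity))
  obtain ⟨η, hη, g1, g2⟩ := hE S π Λ _ L' h e0 L'1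
  rw [abs_of_nonneg Λ0] at hL' hCa b2
  replace g1 : S.GE π η ≤ u * S.AA π := by
    refine g1.trans ?_
    rw [div_le_iff₀ (by positivity), show u * S.AA π * (u * d ^ 2 * L') =
      (u * d ^ 2 * u + CE * Λ) * S.AA π by rw [hL']; field_simp]
    exact mul_le_mul_of_nonneg_right (le_add_of_nonneg_left (by positivity)) A0
  replace g2 : S.AE π η ≤ Ca * π.ε ^ 2 * S.AA π := by
    refine g2.trans ?_
    rw [hCa, show CE * (Λ + 1) * Real.exp L' / (u * d ^ 2) * π.ε ^ 2 * S.AA π =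
      CE * (Λ + 1) * S.AA π * π.ε ^ 2 * Real.exp L' / (u * d ^ 2) by ring]
    gcongr
    exact (lt_add_one Λ).le
  obtain ⟨k, hk, g3⟩ : ∃ k ∈ Finset.range n, S.En π (ch k) ≤ u * S.AA π := by
    refine Finset.exists_le_of_sum_le (by simpa using Nat.pos_iff_ne_zero.1 (by exact_mod_cast n0))
      ((pig K h (fun k => (hw k).cch) n (sum_le D0 M0 (fun k => (hw k).ch1)
        (fun k => (hw k).chz) n)).trans ((hG S π Λ h).2.trans ?_))
    rw [Finset.sum_const, Finset.card_range, nsmul_eq_mul, ← mul_assoc]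
    exact mul_le_mul_of_nonneg_right ((div_le_iff₀ u0).1 hn.le) A0
  have hwk := hw k
  have dk := (sq_anti D0 M0 (Nat.succ_le_of_lt (Finset.mem_range.1 hk))).trans
    (div_le_self hwk.d0.le (by norm_num : (1 : ℝ) ≤ 4))
  have hc : Cut d η (th k) := ⟨hη.sm, hη.nn, hη.le, hwk.sth, hwk.th0, hwk.th1,
    fun s hs => hwk.the s (hs.trans (pow_le_pow_left₀ d0.le dk 2))⟩
  obtain ⟨m5, m6⟩ := hS S π Λ d t η _ h hc d0 d1 t0
  subst hR hα
  exact ⟨η, th k, hc, g2, arith2 A0 (integral_nonneg fun x => sq_nonneg _) (S2_nn S π η _) t0 s0 cS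
    cA cB cb cT u0 u1 d0 dk (a0 k) ε0 b0 (b1.trans (min_le_left _ _)) α0 Λ0 α1
    (b2.trans (min_le_right _ _)) s1 (hε.trans (min_le_left _ _)) ε2 (a1 k).1 (a1 k).2.2.1
    (a1 k).2.2.2.1 (a1 k).2.2.2.2 (t1.trans (min_le_left _ _)) (t2.trans (min_le_right _ _)) u2 g1
    g2 g3 (hH S π Λ v h rfl rfl hv) m5 m6 (hA S π Λ _ _ _ _ _ η _ _ _ _ h hη hwk k0 k1)
    (hM S π Λ _ s _ _ _ η _ _ _ _ h hη hwk s0 e0.le e1) (hB S π Λ _ _ _ _ η _ _ _ _ h hη hwk)
    (hT S π Λ _ _ _ _ _ _ _ _ h hwk k0 k1)⟩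

end Vale.Agent.P218M1
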