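import Vale.Agent.P218M1.MbC
import Vale.Agent.P218M1.Da
import Vale.Agent.P218M1.Me
import Vale.Agent.P218M1.Eta

/-!
# P218M1, row MB: the term with the gradient of the cone weight (helper57)
-/

set_option linter.all false

open MeasureTheory Metric Filter Topology Set
open scoped ContDiff RealInnerProductSpace ENNReal

noncomputable section

namespace Vale.Agent.P218M1

namespace Mb

open Da

variable {S : Sf} {π : Par} {η : E → ℝ} {th : ℝ → ℝ} {z : Q} {Λ : ℝ} {f g : Q → ℝ}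

/-! ### linearity -/

theorem AV_congr (hG : Good S π Λ) (hf : S.Cl π 0 f) (hg : S.Cl π 0 g) {x : E} (hx : S.w x = 0)
    (h : ∀ θ d, S.Hit (x, θ, d) → S.Box π (x, θ, d) → f (x, θ, d) = g (x, θ, d)) :
    S.AV f x = S.AV g x := by
  refine integral_congr_ae (Eventually.of_forall fun u => ?_)
  by_cases h0 : gam u = 0
  · simp [h0]
  obtain ⟨H, h1, h2⟩ := Me.hits hG hx (ne_of_gam h0)
  simp only [h2 f hf, h2 g hg]
  rw [Finset.sum_congr rfl fun d hd => h _ d ((h1 d).1 hd).1 ((h1 d).1 hd).2]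

theorem lin (ca : CA) (hG : Good S π Λ) (hf : S.Cl π 0 f) (hg : S.Cl π 0 g) (a b : ℝ) :
    S.Cl π 0 (fun z => a * f z + b * g z) ∧
      S.II (fun z => a * f z + b * g z) = a * S.II f + b * S.II g := by
  have hc : S.Cl π 0 (fun z => a * f z + b * g z) :=
    ⟨fun z hz => (contDiffAt_const.mul (hf.sm z hz)).add (contDiffAt_const.mul (hg.sm z hz)),
      fun z h1 h2 h3 => by simp [hf.bx z h1 h2 h3, hg.bx z h1 h2 h3]⟩
  refine ⟨hc, ?_⟩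
  have i1 := ca.avi S π f hG.ok hG.rg hf
  have i2 := ca.avi S π g hG.ok hG.rg hg
  rw [Sf.II, Sf.II, Sf.II, ← integral_const_mul, ← integral_const_mul,
    ← integral_add (i1.const_mul a) (i2.const_mul b)]
  refine integral_congr_ae (hG.ok.sup.mono fun x hx => ?_)
  have j1 := ca.iu S π f x hG.ok hG.rg hf (hG.ok.reg x hx)
  have j2 := ca.iu S π g x hG.ok hG.rg hg (hG.ok.reg x hx)
  simp only [Sf.AV]
  rw [← integral_const_mul, ← integral_const_mul, ← integral_add (j1.const_mul a) (j2.const_mul b)]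
  refine integral_congr_ae (Eventually.of_forall fun u => ?_)
  by_cases h0 : gam u = 0
  · simp [h0]
  obtain ⟨H, -, h2⟩ := Me.hits hG hx (ne_of_gam h0)
  simp only [h2 f hf, h2 g hg, h2 _ hc, Finset.sum_add_distrib, ← Finset.mul_sum]
  ring

theorem II_nonneg (h : ∀ z, 0 ≤ f z) : 0 ≤ S.II f :=
  integral_nonneg fun _ => integral_nonneg fun u => mul_nonneg (gam_nonneg u)
    (mul_nonneg (abs_nonneg _) (finsum_nonneg fun _ => finsum_nonneg fun _ => h _))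

theorem IB_le (hS : S.Ok) {c : ℝ} {f : E → ℝ} (hc : 0 ≤ c) (h0 : ∀ x, 0 ≤ f x)
    (h1 : ∀ x, f x ≤ S.A2 x) : S.IB π (fun x => c * f x) ≤ c * S.AA π := by
  have := hS.fin
  rw [Sf.IB, integral_const_mul]
  refine mul_le_mul_of_nonneg_left (integral_mono_of_nonneg (ae_of_all _ h0)
    ((integrableOn_const measure_ball_lt_top.ne).add (Eta.A2_int hS _ _))
    (ae_of_all _ fun x => ?_)) hc
  exact (h1 x).trans (le_add_of_nonneg_left one_pos.le)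

/-! ### regularity -/

theorem sm_P (hS : S.Ok) (hz : z ∈ S.O) : ContDiffAt ℝ ∞ (fun z : Q => S.P z.1) z :=
  contDiffAt_const.sub (Gx.sm_ro (Gx.sm_n hS contDiffAt_fst (Sf.O.g1 hz))
    (Gx.sm_n hS contDiffAt_fst (Sf.O.g1 hz)))

theorem sm_A (hS : S.Ok) (hz : z ∈ S.O) : ContDiffAt ℝ ∞ (fun z : Q => S.A z.1) z :=
  (((hS.sg.contDiffAt.comp z contDiffAt_fst).norm ℝ (Sf.O.g1 hz)).inv
    (norm_ne_zero_iff.2 (Sf.O.g1 hz))).neg.smul ((sm_P hS hz).clm_comp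
      ((hS.sD2.contDiffAt.comp z contDiffAt_fst).clm_comp (sm_P hS hz)))

theorem sm_p1 (hS : S.Ok) (hz : z ∈ S.O) : ContDiffAt ℝ ∞ S.p1 z :=
  Gx.sm_p hS contDiffAt_fst Gx.sm_θ hz.1

theorem sm_lv (hS : S.Ok) (hz : z ∈ S.O) (k : ℕ) : ContDiffAt ℝ k S.lv z :=
  (sm_cs1 hS hz k).smul (((Gx.sm_X hS contDiffAt_fst Gx.sm_θ hz.1).clm_apply
    (sm_p1 hS hz)).of_le (cast_le_inf k))

theorem sm_gt (hS : S.Ok) (hz : z ∈ S.O) (k : ℕ) : ContDiffAt ℝ k (S.gt π) z :=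
  ((((Gx.sm_kk hS hz).div_const _).smul (Gx.sm_Pv hS hz)).of_le (cast_le_inf k)).add
    ((sm_tt hS hz k).smul (sm_lv hS hz k))

theorem sm_cut (hS : S.Ok) (hη : ContDiff ℝ ∞ η) (ht : ContDiff ℝ ∞ th) (hz : z ∈ S.O) (k : ℕ) :
    ContDiffAt ℝ k (fun z : Q => η z.1 ^ 2 * th (S.sq z) ^ 2) z :=
  (((hη.of_le (cast_le_inf k)).contDiffAt.comp z contDiffAt_fst).pow 2).mul
    (((ht.of_le (cast_le_inf k)).contDiffAt.comp z (sm_sq hS hz k)).pow 2)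

theorem su (hπ : π.Rg) (h : S.ze π η th z ≠ 0) (ht : S.tt π z < 1) : Su S π z :=
  ⟨hπ.norm_le (Wt_ne hπ (left_ne_zero_of_mul h)).1.le, (Wt_ne hπ (left_ne_zero_of_mul h)).2, ht⟩

theorem dif (nsc : NSC) (hS : S.Ok) (hπ : π.Rg) (ht : ContDiff ℝ ∞ th) (hz : z ∈ S.O) :
    Dif S π th z :=
  ⟨(sm_cs1 hS hz 1).differentiableAt (by simp), (sm_cs2 hS hz 1).differentiableAt (by simp),
    (sm_N nsc hS hπ hz 1).differentiableAt (by simp), (sm_sq hS hz 1).differentiableAt (by simp),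
    (sm_tt hS hz 1).differentiableAt (by simp), (sm_gt hS hz 1).differentiableAt (by simp),
    ht.differentiable (by simp)⟩

theorem cl_R (hS : S.Ok) (hf : S.Cl π 1 f) {τ ν : Q → E} (hτ : ∀ z ∈ S.O, ContDiffAt ℝ ∞ τ z)
    (hν : ∀ z ∈ S.O, ContDiffAt ℝ ∞ ν z) : S.Cl π 0 fun z =>
      fderiv ℝ f z (S.VR (τ z) (ν z) z) + ⟪S.p1 z, rot (τ z) (ν z) z.2.1⟫ * f z := by
  refine ⟨fun z hz => ?_, fun z h1 h2 h3 => ?_⟩
  · have r : ContDiffAt ℝ ∞ (fun z => rot (τ z) (ν z) z.2.1) z :=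
      ((Gx.sm_θ.inner ℝ (hτ z hz)).smul (hν z hz)).sub ((Gx.sm_θ.inner ℝ (hν z hz)).smul (hτ z hz))
    have v : ContDiffAt ℝ ∞ (fun z => S.VR (τ z) (ν z) z) z :=
      contDiffAt_const.prodMk (r.prodMk (contDiffAt_snd.snd.mul
        ((Gx.sm_p hS Gx.sm_yy.contDiffAt Gx.sm_θ hz.2.1).inner ℝ r)).neg)
    exact (((hf.sm z hz).fderiv_right (m := (0 : ℕ)) (by simp)).clm_apply
      (v.of_le (cast_le_inf 0))).add ((((sm_p1 hS hz).inner ℝ r).of_le (cast_le_inf 0)).mul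
        ((hf.sm z hz).of_le (by simp)))
  · have e : f =ᶠ[𝓝 z] 0 := (Ca.ev_nbox hS h1 h2 h3).mono fun z hz => hf.bx z hz.1 hz.2.1 hz.2.2
    simp [e.fderiv_eq, hf.bx z h1 h2 h3]

section

variable (nsc : NSC) (hS : S.Ok) (hπ : π.Rg) (hη : ContDiff ℝ ∞ η) (ht : ContDiff ℝ ∞ th)
include nsc hS hπ hη ht

theorem sm_ze (hz : z ∈ S.O) (k : ℕ) : ContDiffAt ℝ k (S.ze π η th) z :=
  (sm_Wt nsc hS hπ hz k).mul (sm_cut hS hη ht hz k)

theorem cl_f {v : Q → E} (hv : ∀ z ∈ S.O, ContDiffAt ℝ ∞ v z) :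
    S.Cl π 1 fun z => ff S π η th (v z) z :=
  Cs.cl hπ (fun z h => su hπ (left_ne_zero_of_mul (left_ne_zero_of_mul h))
    (lt_of_G1_ne (right_ne_zero_of_mul (left_ne_zero_of_mul h)))) fun z hz =>
    ((sm_ze nsc hS hπ hη ht hz 1).mul ((G1_cd (by norm_num)).contDiffAt.comp z
      (sm_tt hS hz 1))).mul ((sm_gt hS hz 1).inner ℝ ((hv z hz).of_le (cast_le_inf 1)))

theorem cl_ft (i : Fin 3) : S.Cl π 1 (ft S π η th i) :=
  cl_f nsc hS hπ hη ht fun z hz => (sm_A hS hz).clm_apply contDiffAt_const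

theorem cl_h0 (i : Fin 3) : S.Cl π 0 (h0 S π η th i) :=
  cl_R hS (cl_ft nsc hS hπ hη ht i) (τ := fun z => S.P z.1 (ee i)) (ν := fun z => S.n z.1)
    (fun z hz => (sm_P hS hz).clm_apply contDiffAt_const)
    fun z hz => Gx.sm_n hS contDiffAt_fst (Sf.O.g1 hz)

theorem cl_ei : S.Cl π 0 (ei S π η th) := by
  have b2 (c : ℝ) : deriv (fun c => π.B0 c ^ 2) c = 2 * π.B0 c * deriv π.B0 c := by
    simpa using ((π.B0_smooth.differentiable (by simp) c).hasDerivAt.fun_pow 2).deriv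
  refine Cs.cl hπ (fun z h => ?_) fun z hz => ?_
  · simp only [ei, b2, ne_eq, mul_eq_zero, not_or, pow_eq_zero_iff two_ne_zero] at h
    obtain ⟨⟨⟨⟨⟨h1, ⟨h2, h3⟩, h4⟩, -⟩, ⟨⟨-, h5⟩, -⟩, -⟩, h6⟩, -⟩ := h
    exact ⟨hπ.norm_le (hπ.W_ne h1).le, mul_ne_zero (mul_ne_zero (mul_ne_zero h5 h2) h3) h4,
      lt_of_G1_ne h6⟩
  · exact (((((Par.W_cd.contDiffAt.comp z contDiffAt_fst).mul
      ((((Par.K0_cd.contDiffAt.comp z (sm_cs2 hS hz 0)).mul (ct_cd.contDiffAt.comp z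
        (contDiffAt_const.mul (sm_N nsc hS hπ hz 0)))).mul
        (Par.xi_cd.contDiffAt.comp z contDiffAt_snd.snd)).pow 2)).mul (sm_cut hS hη ht hz 0)).mul
      ((((deriv_smooth (π.B0_smooth.pow 2)).of_le (cast_le_inf 0)).contDiffAt.comp z
        (sm_cs1 hS hz 0)).mul (contDiffAt_const.mul (sm_cs1 hS hz 0)))).mul
      ((G1_cd (by norm_num)).contDiffAt.comp z (sm_tt hS hz 0))).mul
      ((((sm_P hS hz).of_le (cast_le_inf 0)).clm_apply (sm_lv hS hz 0)).inner ℝ (sm_gt hS hz 0))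

theorem cl_s2 :
    S.Cl π 0 fun z => S.ze π η th z * G2 (S.tt π z) * ⟪S.P z.1 (S.gt π z), S.gt π z⟫ :=
  Cs.cl hπ (fun z h => su hπ (left_ne_zero_of_mul (left_ne_zero_of_mul h))
    (lt_of_G2_ne (right_ne_zero_of_mul (left_ne_zero_of_mul h)))) fun z hz =>
    ((sm_ze nsc hS hπ hη ht hz 0).mul ((G2_cd (by norm_num)).contDiffAt.comp z
      (sm_tt hS hz 0))).mul ((((sm_P hS hz).of_le (cast_le_inf 0)).clm_apply
        (sm_gt hS hz 0)).inner ℝ (sm_gt hS hz 0))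

theorem cl_bb : S.Cl π 0 fun z => S.ze π η th z * (S.tt π z * G1 (S.tt π z)) ^ 2 * hs (S.Z z) :=
  Cs.cl hπ (fun z h => su hπ (left_ne_zero_of_mul (left_ne_zero_of_mul h))
    (lt_of_G1_ne (right_ne_zero_of_mul (ne_zero_pow two_ne_zero
      (right_ne_zero_of_mul (left_ne_zero_of_mul h)))))) fun z hz =>
    ((sm_ze nsc hS hπ hη ht hz 0).mul (((sm_tt hS hz 0).mul ((G1_cd (by norm_num)).contDiffAt.comp
      z (sm_tt hS hz 0))).pow 2)).mul (ContDiffAt.sum fun i _ =>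
        (((Gx.sm_Z hS hz).of_le (cast_le_inf 0)).clm_apply contDiffAt_const).norm_sq ℝ)

end

theorem II_h0 (K : Kit) (hG : Good S π Λ) (hη : ContDiff ℝ ∞ η) (ht : ContDiff ℝ ∞ th)
    (i : Fin 3) : S.II (h0 S π η th i) = 0 := by
  have hS := hG.ok
  have hπ := hG.rg
  refine integral_eq_zero_of_ae (hS.sup.mono fun x hx => ?_)
  have c := cl_f K.nsc hS hπ hη ht (v := fun _ => S.A x (ee i)) fun _ _ => contDiffAt_const
  refine (AV_congr hG (cl_h0 K.nsc hS hπ hη ht i) (cl_R hS c (τ := fun _ => S.P x (ee i))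
    (ν := fun _ => S.n x) (fun _ _ => contDiffAt_const) fun _ _ => contDiffAt_const) hx
    fun θ d _ hb => ?_).trans (K.byr S π _ (S.P x (ee i)) (S.n x) x hS hπ c (hS.reg x hx))
  have hz := Ca.box_O hπ hb
  rw [h0, ft_fd (((cl_ft K.nsc hS hπ hη ht i).sm _ hz).differentiableAt (by simp))
    (line ((c.sm _ hz).differentiableAt (by simp)) _)]
  rfl

theorem split (K : Kit) (hG : Good S π Λ) (hη : ContDiff ℝ ∞ η) (ht : ContDiff ℝ ∞ th) (t : ℝ) :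
    S.Cl π 0 (hh S π η th t) ∧
      S.Et π η th = S.II (hh S π η th t) + S.S2 π η th / 10 + S.Bb π η th / t := by
  have hS := hG.ok
  have hπ := hG.rg
  have c := cl_h0 K.nsc hS hπ hη ht
  have s1 := lin K.ca hG (c 0) (c 1) 1 1
  have s2 := lin K.ca hG s1.1 (c 2) 1 1
  have s3 := lin K.ca hG (cl_ei K.nsc hS hπ hη ht) s2.1 (-1) (-1)
  have s4 := lin K.ca hG s3.1 (cl_s2 K.nsc hS hπ hη ht) 1 (-1 / 10)
  have s5 := lin K.ca hG s4.1 (cl_bb K.nsc hS hπ hη ht) 1 (-1 / t)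
  rw [s4.2, s3.2, s2.2, s1.2, II_h0 K hG hη ht, II_h0 K hG hη ht, II_h0 K hG hη ht] at s5
  have e : hh S π η th t = _ := funext fun z => (by
    simp only [hh, Fin.sum_univ_three]
    ring : hh S π η th t z = 1 * (1 * (-1 * ei S π η th z + -1 * (1 * (1 * h0 S π η th 0 z +
      1 * h0 S π η th 1 z) + 1 * h0 S π η th 2 z)) + -1 / 10 * (S.ze π η th z * G2 (S.tt π z) *
      ⟪S.P z.1 (S.gt π z), S.gt π z⟫)) + -1 / t * (S.ze π η th z *
      (S.tt π z * G1 (S.tt π z)) ^ 2 * hs (S.Z z)))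
  rw [e]
  refine ⟨s5.1, ?_⟩
  rw [s5.2]
  change -S.II (ei S π η th) = _
  unfold Sf.S2 Sf.Bb
  ring

theorem fin {K t α s d₁ L ε D e₀ Λ A I1 I4 I5 : ℝ} (K0 : 0 ≤ K) (A0 : 0 ≤ A) (t0 : 0 ≤ t)
    (s0 : 0 ≤ s) (d0 : 0 ≤ d₁) (ε0 : 0 < ε) (D0 : 0 ≤ D) (e0 : 0 ≤ e₀) (e1 : e₀ ≤ 1) (Λ0 : 0 ≤ Λ)
    (α1 : α ^ 2 ≤ 1) (h1 : I1 ≤ K * (t + s + d₁ + 1 / L ^ 2) * A) (h4 : I4 ≤ K / D * A)
    (h5 : I5 ≤ K * (α ^ 2 * s) * A) :
    α ^ 2 * I1 + 1 ^ 2 * 0 + 0 + K * d₁ / ε ^ 2 * ε ^ 2 * A + 0 * A + e₀ * I4 + (Λ + e₀) * I5 ≤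
      2 * K * (t * α ^ 2 * A + (d₁ + α ^ 2 / L ^ 2 + e₀ / D + α ^ 2 * s * (1 + Λ)) * A) := by
  have p1 : α ^ 2 * (K * d₁ * A) ≤ 1 * (K * d₁ * A) := by gcongr
  have p2 : e₀ * (K * (α ^ 2 * s) * A) ≤ 1 * (K * (α ^ 2 * s) * A) := by gcongr
  have p3 : 0 ≤ K * (t * α ^ 2 * A + (α ^ 2 / L ^ 2 + e₀ / D + α ^ 2 * s * Λ) * A) := by positivity
  calc _ ≤ α ^ 2 * (K * (t + s + d₁ + 1 / L ^ 2) * A) + 1 ^ 2 * 0 + 0 + K * d₁ / ε ^ 2 * ε ^ 2 * A +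
        0 * A + e₀ * (K / D * A) + (Λ + e₀) * (K * (α ^ 2 * s) * A) := by gcongr
    _ ≤ _ := by
      rw [div_mul_cancel₀ _ (pow_pos ε0 2).ne']
      linear_combination p1 + p2 + p3

end Mb

open Mb in
/-- **MB** -/
theorem mb (K : Kit) : MB := by
  intro Cw
  obtain ⟨Cn, n0, nb⟩ := K.nb
  obtain ⟨Cm, m0, me⟩ := K.me
  have K0 : 0 < KK Cw Cc Cn := by unfold KK; positivity
  set k := KK Cw Cc Cn with hk
  refine ⟨Cm * (2 * k) + 1, by positivity,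
    fun S π Λ e₀ t d₁ d₂ L η th gb ga ch hG he w t0 e0 e1 => ?_⟩
  have hS := hG.ok
  have hπ := hG.rg
  have d0 := w.d0
  have d1 : 0 < d₁ := d0.trans_le w.d12
  have ε0 := hπ.ε0
  have Λ0 : 0 ≤ Λ := by simpa using measureReal_nonneg.trans (hG.ar 0 1 one_pos)
  obtain ⟨c, e⟩ := split K hG he.sm w.sth t
  have cA (a : ℝ) (ha : 0 ≤ a) : S.Cg fun x => a * S.A2 x := fun x hx =>
    ⟨continuousAt_const.mul (Eta.A2_cont hS hx), mul_nonneg ha (S.A2_nonneg x)⟩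
  have cE (a : ℝ) (ha : 0 ≤ a) : S.Cg fun x => a * (η x ^ 2 * S.A2 x) := fun x hx =>
    ⟨continuousAt_const.mul ((he.sm.continuous.continuousAt.pow 2).mul (Eta.A2_cont hS hx)),
      mul_nonneg ha (mul_nonneg (sq_nonneg _) (S.A2_nonneg x))⟩
  have c0 : S.Cg fun _ => 0 := fun _ _ => ⟨continuousAt_const, le_rfl⟩
  have iE (a : ℝ) (ha : 0 ≤ a) : S.IB π (fun x => a * (η x ^ 2 * S.A2 x)) ≤ a * S.AA π :=
    IB_le hS ha (fun x => mul_nonneg (sq_nonneg _) (S.A2_nonneg x)) fun x =>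
      mul_le_of_le_one_left (S.A2_nonneg x) (pow_le_one₀ (he.nn x) (he.le x))
  have A0 : 0 ≤ S.AA π := Da.IB_nonneg fun x => add_nonneg one_pos.le (S.A2_nonneg x)
  have B0 : 0 ≤ S.Bb π η th := II_nonneg fun z => mul_nonneg (mul_nonneg
    (mul_nonneg (Da.Wt_nonneg z) (by positivity)) (sq_nonneg _)) (hs_nonneg _)
  have M := me S π Λ 1 e₀ (k * d₁ / π.ε ^ 2) 0 _ _ _ _ _ _ hG one_pos e0 (by positivity) le_rfl c
    (cA (k * (t + √π.α + d₁ + 1 / L ^ 2)) (by positivity)) c0 c0 (cE (k / d₂ ^ 2) (by positivity))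
    (cE (k * (π.α ^ 2 * √π.α)) (by positivity))
    (fun x _ h1 h2 => he.en x h1 fun h3 => by simp [h3] at h2) fun z hi hb pos => by
      have hz := Ca.box_O hπ hb
      obtain ⟨q1, q2⟩ := bound K.gd K.unq n0.le hG he w t0 hi hb hz (dif K.nsc hS hπ w.sth hz)
        (fun i => ((cl_ft K.nsc hS hπ he.sm w.sth i).sm _ hz).differentiableAt (by simp))
        (fun h => (nb S π Λ z hG hi hb h).2) pos
      refine ⟨q1, by linarith only [S.cs2_nonneg z], ?_⟩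
      rw [Da.NS_zero]
      linarith only [q2]
  have z0 : S.IB π (fun _ => 0) = 0 := by simp [Sf.IB]
  rw [z0] at M
  have F := mul_le_mul_of_nonneg_left (fin K0.le A0 t0.le (Real.sqrt_nonneg π.α) d1.le ε0
    (sq_nonneg d₂) e0 e1 Λ0 (by linarith only [hπ.α2.2]) (IB_le (π := π) hS (by positivity)
      S.A2_nonneg fun _ => le_rfl) (iE _ (by positivity)) (iE _ (by positivity)) (L := L)) m0.le
  have p1 : 0 ≤ Cm * (2 * k) * (S.Bb π η th / t) := by positivity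
  have p2 : 0 ≤ t * π.α ^ 2 * S.AA π +
      (d₁ + π.α ^ 2 / L ^ 2 + e₀ / d₂ ^ 2 + π.α ^ 2 * √π.α * (1 + Λ)) * S.AA π := by positivity
  rw [e]
  linarith only [M, F, p1, p2]

end Vale.Agent.P218M1
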