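import Vale.Agent.P218M1.PsitB
import Vale.Agent.P218M1.Swp

/-!
# P218M1, row PSIT: the time derivative of the functional
-/

open MeasureTheory Metric Filter Topology Set
open scoped ContDiff RealInnerProductSpace

noncomputable section

namespace Vale.Agent.P218M1

namespace Psit

variable {S : ℝ → Sf} {I : Set ℝ} {τ : ℝ} {π : Par} {T : Sf} {f g : Q → ℝ}

theorem RS_sub (hT : T.Ok) (hπ : π.Rg) (hf : T.Cl π 0 f) (hg : T.Cl π 0 g) {x : E}
    (hx : T.g x ≠ 0) (θ : E) : T.RS (fun z => f z - g z) x θ = T.RS f x θ - T.RS g x θ := by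
  have k : ∀ {f : Q → ℝ}, T.Cl π 0 f → ({d : ℝ | T.w (x + d • θ) = 0} ∩
      Function.support fun d => f (x, θ, d)).Finite := fun hf =>
    (Swp.fin hT x θ (π.ρ / 2) 2 (half_pos hπ.η2.1)).subset fun d hd => by
      have b : T.Box π (x, θ, d) := by_contra fun a => hd.2 (hf.bx _ hx (hT.reg _ hd.1) a)
      exact ⟨⟨b.2.1, b.2.2.1⟩, hd.1, b.2.2.2.2⟩
  have := finsum_mem_add_distrib' (k ⟨fun z hz => (hf.sm z hz).sub (hg.sm z hz),
    fun z a b c => by simp [hf.bx z a b c, hg.bx z a b c]⟩) (k hg)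
  simp only [sub_add_cancel] at this
  exact eq_sub_of_add_eq this.symm

theorem II_sub (ca : CA) (hT : T.Ok) (hπ : π.Rg) (hf : T.Cl π 0 f) (hg : T.Cl π 0 g) :
    T.II (fun z => f z - g z) = T.II f - T.II g := by
  rw [Sf.II, Sf.II, Sf.II, ← integral_sub (ca.avi _ _ _ hT hπ hf) (ca.avi _ _ _ hT hπ hg)]
  refine integral_congr_ae (hT.sup.mono fun x hx => ?_)
  have h := hT.reg x hx
  simp only [Sf.AV, RS_sub hT hπ hf hg h, mul_sub]
  exact integral_sub (ca.iu _ _ _ _ hT hπ hf h) (ca.iu _ _ _ _ hT hπ hg h)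

theorem clT (fs : FS) (F : Fam S I) (hπ : π.Rg) (h : τ ∈ I) : (S τ).Cl π 0 fun z =>
    fderiv ℝ (fun q : ℝ × Q => (S q.1).Psi π q.2) (τ, z) (1, (S τ).VT (wd S τ) z) := by
  refine ⟨fun z hz => ?_, fun z a b c => by simp [offT F hπ h a b c]⟩
  have s := sPsi fs F hπ h hz
  have h1 := (sv (F.ok τ h) (swd F h) contDiff_fst hz.1).of_le (cast_le_inf 0)
  have h2 := (sv (F.ok τ h) (swd F h) syy hz.2.1).of_le (cast_le_inf 0)
  exact (((s.1.mul ((G0_cd (k := 1) (by norm_num)).contDiffAt.comp _ s.2.1)).fderiv_right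
    (m := (0 : ℕ)) (by simp)).comp z (f := fun z => (τ, z)) (by fun_prop)).clm_apply
      (contDiffAt_const.prodMk ((h1.smul contDiffAt_snd.fst).prodMk
        (contDiffAt_const.prodMk (h2.sub h1))))

theorem clM (fs : FS) (F : Fam S I) (hπ : π.Rg) (h : τ ∈ I) :
    (S τ).Cl π 0 (Mn (S τ) π (wd S τ)) := by
  refine ⟨fun z hz => ?_, fun z _ _ c => (off' hπ c _).2.2.2⟩
  have s := sPsi fs F hπ h hz
  have k : ∀ {f : ℝ × Q → ℝ}, ContDiffAt ℝ 1 f (τ, z) → ContDiffAt ℝ (0 : ℕ) (fun z => f (τ, z)) z :=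
    fun hf => (hf.comp z (f := fun z => (τ, z)) (by fun_prop)).of_le (by simp)
  exact (((k s.1).mul ((G1_cd (by norm_num)).contDiffAt.comp _ (k s.2.1))).mul
    ((k s.2.2).div_const _)).mul (((sv (F.ok τ h) (swd F h) syy hz.2.1).sub
      (sv (F.ok τ h) (swd F h) contDiff_fst hz.1)).of_le (cast_le_inf 0))

end Psit

open Psit

theorem psit (fs : FS) (ca : CA) (dt : DT) (_ : NSC) (_ : GD) (_ : UNQ) : PSIT := by
  intro S I π Λ τ R h hG
  have F := R.toFam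
  have hπ := hG.rg
  refine ⟨⟨swd F h, R.eq τ h⟩, (dt S I π (fun q => (S q.1).Psi π q.2) τ F h hπ
    (fun σ a z hz => (sPsi fs F hπ a hz).1.mul ((G0_cd (k := 1) (by norm_num)).contDiffAt.comp _
      (sPsi fs F hπ a hz).2.1)) fun σ _ z _ _ c => (off' hπ c 0).1).congr_deriv ?_⟩
  have e : ∀ a θ, (S τ).w a = 0 → -wd S τ a / (S τ).s a θ = (S τ).vs a θ := fun a θ b => by
    have := hG.ok.reg a b
    rw [R.eq τ h a b, neg_neg, Sf.s_eq this, Sf.vs, mul_div_mul_left _ _ (norm_ne_zero_iff.2 this)]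
  rw [II_congr hG.ok (f := (S τ).Mm π) (g := Mn (S τ) π (wd S τ)) fun z a _ c => by
      rw [Sf.Mm, Mn, Sf.v1, Sf.v2, e _ _ a, e _ _ c],
    ← sub_eq_iff_eq_add, ← II_sub ca hG.ok hπ (clT fs F hπ h) (clM fs F hπ h)]
  refine II_congr hG.ok fun z a b c => ?_
  by_cases hb : (S τ).Box π z
  · rw [derPsi fs F h hG ⟨a, b, (box_O hπ hb).2.2, c⟩ hb, add_sub_cancel_right]
  · simp [offT F hπ h (hG.ok.reg _ a) (hG.ok.reg _ c) hb, off' hπ hb]

end Vale.Agent.P218M1
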