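import Vale.Agent.P218M1.Spec

/-!
# P218M1, row LIN: the one-dimensional lemma and the integration over lines
-/

open MeasureTheory Metric Filter Topology Set
open scoped ContDiff RealInnerProductSpace

noncomputable section

namespace Vale.Agent.P218M1.Lin

/-- transversal zeros in a compact set -/
theorem fin_zero {f f' : ℝ → ℝ} (hf : ∀ l, HasDerivAt f (f' l) l) {K : Set ℝ} (hK : IsCompact K)
    (hz : ∀ d ∈ K, f d = 0 → f' d ≠ 0) : {d | f d = 0 ∧ d ∈ K}.Finite := by
  have hc : Continuous f := continuous_iff_continuousAt.2 fun l => (hf l).continuousAt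
  refine IsCompact.finite (hK.of_isClosed_subset
    ((isClosed_eq hc continuous_const).inter hK.isClosed) fun d hd => hd.2) ?_
  rw [isDiscrete_iff_nhdsNE]
  intro d hd
  rw [inf_principal_eq_bot]
  filter_upwards [(hf d).eventually_ne (c := 0) (hz d hd.2 hd.1)] with l hl h
  exact hl h.1

theorem sign_near {f : ℝ → ℝ} {a d : ℝ} (hf : HasDerivAt f a d) (h0 : f d = 0) (ha : 0 < a) :
    ∀ᶠ l in 𝓝 d, (f l < 0 ↔ l < d) ∧ (0 < f l ↔ d < l) := by
  have h1 := (hasDerivAt_iff_tendsto_slope.1 hf).eventually (lt_mem_nhds ha)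
  rw [eventually_nhdsWithin_iff] at h1
  filter_upwards [h1] with l hl
  rcases lt_trichotomy l d with h | h | h
  · have h2 := hl h.ne
    rw [slope_def_field, h0, sub_zero, div_pos_iff] at h2
    have h3 : f l < 0 := by
      rcases h2 with h2 | h2
      · linarith [h2.2]
      · exact h2.1
    exact ⟨iff_of_true h3 h, iff_of_false (not_lt.2 h3.le) (not_lt.2 h.le)⟩
  · rw [h, h0]
    simp
  · have h2 := hl h.ne'
    rw [slope_def_field, h0, sub_zero, div_pos_iff] at h2
    have h3 : 0 < f l := by
      rcases h2 with h2 | h2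
      · exact h2.1
      · linarith [h2.2]
    exact ⟨iff_of_false (not_lt.2 h3.le) (not_lt.2 h.le), iff_of_true h3 h⟩

/-- the jump function -/
def jp (a d l : ℝ) : ℝ := if 0 < a then (if d ≤ l then 1 else 0) else (if d < l then -1 else 0)

theorem jp_near (a : ℝ) {d l₀ : ℝ} (h : d ≠ l₀) : ∀ᶠ l in 𝓝 l₀, jp a d l = jp a d l₀ := by
  rcases lt_or_gt_of_ne h with h | h
  · filter_upwards [lt_mem_nhds h] with l hl
    simp [jp, hl, hl.le, h, h.le]
  · filter_upwards [gt_mem_nhds h] with l hl
    simp [jp, not_lt.2 hl.le, not_le.2 hl, not_lt.2 h.le, not_le.2 h]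

/-- **the one-dimensional lemma** -/
theorem one_dim {f F f' F' : ℝ → ℝ} (hf : ∀ l, HasDerivAt f (f' l) l)
    (hF : ∀ l, HasDerivAt F (F' l) l) (hF' : Continuous F') (hc : HasCompactSupport F)
    (hz : ∀ d, f d = 0 → f' d ≠ 0 ∨ F =ᶠ[𝓝 d] 0) :
    ∫ l, {l | f l < 0}.indicator F' l = ∑ᶠ (d : ℝ) (_ : f d = 0), Real.sign (f' d) * F d := by
  classical
  have hfc : Continuous f := continuous_iff_continuousAt.2 fun l => (hf l).continuousAt
  have hFc : Continuous F := continuous_iff_continuousAt.2 fun l => (hF l).continuousAt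
  have hne : ∀ d ∈ tsupport F, f d = 0 → f' d ≠ 0 := fun d hd h0 =>
    (hz d h0).resolve_right fun h => notMem_tsupport_iff_eventuallyEq.2 h hd
  have hT := fin_zero hf hc.isCompact hne
  set T := hT.toFinset with hTdef
  have hmem : ∀ d, d ∈ T ↔ f d = 0 ∧ d ∈ tsupport F := fun d => hT.mem_toFinset
  have hsum : ∑ᶠ (d : ℝ) (_ : f d = 0), Real.sign (f' d) * F d =
      ∑ d ∈ T, Real.sign (f' d) * F d := by
    apply finsum_cond_eq_sum_of_cond_iff
    intro d hd
    rw [hmem]
    exact ⟨fun h => ⟨h, subset_tsupport _ (right_ne_zero_of_mul hd)⟩, fun h => h.1⟩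
  obtain ⟨r, hr0, hr⟩ := hc.isCompact.isBounded.subset_ball_lt 0 0
  have hr' : ∀ d ∈ tsupport F, -r < d ∧ d < r := fun d hd => by
    have := hr hd
    rwa [mem_ball, dist_zero_right, Real.norm_eq_abs, abs_lt] at this
  have hoff : ∀ l, l ∉ tsupport F → F' l = 0 := fun l hl =>
    (hF l).unique ((hasDerivAt_const l (0 : ℝ)).congr_of_eventuallyEq
      (notMem_tsupport_iff_eventuallyEq.1 hl))
  set U : Set ℝ := {l | f l < 0} with hU
  have hUo : IsOpen U := isOpen_lt hfc continuous_const
  set G : ℝ → ℝ := fun l => U.indicator F l + ∑ d ∈ T, F d * jp (f' d) d l with hG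
  have hconst : ∀ (s : Finset ℝ) (l₀ : ℝ), l₀ ∉ s → ∀ᶠ l in 𝓝 l₀,
      ∑ d ∈ s, F d * jp (f' d) d l = ∑ d ∈ s, F d * jp (f' d) d l₀ := by
    intro s l₀ h
    filter_upwards [(eventually_all_finset s).2 fun d hd =>
      jp_near (f' d) (show d ≠ l₀ from fun e => h (e ▸ hd))] with l hl
    exact Finset.sum_congr rfl fun d hd => by rw [hl d hd]
  have hd : ∀ l₀, l₀ ∉ T → HasDerivAt G (U.indicator F' l₀) l₀ := by
    intro l₀ h
    have h1 : HasDerivAt (U.indicator F) (U.indicator F' l₀) l₀ := by
      rcases lt_trichotomy (f l₀) 0 with h2 | h2 | h2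
      · rw [indicator_of_mem (show l₀ ∈ U from h2)]
        refine (hF l₀).congr_of_eventuallyEq ?_
        filter_upwards [hUo.mem_nhds h2] with l hl
        exact indicator_of_mem hl F
      · rw [indicator_of_notMem (show l₀ ∉ U from fun h3 => h2.not_lt h3)]
        refine (hasDerivAt_const l₀ (0 : ℝ)).congr_of_eventuallyEq ?_
        filter_upwards [notMem_tsupport_iff_eventuallyEq.1 fun h3 => h ((hmem _).2 ⟨h2, h3⟩)]
          with l hl
        exact indicator_apply_eq_zero.2 fun _ => hl
      · rw [indicator_of_notMem (show l₀ ∉ U from fun h3 => lt_asymm h2 h3)]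
        refine (hasDerivAt_const l₀ (0 : ℝ)).congr_of_eventuallyEq ?_
        filter_upwards [hfc.continuousAt.eventually (lt_mem_nhds h2)] with l hl
        exact indicator_of_notMem (show l ∉ U from fun h3 => lt_asymm hl h3) F
    refine (h1.add_const (∑ d ∈ T, F d * jp (f' d) d l₀)).congr_of_eventuallyEq ?_
    filter_upwards [hconst T l₀ h] with l hl
    simp only [hG, hl]
  have hcont : Continuous G := by
    refine continuous_iff_continuousAt.2 fun l₀ => ?_
    by_cases h : l₀ ∈ T
    · obtain ⟨h0, h1⟩ := (hmem _).1 h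
      have h2 := hconst (T.erase l₀) l₀ (Finset.notMem_erase _ _)
      rcases lt_or_gt_of_ne (hne _ h1 h0) with h3 | h3
      · have h4 := sign_near (hf l₀).neg (by simp [h0]) (neg_pos.2 h3)
        refine ContinuousAt.congr (f := fun l => F (max l l₀) - F l₀ +
          ∑ d ∈ T.erase l₀, F d * jp (f' d) d l₀) (by fun_prop) ?_
        filter_upwards [h2, h4] with l e1 e2
        simp only [hG]
        rw [← Finset.add_sum_erase T _ h, e1, ← add_assoc]
        congr 1
        have e3 : l ∈ U ↔ l₀ < l := by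
          rw [← e2.2]
          exact (neg_pos (a := f l)).symm
        by_cases h5 : l₀ < l
        · rw [indicator_of_mem (e3.2 h5), max_eq_left h5.le]
          simp [jp, not_lt.2 h3.le, h5, sub_eq_add_neg]
        · rw [indicator_of_notMem (fun h6 => h5 (e3.1 h6)), max_eq_right (not_lt.1 h5)]
          simp [jp, not_lt.2 h3.le, h5]
      · have h4 := sign_near (hf l₀) h0 h3
        refine ContinuousAt.congr (f := fun l => F (min l l₀) +
          ∑ d ∈ T.erase l₀, F d * jp (f' d) d l₀) (by fun_prop) ?_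
        filter_upwards [h2, h4] with l e1 e2
        simp only [hG]
        rw [← Finset.add_sum_erase T _ h, e1, ← add_assoc]
        congr 1
        have e3 : l ∈ U ↔ l < l₀ := e2.1
        by_cases h5 : l < l₀
        · rw [indicator_of_mem (e3.2 h5), min_eq_left h5.le]
          simp [jp, h3, not_le.2 h5]
        · rw [indicator_of_notMem (fun h6 => h5 (e3.1 h6)), min_eq_right (not_lt.1 h5)]
          simp [jp, h3, not_lt.1 h5]
    · exact (hd l₀ h).continuousAt
  have hi : Integrable (U.indicator F') :=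
    (hF'.integrable_of_hasCompactSupport
      (HasCompactSupport.intro hc.isCompact hoff)).indicator hUo.measurableSet
  have h1 := integral_eq_of_hasDerivAt_off_countable_of_le G (U.indicator F')
    (show -r ≤ r by linarith) T.countable_toSet hcont.continuousOn
    (fun l hl => hd l hl.2) hi.intervalIntegrable
  have z0 : ∀ l, l ∉ Ioc (-r) r → U.indicator F' l = 0 := fun l hl => indicator_apply_eq_zero.2
    fun _ => hoff l fun h => hl ⟨(hr' l h).1, (hr' l h).2.le⟩
  rw [intervalIntegral.integral_of_le (by linarith),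
    setIntegral_eq_integral_of_forall_compl_eq_zero z0] at h1
  have z1 : ∀ l, l ∉ tsupport F → U.indicator F l = 0 := fun l hl =>
    indicator_apply_eq_zero.2 fun _ => image_eq_zero_of_notMem_tsupport hl
  rw [h1, hsum]
  simp only [hG]
  rw [z1 r fun h => lt_irrefl _ (hr' r h).2, z1 (-r) fun h => lt_irrefl _ (hr' _ h).1, zero_add,
    zero_add, ← Finset.sum_sub_distrib]
  refine Finset.sum_congr rfl fun d hd' => ?_
  obtain ⟨h0, h2⟩ := (hmem d).1 hd'
  obtain ⟨h3, h4⟩ := hr' d h2
  rcases lt_or_gt_of_ne (hne _ h2 h0) with h5 | h5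
  · simp [jp, not_lt.2 h5.le, h4, not_lt.2 h3.le, Real.sign_of_neg h5]
  · simp [jp, h5, h4.le, not_le.2 h3, Real.sign_of_pos h5]

theorem ct_cont : Continuous ct := Real.smoothTransition.continuous.comp (by fun_prop)

theorem ct_sq_int : Integrable fun r : ℝ => ct (r ^ 2) := by
  refine (ct_cont.comp (continuous_pow 2)).integrable_of_hasCompactSupport
    (HasCompactSupport.intro (isCompact_Icc (a := (-2 : ℝ)) (b := 2)) fun r hr => ?_)
  apply Real.smoothTransition.zero_of_nonpos
  rw [mem_Icc, ← abs_le, not_le] at hr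
  nlinarith [sq_abs r]

theorem ct_sq_pos : 0 < ∫ r : ℝ, ct (r ^ 2) :=
  (ct_cont.comp (continuous_pow 2)).integral_pos_of_hasCompactSupport_nonneg_nonzero
    (x := 0) (HasCompactSupport.intro (isCompact_Icc (a := (-2 : ℝ)) (b := 2)) fun r hr => by
      apply Real.smoothTransition.zero_of_nonpos
      rw [mem_Icc, ← abs_le, not_le] at hr
      nlinarith [sq_abs r])
    (fun r => Real.smoothTransition.nonneg _)
    (Real.smoothTransition.pos_of_pos (by norm_num)).ne'

theorem bet_cont : Continuous bet := continuous_const.mul (ct_cont.comp (continuous_pow 2))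

theorem bet_nn (s : ℝ) : 0 ≤ bet s :=
  mul_nonneg (inv_nonneg.2 ct_sq_pos.le) (Real.smoothTransition.nonneg _)

theorem bet_int : Integrable bet := ct_sq_int.const_mul _

theorem bet_one : ∫ s, bet s = 1 := by
  unfold bet
  rw [integral_const_mul, inv_mul_cancel₀ ct_sq_pos.ne']

/-- **integration over the lines in the direction** `θ` -/
theorem lines {G : E → ℝ} (hm : Measurable G) (hG : Integrable G) {θ : E} (hθ : ‖θ‖ = 1) :
    Integrable (fun p => bet ⟪p, θ⟫ * ∫ l : ℝ, G (p + l • θ)) ∧
      ∫ p, bet ⟪p, θ⟫ * ∫ l : ℝ, G (p + l • θ) = ∫ x, G x := by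
  set K : ℝ × E → ℝ := fun q => bet (⟪q.2, θ⟫ - q.1) * G q.2 with hK
  have hKm : Measurable K :=
    (bet_cont.comp ((continuous_snd.inner continuous_const).sub continuous_fst)).measurable.mul
      (hm.comp measurable_snd)
  have hb : ∀ c : ℝ, ∫ l, bet (c - l) = 1 := fun c => by
    rw [integral_sub_left_eq_self bet volume c, bet_one]
  have hKi : Integrable K (volume.prod volume) := by
    rw [integrable_prod_iff' hKm.aestronglyMeasurable]
    refine ⟨Eventually.of_forall fun x => (bet_int.comp_sub_left ⟪x, θ⟫).mul_const (G x), ?_⟩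
    refine hG.norm.congr (Eventually.of_forall fun x => ?_)
    simp only [hK, norm_mul, Real.norm_of_nonneg (bet_nn _)]
    rw [integral_mul_const, hb, one_mul]
  have hmp : MeasurePreserving (fun q : ℝ × E => (id q.1, q.2 + q.1 • θ))
      (volume.prod volume) (volume.prod volume) :=
    (MeasurePreserving.id volume).skew_product (g := fun l p => p + l • θ)
      (by fun_prop) (Eventually.of_forall fun l => map_add_right_eq_self volume (l • θ))
  have e : ∀ (l : ℝ) (p : E), K (l, p + l • θ) = bet ⟪p, θ⟫ * G (p + l • θ) := fun l p => by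
    simp only [hK]
    rw [inner_add_left, real_inner_smul_left, real_inner_self_eq_norm_sq, hθ]
    simp
  have hi2 : Integrable (Function.uncurry fun (l : ℝ) (p : E) => bet ⟪p, θ⟫ * G (p + l • θ))
      (volume.prod volume) := by
    refine (hmp.integrable_comp_of_integrable hKi).congr (Eventually.of_forall fun q => ?_)
    exact e q.1 q.2
  refine ⟨hi2.integral_prod_right.congr (Eventually.of_forall fun p => ?_), ?_⟩
  · exact integral_const_mul (bet ⟪p, θ⟫) fun l : ℝ => G (p + l • θ)
  · have h1 := integral_integral_swap hi2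
    have h0 : ∀ p : E, ∫ l : ℝ, bet ⟪p, θ⟫ * G (p + l • θ) =
        bet ⟪p, θ⟫ * ∫ l : ℝ, G (p + l • θ) := fun p => integral_const_mul _ _
    simp only [h0] at h1
    rw [← h1]
    have h2 : ∀ l : ℝ, ∫ p, bet ⟪p, θ⟫ * G (p + l • θ) = ∫ x, K (l, x) := fun l => by
      rw [← integral_add_right_eq_self (fun x => K (l, x)) (l • θ)]
      simp only [e]
    simp only [h2]
    rw [integral_integral_swap (f := fun l x => K (l, x)) hKi]
    simp only [hK, integral_mul_const, hb, one_mul]

end Vale.Agent.P218M1.Lin
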