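import Vale.Agent.P218M1.Cut
import Vale.Agent.P218M1.Gx
import Vale.Agent.P218M1.LinA

/-!
# P218M1, row SPL: removing the static cutoffs
-/

open MeasureTheory Metric Filter Topology Set
open scoped ContDiff RealInnerProductSpace ENNReal

noncomputable section

namespace Vale.Agent.P218M1

namespace Spl

open Sf Gx

variable {S : Sf} {π : Par} {z : Q}

/-! ### linearity of the integrals -/

theorem fin_hit (hS : S.Ok) (hπ : π.Rg) {f : Q → ℝ} (hf : S.Cl π 0 f) {x : E} (hx : S.g x ≠ 0)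
    (θ : E) : ({d : ℝ | S.w (x + d • θ) = 0} ∩ Function.support fun d => f (x, θ, d)).Finite := by
  have hd : ∀ l : ℝ, HasDerivAt (fun l : ℝ => S.w (x + l • θ)) ⟪S.g (x + l • θ), θ⟫ l := fun l => by
    have h1 : HasDerivAt (fun l : ℝ => x + l • θ) θ l := by
      simpa using ((hasDerivAt_id l).smul_const θ).const_add x
    exact (hS.hw _).comp_hasDerivAt l h1
  have hg : Continuous fun l : ℝ => S.g (x + l • θ) := hS.sg.continuous.comp (by fun_prop)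
  have hK : IsCompact (Icc (π.ρ / 2) 2 ∩
      {l : ℝ | π.η ^ 2 / 2 * ‖S.g (x + l • θ)‖ ^ 2 ≤ ⟪S.g (x + l • θ), θ⟫ ^ 2}) :=
    isCompact_Icc.inter_right (isClosed_le (by fun_prop) (by fun_prop))
  refine (Lin.fin_zero hd hK fun d h h0 h1 => ?_).subset fun d h => ⟨h.1, ?_⟩
  · have h2 := h.2
    have h3 := norm_pos_iff.2 (hS.reg _ h0)
    have h4 := hπ.η0
    rw [mem_ofPred, h1] at h2
    have : 0 < π.η ^ 2 / 2 * ‖S.g (x + d • θ)‖ ^ 2 := by positivity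
    linarith
  · have h0 := hS.reg _ h.1
    have hb : S.Box π (x, θ, d) := by
      by_contra hb
      exact h.2 (hf.bx (x, θ, d) hx h0 hb)
    refine ⟨⟨hb.2.1, hb.2.2.1⟩, ?_⟩
    have h1 : π.η ^ 2 / 2 ≤ S.cc (x + d • θ) θ ^ 2 := hb.2.2.2.2
    have h2 : ⟪S.g (x + d • θ), θ⟫ = ‖S.g (x + d • θ)‖ * S.cc (x + d • θ) θ := s_eq h0
    rw [mem_ofPred, h2, mul_pow, mul_comm]
    exact mul_le_mul_of_nonneg_left h1 (sq_nonneg _)

theorem II_add (ca : CA) (hS : S.Ok) (hπ : π.Rg) {f g : Q → ℝ} (hf : S.Cl π 0 f)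
    (hg : S.Cl π 0 g) : S.II (fun z => f z + g z) = S.II f + S.II g := by
  unfold Sf.II
  rw [← integral_add (ca.avi S π f hS hπ hf) (ca.avi S π g hS hπ hg)]
  refine integral_congr_ae (hS.sup.mono fun x hx => ?_)
  have h0 := hS.reg x hx
  unfold Sf.AV
  simp only
  rw [← integral_add (ca.iu S π f x hS hπ hf h0) (ca.iu S π g x hS hπ hg h0)]
  refine integral_congr_ae (Eventually.of_forall fun u => ?_)
  have e : S.RS (fun z => f z + g z) x (un u) = S.RS f x (un u) + S.RS g x (un u) :=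
    finsum_mem_add_distrib' (fin_hit hS hπ hf h0 _) (fin_hit hS hπ hg h0 _)
  simp only [e]
  ring

theorem cg_int (hS : S.Ok) {f : E → ℝ} (hf : S.Cg f) (r : ℝ) : IntegrableOn f (ball 0 r) S.μ := by
  have := hS.fin
  have hK : IsCompact (closedBall (0 : E) r ∩ {x | S.w x = 0}) :=
    (isCompact_closedBall 0 r).inter_right (isClosed_eq hS.sm.continuous continuous_const)
  have h1 : IntegrableOn f (closedBall (0 : E) r ∩ {x | S.w x = 0}) S.μ :=
    ContinuousOn.integrableOn_compact hK fun x hx => (hf x (hS.reg x hx.2)).1.continuousWithinAt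
  exact h1.mono_set_ae (hS.sup.mono fun x hx h => ⟨ball_subset_closedBall h, hx⟩)

theorem cg_lin {f g : E → ℝ} (hf : S.Cg f) (hg : S.Cg g) {a b : ℝ} (ha : 0 ≤ a) (hb : 0 ≤ b) :
    S.Cg fun x => a * f x + b * g x := fun x hx =>
  ⟨(continuousAt_const.mul (hf x hx).1).add (continuousAt_const.mul (hg x hx).1),
    add_nonneg (mul_nonneg ha (hf x hx).2) (mul_nonneg hb (hg x hx).2)⟩

theorem IB_lin (hS : S.Ok) {f g : E → ℝ} (hf : S.Cg f) (hg : S.Cg g) (a b : ℝ) :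
    S.IB π (fun x => a * f x + b * g x) = a * S.IB π f + b * S.IB π g := by
  unfold Sf.IB
  rw [integral_add ((cg_int hS hf _).const_mul a) ((cg_int hS hg _).const_mul b),
    integral_const_mul, integral_const_mul]

theorem IB_nonneg (hS : S.Ok) {f : E → ℝ} (hf : S.Cg f) : 0 ≤ S.IB π f :=
  integral_nonneg_of_ae (ae_restrict_of_ae (hS.sup.mono fun x hx => (hf x (hS.reg x hx)).2))

theorem cg_zero : S.Cg fun _ => 0 := fun _ _ => ⟨continuousAt_const, le_rfl⟩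

theorem IB_zero : S.IB π (fun _ => 0) = 0 := integral_zero _ _

theorem NS_zero (c : Q → ℝ) : S.NS π (fun z' => c z' * 0) z = 0 := by simp [Sf.NS, Sf.RS]

/-! ### continuity -/

theorem ca_n (hS : S.Ok) {x : E} (hx : S.g x ≠ 0) : ContinuousAt S.n x := by
  have h := hS.sg.continuous.continuousAt (x := x)
  exact (h.norm.inv₀ (norm_ne_zero_iff.2 hx)).smul h

theorem ca_P (hS : S.Ok) {x : E} (hx : S.g x ≠ 0) : ContinuousAt S.P x :=
  continuousAt_const.sub ((ContinuousLinearMap.smulRightL ℝ E E).continuous₂.continuousAt.comp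
    (f := fun x => (innerSL ℝ (S.n x), S.n x))
    (((innerSL ℝ : E →L[ℝ] E →L[ℝ] ℝ).continuous.continuousAt.comp (ca_n hS hx)).prodMk
      (ca_n hS hx)))

theorem ca_A (hS : S.Ok) {x : E} (hx : S.g x ≠ 0) : ContinuousAt S.A x :=
  (hS.sg.continuous.continuousAt.norm.inv₀ (norm_ne_zero_iff.2 hx)).neg.smul
    ((ca_P hS hx).clm_comp (hS.sD2.continuous.continuousAt.clm_comp (ca_P hS hx)))

theorem ca_A2 (hS : S.Ok) {x : E} (hx : S.g x ≠ 0) : ContinuousAt S.A2 x := by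
  have h := ca_A hS hx
  unfold Sf.A2 hs
  fun_prop

theorem ca_φ (hS : S.Ok) {x : E} (hx : S.g x ≠ 0) : ContinuousAt S.φ x := by
  have h := ca_A hS hx
  have h' := ca_n hS hx
  unfold Sf.φ Sf.H trc
  fun_prop

theorem cg_A (hS : S.Ok) : S.Cg fun x => 1 + S.A2 x := fun x hx =>
  ⟨continuousAt_const.add (ca_A2 hS hx), add_nonneg zero_le_one (A2_nonneg S x)⟩

theorem cg_φ (hS : S.Ok) : S.Cg fun x => S.φ x ^ 2 := fun _ hx =>
  ⟨(ca_φ hS hx).pow 2, sq_nonneg _⟩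

theorem cg_η {d : ℝ} {η : E → ℝ} {th : ℝ → ℝ} (h : Cut d η th) : S.Cg fun x => 1 - η x ^ 2 :=
  fun x _ => ⟨continuousAt_const.sub (h.sη.continuous.continuousAt.pow 2),
    sub_nonneg.2 (pow_le_one₀ (h.η0 x) (h.η1 x))⟩

theorem ca_cc1 (hS : S.Ok) (hz : S.g z.1 ≠ 0) : ContinuousAt (fun z : Q => S.cc z.1 z.2.1) z :=
  ((sm_n hS contDiffAt_fst hz).inner ℝ sm_θ).continuousAt

theorem sm_cc2 (hS : S.Ok) (hz : S.g (yy z) ≠ 0) :
    ContDiffAt ℝ ∞ (fun z : Q => S.cc (yy z) z.2.1) z :=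
  (sm_n hS sm_yy.contDiffAt hz).inner ℝ sm_θ

theorem ca_N (nsc : NSC) (hS : S.Ok) (hπ : π.Rg) (hz : z ∈ S.O) : ContinuousAt (S.N π) z :=
  (nsc.sm S π 0 (fun z' => π.sg0 (S.cs2 z') ^ 2) hS hπ ⟨fun _ h => ((π.sg0_smooth.contDiffAt.comp _
    ((sm_cc2 hS (O.g2 h)).pow 2)).pow 2).of_le (cast_le_inf 0), fun z' _ h => by
      rw [hπ.sg0_zero (by linarith [hπ.η2.1]), zero_pow two_ne_zero]⟩ z hz).continuousAt

theorem ca_Wt (nsc : NSC) (hS : S.Ok) (hπ : π.Rg) (hz : z ∈ S.O) : ContinuousAt (S.Wt π) z :=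
  (π.W_smooth.continuous.continuousAt.comp continuousAt_fst).mul
    (((((π.B0_smooth.continuous.continuousAt.comp ((ca_cc1 hS (O.g1 hz)).pow 2)).mul
      (Par.K0_smooth.continuous.continuousAt.comp
        ((sm_cc2 hS (O.g2 hz)).continuousAt.pow 2))).mul
      (ct_cont.continuousAt.comp (continuousAt_const.mul (ca_N nsc hS hπ hz)))).mul
      (π.xi_smooth.continuous.continuousAt.comp continuousAt_snd.snd)).pow 2)

theorem ca_tt (hS : S.Ok) (hz : z ∈ S.O) : ContinuousAt (S.tt π) z :=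
  (continuousAt_snd.snd.mul (sm_kk hS hz).continuousAt).div_const _

theorem ca_gt (hS : S.Ok) (hz : z ∈ S.O) : ContinuousAt (S.gt π) z :=
  (((sm_kk hS hz).continuousAt.div_const _).smul (sm_Pv hS hz).continuousAt).add
    ((ca_tt hS hz).smul (((ca_cc1 hS (O.g1 hz)).pow 2).smul
      ((sm_X hS contDiffAt_fst sm_θ hz.1).continuousAt.clm_apply
        (sm_p hS contDiffAt_fst sm_θ hz.1).continuousAt)))

theorem ca_cut (hS : S.Ok) (hz : z ∈ S.O) {d : ℝ} {η : E → ℝ} {th : ℝ → ℝ} (h : Cut d η th) :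
    ContinuousAt (fun z => η z.1 ^ 2 * th (S.sq z) ^ 2) z :=
  ((h.sη.continuous.continuousAt.comp continuousAt_fst).pow 2).mul
    ((h.sth.continuous.continuousAt.comp ((sm_Pv hS hz).continuousAt.norm.pow 2)).pow 2)

theorem ca_vs (hS : S.Ok) (hz : z ∈ S.O) :
    ContinuousAt (fun z => S.vs (yy z) z.2.1 - S.vs z.1 z.2.1) z :=
  (((ca_φ hS (O.g2 hz)).comp sm_yy.continuous.continuousAt).div
    (sm_cc2 hS (O.g2 hz)).continuousAt (cc_ne hz.2.1)).sub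
    (((ca_φ hS (O.g1 hz)).comp continuousAt_fst).div (ca_cc1 hS (O.g1 hz)) (cc_ne hz.1))

/-! ### supports -/

theorem Wt_mem (z : Q) : 0 ≤ S.Wt π z ∧ S.Wt π z ≤ 1 := by
  have h0 : 0 ≤ S.o0 π z := mul_nonneg (mul_nonneg (mul_nonneg (Par.B0_nonneg _) (Par.K0_nonneg _))
    (ct_nonneg _)) (Par.xi_nonneg _)
  have h1 : S.o0 π z ≤ 1 := mul_le_one₀ (mul_le_one₀ (mul_le_one₀ (Par.B0_le _) (Par.K0_nonneg _)
    (Par.K0_le _)) (ct_nonneg _) (ct_le_one _)) (Par.xi_nonneg _) (Par.xi_le _)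
  exact ⟨mul_nonneg (Par.W_nonneg _) (sq_nonneg _),
    mul_le_one₀ (Par.W_le _) (sq_nonneg _) (pow_le_one₀ h0 h1)⟩

theorem supp (hπ : π.Rg) (h : S.Wt π z ≠ 0) (ht : S.tt π z < 1) : S.Sq π z ∧ S.Box π z := by
  have h1 := hπ.W_ne (left_ne_zero_of_mul h)
  have h2 : S.o0 π z ≠ 0 := fun e => right_ne_zero_of_mul h (by rw [e, zero_pow two_ne_zero])
  have h3 := hπ.xi_ne (right_ne_zero_of_mul h2)
  have h4 := lt_of_ct_ne (right_ne_zero_of_mul (left_ne_zero_of_mul h2))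
  have h5 := Par.K0_ne (right_ne_zero_of_mul (left_ne_zero_of_mul (left_ne_zero_of_mul h2)))
  have h6 := hπ.B0_ne (left_ne_zero_of_mul (left_ne_zero_of_mul (left_ne_zero_of_mul h2)))
  have h7 := hπ.α2
  have h8 : 1 / 2 ≤ S.kk z := by nlinarith [kk_sq S z, kk_nonneg S z]
  have h9 : z.2.2 ≤ 2 * π.ε := by
    rw [Sf.tt, div_lt_one hπ.ε0] at ht
    nlinarith [hπ.ρ0]
  exact ⟨⟨h1.le, by linarith, h5.le, by linarith, h9⟩, by linarith [hπ.norm_le h1.le, hπ.R0], h3.le,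
    by linarith [hπ.ε1], by linarith, by linarith [hπ.η2.2]⟩

theorem cl_of (nsc : NSC) (hS : S.Ok) (hπ : π.Rg) {G : ℝ → ℝ} (hG : Continuous G)
    (hG' : ∀ t, G t ≠ 0 → t < 1) {r : Q → ℝ} (hr : ∀ z ∈ S.O, ContinuousAt r z) {f : Q → ℝ}
    (hf : ∀ z, f z = S.Wt π z * G (S.tt π z) * r z) : S.Cl π 0 f := by
  obtain rfl : f = fun z => S.Wt π z * G (S.tt π z) * r z := funext hf
  have hO : IsOpen S.O := isOpen_iff_mem_nhds.2 fun _ h => O_nhds hS h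
  refine ⟨fun z hz => ?_, fun z _ _ hb => ?_⟩
  · refine (contDiffOn_zero.2 fun y hy => ContinuousAt.continuousWithinAt ?_).contDiffAt
      (hO.mem_nhds hz)
    exact ((ca_Wt nsc hS hπ hy).mul (hG.continuousAt.comp (ca_tt hS hy))).mul (hr y hy)
  · by_contra h
    exact hb (supp hπ (left_ne_zero_of_mul (left_ne_zero_of_mul h))
      (hG' _ (right_ne_zero_of_mul (left_ne_zero_of_mul h)))).2

theorem box_O (hπ : π.Rg) (hb : S.Box π z) : z ∈ S.O :=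
  ⟨s_ne_of_sq (by norm_num) hb.2.2.2.1, s_ne_of_sq (by have := hπ.η0; positivity) hb.2.2.2.2,
    (half_pos hπ.ρ0).trans_le hb.2.1⟩

/-- the cutoffs -/
theorem cut_le (hπ : π.Rg) (hz : z ∈ S.O) (hq : S.Sq π z) {d : ℝ} {η : E → ℝ} {th : ℝ → ℝ}
    (h : Cut d η th) (hd : 0 < d) :
    0 ≤ 1 - η z.1 ^ 2 * th (S.sq z) ^ 2 ∧ 1 - η z.1 ^ 2 * th (S.sq z) ^ 2 ≤ 1 ∧
    (π.ε ^ 2)⁻¹ * (1 - η z.1 ^ 2 * th (S.sq z) ^ 2) ≤
      (π.ε ^ 2)⁻¹ * (1 - η z.1 ^ 2) + 4 / d ^ 4 * (S.sq z ^ 2 / z.2.2 ^ 2) := by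
  have a1 : η z.1 ^ 2 ≤ 1 := pow_le_one₀ (h.η0 _) (h.η1 _)
  have a2 : th (S.sq z) ^ 2 ≤ 1 := pow_le_one₀ (h.th0 _) (h.th1 _)
  have a3 := mul_nonneg (sq_nonneg (η z.1)) (sq_nonneg (th (S.sq z)))
  have hε := hπ.ε0
  have hd0 := hz.2.2
  refine ⟨sub_nonneg.2 (mul_le_one₀ a1 (sq_nonneg _) a2), by linarith, ?_⟩
  rcases le_or_gt (S.sq z) (d ^ 2) with h1 | h1
  · rw [h.the _ h1, one_pow, mul_one]
    exact le_add_of_nonneg_right (by positivity)
  · have b1 : (π.ε ^ 2)⁻¹ ≤ 4 / d ^ 4 * (S.sq z ^ 2 / z.2.2 ^ 2) := by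
      have c1 : d ^ 4 ≤ S.sq z ^ 2 := by nlinarith [sq_nonneg d]
      have c2 : z.2.2 ^ 2 ≤ 4 * π.ε ^ 2 := by nlinarith [hq.2.2.2.2]
      rw [div_mul_div_comm, inv_eq_one_div, div_le_div_iff₀ (by positivity) (by positivity)]
      nlinarith [mul_le_mul c1 c2 (sq_nonneg _) (sq_nonneg _)]
    have b2 : 0 ≤ (π.ε ^ 2)⁻¹ := by positivity
    have b3 : 1 - η z.1 ^ 2 * th (S.sq z) ^ 2 ≤ (1 - η z.1 ^ 2) + 1 := by linarith
    nlinarith [mul_le_mul_of_nonneg_left b3 b2]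

theorem gt_le (hS : S.Ok) (hπ : π.Rg) (hz : z ∈ S.O) (hθ : ‖z.2.1‖ = 1) (hq : S.Sq π z)
    (ht : S.tt π z < 1) : ‖S.gt π z‖ ^ 2 ≤ 10 * (π.ε ^ 2)⁻¹ + S.A2 z.1 := by
  have h7 := hπ.α2
  have hc := hq.2.1
  have h1 := norm_add_sq_le (S.Uv π z) (S.tt π z • S.lv z)
  have h2 := hS.norm_lv_le hz hθ (by linarith)
  have h3 := O.sq_le_four hz hθ (by linarith) hq.2.2.1
  have h4 := cs1_le S hθ
  have h5 : 0 ≤ S.tt π z := div_nonneg (mul_nonneg hz.2.2.le (kk_nonneg S z)) hπ.ε0.le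
  have h6 : S.cs1 z * S.sq z ≤ 5 := by nlinarith [sq_nonneg' S z]
  have h8 : ‖S.Uv π z‖ ^ 2 ≤ 5 * (π.ε ^ 2)⁻¹ := by
    rw [norm_Uv, div_eq_mul_inv]
    exact mul_le_mul_of_nonneg_right h6 (by positivity)
  have h9 : ‖S.tt π z • S.lv z‖ ^ 2 ≤ ‖S.lv z‖ ^ 2 := by
    rw [norm_smul, mul_pow, Real.norm_eq_abs, sq_abs]
    exact mul_le_of_le_one_left (sq_nonneg _) (pow_le_one₀ h5 ht.le)
  have h10 := A2_nonneg S z.1
  have h11 : (1 - S.cs1 z) * S.A2 z.1 ≤ 1 / 50 * S.A2 z.1 :=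
    mul_le_mul_of_nonneg_right (by linarith) h10
  rw [Sf.gt]
  linarith

end Spl

open Spl Sf in
/-- row SPL -/
theorem spl (K : Kit) : SPL := by
  obtain ⟨C, hC, me⟩ := K.me
  refine ⟨1300 * C + 432 * C ^ 2, by positivity, fun S π Λ d t η th hG hc hd hd1 ht => ?_⟩
  have hS := hG.ok
  have hπ := hG.rg
  have hε := hπ.ε0
  have hα := hπ.α2
  have hE : 0 ≤ S.AE π η := IB_nonneg hS (cg_η hc)
  have hA : 0 ≤ S.AA π := IB_nonneg hS (cg_A hS)
  have hP : 0 ≤ S.PP π := IB_nonneg hS (cg_φ hS)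
  have hd4 : S.AA π ≤ S.AA π / d ^ 4 := le_div_self hA (by positivity) (pow_le_one₀ hd.le hd1)
  have cG1 : Continuous G1 := (G1_cd (k := 0) (by norm_num)).continuous
  have cG2 : Continuous G2 := (G2_cd (k := 0) (by norm_num)).continuous
  have e1 : S.AE π η / π.ε ^ 2 = (π.ε ^ 2)⁻¹ * S.AE π η := by ring
  have hE' : 0 ≤ (π.ε ^ 2)⁻¹ * S.AE π η := by positivity
  have cP : ∀ z ∈ S.O, ContinuousAt (fun z => η z.1 ^ 2 * th (S.sq z) ^ 2 *
      ⟪S.P z.1 (S.gt π z), S.gt π z⟫) z := fun z hz => (ca_cut hS hz hc).mul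
    ((((ca_P hS (O.g1 hz)).comp continuousAt_fst).clm_apply (ca_gt hS hz)).inner (𝕜 := ℝ)
      (ca_gt hS hz))
  constructor
  · have c2 : S.Cl π 0 fun z => S.ze π η th z * G2 (S.tt π z) * ⟪S.P z.1 (S.gt π z), S.gt π z⟫ :=
      cl_of K.nsc hS hπ cG2 (fun _ => lt_of_G2_ne) cP fun z => by rw [Sf.ze]; ring
    have c3 : S.Cl π 0 fun z => S.Wt π z * G2 (S.tt π z) * (‖S.gt π z‖ ^ 2 -
        2 * (η z.1 ^ 2 * th (S.sq z) ^ 2 * ⟪S.P z.1 (S.gt π z), S.gt π z⟫)) :=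
      cl_of K.nsc hS hπ cG2 (fun _ => lt_of_G2_ne) (fun z hz => ((ca_gt hS hz).norm.pow 2).sub
        (continuousAt_const.mul (cP z hz))) fun _ => rfl
    have c4 : S.Cl π 0 fun z =>
        S.ze π η th z * G2 (S.tt π z) * ⟪S.P z.1 (S.gt π z), S.gt π z⟫ +
        S.ze π η th z * G2 (S.tt π z) * ⟪S.P z.1 (S.gt π z), S.gt π z⟫ :=
      cl_of K.nsc hS hπ cG2 (fun _ => lt_of_G2_ne) (fun z hz => (cP z hz).add (cP z hz))
        fun z => by rw [Sf.ze]; simp only [Pi.add_apply]; ring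
    have a1 := II_add K.ca hS hπ c3 c4
    rw [II_add K.ca hS hπ c2 c2] at a1
    have a2 : S.Sg π = _ := Eq.trans (congrArg S.II (funext fun z => by rw [Sf.ze]; ring)) a1
    have a3 := me S π Λ 1 0 0 (1200 / d ^ 4) _
      (fun x => 300 * (π.ε ^ 2)⁻¹ * (1 - η x ^ 2) + 30 * (1 + S.A2 x)) (fun _ => 0) (fun _ => 0)
      (fun _ => 0) (fun _ => 0) hG one_pos le_rfl le_rfl (by positivity) c3
      (cg_lin (cg_η hc) (cg_A hS) (by positivity) (by norm_num)) cg_zero cg_zero cg_zero cg_zero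
      (fun _ _ _ h => by simp at h) fun z hz hb h0 => by
        have hO := box_O hπ hb
        have h1 := left_ne_zero_of_mul h0.ne'
        have h2 := lt_of_G2_ne (right_ne_zero_of_mul h1)
        have hq := (supp hπ (left_ne_zero_of_mul h1) h2).1
        refine ⟨hq, by linarith [cs2_nonneg S z], ?_⟩
        obtain ⟨b1, b2, b3⟩ := cut_le hπ hO hq hc hd
        have b4 := gt_le hS hπ hO hz.2.1 hq h2
        have b5 := O.gt_sq_le hO hz.2.1 hb.2.2.2.1 π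
        have b6 : S.Wt π z * G2 (S.tt π z) ≤ 1 * 30 := mul_le_mul (Wt_mem z).2
          (G2_le (div_nonneg (mul_nonneg hO.2.2.le (kk_nonneg S z)) hε.le)) (G2_nonneg _)
          zero_le_one
        have b7 := mul_nonneg (Wt_mem (S := S) (π := π) z).1 (G2_nonneg (S.tt π z))
        have b8 := A2_nonneg S z.1
        have b9 := mul_le_mul_of_nonneg_left b5
          (mul_nonneg (sq_nonneg (η z.1)) (sq_nonneg (th (S.sq z))))
        have b10 := mul_le_mul_of_nonneg_left b4 b1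
        have b11 := mul_le_mul_of_nonneg_right b2 b8
        have b12 : ‖S.gt π z‖ ^ 2 -
            2 * (η z.1 ^ 2 * th (S.sq z) ^ 2 * ⟪S.P z.1 (S.gt π z), S.gt π z⟫) ≤
            10 * ((π.ε ^ 2)⁻¹ * (1 - η z.1 ^ 2) + 4 / d ^ 4 * (S.sq z ^ 2 / z.2.2 ^ 2)) +
              S.A2 z.1 := by linarith
        have b13 : 0 ≤ (π.ε ^ 2)⁻¹ * (1 - η z.1 ^ 2) + 4 / d ^ 4 * (S.sq z ^ 2 / z.2.2 ^ 2) :=
          (mul_nonneg (by positivity) b1).trans b3
        have b14 := (mul_le_mul_of_nonneg_left b12 b7).trans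
          (mul_le_mul_of_nonneg_right b6 (by linarith))
        rw [NS_zero]
        have e : 1200 / d ^ 4 * (S.sq z ^ 2 / z.2.2 ^ 2) =
          300 * (4 / d ^ 4 * (S.sq z ^ 2 / z.2.2 ^ 2)) := by ring
        linarith
    rw [IB_lin hS (cg_η hc) (cg_A hS), IB_zero] at a3
    change _ ≤ C * (π.α ^ 2 * (_ * S.AE π η + 30 * S.AA π) + _ + _ + _ + _ + _ + _) at a3
    rw [a2, e1]
    change _ + (S.S2 π η th + S.S2 π η th) ≤ _
    have a4 : π.α ^ 2 * (300 * (π.ε ^ 2)⁻¹ * S.AE π η + 30 * S.AA π) ≤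
        1 * (300 * (π.ε ^ 2)⁻¹ * S.AE π η + 30 * S.AA π) :=
      mul_le_mul_of_nonneg_right (by linarith) (by linarith)
    have a5 : π.α ^ 2 * (300 * (π.ε ^ 2)⁻¹ * S.AE π η + 30 * S.AA π) + 1200 / d ^ 4 * S.AA π ≤
        1300 * ((π.ε ^ 2)⁻¹ * S.AE π η + S.AA π / d ^ 4) := by
      have e : 1200 / d ^ 4 * S.AA π = 1200 * (S.AA π / d ^ 4) := by ring
      linarith
    have a6 := mul_le_mul_of_nonneg_left a5 hC.le
    have a7 : 0 ≤ C ^ 2 * ((π.ε ^ 2)⁻¹ * S.AE π η + S.AA π / d ^ 4) :=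
      mul_nonneg (sq_nonneg _) (by linarith)
    linarith
  · have cM : ∀ z ∈ S.O, ContinuousAt
        (fun z => S.kk z / π.ε * (S.vs (yy z) z.2.1 - S.vs z.1 z.2.1)) z := fun z hz =>
      ((Gx.sm_kk hS hz).continuousAt.div_const _).mul (ca_vs hS hz)
    have c2 : S.Cl π 0 fun z => S.Mm π z * (η z.1 ^ 2 * th (S.sq z) ^ 2) :=
      cl_of K.nsc hS hπ cG1 (fun _ => lt_of_G1_ne) (fun z hz => (cM z hz).mul (ca_cut hS hz hc))
        fun z => by rw [Sf.Mm]; simp only [Pi.mul_apply]; ring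
    have c3 : S.Cl π 0 fun z => S.Wt π z * G1 (S.tt π z) *
        (S.kk z / π.ε * (S.vs (yy z) z.2.1 - S.vs z.1 z.2.1) *
          (1 - η z.1 ^ 2 * th (S.sq z) ^ 2)) :=
      cl_of K.nsc hS hπ cG1 (fun _ => lt_of_G1_ne)
        (fun z hz => (cM z hz).mul (continuousAt_const.sub (ca_cut hS hz hc))) fun _ => rfl
    have a1 := II_add K.ca hS hπ c3 c2
    have a2 : S.II (S.Mm π) = _ :=
      Eq.trans (congrArg S.II (funext fun z => by rw [Sf.Mm]; ring)) a1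
    obtain ⟨τ, hτ⟩ : ∃ τ, τ = t / (4 * C) := ⟨_, rfl⟩
    have hτ0 : 0 < τ := by rw [hτ]; positivity
    have a3 := me S π Λ 1 0 0 (τ * (4 / d ^ 4)) _
      (fun x => τ * (π.ε ^ 2)⁻¹ * (1 - η x ^ 2) + 36 / τ * S.φ x ^ 2)
      (fun x => 0 * S.φ x ^ 2 + 72 / τ * S.φ x ^ 2) (fun _ => 0)
      (fun _ => 0) (fun _ => 0) hG one_pos le_rfl le_rfl (by positivity) c3
      (cg_lin (cg_η hc) (cg_φ hS) (by positivity) (by positivity))
      (cg_lin (cg_φ hS) (cg_φ hS) le_rfl (by positivity)) cg_zero cg_zero cg_zero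
      (fun _ _ _ h => by simp at h) fun z hz hb h0 => by
        have hO := box_O hπ hb
        have h1 := left_ne_zero_of_mul h0.ne'
        have h2 := lt_of_G1_ne (right_ne_zero_of_mul h1)
        have hq := (supp hπ (left_ne_zero_of_mul h1) h2).1
        refine ⟨hq, by linarith [cs2_nonneg S z], ?_⟩
        obtain ⟨b1, b2, b3⟩ := cut_le hπ hO hq hc hd
        have b4 : |S.Wt π z * G1 (S.tt π z) * S.kk z| ≤ 1 * 6 * 1 := by
          rw [abs_mul, abs_mul, abs_of_nonneg (Wt_mem z).1, abs_of_nonneg (kk_nonneg S z)]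
          exact mul_le_mul (mul_le_mul (Wt_mem z).2 (abs_G1_le
            (div_nonneg (mul_nonneg hO.2.2.le (kk_nonneg S z)) hε.le)) (abs_nonneg _) zero_le_one)
            (kk_le S hz.2.1) (kk_nonneg S z) (by norm_num)
        have b5 : (S.Wt π z * G1 (S.tt π z) * S.kk z) ^ 2 ≤ 36 := by
          rw [← sq_abs]; nlinarith [abs_nonneg (S.Wt π z * G1 (S.tt π z) * S.kk z)]
        have h6 : S.cs1 z * S.vs z.1 z.2.1 ^ 2 = S.φ z.1 ^ 2 := vs_sq hO.1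
        have h7 : S.cs2 z * S.vs (yy z) z.2.1 ^ 2 = S.φ (yy z) ^ 2 := vs_sq hO.2.1
        have j2 := mul_le_mul_of_nonneg_right hb.2.2.2.1 (sq_nonneg (S.vs z.1 z.2.1))
        have j3 := mul_le_mul_of_nonneg_right hq.2.2.1 (sq_nonneg (S.vs (yy z) z.2.1))
        have j4 : (S.vs (yy z) z.2.1 - S.vs z.1 z.2.1) ^ 2 ≤
            8 * S.φ (yy z) ^ 2 + 4 * S.φ z.1 ^ 2 := by
          linarith [sq_nonneg (S.vs (yy z) z.2.1 + S.vs z.1 z.2.1)]
        rw [NS_zero]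
        generalize S.vs (yy z) z.2.1 - S.vs z.1 z.2.1 = v,
          1 - η z.1 ^ 2 * th (S.sq z) ^ 2 = q at *
        have j5 := mul_le_mul b5 j4 (sq_nonneg _) (by norm_num)
        have j6 : q ^ 2 ≤ q := by nlinarith
        have j7 : S.Wt π z * G1 (S.tt π z) * (S.kk z / π.ε * v * q) ≤ τ * ((π.ε ^ 2)⁻¹ * q ^ 2) +
            (4 * τ)⁻¹ * ((S.Wt π z * G1 (S.tt π z) * S.kk z) ^ 2 * v ^ 2) := by
          rw [← sub_nonneg]
          have e : τ * ((π.ε ^ 2)⁻¹ * q ^ 2) +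
              (4 * τ)⁻¹ * ((S.Wt π z * G1 (S.tt π z) * S.kk z) ^ 2 * v ^ 2) -
              S.Wt π z * G1 (S.tt π z) * (S.kk z / π.ε * v * q) =
              τ * (q / π.ε - S.Wt π z * G1 (S.tt π z) * S.kk z * v / (2 * τ)) ^ 2 := by
            field_simp
            ring
          rw [e]
          positivity
        have j8 := mul_le_mul_of_nonneg_left j5 (show 0 ≤ (4 * τ)⁻¹ by positivity)
        have j9 := mul_le_mul_of_nonneg_left
          ((mul_le_mul_of_nonneg_left j6 (show 0 ≤ (π.ε ^ 2)⁻¹ by positivity)).trans b3) hτ0.le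
        have e : (4 * τ)⁻¹ * (36 * (8 * S.φ (yy z) ^ 2 + 4 * S.φ z.1 ^ 2)) =
            72 / τ * S.φ (yy z) ^ 2 + 36 / τ * S.φ z.1 ^ 2 := by
          field_simp
          ring
        linarith
    rw [IB_lin hS (cg_η hc) (cg_φ hS), IB_lin hS (cg_φ hS) (cg_φ hS), IB_zero] at a3
    change _ ≤ C * (π.α ^ 2 * (_ * S.AE π η + _ * S.PP π) + _ * (_ * S.PP π + _ * S.PP π) + _ + _ +
      _ + _ + _) at a3
    rw [a2, e1]
    change _ + S.M0 π η th ≤ _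
    have hP' : 0 ≤ 36 / τ * S.PP π := by positivity
    have a4 : π.α ^ 2 * (τ * (π.ε ^ 2)⁻¹ * S.AE π η + 36 / τ * S.PP π) ≤
        1 * (τ * (π.ε ^ 2)⁻¹ * S.AE π η + 36 / τ * S.PP π) :=
      mul_le_mul_of_nonneg_right (by linarith) (by positivity)
    have a5 := mul_le_mul_of_nonneg_left a4 hC.le
    have e2 : C * (τ * (π.ε ^ 2)⁻¹ * S.AE π η) = t / 4 * ((π.ε ^ 2)⁻¹ * S.AE π η) := by
      rw [hτ]; field_simp
    have e3 : C * (36 / τ * S.PP π) = 144 * (C ^ 2 / t * S.PP π) := by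
      rw [hτ]; field_simp; ring
    have e4 : C * (72 / τ * S.PP π) = 288 * (C ^ 2 / t * S.PP π) := by
      rw [hτ]; field_simp; ring
    have e5 : C * (τ * (4 / d ^ 4) * S.AA π) = t * (S.AA π / d ^ 4) := by
      rw [hτ]; field_simp
    have e6 : (1300 * C + 432 * C ^ 2) / t * S.PP π =
        1300 * (C / t * S.PP π) + 432 * (C ^ 2 / t * S.PP π) := by ring
    have a6 : 0 ≤ C / t * S.PP π := by positivity
    have a7 : 0 ≤ t * ((π.ε ^ 2)⁻¹ * S.AE π η) := by positivity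
    linarith

end Vale.Agent.P218M1
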