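import Vale.Agent.P218M1.TbA
import Vale.Agent.P218M1.Tr
import Vale.Agent.P218M1.Gx
import Vale.Agent.P218M1.Gd
import Vale.Agent.P218M1.Swp

/-!
# P218M1: the energy in a window (TB)
-/

open MeasureTheory Metric Filter Topology Set
open scoped ContDiff RealInnerProductSpace ENNReal

noncomputable section

namespace Vale.Agent.P218M1

namespace Tb

open Sf Gx

variable {S : Sf} {π : Par} {Λ κ : ℝ} {k : ℕ} {f g : Q → ℝ} {z : Q}

/-! ### linearity of the integral over pairs -/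

theorem II_smul (S : Sf) (c : ℝ) (f : Q → ℝ) : S.II (fun z => c * f z) = c * S.II f := by
  unfold II AV
  rw [← integral_const_mul]
  refine integral_congr_ae (Eventually.of_forall fun x => ?_)
  simp only
  rw [← integral_const_mul]
  refine integral_congr_ae (Eventually.of_forall fun u => ?_)
  have : S.RS (fun z => c * f z) x (un u) = c * S.RS f x (un u) :=
    (mul_finsum_mem (s := {d | S.w (x + d • un u) = 0}) (fun d => f (x, un u, d)) c).symm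
  simp only [this]
  ring

theorem II_nonneg (h : ∀ z, 0 ≤ f z) : 0 ≤ S.II f :=
  integral_nonneg fun _ => integral_nonneg fun u => mul_nonneg (gam_nonneg u)
    (mul_nonneg (abs_nonneg _) (finsum_nonneg fun _ => finsum_nonneg fun _ => h _))

theorem cl_add (hf : S.Cl π k f) (hg : S.Cl π k g) : S.Cl π k fun z => f z + g z :=
  ⟨fun z hz => (hf.sm z hz).add (hg.sm z hz), fun z a b c => by
    rw [hf.bx z a b c, hg.bx z a b c, add_zero]⟩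

theorem cl_mul (hf : S.Cl π k f) (hg : S.Sm k g) : S.Cl π k fun z => f z * g z :=
  ⟨fun z hz => (hf.sm z hz).mul (hg z hz), fun z a b c => by rw [hf.bx z a b c, zero_mul]⟩

theorem cl_mul' (hg : S.Sm k g) (hf : S.Cl π k f) : S.Cl π k fun z => g z * f z :=
  ⟨fun z hz => (hg z hz).mul (hf.sm z hz), fun z a b c => by rw [hf.bx z a b c, mul_zero]⟩

theorem cl_smul (c : ℝ) (hf : S.Cl π k f) : S.Cl π k fun z => c * f z :=
  cl_mul' (fun _ _ => contDiffAt_const) hf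

theorem cl_sq (hf : S.Cl π k f) : S.Cl π k fun z => f z ^ 2 :=
  ⟨fun z hz => (hf.sm z hz).pow 2, fun z a b c => by rw [hf.bx z a b c]; simp⟩

theorem cl_sub (hf : S.Cl π k f) (hg : S.Cl π k g) : S.Cl π k fun z => f z - g z :=
  ⟨fun z hz => (hf.sm z hz).sub (hg.sm z hz), fun z a b c => by
    rw [hf.bx z a b c, hg.bx z a b c, sub_zero]⟩

theorem II_add (ca : CA) (hG : Good S π Λ) (hf : S.Cl π 0 f) (hg : S.Cl π 0 g) :
    S.II (fun z => f z + g z) = S.II f + S.II g := by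
  unfold II
  rw [← integral_add (ca.avi S π f hG.ok hG.rg hf) (ca.avi S π g hG.ok hG.rg hg)]
  refine integral_congr_ae (hG.ok.sup.mono fun x hx => ?_)
  have h1 := hG.ok.reg x hx
  simp only [AV]
  rw [← integral_add (ca.iu S π f x hG.ok hG.rg hf h1) (ca.iu S π g x hG.ok hG.rg hg h1)]
  refine integral_congr_ae (Eventually.of_forall fun u => ?_)
  rcases eq_or_ne u 0 with rfl | hu
  · simp [gam_zero]
  have key : ∀ {h : Q → ℝ}, S.Cl π 0 h → S.RS h x (un u) =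
      ∑ d ∈ (Tr.fin (x := x) hG (norm_un hu)).toFinset, h (x, un u, d) := fun hh =>
    Tr.RS_eq hG (norm_un hu) fun d a b => by_contra fun c => b (hh.bx _ h1 (hG.ok.reg _ a) c)
  simp only [key hf, key hg, key (cl_add hf hg), Finset.sum_add_distrib]
  ring

theorem II_sub (ca : CA) (hG : Good S π Λ) (hf : S.Cl π 0 f) (hg : S.Cl π 0 g) :
    S.II (fun z => f z - g z) = S.II f - S.II g := by
  have := II_add ca hG (cl_sub hf hg) hg
  simp only [sub_add_cancel] at this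
  linarith

/-! ### smoothness -/

theorem sm_cs1 (hS : S.Ok) (hz : z ∈ S.O) : ContDiffAt ℝ ∞ S.cs1 z :=
  ((sm_n hS contDiffAt_fst (O.g1 hz)).inner ℝ sm_θ).pow 2

theorem sm_cs2 (hS : S.Ok) (hz : z ∈ S.O) : ContDiffAt ℝ ∞ S.cs2 z :=
  ((sm_n hS sm_yy.contDiffAt (O.g2 hz)).inner ℝ sm_θ).pow 2

theorem sm_d : ContDiffAt ℝ ∞ (fun z : Q => z.2.2) z := by fun_prop

theorem sm_tt (hS : S.Ok) (hz : z ∈ S.O) : ContDiffAt ℝ ∞ (S.tt π) z :=
  (sm_d.mul (sm_kk hS hz)).div_const _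

theorem sm_sq (hS : S.Ok) (hz : z ∈ S.O) : ContDiffAt ℝ ∞ S.sq z := (sm_Pv hS hz).norm_sq ℝ

theorem sm_hs (hS : S.Ok) (hz : z ∈ S.O) : ContDiffAt ℝ ∞ (fun z => hs (S.Z z)) z :=
  ContDiffAt.sum fun _ _ => ((sm_Z hS hz).clm_apply contDiffAt_const).norm_sq ℝ

theorem sm_N (hn : NSC) (hS : S.Ok) (r : π.Rg) (k : ℕ) : S.Sm k (S.N π) :=
  hn.sm S π k _ hS r ⟨fun z hz => ((π.sg0_smooth.contDiffAt.comp z (sm_cs2 hS hz)).pow 2).of_le
    (cast_le_inf k), fun z _ h => by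
      rw [r.sg0_zero (by linarith [r.η2.1])]; simp⟩

theorem tt_nonneg (r : π.Rg) (hz : z ∈ S.O) : 0 ≤ S.tt π z :=
  div_nonneg (mul_nonneg hz.2.2.le (kk_nonneg S z)) r.ε0.le

theorem za_ne (r : π.Rg) (h : S.za π z ≠ 0) : ‖z.1‖ < 2 * π.R ∧ 1 - S.cs1 z < π.α ^ 2 ∧
    1 / 4 < S.cs2 z ∧ S.N π z < 1 ∧ π.ρ / 2 < z.2.2 ∧ z.2.2 < 1 := by
  simp only [za, o0, mul_ne_zero_iff] at h
  obtain ⟨⟨a, ⟨⟨b, c⟩, d⟩, e⟩, f⟩ := h
  exact ⟨r.pt_ne a, r.B0_ne b, Par.K0_ne c, by linarith [lt_of_ct_ne d], r.xi_ne e,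
    by linarith [lt_of_ct_ne f]⟩

theorem cl_za (hn : NSC) (hS : S.Ok) (r : π.Rg) (k : ℕ) : S.Cl π k (S.za π) := by
  refine ⟨fun z hz => ?_, fun z _ _ h => by_contra fun a => h ?_⟩
  · have h1 := sm_N hn hS r k z hz
    have h2 := (sm_cs1 hS hz).of_le (cast_le_inf k)
    have h3 := (sm_cs2 hS hz).of_le (cast_le_inf k)
    unfold za o0
    fun_prop
  · obtain ⟨a, b, c, -, e, f⟩ := za_ne r a
    exact ⟨by linarith [r.R0], e.le, by linarith, by linarith [r.α2.2], by linarith [r.η2.2]⟩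

theorem cl_ig (hn : NSC) (hS : S.Ok) (r : π.Rg) : S.Cl π 0 (S.ig π) := by
  refine ⟨fun z hz => ?_, fun z _ _ h => by_contra fun a => h ?_⟩
  · have h1 := sm_N hn hS r 0 z hz
    have h2 := (sm_cs1 hS hz).of_le (cast_le_inf 0)
    have h3 := (sm_cs2 hS hz).of_le (cast_le_inf 0)
    have h4 := (sm_sq hS hz).of_le (cast_le_inf 0)
    have h5 : ContDiffAt ℝ (0 : ℕ) (S.zg π) z := by unfold zg; fun_prop
    exact ((h5.pow 2).mul ((h4.pow 2).div (contDiffAt_const.add h4)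
      (by linarith [sq_nonneg' S z]))).div ((sm_d.of_le (cast_le_inf 0)).pow 2)
      (pow_pos hz.2.2 2).ne'
  · have h1 : S.zg π z ≠ 0 := fun h0 => a (by simp [ig, h0])
    simp only [zg, mul_ne_zero_iff] at h1
    obtain ⟨⟨⟨⟨⟨a, b⟩, c⟩, -⟩, e⟩, f⟩ := h1
    exact ⟨by linarith [r.R0, r.pt_ne a], (r.xi_ne f).le, by linarith [lt_of_ct_ne e],
      by linarith [r.α2.2, r.Bt_ne b], by linarith [r.η2.1, r.sg0_ne c]⟩

theorem cl_DG (hS : S.Ok) (hf : S.Cl π 1 f) : S.Cl π 0 fun z => ‖S.DG f z‖ ^ 2 :=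
  ⟨fun z hz => (ContDiffAt.sum fun i _ => ((Swp.clD hS hf (ee i)).sm z hz).smul
    contDiffAt_const).norm_sq ℝ, fun z a b c => by
      simp [DG, fun i => (Swp.clD hS hf (ee i)).bx z a b c]⟩

/-- the weight -/
def z0 (S : Sf) (π : Par) (κ : ℝ) (z : Q) : ℝ := S.za π z * (1 + S.tt π z) ^ (-κ)

/-- the vector field of the null Lagrangian -/
def VV (S : Sf) (z : Q) : E := trc (S.Z z) • S.Pv z - S.Z z (S.Pv z)

theorem sm_VV (hS : S.Ok) (hz : z ∈ S.O) : ContDiffAt ℝ ∞ (VV S) z :=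
  ((sm_trc (sm_Z hS hz)).smul (sm_Pv hS hz)).sub ((sm_Z hS hz).clm_apply (sm_Pv hS hz))

theorem cl_z0 (hn : NSC) (hS : S.Ok) (r : π.Rg) (k : ℕ) : S.Cl π k (z0 S π κ) :=
  cl_mul (cl_za hn hS r k) fun z hz => ((contDiffAt_const.add (sm_tt hS hz)).rpow_const_of_ne
    (by linarith [tt_nonneg r hz])).of_le (cast_le_inf k)

theorem sm_pV (hS : S.Ok) {ps : ℝ → ℝ} (hp : ContDiff ℝ ∞ ps) (i : Fin 3) :
    S.Sm 1 fun z => ps (S.sq z) * VV S z i := fun z hz =>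
  ((hp.contDiffAt.comp z (sm_sq hS hz)).mul (sm_co (sm_VV hS hz) i)).of_le (cast_le_inf 1)

/-! ### pointwise -/

theorem div_eq (K : Kit) (hG : Good S π Λ) (hz : z ∈ S.O) {ps : ℝ → ℝ} (hp : ContDiff ℝ ∞ ps) :
    ∑ i, S.D (ee i) (fun z => z0 S π κ z ^ 2 * (ps (S.sq z) * VV S z i)) z =
      z0 S π κ z ^ 2 * ((ps (S.sq z) + S.sq z * deriv ps (S.sq z)) *
        (trc (S.Z z) ^ 2 - hs (S.Z z))) +
      ps (S.sq z) * (2 * z0 S π κ z * ⟪S.DG (z0 S π κ) z, VV S z⟫) := by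
  rw [← K.gx.nl S z ps hG.ok hz hp, DG, inner_sum_ee, Finset.mul_sum, Finset.mul_sum,
    Finset.mul_sum, ← Finset.sum_add_distrib]
  refine Finset.sum_congr rfl fun i _ => ?_
  have h1 := Gd.HD.self (((cl_z0 (κ := κ) K.nsc hG.ok hG.rg 1).sm z hz).differentiableAt
    (by simp)) (S.VD (ee i) z)
  have h2 := Gd.HD.self ((sm_pV hG.ok hp i z hz).differentiableAt (by simp)) (S.VD (ee i) z)
  refine (h1.sq.mul h2).2.trans ?_
  simp only [D, VV]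
  ring

theorem DG_z0 (K : Kit) (hG : Good S π Λ) (hz : z ∈ S.O) :
    S.DG (z0 S π κ) z = (1 + S.tt π z) ^ (-κ) • S.DG (S.za π) z +
      (S.za π z * (-κ * (1 + S.tt π z) ^ (-κ - 1))) • S.gt π z := by
  ext i
  have h0 := tt_nonneg hG.rg hz
  have h1 := Gd.HD.self (((cl_za K.nsc hG.ok hG.rg 1).sm z hz).differentiableAt
    (by simp)) (S.VD (ee i) z)
  have h2 := Gd.HD.self ((sm_tt (π := π) hG.ok hz).differentiableAt (by simp)) (S.VD (ee i) z)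
  have h3 := ((Gd.HD.const (1 : ℝ)).add h2).rcomp (φ := fun x => x ^ (-κ))
    (Real.hasDerivAt_rpow_const (p := -κ) (Or.inl (by linarith)))
  have h4 : fderiv ℝ (S.tt π) z (S.VD (ee i) z) = S.gt π z i :=
    (K.gd.Dt S π z (ee i) hG.ok hz).trans (inner_ee _ _)
  simp only [DG, PiLp.add_apply, PiLp.smul_apply, sum_smul_ee_apply, smul_eq_mul]
  refine (h1.mul h3).2.trans ?_
  rw [h4]
  simp only [D]
  ring

theorem za_mem (z : Q) : 0 ≤ S.za π z ∧ S.za π z ≤ π.pt z.1 * π.xi z.2.2 * ct (2 * z.2.2) := by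
  have h1 : 0 ≤ π.B0 (S.cs1 z) * Par.K0 (S.cs2 z) * ct (2 * S.N π z) :=
    mul_nonneg (mul_nonneg (Par.B0_nonneg _) (Par.K0_nonneg _)) (ct_nonneg _)
  have h2 : π.B0 (S.cs1 z) * Par.K0 (S.cs2 z) * ct (2 * S.N π z) ≤ 1 :=
    mul_le_one₀ (mul_le_one₀ (Par.B0_le _) (Par.K0_nonneg _) (Par.K0_le _)) (ct_nonneg _)
      (ct_le_one _)
  have h3 := Par.pt_nonneg (π := π) z.1
  have h4 := Par.xi_nonneg (π := π) z.2.2
  have h5 := ct_nonneg (2 * z.2.2)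
  unfold za o0
  refine ⟨by positivity, ?_⟩
  gcongr
  exact mul_le_of_le_one_left h4 h2

theorem ig_nonneg (z : Q) : 0 ≤ S.ig π z := by
  have := sq_nonneg' S z
  unfold ig; positivity

theorem grad_le (K : Kit) (hG : Good S π Λ) (hz : z ∈ S.O) (hθ : ‖z.2.1‖ = 1) (h : S.za π z ≠ 0)
    (hκ : 0 < κ) {d₂ : ℝ} (hd : 0 < d₂) (hs : d₂ ^ 2 / 2 < S.sq z) :
    ‖S.DG (z0 S π κ) z‖ ^ 2 ≤ 2 * ‖S.DG (S.za π) z‖ ^ 2 +
      κ ^ 2 * (48 * S.ig π z / d₂ ^ 2 + 32 * S.A2 z.1) := by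
  have r := hG.rg
  obtain ⟨a1, a2, a3, a4, a5, a6⟩ := za_ne r h
  have t0 := tt_nonneg r hz
  have d0 := hz.2.2
  have c1 : 9 / 10 ≤ S.cs1 z := by linarith [r.α2.2]
  have s0 := sq_nonneg' S z
  have s5 := O.sq_le_four hz hθ c1 a3.le
  obtain ⟨b0, b1⟩ := za_mem (S := S) (π := π) z
  have b2 : S.za π z ≤ S.zg π z := by
    refine b1.trans ?_
    rw [zg, r.Bt_one (by linarith [r.α2.1]), ct_one a4.le, mul_one, mul_one]
    have h1 := r.one_le_sg0 a3.le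
    have h3 := Par.pt_nonneg (π := π) z.1
    have h4 := Par.xi_nonneg (π := π) z.2.2
    have h5 := ct_nonneg (2 * z.2.2)
    nlinarith [mul_nonneg (mul_nonneg h3 h4) h5]
  have b3 : S.za π z ≤ 1 := b1.trans (mul_le_one₀ (mul_le_one₀ (Par.pt_le _) (Par.xi_nonneg _)
    (Par.xi_le _)) (ct_nonneg _) (ct_le_one _))
  have q0 : 0 ≤ (1 + S.tt π z) ^ (-κ) := by positivity
  have q1 : (1 + S.tt π z) ^ (-κ) ≤ 1 :=
    Real.rpow_le_one_of_one_le_of_nonpos (by linarith) (by linarith)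
  have g1 : ‖S.gt π z‖ ^ 2 ≤ 2 * S.tt π z ^ 2 * (S.sq z / z.2.2 ^ 2 + ‖S.lv z‖ ^ 2) := by
    refine (norm_add_sq_le _ _).trans_eq ?_
    rw [norm_Uv, norm_smul, mul_pow, Real.norm_eq_abs, sq_abs, tt, ← kk_sq]
    have := r.ε0
    field_simp
  have g2 := hG.ok.norm_lv_le hz hθ (by linarith)
  have g3 : S.za π z ^ 2 * (S.sq z / z.2.2 ^ 2) ≤ 12 * S.ig π z / d₂ ^ 2 := by
    have h1 : S.sq z ≤ 12 / d₂ ^ 2 * (S.sq z ^ 2 / (1 + S.sq z)) := by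
      rw [div_mul_div_comm, le_div_iff₀ (by positivity)]
      nlinarith [mul_le_mul_of_nonneg_left hs.le s0, mul_nonneg s0 (sq_nonneg d₂)]
    calc _ ≤ S.zg π z ^ 2 * (12 / d₂ ^ 2 * (S.sq z ^ 2 / (1 + S.sq z)) / z.2.2 ^ 2) := by gcongr
      _ = _ := by rw [ig]; ring
  have g4 : S.za π z ^ 2 * ‖S.lv z‖ ^ 2 ≤ 8 * S.A2 z.1 := by
    refine (mul_le_of_le_one_left (sq_nonneg _) (pow_le_one₀ b0 b3)).trans (g2.trans ?_)
    nlinarith [A2_nonneg S z.1]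
  have g5 : ((1 + S.tt π z) ^ (-κ - 1)) ^ 2 * S.tt π z ^ 2 ≤ 1 := by
    rw [← mul_pow, Real.rpow_sub_one (by linarith)]
    refine pow_le_one₀ (by positivity) ?_
    rw [div_mul_eq_mul_div, div_le_one (by linarith)]
    nlinarith
  rw [DG_z0 K hG hz]
  refine (norm_add_sq_le _ _).trans (add_le_add ?_ ?_)
  · rw [norm_smul, mul_pow, Real.norm_eq_abs, sq_abs]
    exact mul_le_mul_of_nonneg_left (mul_le_of_le_one_left (sq_nonneg _) (pow_le_one₀ q0 q1))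
      two_pos.le
  · rw [norm_smul, mul_pow, Real.norm_eq_abs, sq_abs]
    calc _ ≤ 2 * ((S.za π z * (-κ * (1 + S.tt π z) ^ (-κ - 1))) ^ 2 *
          (2 * S.tt π z ^ 2 * (S.sq z / z.2.2 ^ 2 + ‖S.lv z‖ ^ 2))) := by gcongr
      _ = ((1 + S.tt π z) ^ (-κ - 1)) ^ 2 * S.tt π z ^ 2 * (κ ^ 2 * (4 * (S.za π z ^ 2 *
          (S.sq z / z.2.2 ^ 2)) + 4 * (S.za π z ^ 2 * ‖S.lv z‖ ^ 2))) := by ring
      _ ≤ 1 * (κ ^ 2 * (4 * (12 * S.ig π z / d₂ ^ 2) + 4 * (8 * S.A2 z.1))) := by gcongr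
      _ = _ := by ring

theorem VV_le (S : Sf) (z : Q) : ‖VV S z‖ ^ 2 ≤ 8 * hs (S.Z z) * S.sq z := by
  refine (norm_sub_sq_le _ _).trans ?_
  rw [norm_smul, mul_pow, Real.norm_eq_abs, sq_abs]
  unfold Sf.sq
  nlinarith [norm_apply_sq_le (S.Z z) (S.Pv z),
    mul_le_mul_of_nonneg_right (trc_sq_le (S.Z z)) (sq_nonneg ‖S.Pv z‖)]

theorem cA (hS : S.Ok) {x : E} (h : S.g x ≠ 0) : ContinuousAt S.A x := by
  have h0 : ContDiffAt ℝ ∞ (fun x => ‖S.g x‖⁻¹) x :=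
    (hS.sg.contDiffAt.norm ℝ h).inv (norm_ne_zero_iff.2 h)
  have h1 : ContDiffAt ℝ ∞ S.n x := h0.smul hS.sg.contDiffAt
  have h2 : ContDiffAt ℝ ∞ S.P x := contDiffAt_const.sub
    ((((innerSL ℝ : E →L[ℝ] E →L[ℝ] ℝ).contDiff.contDiffAt).comp x h1).smulRight h1)
  exact (h0.neg.smul (h2.clm_comp (hS.sD2.contDiffAt.clm_comp h2))).continuousAt

theorem cg1 (hS : S.Ok) : S.Cg fun x => S.φ x ^ 2 := fun x h => by
  refine ⟨ContinuousAt.pow (ContinuousAt.add ?_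
    ((continuousAt_id.inner (Ca.cont_n hS h)).div_const _)) 2, sq_nonneg _⟩
  have := cA hS h
  unfold H trc
  fun_prop

theorem cg2 (hS : S.Ok) : S.Cg fun x => 1 + S.A2 x := fun x h => by
  refine ⟨continuousAt_const.add ?_, by linarith [A2_nonneg S x]⟩
  have := cA hS h
  unfold A2 hs
  fun_prop

theorem cg3 (hS : S.Ok) {a b c : ℝ} (ha : 0 ≤ a) (hb : 0 ≤ b) (hc : 0 ≤ c) :
    (S.Cg fun x => a * (b * S.φ x ^ 2 + c * (1 + S.A2 x))) ∧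
      S.IB π (fun x => a * (b * S.φ x ^ 2 + c * (1 + S.A2 x))) = a * (b * S.PP π + c * S.AA π) := by
  refine ⟨fun x h => ⟨(((cg1 hS x h).1.const_mul b).add ((cg2 hS x h).1.const_mul c)).const_mul a,
    mul_nonneg ha (add_nonneg (mul_nonneg hb (cg1 hS x h).2) (mul_nonneg hc (cg2 hS x h).2))⟩, ?_⟩
  unfold PP AA IB
  rw [integral_const_mul, integral_add ((Tr.int_ball hS (cg1 hS) _).const_mul b)
    ((Tr.int_ball hS (cg2 hS) _).const_mul c), integral_const_mul, integral_const_mul]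

theorem ptw (K : Kit) (hG : Good S π Λ) {Cw d₁ d₂ L : ℝ} {th gb ga ch : ℝ → ℝ}
    (W : Win Cw d₁ d₂ L th gb ga ch) (hκ : 0 < κ) (hκ1 : κ ≤ 1) (hit : S.Hit z) (box : S.Box π z)
    (pos : 0 < 1 / 2 * (z0 S π κ z ^ 2 * gb (S.sq z) * hs (S.Z z)) +
      (S.D (ee 0) (fun z => z0 S π κ z ^ 2 * (ga (S.sq z) / S.sq z * VV S z 0)) z +
        S.D (ee 1) (fun z => z0 S π κ z ^ 2 * (ga (S.sq z) / S.sq z * VV S z 1)) z +
        S.D (ee 2) (fun z => z0 S π κ z ^ 2 * (ga (S.sq z) / S.sq z * VV S z 2)) z) -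
      64 * Cw * (ch (S.sq z) * ‖S.DG (S.za π) z‖ ^ 2) - 2 * Cw / (L * d₁) * ‖S.DG (S.za π) z‖ ^ 2 -
      1536 * Cw * κ / d₂ ^ 4 * S.ig π z) :
    S.Sp π z ∧ 1 - S.cs2 z ≤ 1 ^ 2 ∧ 1 / 2 * (z0 S π κ z ^ 2 * gb (S.sq z) * hs (S.Z z)) +
      (S.D (ee 0) (fun z => z0 S π κ z ^ 2 * (ga (S.sq z) / S.sq z * VV S z 0)) z +
        S.D (ee 1) (fun z => z0 S π κ z ^ 2 * (ga (S.sq z) / S.sq z * VV S z 1)) z +
        S.D (ee 2) (fun z => z0 S π κ z ^ 2 * (ga (S.sq z) / S.sq z * VV S z 2)) z) -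
      64 * Cw * (ch (S.sq z) * ‖S.DG (S.za π) z‖ ^ 2) - 2 * Cw / (L * d₁) * ‖S.DG (S.za π) z‖ ^ 2 -
      1536 * Cw * κ / d₂ ^ 4 * S.ig π z ≤
      S.cs2 z ^ 4 * (256 * (10 ^ 8 * (1 + Cw) * (1 / d₂ ^ 2 * S.φ z.1 ^ 2 + (π.R ^ 2 / L ^ 2 +
        (2 * π.ε) ^ (2 * κ) / d₂ ^ 2 + 1 / (L * d₁) + κ / d₂ ^ 4) * (1 + S.A2 z.1))) +
        S.NS π (fun z' => π.cu (S.cs2 z') * 0) z) +
      10 ^ 8 * (1 + Cw) * (1 / d₂ ^ 2 * S.φ (yy z) ^ 2 + (π.R ^ 2 / L ^ 2 +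
        (2 * π.ε) ^ (2 * κ) / d₂ ^ 2 + 1 / (L * d₁) + κ / d₂ ^ 4) * (1 + S.A2 (yy z))) := by
  have hC := Cw_nonneg W
  have hS := hG.ok
  have r := hG.rg
  have hd2 := W.d0
  have hd1 : 0 < d₁ := hd2.trans_le W.d12
  have hL : 0 < L := by linarith [W.L1]
  have he : 0 ≤ (2 * π.ε) ^ (2 * κ) := by have := r.ε0; positivity
  have hz := Ca.box_O r box
  have hθ := hit.2.1
  have e1 := div_eq (κ := κ) K hG hz W.sps
  rw [Fin.sum_univ_three, W.psd] at e1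
  rw [e1] at pos ⊢
  have n1 := ig_nonneg (S := S) (π := π) z
  have h : S.za π z ≠ 0 := fun h0 => by
    have n2 : 0 ≤ 64 * Cw * (ch (S.sq z) * ‖S.DG (S.za π) z‖ ^ 2) := by
      have := W.ch0 (S.sq z); positivity
    have n3 : 0 ≤ 2 * Cw / (L * d₁) * ‖S.DG (S.za π) z‖ ^ 2 := by positivity
    have n4 : 0 ≤ 1536 * Cw * κ / d₂ ^ 4 * S.ig π z := by positivity
    have n5 : z0 S π κ z = 0 := by rw [z0, h0, zero_mul]
    rw [n5] at pos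
    simp only [ne_eq, OfNat.ofNat_ne_zero, not_false_eq_true, zero_pow, zero_mul, mul_zero,
      add_zero] at pos
    linarith
  obtain ⟨a1, a2, a3, a4, a5, a6⟩ := za_ne r h
  have t0 := tt_nonneg r hz
  have c9 : 9 / 10 ≤ S.cs1 z := by linarith [r.α2.2]
  obtain ⟨b0, b1⟩ := za_mem (S := S) (π := π) z
  refine ⟨⟨a1.le, by linarith [r.α2.1], by linarith [r.η2.2], by linarith, a6.le⟩,
    by linarith [cs2_nonneg S z], ?_⟩
  have ns : S.NS π (fun z' => π.cu (S.cs2 z') * 0) z = 0 := by simp [NS, RS]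
  rw [ns]
  refine num W hκ hκ1 (sq_nonneg' S z) b0 (b1.trans (mul_le_one₀ (mul_le_one₀ (Par.pt_le _)
    (Par.xi_nonneg _) (Par.xi_le _)) (ct_nonneg _) (ct_le_one _))) (by positivity)
    (Real.rpow_le_one_of_one_le_of_nonpos (by linarith) (by linarith)) (hs_nonneg _)
    (sq_nonneg ‖S.DG (z0 S π κ) z‖) (sq_nonneg _) n1 (A2_nonneg S _) (A2_nonneg S _) r.R1 he
    a3.le (K.gx.tz S z hS hz hθ c9 a3.le) ?_ (dq hz.2.2 a6.le t0 ?_ hκ1 hκ) ?_ ?_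
    (grad_le K hG hz hθ h hκ hd2)
  · nlinarith [norm_nonneg z.1]
  · have h1 := cs1_le_kk S hθ
    have h2 : 2 * π.ε * (1 + S.tt π z) = 2 * π.ε + 2 * (z.2.2 * S.kk z) := by
      have := r.ε0
      rw [tt]; field_simp
    rw [h2]
    nlinarith [r.ε0, hz.2.2]
  · exact (inner_sq_le _ _).trans (mul_le_mul_of_nonneg_left (VV_le S z) (sq_nonneg _))
  · linarith [hs_Z_le S z, hS.hs_X1_le hz hθ (by linarith), hS.hs_X2_le hz hθ a3.le]

end Tb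

open Tb Sf in
/-- **TB** -/
theorem tb (K : Kit) : TB := by
  intro Cw
  obtain ⟨C₁, C₁0, tr⟩ := K.tr
  obtain ⟨C₂, C₂0, gn⟩ := K.gn
  refine ⟨(1 + |Cw|) * (514 * 10 ^ 8 * C₁ + 3072 * C₂ + 128), by positivity,
    fun S π Λ κ d₁ d₂ L th gb ga ch hG W hκ hκ1 => ?_⟩
  have hC := Cw_nonneg W
  rw [abs_of_nonneg hC]
  have hS := hG.ok
  have r := hG.rg
  have hd2 := W.d0
  have hd1 : 0 < d₁ := hd2.trans_le W.d12
  have hL : 0 < L := by linarith [W.L1]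
  have he : 0 ≤ (2 * π.ε) ^ (2 * κ) := by have := r.ε0; positivity
  obtain ⟨gn1, gn2⟩ := gn S π Λ hG
  set e := π.R ^ 2 / L ^ 2 + (2 * π.ε) ^ (2 * κ) / d₂ ^ 2 + 1 / (L * d₁) + κ / d₂ ^ 4 with hE
  have hE0 : 0 ≤ e := by positivity
  have cT : S.Cl π 0 fun z => z0 S π κ z ^ 2 * gb (S.sq z) * hs (S.Z z) :=
    cl_mul (cl_mul (cl_sq (cl_z0 K.nsc hS r 0)) fun z hz =>
      (W.sgb.contDiffAt.comp z (sm_sq hS hz)).of_le (cast_le_inf 0)) fun z hz =>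
        (sm_hs hS hz).of_le (cast_le_inf 0)
  have cf : ∀ i, S.Cl π 1 fun z => z0 S π κ z ^ 2 * (ga (S.sq z) / S.sq z * VV S z i) := fun i =>
    cl_mul (cl_sq (cl_z0 K.nsc hS r 1)) (sm_pV hS W.sps i)
  have cD := fun i => Swp.clD hS (cf i) (ee i)
  have cA := cl_DG hS (cl_za K.nsc hS r 1)
  have cE : S.Cl π 0 fun z => ch (S.sq z) * ‖S.DG (S.za π) z‖ ^ 2 :=
    cl_mul' (fun z hz => (contDiff_zero.2 W.cch).contDiffAt.comp z
      ((sm_sq hS hz).of_le (cast_le_inf 0))) cA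
  have cI := cl_ig K.nsc hS r
  have c1 := cl_add (cl_add (cD 0) (cD 1)) (cD 2)
  have c2 := cl_add (cl_smul (1 / 2) cT) c1
  have c3 := cl_sub c2 (cl_smul (64 * Cw) cE)
  have c4 := cl_sub c3 (cl_smul (2 * Cw / (L * d₁)) cA)
  have c5 := cl_sub c4 (cl_smul (1536 * Cw * κ / d₂ ^ 4) cI)
  obtain ⟨g1, g2⟩ := cg3 (π := π) hS (a := 10 ^ 8 * (1 + Cw)) (b := 1 / d₂ ^ 2) (c := e)
    (by positivity) (by positivity) hE0
  have key := tr S π Λ 1 _ (fun x => 256 * (10 ^ 8 * (1 + Cw) * (1 / d₂ ^ 2 * S.φ x ^ 2 +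
    e * (1 + S.A2 x)))) _ (fun _ => 0) hG one_pos c5
    (fun x h => ⟨(g1 x h).1.const_mul 256, mul_nonneg (by norm_num) (g1 x h).2⟩) g1
    (fun _ _ => ⟨continuousAt_const, le_rfl⟩) fun z hit box pos =>
      ptw K hG W hκ hκ1 hit box pos
  have i0 : S.IB π (fun _ => 0) = 0 := by simp [IB]
  have i1 : S.IB π (fun x => 256 * (10 ^ 8 * (1 + Cw) * (1 / d₂ ^ 2 * S.φ x ^ 2 +
      e * (1 + S.A2 x)))) = 256 * (10 ^ 8 * (1 + Cw) * (1 / d₂ ^ 2 * S.PP π + e * S.AA π)) := by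
    rw [← g2]; exact integral_const_mul _ _
  rw [II_sub K.ca hG c4 (cl_smul _ cI), II_sub K.ca hG c3 (cl_smul _ cA),
    II_sub K.ca hG c2 (cl_smul _ cE), II_add K.ca hG (cl_smul _ cT) c1,
    II_add K.ca hG (cl_add (cD 0) (cD 1)) (cD 2), II_add K.ca hG (cD 0) (cD 1),
    K.byd S π _ _ hS r (cf 0), K.byd S π _ _ hS r (cf 1), K.byd S π _ _ hS r (cf 2),
    II_smul, II_smul, II_smul, II_smul, i0, i1, g2] at key
  have pP : 0 ≤ S.PP π := integral_nonneg fun _ => sq_nonneg _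
  have pA : 0 ≤ S.AA π := integral_nonneg fun x => add_nonneg zero_le_one (A2_nonneg S x)
  have pE : 0 ≤ S.En π ch := II_nonneg fun z => mul_nonneg (W.ch0 _) (sq_nonneg _)
  change 1 / 2 * S.Tb π κ gb + _ - 64 * Cw * S.En π ch - _ - _ ≤ _ at key
  have m1 : 2 * Cw / (L * d₁) * S.II (fun z => ‖S.DG (S.za π) z‖ ^ 2) +
      1536 * Cw * κ / d₂ ^ 4 * S.II (S.ig π) ≤ 1536 * Cw * C₂ * (e * S.AA π) := by
    have h1 : 2 * Cw / (L * d₁) + 1536 * Cw * κ / d₂ ^ 4 ≤ 1536 * Cw * e := by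
      have h2 : 0 ≤ Cw * (π.R ^ 2 / L ^ 2 + (2 * π.ε) ^ (2 * κ) / d₂ ^ 2) := by positivity
      have h3 : 0 ≤ Cw * (1 / (L * d₁)) := by positivity
      rw [hE, div_eq_mul_one_div (2 * Cw), mul_div_assoc (1536 * Cw)]
      linarith
    calc _ ≤ 2 * Cw / (L * d₁) * (C₂ * S.AA π) + 1536 * Cw * κ / d₂ ^ 4 * (C₂ * S.AA π) := by
          gcongr
      _ = (2 * Cw / (L * d₁) + 1536 * Cw * κ / d₂ ^ 4) * (C₂ * S.AA π) := by ring
      _ ≤ 1536 * Cw * e * (C₂ * S.AA π) := by gcongr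
      _ = _ := by ring
  rw [div_eq_mul_one_div (S.PP π), mul_comm (S.PP π), mul_comm (S.AA π)]
  have pX : 0 ≤ 1 / d₂ ^ 2 * S.PP π := by positivity
  have pY : 0 ≤ e * S.AA π := by positivity
  generalize 1 / d₂ ^ 2 * S.PP π = X at *
  generalize e * S.AA π = Y at *
  have m2 : π.α ^ 2 * (256 * (10 ^ 8 * (1 + Cw) * (X + Y))) ≤
      256 * (10 ^ 8 * (1 + Cw) * (X + Y)) :=
    mul_le_of_le_one_left (by positivity) (by linarith [r.α2.2])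
  have m3 := mul_le_mul_of_nonneg_left m2 C₁0.le
  have m4 : 0 ≤ (1 + Cw) * (514 * 10 ^ 8 * C₁ + 3072 * C₂) * S.En π ch := by positivity
  have m5 : 0 ≤ (1 + Cw) * (3072 * C₂ + 128) * X := by positivity
  have m6 : 0 ≤ (3072 * C₂ + 128 * (1 + Cw)) * Y := by positivity
  linarith

end Vale.Agent.P218M1
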