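import Vale.Agent.P218M1.Spec
import Vale.Agent.P218M1.Cut

/-!
# P218M1: row WIN
-/

open MeasureTheory Filter Topology Set
open scoped ContDiff

noncomputable section

namespace Vale.Agent.P218M1

namespace Wn

theorem glue {f : ℝ → ℝ} {a c : ℝ} (ha : 0 < a) (h : ∀ s, 0 < s → ContDiffAt ℝ ∞ f s)
    (h0 : ∀ s ≤ a, f s = c) : ContDiff ℝ ∞ f :=
  contDiff_iff_contDiffAt.2 fun s => (lt_or_ge s a).elim (fun hs =>
    contDiffAt_const.congr_of_eventuallyEq ((eventually_lt_nhds hs).mono fun t ht => h0 t ht.le))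
    fun hs => h s (ha.trans_le hs)

def th (a L s : ℝ) : ℝ := if 0 < s then ct (1 + Real.log (s / a) / (2 * L)) else 1
def gb (a b L s : ℝ) : ℝ := (1 - ct (2 * s / a)) * ct (s / b) / (L ^ 2 * s)
def ga (a b L s : ℝ) : ℝ := ∫ t in (a / 2)..s, gb a b L t

variable {a b L s : ℝ} (ha : 0 < a) (hL : 1 ≤ L)

theorem th_ev (hs : 0 < s) : th a L =ᶠ[𝓝 s] fun s => ct (1 + Real.log (s / a) / (2 * L)) :=
  (eventually_gt_nhds hs).mono fun _ ht => if_pos ht

include ha

theorem dth (hs : 0 < s) :
    deriv (th a L) s = deriv ct (1 + Real.log (s / a) / (2 * L)) / (2 * (L * s)) := by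
  rw [(th_ev hs).deriv_eq]
  refine ((hasDerivAt_ct _).comp s (((((hasDerivAt_id' s).div_const a).log
    (by positivity)).div_const (2 * L)).const_add 1)).deriv.trans ?_
  field_simp

theorem gbz (h : s ≤ a / 2) : gb a b L s = 0 := by
  rw [gb, ct_one ((div_le_one ha).2 (by linarith)), sub_self, zero_mul, zero_div]

theorem gb0 (s : ℝ) : 0 ≤ gb a b L s := (le_total s (a / 2)).elim (fun h => (gbz ha h).ge) fun h =>
  div_nonneg (mul_nonneg (one_sub_ct_nonneg _) (ct_nonneg _))
    (mul_nonneg (sq_nonneg _) (by linarith))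

theorem gaz (h : s ≤ a / 2) : ga a b L s = 0 := by
  rw [ga, intervalIntegral.integral_congr (g := fun _ => 0) fun t ht =>
    gbz ha (ht.2.trans (sup_le le_rfl h)), intervalIntegral.integral_zero]

theorem ga0 (s : ℝ) : 0 ≤ ga a b L s := (le_total s (a / 2)).elim (fun h => (gaz ha h).ge) fun h =>
  intervalIntegral.integral_nonneg h fun t _ => gb0 ha t

include hL

theorem the (h : s ≤ a) : th a L s = 1 := by
  unfold th
  split_ifs with hs
  · exact ct_one (add_le_of_nonpos_right (div_nonpos_of_nonpos_of_nonneg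
      (Real.log_nonpos (by positivity) ((div_le_one ha).2 h)) (by linarith)))
  · rfl

theorem sth : ContDiff ℝ ∞ (th a L) := glue ha (fun s hs => (ct_smooth.contDiffAt.comp s
  (contDiffAt_const.add (((contDiffAt_id.div_const a).log (div_pos hs ha).ne').div_const
    _))).congr_of_eventuallyEq (th_ev hs)) fun _ => the ha hL

theorem sgb : ContDiff ℝ ∞ (gb a b L) := glue (half_pos ha) (fun s hs =>
  ((contDiff_const.sub (ct_smooth.comp ((contDiff_const.mul contDiff_id).div_const a))).mul
    (ct_smooth.comp (contDiff_id.div_const b))).contDiffAt.div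
      (contDiffAt_const.mul contDiffAt_id) (by positivity)) fun _ => gbz ha

theorem dga (s : ℝ) : HasDerivAt (ga a b L) (gb a b L s) s :=
  ((sgb ha hL).continuous.integral_hasStrictDerivAt _ s).hasDerivAt

theorem sga : ContDiff ℝ ∞ (ga a b L) := contDiff_infty_iff_deriv.2
  ⟨fun s => (dga ha hL s).differentiableAt, by
    rw [show deriv (ga a b L) = _ from funext fun s => (dga ha hL s).deriv]; exact sgb ha hL⟩

theorem gal (hb : b = a * Real.exp (2 * L)) (h1 : a / 2 ≤ s) (h2 : s ≤ 2 * b) :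
    ga a b L s ≤ 4 * (1 - ct (2 * s / a)) / L := by
  have p : ∀ t ∈ uIcc (a / 2) s, 0 < t := fun t ht => (half_pos ha).trans_le
    ((le_inf le_rfl h1).trans ht.1)
  have u0 := one_sub_ct_nonneg (2 * s / a)
  have l1 : Real.log (s / (a / 2)) ≤ 4 * L := by
    rw [Real.log_le_iff_le_exp (by have := p s right_mem_uIcc; positivity),
      div_le_iff₀ (half_pos ha), show 4 * L = 2 * L + L + L by ring, Real.exp_add, Real.exp_add]
    have h3 : 2 ≤ Real.exp L := by linarith [Real.add_one_le_exp L]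
    have h4 : 4 ≤ Real.exp L * Real.exp L := by nlinarith
    nlinarith [mul_pos ha (Real.exp_pos (2 * L))]
  refine (intervalIntegral.integral_mono_on (g := fun t => (1 - ct (2 * s / a)) / L ^ 2 * t⁻¹) h1
    ((sgb ha hL).continuous.intervalIntegrable _ _) ((continuousOn_const.mul
      (continuousOn_id.inv₀ fun t ht => (p t ht).ne')).intervalIntegrable) fun t ht => ?_).trans ?_
  · have := (half_pos ha).trans_le ht.1
    rw [gb, ← div_eq_mul_inv, div_div]
    refine div_le_div_of_nonneg_right ((mul_le_of_le_one_right (one_sub_ct_nonneg _)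
      (ct_le_one _)).trans (sub_le_sub_left (ct_anti (by gcongr; exact ht.2)) _)) (by positivity)
  · rw [intervalIntegral.integral_const_mul, integral_inv fun h => (p 0 h).false]
    refine (mul_le_mul_of_nonneg_left l1 (by positivity)).trans_eq ?_
    field_simp

end Wn

open Wn

theorem win : WIN := by
  have c0 := Cc_pos
  have c1 := one_le_Cc
  refine ⟨Cc ^ 2 + 16, by nlinarith, fun d L d0 d1 hL => ?_⟩
  obtain ⟨a, e⟩ : ∃ a, a = (d * Real.exp (-L)) ^ 2 := ⟨_, rfl⟩
  have ha : 0 < a := by rw [e]; positivity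
  have hb : d ^ 2 = a * Real.exp (2 * L) := by
    rw [e, mul_pow, mul_assoc, ← Real.exp_nat_mul, ← Real.exp_add]; simp
  have b0 : 0 < d ^ 2 := by positivity
  have L0 : 0 < L := by linarith
  have ab : a ≤ d ^ 2 := hb ▸ le_mul_of_one_le_right ha.le (Real.one_le_exp (by linarith))
  have gz : ∀ s, gb a (d ^ 2) L s ≠ 0 → a / 2 ≤ s ∧ s ≤ 2 * d ^ 2 := fun s h =>
    ⟨(not_le.1 (mt (gbz ha) h)).le, ((div_lt_iff₀ b0).1 (lt_of_ct_ne fun h' => h (by
      rw [gb, h', mul_zero, zero_div]))).le⟩
  have g4 : ∀ s ≤ 2 * d ^ 2, ga a (d ^ 2) L s ≤ 4 / L := fun s h =>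
    (le_total s (a / 2)).elim (fun h' => (gaz ha h').trans_le (by positivity)) fun h' =>
      (gal ha hL hb h' h).trans (by gcongr; linarith [ct_nonneg (2 * s / a)])
  refine ⟨th a L, gb a (d ^ 2) L, ga a (d ^ 2) L, fun s => (1 - ct (4 * s / a)) * ct (s / d ^ 2),
    by positivity, mul_le_of_le_one_right d0.le (Real.exp_le_one_iff.2 (by linarith)), d1, hL,
    sth ha hL, sgb ha hL, glue (c := 0) (half_pos ha) (fun s hs =>
      (sga ha hL).contDiffAt.div contDiffAt_id hs.ne') fun s hs => by rw [gaz ha hs, zero_div],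
    fun s => ?_, by fun_prop, fun s => ?_, fun s => ?_, fun s hs => the ha hL (e ▸ hs),
    fun s hs => ?_, fun s hs => ?_, fun s hs => ?_, gb0 ha, e ▸ gz, fun s hs => ?_,
    fun s hs => gaz ha (e ▸ hs), ga0 ha, fun s => le_trans ?_ (by gcongr; nlinarith : 4 / L ≤ _),
    fun s h0 hs => ?_, fun s => mul_nonneg (one_sub_ct_nonneg _) (ct_nonneg _),
    fun s => mul_le_one₀ (one_sub_ct_le _) (ct_nonneg _) (ct_le_one _), fun s h1 h2 => ?_,
    fun s h => ?_⟩
  · by_cases hs : s = 0
    · simp [hs, gb]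
    · rw [((dga ha hL s).fun_div (hasDerivAt_id' s) hs).deriv]
      field_simp
      ring
  · unfold th
    split_ifs
    exacts [ct_nonneg _, zero_le_one]
  · unfold th
    split_ifs
    exacts [ct_le_one _, le_rfl]
  · rw [th, if_pos (b0.trans_le hs)]
    refine ct_zero ?_
    have := (Real.le_log_iff_exp_le (div_pos (b0.trans_le hs) ha)).2
      ((le_div_iff₀' ha).2 (hb ▸ hs))
    linarith [(one_le_div (by positivity)).2 this]
  · rw [dth ha hs, abs_div, abs_of_pos (by positivity : 0 < 2 * (L * s)), ← div_div]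
    gcongr
    nlinarith [abs_dct_le (1 + Real.log (s / a) / (2 * L))]
  · by_cases h : deriv ct (1 + Real.log (s / a) / (2 * L)) = 0
    · rw [dth ha hs, h]
      simpa using mul_nonneg (by positivity) (gb0 ha s)
    obtain ⟨h1, h2⟩ := dct_ne h
    have h3 : 1 < s / a := (Real.log_pos_iff (by positivity)).1
      ((div_pos_iff_of_pos_right (by positivity)).1 (lt_add_iff_pos_right _ |>.1 h1))
    have h4 := (Real.log_lt_iff_lt_exp (by positivity)).1 ((div_lt_one (by positivity)).1
      (by linarith : Real.log (s / a) / (2 * L) < 1))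
    rw [dth ha hs, gb, ct_zero (s := 2 * s / a) (by rw [mul_div_assoc]; linarith),
      ct_one ((div_le_one b0).2 (hb ▸ ((div_lt_iff₀' ha).1 h4).le))]
    have := dct_sq_le (1 + Real.log (s / a) / (2 * L))
    generalize deriv ct (1 + Real.log (s / a) / (2 * L)) = u at this
    field_simp
    nlinarith
  · exact div_le_div_of_nonneg_right (mul_le_one₀ (one_sub_ct_le _) (ct_nonneg _) (ct_le_one _))
      (by positivity)
  · refine (le_total s (2 * d ^ 2)).elim (g4 s) fun h => (le_of_eq ?_).trans (g4 _ le_rfl)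
    have c := (sgb (b := d ^ 2) ha hL).continuous
    rw [ga, ← intervalIntegral.integral_add_adjacent_intervals (b := 2 * d ^ 2)
      (c.intervalIntegrable _ _) (c.intervalIntegrable _ _), intervalIntegral.integral_congr
      (a := 2 * d ^ 2) (g := fun _ => 0) fun t ht => by
        rw [gb, ct_zero (s := t / d ^ 2) ((le_div_iff₀ b0).2 ((le_inf le_rfl h).trans ht.1)),
          mul_zero, zero_div], intervalIntegral.integral_zero, add_zero, ga]
  · rcases le_total s (a / 2) with h | h
    · simp [gaz ha h, gbz ha h]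
    refine (pow_le_pow_left₀ (ga0 ha s) (gal ha hL hb h (by linarith)) 2).trans ?_
    rw [gb, ct_one ((div_le_one b0).2 hs)]
    have u0 := one_sub_ct_nonneg (2 * s / a)
    have u1 := one_sub_ct_le (2 * s / a)
    generalize 1 - ct (2 * s / a) = u at u0 u1
    field_simp
    nlinarith [mul_nonneg u0 (sq_nonneg Cc)]
  · rw [← e] at h1
    rw [ct_zero ((le_div_iff₀ ha).2 (by linarith)), ct_one ((div_le_one b0).2 h2)]
    norm_num
  · have h1 := (one_lt_div ha).1 (lt_of_ct_ne_one (sub_ne_zero.1 (left_ne_zero_of_mul h)).symm)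
    exact ⟨by rw [← e]; linarith, (div_lt_iff₀ b0).1 (lt_of_ct_ne (right_ne_zero_of_mul h))⟩

end Vale.Agent.P218M1
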