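import Vale.Agent.P218M1.KitAll
import Vale.Agent.P218M1.Bar
import Vale.Agent.P218M1.Bb
import Vale.Agent.P218M1.Da
import Vale.Agent.P218M1.Db
import Vale.Agent.P218M1.Dc
import Vale.Agent.P218M1.Dich
import Vale.Agent.P218M1.Dp
import Vale.Agent.P218M1.Dt
import Vale.Agent.P218M1.Eta
import Vale.Agent.P218M1.Hw
import Vale.Agent.P218M1.Iso
import Vale.Agent.P218M1.La
import Vale.Agent.P218M1.Lc
import Vale.Agent.P218M1.Low
import Vale.Agent.P218M1.Ma
import Vale.Agent.P218M1.Main
import Vale.Agent.P218M1.Mb
import Vale.Agent.P218M1.Poi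
import Vale.Agent.P218M1.Psit
import Vale.Agent.P218M1.Spl
import Vale.Agent.P218M1.Tb
import Vale.Agent.P218M1.Win

/-!
# P218M1: the main theorem of the block, without hypotheses
-/

namespace Vale.Agent.P218M1

theorem main' : MAIN := main kit win eta (tb kit) (bb kit) (hw kit) (spl kit) (ma kit) (mb kit)

theorem psit' : PSIT := psit fs ca' (dt fs ca' lin') nsc' gd unq

theorem dich' : DICH := dich kit (iso fvn mono) (da kit) (db kit poi) (dc kit)

theorem low' : LOW := low kit (la mono) lb (lc kit lin')

/-- **DP** -/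
theorem dp' : DP := dp kit main' psit' dich' low' (up kit) bar sept

end Vale.Agent.P218M1
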