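import Vale.Agent.P218M1.Spec

/-!
# P218M1, row FS: sums over transversal zeros
-/

open MeasureTheory Metric Filter Topology Set
open scoped ContDiff

noncomputable section

namespace Vale.Agent.P218M1

namespace Fs

theorem inv_of_ne (L : ℝ →L[ℝ] ℝ) (h : L 1 ≠ 0) : L.IsInvertible := by
  refine ⟨ContinuousLinearEquiv.unitsEquivAut ℝ (Units.mk0 (L 1) h), ?_⟩
  ext
  simp

/-- the implicit function at a transversal zero -/
theorem imp {Y : Type} [NormedAddCommGroup Y] [NormedSpace ℝ Y] [CompleteSpace Y]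
    (F : Y × ℝ → ℝ) (y₀ : Y) (d : ℝ) (hF : ContDiffAt ℝ ∞ F (y₀, d)) (h0 : F (y₀, d) = 0)
    (h1 : fderiv ℝ F (y₀, d) (0, 1) ≠ 0) :
    ∃ ψ : Y → ℝ, ψ y₀ = d ∧ ContDiffAt ℝ ∞ ψ y₀ ∧ (∀ᶠ v in 𝓝 (y₀, d), F v = 0 → ψ v.1 = v.2) ∧
      (∀ᶠ y in 𝓝 y₀, F (y, ψ y) = 0) ∧
      ∀ v, fderiv ℝ ψ y₀ v = -(fderiv ℝ F (y₀, d) (v, 0) / fderiv ℝ F (y₀, d) (0, 1)) := by
  have pn : (∞ : ℕ∞ω) ≠ 0 := by simp
  have hi : (fderiv ℝ F (y₀, d) ∘L ContinuousLinearMap.inr ℝ Y ℝ).IsInvertible :=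
    inv_of_ne _ (by simpa using h1)
  have e0 : hF.implicitFunction pn hi y₀ = d := hF.implicitFunction_apply_self pn hi
  have e1 : ContDiffAt ℝ ∞ (hF.implicitFunction pn hi) y₀ := hF.contDiffAt_implicitFunction pn hi
  have e3 : ∀ᶠ y in 𝓝 y₀, F (y, hF.implicitFunction pn hi y) = 0 := by
    have := hF.eventually_apply_implicitFunction pn hi
    rw [h0] at this
    exact this
  refine ⟨hF.implicitFunction pn hi, e0, e1, ?_, e3, ?_⟩
  · have := hF.eventually_apply_eq_iff_implicitFunction pn hi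
    rw [h0] at this
    exact this.mono fun v hv => hv.1
  · intro v
    set ψ := hF.implicitFunction pn hi with hψ
    have d1 : HasFDerivAt ψ (fderiv ℝ ψ y₀) y₀ := (e1.differentiableAt (by simp)).hasFDerivAt
    have d2 : HasFDerivAt (fun y => (y, ψ y)) ((ContinuousLinearMap.id ℝ Y).prod (fderiv ℝ ψ y₀))
        y₀ := (hasFDerivAt_id y₀).prodMk d1
    have d3 : HasFDerivAt F (fderiv ℝ F (y₀, d)) (y₀, ψ y₀) := by
      rw [e0]; exact (hF.differentiableAt (by simp)).hasFDerivAt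
    have d4 := d3.comp y₀ d2
    have d5 : HasFDerivAt (F ∘ fun y => (y, ψ y)) (0 : Y →L[ℝ] ℝ) y₀ :=
      (hasFDerivAt_const (0 : ℝ) y₀).congr_of_eventuallyEq e3
    have d6 := congrArg (fun L : Y →L[ℝ] ℝ => L v) (d4.unique d5)
    simp only [ContinuousLinearMap.comp_apply, ContinuousLinearMap.prod_apply,
      ContinuousLinearMap.id_apply, ContinuousLinearMap.zero_apply] at d6
    have e : (v, fderiv ℝ ψ y₀ v) = (v, 0) + fderiv ℝ ψ y₀ v • ((0 : Y), (1 : ℝ)) := by simp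
    rw [e, map_add, map_smul, smul_eq_mul] at d6
    field_simp
    linarith

end Fs

open Fs in
theorem fs : FS := by
  classical
  intro Y V _ _ _ _ _ F f y₀ a b k hF hout hz
  set T₀ : Set ℝ := {d | F (y₀, d) = 0 ∧ ¬ f =ᶠ[𝓝 (y₀, d)] 0} with hT₀
  have hT₁ : ∀ d ∈ T₀, d ∈ Icc a b ∧ fderiv ℝ F (y₀, d) (0, 1) ≠ 0 ∧ ContDiffAt ℝ k f (y₀, d) :=
    fun d hd => (hz d hd.1).resolve_right hd.2
  have hψ : ∀ d : ℝ, ∃ ψ : Y → ℝ, d ∈ T₀ → ψ y₀ = d ∧ ContDiffAt ℝ ∞ ψ y₀ ∧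
      (∀ᶠ v in 𝓝 (y₀, d), F v = 0 → ψ v.1 = v.2) ∧ (∀ᶠ y in 𝓝 y₀, F (y, ψ y) = 0) ∧
      ∀ v, fderiv ℝ ψ y₀ v = -(fderiv ℝ F (y₀, d) (v, 0) / fderiv ℝ F (y₀, d) (0, 1)) := by
    intro d
    by_cases hd : d ∈ T₀
    · obtain ⟨ψ, h⟩ := imp F y₀ d (hF d (hT₁ d hd).1) hd.1 (hT₁ d hd).2.1
      exact ⟨ψ, fun _ => h⟩
    · exact ⟨fun _ => 0, fun h => absurd h hd⟩
  choose ψ hψ using hψ
  -- the local structure near a point of the fibre
  have loc : ∀ d ∈ Icc a b, ∀ᶠ z in 𝓝 (y₀, d), F z = 0 → ¬ f =ᶠ[𝓝 z] 0 →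
      d ∈ T₀ ∧ ψ d z.1 = z.2 := by
    intro d hd
    by_cases h : d ∈ T₀
    · exact (hψ d h).2.2.1.mono fun z hz h1 _ => ⟨h, hz h1⟩
    · by_cases h1 : F (y₀, d) = 0
      · have h2 : f =ᶠ[𝓝 (y₀, d)] 0 := by
          by_contra h2
          exact h ⟨h1, h2⟩
        exact h2.eventuallyEq_nhds.mono fun z hz _ h3 => absurd hz h3
      · exact ((hF d hd).continuousAt.eventually_ne h1).mono fun z hz h3 _ => absurd h3 hz
  have hfin : T₀.Finite := by
    have loc' : ∀ d ∈ Icc a b, {e | e ∈ T₀ → e = d} ∈ 𝓝 d := by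
      intro d hd
      have c : ContinuousAt (fun e : ℝ => (y₀, e)) d := by fun_prop
      refine (c.eventually (loc d hd)).mono fun e he h => ?_
      obtain ⟨h1, h2⟩ := he h.1 h.2
      simp only at h2
      rw [← h2, (hψ d h1).1]
    obtain ⟨t, -, ht⟩ := isCompact_Icc.elim_nhds_subcover (fun d => {e | e ∈ T₀ → e = d}) loc'
    refine t.finite_toSet.subset fun e he => ?_
    obtain ⟨d, hd, h⟩ := mem_iUnion₂.1 (ht (hT₁ e he).1)
    rw [show e = d from h he]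
    exact hd
  set T := hfin.toFinset with hT
  have mT : ∀ d, d ∈ T ↔ d ∈ T₀ := fun d => hfin.mem_toFinset
  have t1 : ∀ᶠ y in 𝓝 y₀, ∀ e ∈ Icc a b, F (y, e) = 0 → f (y, e) ≠ 0 → ∃ d ∈ T, ψ d y = e := by
    refine isCompact_Icc.eventually_forall_of_forall_eventually
      (P := fun y e => F (y, e) = 0 → f (y, e) ≠ 0 → ∃ d ∈ T, ψ d y = e) fun d hd => ?_
    refine (loc d hd).mono fun z hz h1 h2 => ?_
    obtain ⟨h3, h4⟩ := hz h1 fun h => h2 h.eq_of_nhds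
    exact ⟨d, (mT d).2 h3, h4⟩
  have t2 : ∀ᶠ y in 𝓝 y₀, ∀ d ∈ T, F (y, ψ d y) = 0 :=
    (eventually_all_finset T).2 fun d hd => (hψ d ((mT d).1 hd)).2.2.2.1
  have t3 : ∀ᶠ y in 𝓝 y₀, ∀ d ∈ T, ∀ e ∈ T, d ≠ e → ψ d y ≠ ψ e y := by
    refine (eventually_all_finset T).2 fun d hd => (eventually_all_finset T).2 fun e he => ?_
    by_cases h : d = e
    · exact Eventually.of_forall fun y h' => absurd h h'
    · have h1 := hψ d ((mT d).1 hd)
      have h2 := hψ e ((mT e).1 he)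
      have c : ContinuousAt (fun y => ψ d y - ψ e y) y₀ :=
        h1.2.1.continuousAt.sub h2.2.1.continuousAt
      have : ψ d y₀ - ψ e y₀ ≠ 0 := by rw [h1.1, h2.1]; exact sub_ne_zero.2 h
      exact (c.eventually_ne this).mono fun y hy _ => sub_ne_zero.1 hy
  have key : (fun y => ∑ᶠ (d : ℝ) (_ : F (y, d) = 0), f (y, d)) =ᶠ[𝓝 y₀]
      fun y => ∑ d ∈ T, f (y, ψ d y) := by
    filter_upwards [hout, t1, t2, t3] with y h0 h1 h2 h3
    rw [finsum_cond_eq_sum_of_cond_iff (fun e => f (y, e)) (t := T.image fun d => ψ d y),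
      Finset.sum_image]
    · intro d hd e he h
      by_contra hne
      exact h3 d hd e he hne h
    · intro e he
      constructor
      · intro h
        have : e ∈ Icc a b := by
          by_contra h'
          exact he (h0 e h h')
        obtain ⟨d, hd, hde⟩ := h1 e this h he
        exact Finset.mem_image.2 ⟨d, hd, hde⟩
      · intro h
        obtain ⟨d, hd, rfl⟩ := Finset.mem_image.1 h
        exact h2 d hd
  have hk : ((k : ℕ) : ℕ∞ω) ≤ ∞ := by exact_mod_cast le_top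
  have cg : ∀ d ∈ T, ContDiffAt ℝ k (fun y => (y, ψ d y)) y₀ := fun d hd =>
    contDiffAt_id.prodMk ((hψ d ((mT d).1 hd)).2.1.of_le hk)
  have cf : ∀ d ∈ T, ContDiffAt ℝ k f (y₀, ψ d y₀) := fun d hd => by
    rw [(hψ d ((mT d).1 hd)).1]; exact (hT₁ d ((mT d).1 hd)).2.2
  refine ⟨(ContDiffAt.sum fun d hd => (cf d hd).comp y₀ (cg d hd)).congr_of_eventuallyEq key,
    fun h1 v => ?_⟩
  have hk0 : ((k : ℕ) : ℕ∞ω) ≠ 0 := by
    have : k ≠ 0 := by omega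
    exact_mod_cast this
  have hd : HasFDerivAt (fun y => ∑ d ∈ T, f (y, ψ d y))
      (∑ d ∈ T, fderiv ℝ f (y₀, d) ∘L (ContinuousLinearMap.id ℝ Y).prod (fderiv ℝ (ψ d) y₀))
      y₀ := by
    refine HasFDerivAt.fun_sum fun d hd => ?_
    have h := hψ d ((mT d).1 hd)
    have d1 : HasFDerivAt (ψ d) (fderiv ℝ (ψ d) y₀) y₀ :=
      (h.2.1.differentiableAt (by simp)).hasFDerivAt
    have d3 : HasFDerivAt f (fderiv ℝ f (y₀, d)) (y₀, ψ d y₀) := by
      have := ((cf d hd).differentiableAt hk0).hasFDerivAt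
      rw [h.1] at this ⊢
      exact this
    exact d3.comp y₀ ((hasFDerivAt_id y₀).prodMk d1)
  rw [key.fderiv_eq, hd.fderiv, finsum_cond_eq_sum_of_cond_iff _ (t := T)]
  · rw [ContinuousLinearMap.sum_apply]
    refine Finset.sum_congr rfl fun d hd => ?_
    simp only [ContinuousLinearMap.comp_apply, ContinuousLinearMap.prod_apply,
      ContinuousLinearMap.id_apply]
    rw [(hψ d ((mT d).1 hd)).2.2.2.2 v]
  · intro d hd
    rw [mT]
    refine ⟨fun h => ⟨h, fun h' => hd ?_⟩, fun h => h.1⟩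
    rw [h'.fderiv_eq]
    simp

end Vale.Agent.P218M1
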