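import Vale.Agent.P218M1.Alg

/-!
# P218M1: the sum over the hits between the two points
-/

open MeasureTheory Metric Filter Topology Set
open scoped ContDiff RealInnerProductSpace ENNReal

noncomputable section

namespace Vale.Agent.P218M1

namespace Nsc

theorem ct_one {s : ℝ} (h : s ≤ 1) : ct s = 1 :=
  Real.smoothTransition.one_of_one_le (by linarith)

theorem ct_zero {s : ℝ} (h : 2 ≤ s) : ct s = 0 :=
  Real.smoothTransition.zero_of_nonpos (by linarith)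

theorem ct_sm : ContDiff ℝ ∞ ct :=
  Real.smoothTransition.contDiff.comp (contDiff_const.sub contDiff_id)

theorem xi_sm (π : Par) : ContDiff ℝ ∞ π.xi :=
  contDiff_const.sub (ct_sm.comp ((contDiff_const.mul contDiff_id).div_const _))

theorem xi_zero {π : Par} (hρ : 0 < π.ρ) {d : ℝ} (h : d ≤ π.ρ / 2) : π.xi d = 0 := by
  rw [Par.xi, ct_one (by rw [div_le_one hρ]; linarith), sub_self]

theorem xi_one {π : Par} (hρ : 0 < π.ρ) {d : ℝ} (h : π.ρ ≤ d) : π.xi d = 1 := by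
  rw [Par.xi, ct_zero (by rw [le_div_iff₀ hρ]; linarith), sub_zero]

/-- the configuration with the new distance -/
def pr : (Q × ℝ) →L[ℝ] Q :=
  (ContinuousLinearMap.fst ℝ E (E × ℝ) ∘L ContinuousLinearMap.fst ℝ Q ℝ).prod
    ((ContinuousLinearMap.fst ℝ E ℝ ∘L ContinuousLinearMap.snd ℝ E (E × ℝ) ∘L
      ContinuousLinearMap.fst ℝ Q ℝ).prod (ContinuousLinearMap.snd ℝ Q ℝ))

theorem pr_apply (q : Q × ℝ) : pr q = (q.1.1, q.1.2.1, q.2) := rfl

theorem yy_sm : ContDiff ℝ ∞ yy := by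
  unfold yy
  fun_prop

theorem yy_fd (z v : Q) : fderiv ℝ yy z v = v.1 + z.2.2 • v.2.1 + v.2.2 • z.2.1 := by
  have h1 : HasFDerivAt (fun z : Q => z.1) (ContinuousLinearMap.fst ℝ E (E × ℝ)) z :=
    hasFDerivAt_fst
  have h2 : HasFDerivAt (fun z : Q => z.2.1)
      (ContinuousLinearMap.fst ℝ E ℝ ∘L ContinuousLinearMap.snd ℝ E (E × ℝ)) z :=
    (ContinuousLinearMap.fst ℝ E ℝ ∘L ContinuousLinearMap.snd ℝ E (E × ℝ)).hasFDerivAt
  have h3 : HasFDerivAt (fun z : Q => z.2.2)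
      (ContinuousLinearMap.snd ℝ E ℝ ∘L ContinuousLinearMap.snd ℝ E (E × ℝ)) z :=
    (ContinuousLinearMap.snd ℝ E ℝ ∘L ContinuousLinearMap.snd ℝ E (E × ℝ)).hasFDerivAt
  have h : HasFDerivAt yy _ z := h1.add (h3.smul h2)
  rw [h.fderiv]
  simp [add_assoc]

variable {S : Sf} {π : Par}

/-- the defining function along the ray -/
def FF (S : Sf) (q : Q × ℝ) : ℝ := S.w (yy (pr q))

/-- the summand -/
def ff (π : Par) (f : Q → ℝ) (q : Q × ℝ) : ℝ := f (pr q) * (π.xi q.2 * π.xi (q.1.2.2 - q.2))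

theorem NS_eq (f : Q → ℝ) :
    S.NS π f = fun z => ∑ᶠ (l : ℝ) (_ : FF S (z, l) = 0), ff π f (z, l) := rfl

theorem FF_sm (hS : S.Ok) : ContDiff ℝ ∞ (FF S) := hS.sm.comp (yy_sm.comp pr.contDiff)

theorem FF_fd (hS : S.Ok) (q v : Q × ℝ) : fderiv ℝ (FF S) q v =
    ⟪S.g (yy (pr q)), v.1.1 + q.2 • v.1.2.1 + v.2 • q.1.2.1⟫ := by
  have h1 := (yy_sm.differentiable (by simp) (pr q)).hasFDerivAt
  have h : HasFDerivAt (FF S) _ q := (hS.hw _).comp q (h1.comp q pr.hasFDerivAt)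
  rw [h.fderiv]
  simp only [ContinuousLinearMap.comp_apply, innerSL_apply_apply, yy_fd]
  rfl

theorem cs2_cont (hS : S.Ok) {z : Q} (hz : S.g (yy z) ≠ 0) : ContinuousAt S.cs2 z := by
  have h1 : ContinuousAt (fun z => S.g (yy z)) z :=
    (hS.sg.continuous.comp yy_sm.continuous).continuousAt
  have h2 : ContinuousAt (fun z => S.n (yy z)) z :=
    (h1.norm.inv₀ (norm_ne_zero_iff.2 hz)).smul h1
  exact (h2.inner (by fun_prop)).pow 2

theorem van_near (hS : S.Ok) {k : ℕ} {f : Q → ℝ} (hf : S.Cn π k f) {z : Q} (hz : S.g (yy z) ≠ 0)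
    (hc : S.cs2 z < π.η ^ 2 / 2) : f =ᶠ[𝓝 z] 0 := by
  have h1 : ContinuousAt (fun z => S.g (yy z)) z :=
    (hS.sg.continuous.comp yy_sm.continuous).continuousAt
  filter_upwards [h1.eventually_ne hz, (cs2_cont hS hz).eventually_lt continuousAt_const hc]
    with z' h2 h3
  exact hf.van z' h2 h3

theorem ff_van1 (hS : S.Ok) {k : ℕ} {f : Q → ℝ} (hf : S.Cn π k f) {q : Q × ℝ}
    (hz : S.g (yy (pr q)) ≠ 0) (hc : S.cs2 (pr q) < π.η ^ 2 / 2) : ff π f =ᶠ[𝓝 q] 0 := by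
  filter_upwards [pr.continuous.continuousAt.tendsto.eventually (van_near hS hf hz hc)] with q' h
  rw [ff, h]; simp

theorem ff_van2 (hρ : 0 < π.ρ) (f : Q → ℝ) {q : Q × ℝ} (h : q.2 < π.ρ / 2) :
    ff π f =ᶠ[𝓝 q] 0 := by
  filter_upwards [continuous_snd.continuousAt.eventually_lt continuousAt_const h] with q' h'
  rw [ff, xi_zero hρ h'.le]; simp

theorem ff_van3 (hρ : 0 < π.ρ) (f : Q → ℝ) {q : Q × ℝ} (h : q.1.2.2 - q.2 < π.ρ / 2) :
    ff π f =ᶠ[𝓝 q] 0 := by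
  have hc : ContinuousAt (fun q : Q × ℝ => q.1.2.2 - q.2) q := by fun_prop
  filter_upwards [hc.eventually_lt continuousAt_const h] with q' h'
  rw [ff, xi_zero hρ h'.le]; simp

/-- the sum over transversal zeros, applied to `NS` -/
theorem key (fs : FS) (hS : S.Ok) (hπ : π.Rg) {k : ℕ} {f : Q → ℝ} (hf : S.Cn π k f) {z : Q}
    (hz : S.s z.1 z.2.1 ≠ 0) : ContDiffAt ℝ k (S.NS π f) z ∧ (1 ≤ k → ∀ v, fderiv ℝ (S.NS π f) z v =
      ∑ᶠ (l : ℝ) (_ : FF S (z, l) = 0), fderiv ℝ (ff π f) (z, l)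
        (v, -(fderiv ℝ (FF S) (z, l) (v, 0) / fderiv ℝ (FF S) (z, l) (0, 1)))) := by
  have hρ := hπ.ρ0
  have hη : 0 < π.η ^ 2 / 2 := by have := hπ.η0; positivity
  rw [NS_eq]
  refine fs Q ℝ (FF S) (ff π f) z (π.ρ / 2) (z.2.2 + 1) k (fun _ _ => (FF_sm hS).contDiffAt) ?_ ?_
  · have hc : ContinuousAt (fun z : Q => z.2.2) z := by fun_prop
    filter_upwards [hc.eventually_lt continuousAt_const (lt_add_one z.2.2)] with z' h' l _ hl
    rw [mem_Icc, not_and_or, not_le, not_le] at hl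
    rcases hl with hl | hl
    · exact (ff_van2 hρ f (q := (z', l)) hl).self_of_nhds
    · exact (ff_van3 hρ f (q := (z', l)) (by dsimp only; linarith)).self_of_nhds
  · intro l hl
    have hg := hS.reg _ hl
    rcases lt_or_ge l (π.ρ / 2) with h1 | h1
    · exact Or.inr (ff_van2 hρ f h1)
    rcases lt_or_ge (z.2.2 + 1) l with h2 | h2
    · exact Or.inr (ff_van3 hρ f (by dsimp only; linarith))
    rcases lt_or_ge (S.cs2 (pr (z, l))) (π.η ^ 2 / 2) with h3 | h3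
    · exact Or.inr (ff_van1 hS hf hg h3)
    have hs : S.s (yy (pr (z, l))) z.2.1 ≠ 0 := Sf.s_ne_of_sq hη h3
    refine Or.inl ⟨⟨h1, h2⟩, ?_, ?_⟩
    · rw [FF_fd hS]
      simpa [Sf.s] using hs
    · have hO : pr (z, l) ∈ S.O := ⟨hz, hs, by change 0 < l; linarith⟩
      have hx : ContDiff ℝ k π.xi := (xi_sm π).of_le (cast_le_inf k)
      exact ((hf.sm _ hO).comp (z, l) pr.contDiff.contDiffAt).mul
        ((hx.comp contDiff_snd).mul (hx.comp (by fun_prop))).contDiffAt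

/-- the derivative of `NS` at a hit in the box, in an arbitrary direction -/
theorem fd (fs : FS) {Λ : ℝ} (hG : Good S π Λ) {f : Q → ℝ} (hf : S.Cn π 1 f) {z : Q}
    (hz : S.Hit z) (hb : S.Box π z) (v : Q) : fderiv ℝ (S.NS π f) z v =
      S.NS π (fun z' => fderiv ℝ f z' (v.1, v.2.1, -⟪S.p2 z', v.1 + z'.2.2 • v.2.1⟫)) z := by
  have hS := hG.ok
  have hρ := hG.rg.ρ0
  have hη : 0 < π.η ^ 2 / 2 := by have := hG.rg.η0; positivity
  have hη1 : π.η ^ 2 / 2 ≤ 1 / 2 := by nlinarith [hG.rg.η0, hG.rg.η1]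
  have hs1 : S.s z.1 z.2.1 ≠ 0 := Sf.s_ne_of_sq (by norm_num) hb.2.2.2.1
  rw [(key fs hS hG.rg hf hs1).2 (by simp) v, NS_eq]
  refine finsum_congr fun l => finsum_congr fun hl => ?_
  have hg := hS.reg _ hl
  rcases lt_or_ge (S.cs2 (pr (z, l))) (π.η ^ 2 / 2) with h3 | h3
  · rw [(ff_van1 hS hf hg h3).fderiv_eq, ff, (van_near hS hf hg h3).fderiv_eq]
    simp
  rcases le_or_gt l 0 with h1 | h1
  · rw [(ff_van2 hρ f (q := (z, l)) (by dsimp only; linarith)).fderiv_eq, ff,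
      xi_zero hρ (d := l) (by linarith)]
    simp
  rcases le_or_gt z.2.2 l with h2 | h2
  · rw [(ff_van3 hρ f (q := (z, l)) (by dsimp only; linarith)).fderiv_eq, ff,
      xi_zero hρ (d := z.2.2 - l) (by linarith)]
    simp
  have hs : S.s (yy (pr (z, l))) z.2.1 ≠ 0 := Sf.s_ne_of_sq hη h3
  have hO : pr (z, l) ∈ S.O := ⟨hs1, hs, h1⟩
  have a1 : 2 * π.ρ ≤ l := hG.sp.sep (pr (z, l)) ⟨hz.1, hz.2.1, h1, hl⟩
    (by have := hb.1; change ‖z.1‖ ≤ _; linarith) (hη1.trans hb.2.2.2.1) h3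
  have e1 : yy (yy (pr (z, l)), z.2.1, z.2.2 - l) = yy z := by
    simp only [yy, pr_apply, sub_smul]; abel
  have a2 : 2 * π.ρ ≤ z.2.2 - l := by
    refine hG.sp.sep (yy (pr (z, l)), z.2.1, z.2.2 - l)
      ⟨hl, hz.2.1, sub_pos.2 h2, by rw [e1]; exact hz.2.2.2⟩ ?_ h3 ?_
    · have := norm_add_le z.1 (l • z.2.1)
      rw [norm_smul, hz.2.1, Real.norm_eq_abs, abs_of_pos h1] at this
      have := hb.1
      have := hb.2.2.1
      change ‖z.1 + l • z.2.1‖ ≤ _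
      linarith
    · rw [Sf.cs2, e1]; exact hb.2.2.2.2
  have he : ff π f =ᶠ[𝓝 (z, l)] fun q => f (pr q) := by
    have hc : ContinuousAt (fun q : Q × ℝ => q.1.2.2 - q.2) (z, l) := by fun_prop
    filter_upwards [continuousAt_const.eventually_lt hc (show π.ρ < z.2.2 - l by linarith),
      continuousAt_const.eventually_lt (continuous_snd.continuousAt (x := (z, l)))
        (show π.ρ < l by linarith)] with q h h'
    rw [ff, xi_one hρ h.le, xi_one hρ h'.le, mul_one, mul_one]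
  have hd : HasFDerivAt (fun q => f (pr q)) _ (z, l) :=
    ((hf.sm _ hO).differentiableAt (by simp)).hasFDerivAt.comp (z, l) pr.hasFDerivAt
  rw [he.fderiv_eq, hd.fderiv, ff, xi_one hρ (d := l) (by linarith),
    xi_one hρ (d := z.2.2 - l) (by linarith), mul_one, mul_one, FF_fd hS, FF_fd hS,
    ContinuousLinearMap.comp_apply]
  congr 1
  rw [pr_apply (v, _)]
  congr 3
  rw [Sf.p2, Sf.p_inner]
  simp only [Prod.fst_zero, Prod.snd_zero, smul_zero, zero_smul, add_zero, zero_add, one_smul]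
  rw [div_eq_inv_mul]
  rfl

theorem NS_congr {f g : Q → ℝ} {z : Q}
    (h : ∀ l, π.xi l ≠ 0 → S.w (z.1 + l • z.2.1) = 0 → f (z.1, z.2.1, l) = g (z.1, z.2.1, l)) :
    S.NS π f z = S.NS π g z := by
  refine finsum_congr fun l => finsum_congr fun hl => ?_
  by_cases h0 : π.xi l = 0
  · simp [h0]
  · simp only [h l h0 hl]

end Nsc

open Nsc in
/-- **NSC** -/
theorem nsc (fs : FS) : NSC where
  sm S π k f hS hπ hf z hz := (key fs hS hπ hf hz.1).1
  dD S π Λ f z e hG hf hz hb := by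
    have hS := hG.ok
    rw [Sf.D, fd fs hG hf hz hb]
    refine NS_congr fun l _ hl => ?_
    have hg : S.g (yy (z.1, z.2.1, l)) ≠ 0 := hS.reg _ hl
    rcases lt_or_ge (S.cs2 (z.1, z.2.1, l)) (π.η ^ 2 / 2) with h3 | h3
    · rw [Sf.D, (van_near hS hf hg h3).fderiv_eq]; simp
    have hη : 0 < π.η ^ 2 / 2 := by have := hG.rg.η0; positivity
    have hs : S.s (yy (z.1, z.2.1, l)) z.2.1 ≠ 0 := Sf.s_ne_of_sq hη h3
    rw [Sf.D]
    congr 1
    simp only [Sf.VD, smul_zero, add_zero, Prod.mk.injEq, true_and]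
    rw [Sf.Pi_apply, inner_sub_right, real_inner_smul_right, Sf.Pv, inner_sub_left, Sf.p2,
      Sf.p_θ hs]
    simp [Sf.p1]
  dR S π Λ f z τ ν hG hf hz hb := by
    rw [Sf.R, fd fs hG hf hz hb]
    refine NS_congr fun l _ _ => ?_
    rw [Sf.R]
    congr 1
    simp only [Sf.VR, zero_add, real_inner_smul_right]

end Vale.Agent.P218M1
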