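import Vale.Agent.P218M1.Cut
import Vale.Agent.P218M1.Fs
import Vale.Agent.P218M1.Ca
import Vale.Agent.P218M1.Nsc
import Vale.Agent.P218M1.LinA

/-!
# P218M1: smoothness of the ingredients, the classes `Cl` and `Cn`, finite sums

Use `fun_prop (disch := first | assumption | omega)` for `ContDiffAt ℝ k f z` with
`hS : S.Ok`, `hπ : π.Rg`, `hz : z ∈ S.O` in the context.
-/

open MeasureTheory Metric Filter Topology Set
open scoped ContDiff RealInnerProductSpace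

noncomputable section

namespace Vale.Agent.P218M1

theorem ca' : CA := ca fs
theorem nsc' : NSC := nsc fs

@[fun_prop] theorem yy_cd {k : ℕ} : ContDiff ℝ k yy := Nsc.yy_sm.of_le (cast_le_inf k)

@[fun_prop] theorem trc_cd {k : ℕ} : ContDiff ℝ k trc := by
  unfold trc
  refine ContDiff.sum fun i _ => ?_
  exact ((EuclideanSpace.proj i : E →L[ℝ] ℝ) ∘L (ContinuousLinearMap.apply ℝ E (ee i))).contDiff

@[fun_prop] theorem hs_cd {k : ℕ} : ContDiff ℝ k hs := by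
  unfold hs
  refine ContDiff.sum fun i _ => ?_
  exact (contDiff_norm_sq ℝ).comp (ContinuousLinearMap.apply ℝ E (ee i)).contDiff

section gen

variable {Y : Type} [NormedAddCommGroup Y] [NormedSpace ℝ Y] {k : ℕ} {y : Y}

@[fun_prop] theorem cd_ro {a b : Y → E} (ha : ContDiffAt ℝ k a y) (hb : ContDiffAt ℝ k b y) :
    ContDiffAt ℝ k (fun y => ro (a y) (b y)) y :=
  ((innerSL ℝ (E := E)).contDiff.contDiffAt.comp y ha).smulRight hb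

@[fun_prop] theorem cd_rot {a b c : Y → E} (ha : ContDiffAt ℝ k a y) (hb : ContDiffAt ℝ k b y)
    (hc : ContDiffAt ℝ k c y) : ContDiffAt ℝ k (fun y => rot (a y) (b y) (c y)) y :=
  ((hc.inner ℝ ha).smul hb).sub ((hc.inner ℝ hb).smul ha)

@[fun_prop] theorem cd_inner {a b : Y → E} (ha : ContDiffAt ℝ k a y) (hb : ContDiffAt ℝ k b y) :
    ContDiffAt ℝ k (fun y => ⟪a y, b y⟫) y := ha.inner ℝ hb

@[fun_prop] theorem cd_nsq {a : Y → E} (ha : ContDiffAt ℝ k a y) :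
    ContDiffAt ℝ k (fun y => ‖a y‖ ^ 2) y := ha.norm_sq ℝ

@[fun_prop] theorem cd_coord {a : Y → E} (ha : ContDiffAt ℝ k a y) (i : Fin 3) :
    ContDiffAt ℝ k (fun y => a y i) y :=
  (EuclideanSpace.proj i : E →L[ℝ] ℝ).contDiff.contDiffAt.comp y ha

theorem cd_abs0 {a : Y → ℝ} (ha : ContDiffAt ℝ (0 : ℕ) a y) :
    ContDiffAt ℝ (0 : ℕ) (fun y => |a y|) y :=
  (contDiff_zero.2 continuous_abs).contDiffAt.comp y ha

theorem cd_norm0 {V : Type} [NormedAddCommGroup V] [NormedSpace ℝ V] {a : Y → V}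
    (ha : ContDiffAt ℝ (0 : ℕ) a y) : ContDiffAt ℝ (0 : ℕ) (fun y => ‖a y‖) y :=
  (contDiff_zero.2 continuous_norm).contDiffAt.comp y ha

theorem cd_cont0 {a : Y → ℝ} {f : ℝ → ℝ} (hf : Continuous f) (ha : ContDiffAt ℝ (0 : ℕ) a y) :
    ContDiffAt ℝ (0 : ℕ) (fun y => f (a y)) y := (contDiff_zero.2 hf).contDiffAt.comp y ha

theorem cd_sm {V : Type} [NormedAddCommGroup V] [NormedSpace ℝ V] {a : Y → V} {f : V → ℝ}
    (hf : ContDiff ℝ ∞ f) (ha : ContDiffAt ℝ k a y) : ContDiffAt ℝ k (fun y => f (a y)) y :=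
  (hf.of_le (cast_le_inf k)).contDiffAt.comp y ha

end gen

theorem sm_cd {V W : Type} [NormedAddCommGroup V] [NormedSpace ℝ V] [NormedAddCommGroup W]
    [NormedSpace ℝ W] {f : V → W} (hf : ContDiff ℝ ∞ f) (k : ℕ) : ContDiff ℝ k f :=
  hf.of_le (cast_le_inf k)

theorem dsm_cd {f : ℝ → ℝ} (hf : ContDiff ℝ ∞ f) (k : ℕ) : ContDiff ℝ k (deriv f) :=
  sm_cd (deriv_smooth hf) k

namespace Par
variable {π : Par} {k : ℕ}
@[fun_prop] theorem dB0_cd : ContDiff ℝ k (deriv π.B0) := dsm_cd π.B0_smooth k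
@[fun_prop] theorem dB1_cd : ContDiff ℝ k (deriv π.B1) := dsm_cd π.B1_smooth k
@[fun_prop] theorem dBt_cd : ContDiff ℝ k (deriv π.Bt) := dsm_cd π.Bt_smooth k
@[fun_prop] theorem dK0_cd : ContDiff ℝ k (deriv K0) := dsm_cd K0_smooth k
@[fun_prop] theorem dsg0_cd : ContDiff ℝ k (deriv π.sg0) := dsm_cd π.sg0_smooth k
@[fun_prop] theorem dB02_cd : ContDiff ℝ k (deriv fun c => π.B0 c ^ 2) :=
  dsm_cd (π.B0_smooth.pow 2) k
@[fun_prop] theorem dsg02_cd : ContDiff ℝ k (deriv fun c => π.sg0 c ^ 2) :=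
  dsm_cd (π.sg0_smooth.pow 2) k
@[fun_prop] theorem dW_cd : ContDiff ℝ k (fderiv ℝ π.W) :=
  sm_cd (π.W_smooth.fderiv_right (m := ∞) (by simp)) k
theorem deriv_B02 (π : Par) (c : ℝ) :
    deriv (fun c => π.B0 c ^ 2) c = 2 * π.B0 c * deriv π.B0 c := by
  simpa using ((π.B0_smooth.differentiable (by simp) c).hasDerivAt.fun_pow 2).deriv
theorem deriv_sg02 (π : Par) (c : ℝ) :
    deriv (fun c => π.sg0 c ^ 2) c = 2 * π.sg0 c * deriv π.sg0 c := by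
  simpa using ((π.sg0_smooth.differentiable (by simp) c).hasDerivAt.fun_pow 2).deriv
end Par

namespace Sf

variable {S : Sf} {π : Par} {k : ℕ} {x : E} {z : Q}

/-! ### smoothness at the regular points -/

@[fun_prop] theorem Ok.w_cd (hS : S.Ok) : ContDiff ℝ k S.w := sm_cd hS.sm k
@[fun_prop] theorem Ok.g_cd (hS : S.Ok) : ContDiff ℝ k S.g := sm_cd hS.sg k
@[fun_prop] theorem Ok.D2_cd (hS : S.Ok) : ContDiff ℝ k S.D2 := sm_cd hS.sD2 k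

theorem Ok.ig_cd (hS : S.Ok) (hx : S.g x ≠ 0) : ContDiffAt ℝ k (fun x => ‖S.g x‖⁻¹) x :=
  (hS.g_cd.contDiffAt.norm ℝ hx).inv (norm_ne_zero_iff.2 hx)

theorem Ok.n_cd (hS : S.Ok) (hx : S.g x ≠ 0) : ContDiffAt ℝ k S.n x :=
  (hS.ig_cd hx).smul hS.g_cd.contDiffAt

theorem Ok.P_cd (hS : S.Ok) (hx : S.g x ≠ 0) : ContDiffAt ℝ k S.P x :=
  contDiffAt_const.sub (cd_ro (hS.n_cd hx) (hS.n_cd hx))

theorem Ok.A_cd (hS : S.Ok) (hx : S.g x ≠ 0) : ContDiffAt ℝ k S.A x :=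
  (hS.ig_cd hx).neg.smul ((hS.P_cd hx).clm_comp (hS.D2_cd.contDiffAt.clm_comp (hS.P_cd hx)))

theorem Ok.H_cd (hS : S.Ok) (hx : S.g x ≠ 0) : ContDiffAt ℝ k S.H x :=
  trc_cd.contDiffAt.comp x (hS.A_cd hx)

theorem Ok.A2_cd (hS : S.Ok) (hx : S.g x ≠ 0) : ContDiffAt ℝ k S.A2 x :=
  hs_cd.contDiffAt.comp x (hS.A_cd hx)

theorem Ok.φ_cd (hS : S.Ok) (hx : S.g x ≠ 0) : ContDiffAt ℝ k S.φ x :=
  (hS.H_cd hx).add ((contDiffAt_id.inner ℝ (hS.n_cd hx)).div_const 2)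

section two

variable {Y : Type} [NormedAddCommGroup Y] [NormedSpace ℝ Y] {y : Y} {a θ : Y → E}

theorem Ok.s_cd (hS : S.Ok) (ha : ContDiffAt ℝ k a y) (hθ : ContDiffAt ℝ k θ y) :
    ContDiffAt ℝ k (fun y => S.s (a y) (θ y)) y :=
  (hS.g_cd.contDiffAt.comp y ha).inner ℝ hθ

theorem Ok.cc_cd (hS : S.Ok) (ha : ContDiffAt ℝ k a y) (hθ : ContDiffAt ℝ k θ y)
    (h : S.g (a y) ≠ 0) : ContDiffAt ℝ k (fun y => S.cc (a y) (θ y)) y :=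
  ((hS.n_cd h).comp y ha).inner ℝ hθ

theorem Ok.p_cd (hS : S.Ok) (ha : ContDiffAt ℝ k a y) (hθ : ContDiffAt ℝ k θ y)
    (h : S.s (a y) (θ y) ≠ 0) : ContDiffAt ℝ k (fun y => S.p (a y) (θ y)) y :=
  ((hS.s_cd ha hθ).inv h).smul (hS.g_cd.contDiffAt.comp y ha)

theorem Ok.Pi_cd (hS : S.Ok) (ha : ContDiffAt ℝ k a y) (hθ : ContDiffAt ℝ k θ y)
    (h : S.s (a y) (θ y) ≠ 0) : ContDiffAt ℝ k (fun y => S.Pi (a y) (θ y)) y :=
  contDiffAt_const.sub (cd_ro (hS.p_cd ha hθ h) hθ)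

theorem Ok.Pt_cd (hS : S.Ok) (ha : ContDiffAt ℝ k a y) (hθ : ContDiffAt ℝ k θ y)
    (h : S.s (a y) (θ y) ≠ 0) : ContDiffAt ℝ k (fun y => S.Pt (a y) (θ y)) y :=
  contDiffAt_const.sub (cd_ro hθ (hS.p_cd ha hθ h))

theorem Ok.X_cd (hS : S.Ok) (ha : ContDiffAt ℝ k a y) (hθ : ContDiffAt ℝ k θ y)
    (h : S.s (a y) (θ y) ≠ 0) : ContDiffAt ℝ k (fun y => S.X (a y) (θ y)) y :=
  ((hS.s_cd ha hθ).inv h).neg.smul ((hS.Pt_cd ha hθ h).clm_comp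
    ((hS.D2_cd.contDiffAt.comp y ha).clm_comp (hS.Pi_cd ha hθ h)))

theorem Ok.vs_cd (hS : S.Ok) (ha : ContDiffAt ℝ k a y) (hθ : ContDiffAt ℝ k θ y)
    (h : S.s (a y) (θ y) ≠ 0) : ContDiffAt ℝ k (fun y => S.vs (a y) (θ y)) y :=
  ((hS.φ_cd (g_ne h)).comp y ha).div (hS.cc_cd ha hθ (g_ne h)) (cc_ne h)

end two

theorem cd1 : ContDiffAt ℝ k (fun z : Q => z.1) z := contDiffAt_fst
theorem cd2 : ContDiffAt ℝ k (fun z : Q => z.2.1) z := contDiffAt_snd.fst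
theorem cdy : ContDiffAt ℝ k yy z := yy_cd.contDiffAt

section onO

variable (hS : S.Ok) (hz : z ∈ S.O)
include hS hz

@[fun_prop] theorem O.n1 : ContDiffAt ℝ k (fun z : Q => S.n z.1) z := (hS.n_cd (O.g1 hz)).comp z cd1
@[fun_prop] theorem O.P1 : ContDiffAt ℝ k (fun z : Q => S.P z.1) z := (hS.P_cd (O.g1 hz)).comp z cd1
@[fun_prop] theorem O.A1 : ContDiffAt ℝ k (fun z : Q => S.A z.1) z := (hS.A_cd (O.g1 hz)).comp z cd1
@[fun_prop] theorem O.cs1 : ContDiffAt ℝ k S.cs1 z := (hS.cc_cd cd1 cd2 (O.g1 hz)).pow 2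
@[fun_prop] theorem O.cs2 : ContDiffAt ℝ k S.cs2 z := (hS.cc_cd cdy cd2 (O.g2 hz)).pow 2
@[fun_prop] theorem O.kk : ContDiffAt ℝ k S.kk z := (hS.cc_cd cd1 cd2 (O.g1 hz)).abs (cc_ne hz.1)
@[fun_prop] theorem O.p1 : ContDiffAt ℝ k S.p1 z := hS.p_cd cd1 cd2 hz.1
@[fun_prop] theorem O.p2 : ContDiffAt ℝ k S.p2 z := hS.p_cd cdy cd2 hz.2.1
@[fun_prop] theorem O.X1 : ContDiffAt ℝ k S.X1 z := hS.X_cd cd1 cd2 hz.1
@[fun_prop] theorem O.X2 : ContDiffAt ℝ k S.X2 z := hS.X_cd cdy cd2 hz.2.1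
@[fun_prop] theorem O.Pv : ContDiffAt ℝ k S.Pv z := (O.p1 hS hz).sub (O.p2 hS hz)
@[fun_prop] theorem O.Z : ContDiffAt ℝ k S.Z z := (O.X2 hS hz).sub (O.X1 hS hz)
@[fun_prop] theorem O.lv : ContDiffAt ℝ k S.lv z :=
  (O.cs1 hS hz).smul ((O.X1 hS hz).clm_apply (O.p1 hS hz))
@[fun_prop] theorem O.sq : ContDiffAt ℝ k S.sq z := (O.Pv hS hz).norm_sq ℝ
@[fun_prop] theorem O.tt : ContDiffAt ℝ k (S.tt π) z :=
  (contDiffAt_snd.snd.mul (O.kk hS hz)).div_const _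
@[fun_prop] theorem O.Uv : ContDiffAt ℝ k (S.Uv π) z :=
  ((O.kk hS hz).div_const _).smul (O.Pv hS hz)
@[fun_prop] theorem O.gt : ContDiffAt ℝ k (S.gt π) z :=
  (O.Uv hS hz).add ((O.tt hS hz).smul (O.lv hS hz))
theorem O.cc1 : ContDiffAt ℝ k (fun z : Q => S.cc z.1 z.2.1) z := hS.cc_cd cd1 cd2 (O.g1 hz)
theorem O.vs1 : ContDiffAt ℝ k (fun z : Q => S.vs z.1 z.2.1) z := hS.vs_cd cd1 cd2 hz.1
theorem O.vs2 : ContDiffAt ℝ k (fun z : Q => S.vs (yy z) z.2.1) z := hS.vs_cd cdy cd2 hz.2.1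
theorem O.A21 : ContDiffAt ℝ k (fun z : Q => S.A2 z.1) z := (hS.A2_cd (O.g1 hz)).comp z cd1
theorem O.A22 : ContDiffAt ℝ k (fun z : Q => S.A2 (yy z)) z := (hS.A2_cd (O.g2 hz)).comp z cdy
theorem O.φ1 : ContDiffAt ℝ k (fun z : Q => S.φ z.1) z := (hS.φ_cd (O.g1 hz)).comp z cd1
theorem O.φ2 : ContDiffAt ℝ k (fun z : Q => S.φ (yy z)) z := (hS.φ_cd (O.g2 hz)).comp z cdy
theorem O.P2 : ContDiffAt ℝ k (fun z : Q => S.P (yy z)) z := (hS.P_cd (O.g2 hz)).comp z cdy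
@[fun_prop] theorem O.v1 {v : E → ℝ} (hv : ContDiff ℝ ∞ v) : ContDiffAt ℝ k (S.v1 v) z :=
  (cd_sm hv cd1).neg.div (hS.s_cd cd1 cd2) hz.1
@[fun_prop] theorem O.v2 {v : E → ℝ} (hv : ContDiff ℝ ∞ v) : ContDiffAt ℝ k (S.v2 v) z :=
  (cd_sm hv cdy).neg.div (hS.s_cd cdy cd2) hz.2.1

theorem O.VD {e : Q → E} (he : ContDiffAt ℝ k e z) : ContDiffAt ℝ k (fun z => S.VD (e z) z) z :=
  ((hS.Pi_cd cd1 cd2 hz.1).clm_apply he).prodMk
    (contDiffAt_const.prodMk ((O.Pv hS hz).inner ℝ he))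

theorem O.VR {τ ν : Q → E} (hτ : ContDiffAt ℝ k τ z) (hν : ContDiffAt ℝ k ν z) :
    ContDiffAt ℝ k (fun z => S.VR (τ z) (ν z) z) z :=
  contDiffAt_const.prodMk ((cd_rot hτ hν cd2).prodMk
    (contDiffAt_snd.snd.mul ((O.p2 hS hz).inner ℝ (cd_rot hτ hν cd2))).neg)

variable {F : Type} [NormedAddCommGroup F] [NormedSpace ℝ F] {f : Q → F}

/-- the derivative along a variable direction -/
theorem O.D' (hf : ContDiffAt ℝ (k + 1 : ℕ) f z) {e : Q → E} (he : ContDiffAt ℝ k e z) :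
    ContDiffAt ℝ k (fun z => S.D (e z) f z) z :=
  (hf.fderiv_right (m := k) (by simp)).clm_apply (O.VD hS hz he)

theorem O.D (hf : ContDiffAt ℝ (k + 1 : ℕ) f z) (e : E) : ContDiffAt ℝ k (S.D e f) z :=
  O.D' hS hz hf contDiffAt_const

theorem O.R' (hf : ContDiffAt ℝ (k + 1 : ℕ) f z) {τ ν : Q → E} (hτ : ContDiffAt ℝ k τ z)
    (hν : ContDiffAt ℝ k ν z) : ContDiffAt ℝ k (fun z => S.R (τ z) (ν z) f z) z :=
  (hf.fderiv_right (m := k) (by simp)).clm_apply (O.VR hS hz hτ hν)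

theorem O.R (hf : ContDiffAt ℝ (k + 1 : ℕ) f z) (τ ν : E) : ContDiffAt ℝ k (S.R τ ν f) z :=
  O.R' hS hz hf contDiffAt_const contDiffAt_const

theorem O.DG {f : Q → ℝ} (hf : ContDiffAt ℝ (k + 1 : ℕ) f z) : ContDiffAt ℝ k (S.DG f) z :=
  ContDiffAt.sum fun i _ => (O.D hS hz hf (ee i)).smul contDiffAt_const

end onO

theorem Ok.isOpen_O (hS : S.Ok) : IsOpen S.O := by
  have hg := hS.sg.continuous
  have h1 : Continuous fun z : Q => S.s z.1 z.2.1 := (hg.comp continuous_fst).inner (by fun_prop)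
  have h2 : Continuous fun z : Q => S.s (yy z) z.2.1 := (hg.comp Ca.cont_yy).inner (by fun_prop)
  exact (isOpen_ne_fun h1 continuous_const).inter ((isOpen_ne_fun h2 continuous_const).inter
    (isOpen_lt continuous_const continuous_snd.snd))

theorem Ok.ev_O (hS : S.Ok) (hz : z ∈ S.O) : ∀ᶠ z' in 𝓝 z, z' ∈ S.O := hS.isOpen_O.mem_nhds hz

theorem Ok.ev_g (hS : S.Ok) (hx : S.g x ≠ 0) : ∀ᶠ y in 𝓝 x, S.g y ≠ 0 :=
  hS.sg.continuous.continuousAt.eventually_ne hx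

theorem Box.O (hb : S.Box π z) (hπ : π.Rg) : z ∈ S.O := Ca.box_O hπ hb

theorem Hit.g1 (h : S.Hit z) (hS : S.Ok) : S.g z.1 ≠ 0 := hS.reg _ h.1
theorem Hit.g2 (h : S.Hit z) (hS : S.Ok) : S.g (yy z) ≠ 0 := hS.reg _ h.2.2.2

theorem tt_nonneg (hπ : π.Rg) (hd : 0 ≤ z.2.2) : 0 ≤ S.tt π z :=
  div_nonneg (mul_nonneg hd (kk_nonneg S z)) hπ.ε0.le

theorem O.tt_pos (hz : z ∈ S.O) (hπ : π.Rg) : 0 < S.tt π z :=
  div_pos (mul_pos hz.2.2 (O.kk_pos hz)) hπ.ε0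

theorem half_le_kk (hc : 1 / 2 ≤ S.cs1 z) : 1 / 2 ≤ S.kk z := by
  rw [← kk_sq] at hc
  nlinarith [kk_nonneg S z]

theorem d_le_of_tt (hπ : π.Rg) (hc : 1 / 2 ≤ S.cs1 z) (ht : S.tt π z ≤ 1) : z.2.2 ≤ 2 * π.ε := by
  have h1 := half_le_kk hc
  have h2 := (div_le_one hπ.ε0).1 ht
  by_contra h
  nlinarith [hπ.ε0, not_le.1 h]

/-! ### functions on the surface -/

theorem Cg.cd {f : E → ℝ} (hf : S.Cg f) (hS : S.Ok) (hx : S.g x ≠ 0) :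
    ContDiffAt ℝ (0 : ℕ) f x := by
  rw [Nat.cast_zero, contDiffAt_zero]
  exact ⟨_, hS.ev_g hx, fun y hy => (hf y hy).1.continuousWithinAt⟩

theorem Cg.cd1 {f : E → ℝ} (hf : S.Cg f) (hS : S.Ok) (hz : z ∈ S.O) :
    ContDiffAt ℝ (0 : ℕ) (fun z : Q => f z.1) z := (hf.cd hS (O.g1 hz)).comp z Sf.cd1

theorem Cg.cd2 {f : E → ℝ} (hf : S.Cg f) (hS : S.Ok) (hz : z ∈ S.O) :
    ContDiffAt ℝ (0 : ℕ) (fun z : Q => f (yy z)) z := (hf.cd hS (O.g2 hz)).comp z cdy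

theorem Cg.const {c : ℝ} (hc : 0 ≤ c) : S.Cg fun _ => c := fun _ _ => ⟨continuousAt_const, hc⟩
theorem Cg.add {f g : E → ℝ} (hf : S.Cg f) (hg : S.Cg g) : S.Cg fun x => f x + g x :=
  fun x hx => ⟨(hf x hx).1.add (hg x hx).1, add_nonneg (hf x hx).2 (hg x hx).2⟩
theorem Cg.mul {f g : E → ℝ} (hf : S.Cg f) (hg : S.Cg g) : S.Cg fun x => f x * g x :=
  fun x hx => ⟨(hf x hx).1.mul (hg x hx).1, mul_nonneg (hf x hx).2 (hg x hx).2⟩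
theorem Cg.cmul {f : E → ℝ} (hf : S.Cg f) {c : ℝ} (hc : 0 ≤ c) : S.Cg fun x => c * f x :=
  (Cg.const hc).mul hf
theorem Cg.of_cont {f : E → ℝ} (hf : Continuous f) (h0 : ∀ x, 0 ≤ f x) : S.Cg f :=
  fun x _ => ⟨hf.continuousAt, h0 x⟩
theorem Ok.cg_A2 (hS : S.Ok) : S.Cg S.A2 :=
  fun x hx => ⟨(hS.A2_cd (k := 0) hx).continuousAt, A2_nonneg S x⟩
theorem Ok.cg_φ (hS : S.Ok) : S.Cg fun x => S.φ x ^ 2 :=
  fun _ hx => ⟨(hS.φ_cd (k := 0) hx).continuousAt.pow 2, sq_nonneg _⟩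
theorem Ok.cg_H (hS : S.Ok) : S.Cg fun x => S.H x ^ 2 :=
  fun _ hx => ⟨(hS.H_cd (k := 0) hx).continuousAt.pow 2, sq_nonneg _⟩
theorem cg_grad {η : E → ℝ} (h : ContDiff ℝ ∞ η) : S.Cg fun x => ‖gradient η x‖ ^ 2 :=
  Cg.of_cont ((contDiff_grad h).continuous.norm.pow 2) fun _ => sq_nonneg _
theorem cg_sq {η : E → ℝ} (h : Continuous η) : S.Cg fun x => η x ^ 2 :=
  Cg.of_cont (h.pow 2) fun _ => sq_nonneg _
theorem cg_one_sub {η : E → ℝ} (h : Continuous η) (h0 : ∀ x, 0 ≤ η x) (h1 : ∀ x, η x ≤ 1) :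
    S.Cg fun x => 1 - η x ^ 2 :=
  Cg.of_cont (continuous_const.sub (h.pow 2)) fun x => by nlinarith [h0 x, h1 x]

theorem Ok.closed (hS : S.Ok) : IsClosed {x | S.w x = 0} :=
  isClosed_eq hS.sm.continuous continuous_const

/-- functions which are continuous on the surface are integrable on bounded sets -/
theorem Ok.intOn (hS : S.Ok) {V : Type} [NormedAddCommGroup V] {f : E → V} {s : Set E}
    (hs : Bornology.IsBounded s) (hf : ∀ x, S.w x = 0 → ContinuousAt f x) :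
    IntegrableOn f s S.μ := by
  have := hS.fin
  have hK : IsCompact (closure s ∩ {x | S.w x = 0}) := hs.isCompact_closure.inter_right hS.closed
  have h1 : IntegrableOn f (closure s ∩ {x | S.w x = 0}) S.μ :=
    ContinuousOn.integrableOn_compact hK fun x hx => (hf x hx.2).continuousWithinAt
  refine h1.mono_set_ae ?_
  filter_upwards [hS.sup] with x hx hxs using ⟨subset_closure hxs, hx⟩

/-- functions which are continuous on the surface, with bounded support on the surface -/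
theorem Ok.intg (hS : S.Ok) {V : Type} [NormedAddCommGroup V] {f : E → V} (r : ℝ)
    (hf : ∀ x, S.w x = 0 → ContinuousAt f x) (h0 : ∀ x, S.w x = 0 → r < ‖x‖ → f x = 0) :
    Integrable f S.μ := by
  refine (hS.intOn (isBounded_closedBall (x := 0) (r := r)) hf).integrable_of_ae_notMem_eq_zero ?_
  filter_upwards [hS.sup] with x hx hn
  exact h0 x hx (not_le.1 fun h => hn (mem_closedBall_zero_iff.2 h))

theorem Cg.intOn {f : E → ℝ} (hf : S.Cg f) (hS : S.Ok) {s : Set E} (hs : Bornology.IsBounded s) :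
    IntegrableOn f s S.μ := hS.intOn hs fun x hx => (hf x (hS.reg x hx)).1

theorem Ok.ball_ne_top (hS : S.Ok) (x : E) (r : ℝ) : S.μ (ball x r) ≠ ⊤ := by
  have := hS.fin
  exact (isBounded_ball.measure_lt_top).ne

theorem AR.nonneg {Λ : ℝ} (h : S.AR Λ) : 0 ≤ Λ := by
  simpa using measureReal_nonneg.trans (h 0 1 one_pos)

theorem IB_add (hS : S.Ok) {f g : E → ℝ} (hf : S.Cg f) (hg : S.Cg g) :
    S.IB π (fun x => f x + g x) = S.IB π f + S.IB π g :=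
  integral_add (hf.intOn hS isBounded_ball) (hg.intOn hS isBounded_ball)

theorem IB_cmul (c : ℝ) (f : E → ℝ) : S.IB π (fun x => c * f x) = c * S.IB π f :=
  integral_const_mul c f

theorem IB_const (c : ℝ) : S.IB π (fun _ => c) = c * S.IB π fun _ => 1 := by
  simp [IB, mul_comm]

theorem IB_zero : S.IB π (fun _ => 0) = 0 := by simp [IB]

theorem IB_mono (hS : S.Ok) {f g : E → ℝ} (hf : S.Cg f) (hg : S.Cg g)
    (h : ∀ x, S.w x = 0 → ‖x‖ < 3 * π.R + 3 → f x ≤ g x) : S.IB π f ≤ S.IB π g := by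
  refine setIntegral_mono_on_ae (hf.intOn hS isBounded_ball) (hg.intOn hS isBounded_ball)
    measurableSet_ball ?_
  filter_upwards [hS.sup] with x hx hb using h x hx (mem_ball_zero_iff.1 hb)

theorem IB_nonneg (hS : S.Ok) {f : E → ℝ} (hf : S.Cg f) : 0 ≤ S.IB π f := by
  simpa [IB_zero] using IB_mono (π := π) hS (Cg.const le_rfl) hf fun x hx _ => (hf x (hS.reg x hx)).2

theorem AA_eq (hS : S.Ok) : S.AA π = S.IB π (fun _ => 1) + S.IB π S.A2 :=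
  IB_add hS (Cg.const zero_le_one) hS.cg_A2

theorem IB_one_le (hS : S.Ok) : S.IB π (fun _ => 1) ≤ S.AA π := by
  linarith [AA_eq (π := π) hS, IB_nonneg (π := π) hS hS.cg_A2]

theorem IB_A2_le (hS : S.Ok) : S.IB π S.A2 ≤ S.AA π := by
  linarith [AA_eq (π := π) hS, IB_nonneg (π := π) hS (Cg.const zero_le_one)]

theorem AA_nonneg (hS : S.Ok) : 0 ≤ S.AA π := IB_nonneg hS ((Cg.const zero_le_one).add hS.cg_A2)
theorem PP_nonneg (hS : S.Ok) : 0 ≤ S.PP π := IB_nonneg hS hS.cg_φ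
theorem GE_nonneg (η : E → ℝ) : 0 ≤ S.GE π η := integral_nonneg fun _ => sq_nonneg _
theorem AE_nonneg {η : E → ℝ} (h0 : ∀ x, 0 ≤ η x) (h1 : ∀ x, η x ≤ 1) : 0 ≤ S.AE π η :=
  integral_nonneg fun x => by
    have := h0 x
    have := h1 x
    simp only [Pi.zero_apply]; nlinarith

theorem IB_one_le_Λ {Λ : ℝ} (h : S.AR Λ) (hπ : π.Rg) : S.IB π (fun _ => 1) ≤ 36 * Λ * π.R ^ 2 := by
  have h1 := h 0 (3 * π.R + 3) (by linarith [hπ.R1])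
  have h2 : (3 * π.R + 3) ^ 2 ≤ 36 * π.R ^ 2 := by nlinarith [hπ.R1]
  have h3 : S.IB π (fun _ => 1) = S.μ.real (ball 0 (3 * π.R + 3)) := by simp [IB]
  nlinarith [h.nonneg]

/-! ### the classes `Cl` and `Cn` -/

variable {f g : Q → ℝ}

theorem Sm.le {F : Type} [NormedAddCommGroup F] [NormedSpace ℝ F] {f : Q → F} {j : ℕ}
    (hf : S.Sm k f) (h : j ≤ k) : S.Sm j f := fun z hz => (hf z hz).of_le (by exact_mod_cast h)

theorem Cl.le {j : ℕ} (hf : S.Cl π k f) (h : j ≤ k) : S.Cl π j f := ⟨hf.sm.le h, hf.bx⟩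

theorem Cl.ev (hf : S.Cl π k f) (hS : S.Ok) (h1 : S.g z.1 ≠ 0) (h2 : S.g (yy z) ≠ 0)
    (hb : ¬ S.Box π z) : f =ᶠ[𝓝 z] fun _ => 0 :=
  (Ca.ev_nbox hS h1 h2 hb).mono fun z' h => hf.bx z' h.1 h.2.1 h.2.2

theorem Cl.fd (hf : S.Cl π k f) (hS : S.Ok) (h1 : S.g z.1 ≠ 0) (h2 : S.g (yy z) ≠ 0)
    (hb : ¬ S.Box π z) : fderiv ℝ f z = 0 := by
  rw [(hf.ev hS h1 h2 hb).fderiv_eq]; simp

/-- `g` vanishes where `f` vanishes -/
theorem Cl.of_zero {j : ℕ} (hf : S.Cl π j f) (hg : S.Sm k g) (h : ∀ z, f z = 0 → g z = 0) :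
    S.Cl π k g := ⟨hg, fun z h1 h2 hb => h z (hf.bx z h1 h2 hb)⟩

theorem Cl.of_box (hg : S.Sm k g) (h : ∀ z, g z ≠ 0 → S.Box π z) : S.Cl π k g :=
  ⟨hg, fun z _ _ hb => by_contra fun h0 => hb (h z h0)⟩

theorem Cl.zero : S.Cl π k fun _ => 0 := ⟨fun _ _ => contDiffAt_const, fun _ _ _ _ => rfl⟩
theorem Cl.mul (hf : S.Cl π k f) (hg : S.Sm k g) : S.Cl π k fun z => f z * g z :=
  hf.of_zero (fun z hz => (hf.sm z hz).mul (hg z hz)) fun z h => by simp [h]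
theorem Cl.mul' (hf : S.Cl π k f) (hg : S.Sm k g) : S.Cl π k fun z => g z * f z :=
  hf.of_zero (fun z hz => (hg z hz).mul (hf.sm z hz)) fun z h => by simp [h]
theorem Cl.cmul (hf : S.Cl π k f) (c : ℝ) : S.Cl π k fun z => c * f z :=
  hf.mul' fun _ _ => contDiffAt_const
theorem Cl.div_const (hf : S.Cl π k f) (c : ℝ) : S.Cl π k fun z => f z / c :=
  hf.of_zero (fun z hz => (hf.sm z hz).div_const c) fun z h => by simp [h]
theorem Cl.neg (hf : S.Cl π k f) : S.Cl π k fun z => -f z :=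
  hf.of_zero (fun z hz => (hf.sm z hz).neg) fun z h => by simp [h]
theorem Cl.add (hf : S.Cl π k f) (hg : S.Cl π k g) : S.Cl π k fun z => f z + g z :=
  ⟨fun z hz => (hf.sm z hz).add (hg.sm z hz),
    fun z h1 h2 hb => by simp [hf.bx z h1 h2 hb, hg.bx z h1 h2 hb]⟩
theorem Cl.sub (hf : S.Cl π k f) (hg : S.Cl π k g) : S.Cl π k fun z => f z - g z :=
  ⟨fun z hz => (hf.sm z hz).sub (hg.sm z hz),
    fun z h1 h2 hb => by simp [hf.bx z h1 h2 hb, hg.bx z h1 h2 hb]⟩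
theorem Cl.sum {ι : Type} {f : ι → Q → ℝ} {s : Finset ι} (hf : ∀ i ∈ s, S.Cl π k (f i)) :
    S.Cl π k fun z => ∑ i ∈ s, f i z :=
  ⟨fun z hz => ContDiffAt.sum fun i hi => (hf i hi).sm z hz,
    fun z h1 h2 hb => Finset.sum_eq_zero fun i hi => (hf i hi).bx z h1 h2 hb⟩
theorem Cl.sq (hf : S.Cl π k f) : S.Cl π k fun z => f z ^ 2 :=
  hf.of_zero (fun z hz => (hf.sm z hz).pow 2) fun z h => by simp [h]
theorem Cl.abs (hf : S.Cl π 0 f) : S.Cl π 0 fun z => |f z| :=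
  hf.of_zero (fun z hz => cd_abs0 (hf.sm z hz)) fun z h => by simp [h]
theorem Cl.D' (hf : S.Cl π (k + 1) f) (hS : S.Ok) {e : Q → E} (he : S.Sm k e) :
    S.Cl π k fun z => S.D (e z) f z :=
  ⟨fun z hz => O.D' hS hz (hf.sm z hz) (he z hz), fun z h1 h2 hb => by
    simp [Sf.D, hf.fd hS h1 h2 hb]⟩
theorem Cl.D (hf : S.Cl π (k + 1) f) (hS : S.Ok) (e : E) : S.Cl π k (S.D e f) :=
  hf.D' hS fun _ _ => contDiffAt_const
theorem Cl.R' (hf : S.Cl π (k + 1) f) (hS : S.Ok) {τ ν : Q → E} (hτ : S.Sm k τ) (hν : S.Sm k ν) :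
    S.Cl π k fun z => S.R (τ z) (ν z) f z :=
  ⟨fun z hz => O.R' hS hz (hf.sm z hz) (hτ z hz) (hν z hz), fun z h1 h2 hb => by
    simp [Sf.R, hf.fd hS h1 h2 hb]⟩
theorem Cl.R (hf : S.Cl π (k + 1) f) (hS : S.Ok) (τ ν : E) : S.Cl π k (S.R τ ν f) :=
  hf.R' hS (fun _ _ => contDiffAt_const) fun _ _ => contDiffAt_const
theorem Cl.DG_zero (hf : S.Cl π k f) (hS : S.Ok) (h1 : S.g z.1 ≠ 0) (h2 : S.g (yy z) ≠ 0)
    (hb : ¬ S.Box π z) : S.DG f z = 0 := by simp [Sf.DG, Sf.D, hf.fd hS h1 h2 hb]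
theorem Cl.DG_inner (hf : S.Cl π (k + 1) f) (hS : S.Ok) {e : Q → E} (he : S.Sm k e) :
    S.Cl π k fun z => ⟪S.DG f z, e z⟫ :=
  ⟨fun z hz => (O.DG hS hz (hf.sm z hz)).inner ℝ (he z hz), fun z h1 h2 hb => by
    simp [hf.DG_zero hS h1 h2 hb]⟩
theorem Cl.DG_sq (hf : S.Cl π (k + 1) f) (hS : S.Ok) : S.Cl π k fun z => ‖S.DG f z‖ ^ 2 :=
  ⟨fun z hz => (O.DG hS hz (hf.sm z hz)).norm_sq ℝ, fun z h1 h2 hb => by
    simp [hf.DG_zero hS h1 h2 hb]⟩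

theorem Cn.le {j : ℕ} (hf : S.Cn π k f) (h : j ≤ k) : S.Cn π j f := ⟨hf.sm.le h, hf.van⟩
theorem Cn.of_zero {j : ℕ} (hf : S.Cn π j f) (hg : S.Sm k g) (h : ∀ z, f z = 0 → g z = 0) :
    S.Cn π k g := ⟨hg, fun z h1 h2 => h z (hf.van z h1 h2)⟩
theorem Cn.mul (hf : S.Cn π k f) (hg : S.Sm k g) : S.Cn π k fun z => f z * g z :=
  hf.of_zero (fun z hz => (hf.sm z hz).mul (hg z hz)) fun z h => by simp [h]
theorem Cn.mul' (hf : S.Cn π k f) (hg : S.Sm k g) : S.Cn π k fun z => g z * f z :=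
  hf.of_zero (fun z hz => (hg z hz).mul (hf.sm z hz)) fun z h => by simp [h]
theorem Cn.D (hf : S.Cn π (k + 1) f) (hS : S.Ok) (e : E) : S.Cn π k (S.D e f) :=
  ⟨fun z hz => O.D hS hz (hf.sm z hz) e, fun z h1 h2 => by
    rw [Sf.D, (Nsc.van_near hS hf h1 h2).fderiv_eq]; simp⟩
theorem Cn.R (hf : S.Cn π (k + 1) f) (hS : S.Ok) (τ ν : E) : S.Cn π k (S.R τ ν f) :=
  ⟨fun z hz => O.R hS hz (hf.sm z hz) τ ν, fun z h1 h2 => by
    rw [Sf.R, (Nsc.van_near hS hf h1 h2).fderiv_eq]; simp⟩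
/-- a smooth function of the cosine which vanishes for small cosines -/
theorem Cn.of_cs (hS : S.Ok) {h : ℝ → ℝ} (hh : ContDiff ℝ ∞ h) (h0 : ∀ c < π.η ^ 2 / 2, h c = 0) :
    S.Cn π k fun z => h (S.cs2 z) := ⟨fun _ hz => cd_sm hh (O.cs2 hS hz), fun _ _ h2 => h0 _ h2⟩
theorem Cn.cu (hS : S.Ok) (hπ : π.Rg) : S.Cn π k fun z => π.cu (S.cs2 z) :=
  Cn.of_cs hS π.cu_smooth fun _ hc => hπ.cu_zero hc.le
theorem Cn.sgb (hS : S.Ok) (hπ : π.Rg) : S.Cn π k fun z => π.sgb (S.cs2 z) :=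
  Cn.of_cs hS π.sgb_smooth fun _ hc => hπ.sgb_zero hc.le
theorem Cn.sg2 (hS : S.Ok) (hπ : π.Rg) : S.Cn π k fun z => π.sg0 (S.cs2 z) ^ 2 :=
  Cn.of_cs hS (π.sg0_smooth.pow 2) fun c hc => by
    rw [hπ.sg0_zero (by linarith [hπ.η2.1])]; simp
theorem Cn.dsg2 (hS : S.Ok) (hπ : π.Rg) :
    S.Cn π k fun z => deriv (fun c => π.sg0 c ^ 2) (S.cs2 z) :=
  Cn.of_cs hS (deriv_smooth (π.sg0_smooth.pow 2)) fun c hc => by
    rw [Par.deriv_sg02, hπ.sg0_zero (by linarith [hπ.η2.1])]; simp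
theorem Cn.sgq (hS : S.Ok) (hπ : π.Rg) : S.Cn π k fun z => π.sgb (S.cs2 z) / S.cs2 z :=
  (Cn.sgb (k := k) hS hπ).of_zero (fun z hz => ((Cn.sgb hS hπ).sm z hz).div (O.cs2 hS hz)
    (O.cs2_pos hz).ne') fun z h => by simp [h]
theorem Cn.cug (hS : S.Ok) (hπ : π.Rg) {f : E → ℝ} (hf : S.Cg f) :
    S.Cn π 0 fun z => π.cu (S.cs2 z) * f (yy z) := (Cn.cu hS hπ).mul fun _ hz => hf.cd2 hS hz
theorem Cn.NS (hf : S.Cn π k f) (hS : S.Ok) (hπ : π.Rg) : S.Sm k (S.NS π f) :=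
  nsc'.sm S π k f hS hπ hf

section onO2

variable (hS : S.Ok) (hπ : π.Rg) (hz : z ∈ S.O)
include hS hπ hz

@[fun_prop] theorem O.N : ContDiffAt ℝ k (S.N π) z := (Cn.sg2 hS hπ).NS hS hπ z hz
@[fun_prop] theorem O.o0 : ContDiffAt ℝ k (S.o0 π) z := by
  unfold Sf.o0; fun_prop (disch := first | assumption | omega)
@[fun_prop] theorem O.Wt : ContDiffAt ℝ k (S.Wt π) z := by
  unfold Sf.Wt; fun_prop (disch := first | assumption | omega)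
@[fun_prop] theorem O.za : ContDiffAt ℝ k (S.za π) z := by
  unfold Sf.za; fun_prop (disch := first | assumption | omega)
@[fun_prop] theorem O.zg : ContDiffAt ℝ k (S.zg π) z := by
  unfold Sf.zg; fun_prop (disch := first | assumption | omega)
@[fun_prop] theorem O.ze {η : E → ℝ} {th : ℝ → ℝ} (hη : ContDiff ℝ ∞ η) (ht : ContDiff ℝ ∞ th) :
    ContDiffAt ℝ k (S.ze π η th) z :=
  (O.Wt hS hπ hz).mul (((cd_sm hη cd1).pow 2).mul ((cd_sm ht (O.sq hS hz)).pow 2))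
theorem O.ig : ContDiffAt ℝ k (S.ig π) z :=
  (((O.zg hS hπ hz).pow 2).mul (((O.sq hS hz).pow 2).div (contDiffAt_const.add (O.sq hS hz))
    (by linarith [sq_nonneg' S z]))).div (contDiffAt_snd.snd.pow 2) (pow_pos hz.2.2 2).ne'

end onO2

/-! ### supports of the weights -/

theorem o0_nonneg (S : Sf) (π : Par) (z : Q) : 0 ≤ S.o0 π z :=
  mul_nonneg (mul_nonneg (mul_nonneg (Par.B0_nonneg _) (Par.K0_nonneg _)) (ct_nonneg _))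
    (Par.xi_nonneg _)

theorem o0_le (S : Sf) (π : Par) (z : Q) : S.o0 π z ≤ 1 :=
  mul_le_one₀ (mul_le_one₀ (mul_le_one₀ (Par.B0_le _) (Par.K0_nonneg _) (Par.K0_le _))
    (ct_nonneg _) (ct_le_one _)) (Par.xi_nonneg _) (Par.xi_le _)

theorem o0_sq_le (S : Sf) (π : Par) (z : Q) : S.o0 π z ^ 2 ≤ 1 :=
  pow_le_one₀ (o0_nonneg S π z) (o0_le S π z)

theorem o0_ne (hπ : π.Rg) (h : S.o0 π z ≠ 0) :
    1 - S.cs1 z < π.α ^ 2 ∧ 1 / 4 < S.cs2 z ∧ S.N π z < 1 ∧ π.ρ / 2 < z.2.2 := by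
  simp only [o0, mul_ne_zero_iff] at h
  exact ⟨hπ.B0_ne h.1.1.1, Par.K0_ne h.1.1.2, by linarith [lt_of_ct_ne h.1.2], hπ.xi_ne h.2⟩

theorem Wt_nonneg (S : Sf) (π : Par) (z : Q) : 0 ≤ S.Wt π z :=
  mul_nonneg (Par.W_nonneg _) (sq_nonneg _)

theorem Wt_le (S : Sf) (π : Par) (z : Q) : S.Wt π z ≤ 1 :=
  mul_le_one₀ (Par.W_le _) (sq_nonneg _) (o0_sq_le S π z)

theorem Wt_ne (h : S.Wt π z ≠ 0) : π.W z.1 ≠ 0 ∧ S.o0 π z ≠ 0 :=
  ⟨left_ne_zero_of_mul h, fun h0 => h (by simp [Wt, h0])⟩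

theorem ze_nonneg (S : Sf) (π : Par) (η : E → ℝ) (th : ℝ → ℝ) (z : Q) : 0 ≤ S.ze π η th z :=
  mul_nonneg (Wt_nonneg S π z) (by positivity)

theorem ze_le_Wt {η : E → ℝ} {th : ℝ → ℝ} {d : ℝ} (h : Cut d η th) (z : Q) :
    S.ze π η th z ≤ S.Wt π z :=
  mul_le_of_le_one_right (Wt_nonneg S π z) (mul_le_one₀ (pow_le_one₀ (h.η0 _) (h.η1 _))
    (sq_nonneg _) (pow_le_one₀ (h.th0 _) (h.th1 _)))

/-- the support of the weights of proper pairs -/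
theorem sq_of_ne (hπ : π.Rg) (hx : ‖z.1‖ ^ 2 ≤ 2 * π.R ^ 2) (h : S.o0 π z ≠ 0)
    (ht : S.tt π z ≤ 1) : S.Sq π z ∧ S.Box π z := by
  obtain ⟨h1, h2, h3, h4⟩ := o0_ne hπ h
  have h5 : 1 / 2 ≤ S.cs1 z := by linarith [hπ.α2.2]
  have h6 := d_le_of_tt hπ h5 ht
  exact ⟨⟨hx, by linarith [hπ.α2.1], h2.le, h3, h6⟩, by linarith [hπ.norm_le hx, hπ.R0], h4.le,
    by linarith [hπ.ε1], h5, by linarith [hπ.η2.2]⟩

theorem sq_of_Wt (hπ : π.Rg) (h : S.Wt π z ≠ 0) (ht : S.tt π z ≤ 1) : S.Sq π z ∧ S.Box π z :=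
  sq_of_ne hπ (hπ.W_ne (Wt_ne h).1).le (Wt_ne h).2 ht

theorem Sq.sp (h : S.Sq π z) (hπ : π.Rg) : S.Sp π z :=
  ⟨hπ.norm_le h.1, by linarith [h.2.1, hπ.α2.1], by linarith [h.2.2.1, hπ.η2.2],
    by linarith [h.2.2.2.1], by linarith [h.2.2.2.2, hπ.ε1]⟩

theorem Sq.cs1 (h : S.Sq π z) (hπ : π.Rg) : 9 / 10 ≤ S.cs1 z := by linarith [h.2.1, hπ.α2.2]
theorem Sp.cs1 (h : S.Sp π z) (hπ : π.Rg) : 9 / 10 ≤ S.cs1 z := by linarith [h.2.1, hπ.α2.2]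

/-- `Wt * G(t) * g` is in the class -/
theorem Cl.of_Wt (hπ : π.Rg) (hg : S.Sm k g) (h : ∀ z, g z ≠ 0 → S.Wt π z ≠ 0 ∧ S.tt π z ≤ 1) :
    S.Cl π k g := Cl.of_box hg fun z hz => (sq_of_Wt hπ (h z hz).1 (h z hz).2).2

theorem cl_WtG (hS : S.Ok) (hπ : π.Rg) {G : ℝ → ℝ} (hG : ContDiff ℝ k G) (h0 : ∀ t, 1 ≤ t → G t = 0) :
    S.Cl π k fun z => S.Wt π z * G (S.tt π z) :=
  Cl.of_Wt hπ (fun z hz => (O.Wt hS hπ hz).mul (hG.contDiffAt.comp z (O.tt hS hz))) fun _ h =>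
    ⟨left_ne_zero_of_mul h, (not_le.1 fun h1 => right_ne_zero_of_mul h (h0 _ h1)).le⟩

theorem cl_Psi (hS : S.Ok) (hπ : π.Rg) (hk : k ≤ 3) : S.Cl π k (S.Psi π) :=
  cl_WtG hS hπ (G0_cd hk) fun _ => G0_zero

theorem za_nonneg (S : Sf) (π : Par) (z : Q) : 0 ≤ S.za π z :=
  mul_nonneg (mul_nonneg (Par.pt_nonneg _) (o0_nonneg S π z)) (ct_nonneg _)

theorem za_le (S : Sf) (π : Par) (z : Q) : S.za π z ≤ 1 :=
  mul_le_one₀ (mul_le_one₀ (Par.pt_le _) (o0_nonneg S π z) (o0_le S π z)) (ct_nonneg _)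
    (ct_le_one _)

theorem za_ne (hπ : π.Rg) (h : S.za π z ≠ 0) : ‖z.1‖ < 2 * π.R ∧ S.o0 π z ≠ 0 ∧ z.2.2 < 1 := by
  simp only [za, mul_ne_zero_iff] at h
  exact ⟨hπ.pt_ne h.1.1, h.1.2, by linarith [lt_of_ct_ne h.2]⟩

theorem sp_of_za (hπ : π.Rg) (h : S.za π z ≠ 0) : S.Sp π z ∧ S.Box π z := by
  obtain ⟨h0, h, h5⟩ := za_ne hπ h
  obtain ⟨h1, h2, h3, h4⟩ := o0_ne hπ h
  exact ⟨⟨h0.le, by linarith [hπ.α2.1], by linarith [hπ.η2.2], by linarith, h5.le⟩,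
    by linarith [hπ.R0], h4.le, by linarith, by linarith [hπ.α2.2], by linarith [hπ.η2.2]⟩

theorem cl_za (hS : S.Ok) (hπ : π.Rg) : S.Cl π k (S.za π) :=
  Cl.of_box (fun _ hz => O.za hS hπ hz) fun _ h => (sp_of_za hπ h).2

theorem zg_nonneg (S : Sf) (π : Par) (z : Q) : 0 ≤ S.zg π z :=
  mul_nonneg (mul_nonneg (mul_nonneg (mul_nonneg (mul_nonneg (Par.pt_nonneg _) (Par.Bt_nonneg _))
    (Par.sg0_nonneg _)) (ct_nonneg _)) (ct_nonneg _)) (Par.xi_nonneg _)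

theorem zg_le (S : Sf) (π : Par) (z : Q) : S.zg π z ≤ π.sg0 (S.cs2 z) := by
  have h1 : π.pt z.1 * π.Bt (S.cs1 z) ≤ 1 := mul_le_one₀ (Par.pt_le _) (Par.Bt_nonneg _) (Par.Bt_le _)
  have h2 : ct (S.N π z) * ct (2 * z.2.2) * π.xi z.2.2 ≤ 1 :=
    mul_le_one₀ (mul_le_one₀ (ct_le_one _) (ct_nonneg _) (ct_le_one _)) (Par.xi_nonneg _)
      (Par.xi_le _)
  have h3 : 0 ≤ ct (S.N π z) * ct (2 * z.2.2) * π.xi z.2.2 :=
    mul_nonneg (mul_nonneg (ct_nonneg _) (ct_nonneg _)) (Par.xi_nonneg _)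
  calc S.zg π z = π.sg0 (S.cs2 z) * (π.pt z.1 * π.Bt (S.cs1 z) *
        (ct (S.N π z) * ct (2 * z.2.2) * π.xi z.2.2)) := by unfold zg; ring
    _ ≤ _ := mul_le_of_le_one_right (Par.sg0_nonneg _) (mul_le_one₀ h1 h3 h2)

theorem zg_sq_le (S : Sf) (π : Par) (z : Q) : S.zg π z ^ 2 ≤ 256 * S.cs2 z ^ 4 := by
  have := (zg_le S π z).trans (Par.sg0_le _)
  nlinarith [zg_nonneg S π z]

theorem sp_of_zg (hπ : π.Rg) (h : S.zg π z ≠ 0) : S.Sp π z ∧ S.Box π z := by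
  simp only [zg, mul_ne_zero_iff] at h
  obtain ⟨⟨⟨⟨⟨h0, h1⟩, h2⟩, h3⟩, h4⟩, h5⟩ := h
  have := hπ.pt_ne h0
  have := hπ.Bt_ne h1
  have := hπ.sg0_ne h2
  have := lt_of_ct_ne h3
  have := lt_of_ct_ne h4
  have := hπ.xi_ne h5
  exact ⟨⟨by linarith, by linarith, by linarith, by linarith, by linarith⟩, by linarith [hπ.R0],
    by linarith, by linarith, by linarith [hπ.α2.2], by linarith [hπ.η2.1]⟩

theorem cl_zg (hS : S.Ok) (hπ : π.Rg) : S.Cl π k (S.zg π) :=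
  Cl.of_box (fun _ hz => O.zg hS hπ hz) fun _ h => (sp_of_zg hπ h).2

theorem cl_ig (hS : S.Ok) (hπ : π.Rg) : S.Cl π k (S.ig π) :=
  (cl_zg (k := k) hS hπ).of_zero (fun _ hz => O.ig hS hπ hz) fun z h => by simp [ig, h]

theorem ig_nonneg (S : Sf) (π : Par) (z : Q) : 0 ≤ S.ig π z := by
  have := sq_nonneg' S z
  unfold ig; positivity

theorem za_le_zg (hπ : π.Rg) (z : Q) : S.za π z ≤ S.zg π z := by
  by_cases h : S.za π z = 0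
  · rw [h]; exact zg_nonneg S π z
  obtain ⟨h1, h2, h3, -⟩ := o0_ne hπ (za_ne hπ h).2.1
  have h4 := hπ.one_le_sg0 h2.le
  have h5 : π.B0 (S.cs1 z) * Par.K0 (S.cs2 z) * ct (2 * S.N π z) ≤ 1 :=
    mul_le_one₀ (mul_le_one₀ (Par.B0_le _) (Par.K0_nonneg _) (Par.K0_le _)) (ct_nonneg _)
      (ct_le_one _)
  have h6 : 0 ≤ π.pt z.1 * ct (2 * z.2.2) * π.xi z.2.2 :=
    mul_nonneg (mul_nonneg (Par.pt_nonneg _) (ct_nonneg _)) (Par.xi_nonneg _)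
  rw [zg, hπ.Bt_one (by linarith [hπ.α2.1]), ct_one h3.le, za, o0]
  nlinarith [mul_le_mul_of_nonneg_left (h5.trans h4) h6]

theorem Sq.zg_eq (hπ : π.Rg) (hx : ‖z.1‖ ^ 2 ≤ 2 * π.R ^ 2) (h1 : 1 - S.cs1 z ≤ 2 * π.α ^ 2)
    (h3 : S.N π z ≤ 1) (h4 : z.2.2 ≤ 2 * π.ε) (h5 : π.ρ ≤ z.2.2) : S.zg π z = π.sg0 (S.cs2 z) := by
  rw [zg, hπ.pt_one hx, hπ.Bt_one h1, ct_one h3, ct_one (by linarith [hπ.ε1]), hπ.xi_one h5]; ring

theorem Sq.one_le_zg (h : S.Sq π z) (hπ : π.Rg) (h5 : π.ρ ≤ z.2.2) : 1 ≤ S.zg π z := by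
  rw [Sq.zg_eq hπ h.1 h.2.1 h.2.2.2.1.le h.2.2.2.2 h5]; exact hπ.one_le_sg0 h.2.2.1

theorem Sq.za_eq (h : S.Sq π z) (hπ : π.Rg) : S.za π z = S.o0 π z := by
  rw [za, hπ.pt_one h.1, ct_one (by linarith [h.2.2.2.2, hπ.ε1])]; ring

/-- a large relative tilt costs `ε²` -/
theorem Sq.ind (h : S.Sq π z) (hd : 0 < z.2.2) {δ : ℝ} (hδ : 0 < δ) (hs : δ ≤ S.sq z) :
    1 ≤ 4 * π.ε ^ 2 / δ ^ 2 * (S.sq z ^ 2 / z.2.2 ^ 2) := by
  have h1 : z.2.2 ^ 2 ≤ 4 * π.ε ^ 2 := by nlinarith [h.2.2.2.2]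
  have h2 : δ ^ 2 ≤ S.sq z ^ 2 := by gcongr
  rw [div_mul_div_comm, le_div_iff₀ (by positivity), one_mul, mul_comm (δ ^ 2)]
  gcongr

/-! ### finite sums -/

theorem Ok.fin_hits (hS : S.Ok) (x θ : E) {c : ℝ} (hc : 0 < c) (a b : ℝ) :
    {d : ℝ | S.w (x + d • θ) = 0 ∧ c ≤ S.cc (x + d • θ) θ ^ 2 ∧ a ≤ d ∧ d ≤ b}.Finite := by
  have hl : ∀ d : ℝ, HasDerivAt (fun d : ℝ => x + d • θ) θ d := fun d => by
    simpa using ((hasDerivAt_id d).smul_const θ).const_add x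
  have hc' : Continuous fun d : ℝ => x + d • θ := by fun_prop
  have h1 : ∀ d, HasDerivAt (fun d : ℝ => S.w (x + d • θ)) (S.s (x + d • θ) θ) d := fun d =>
    (hS.hw _).comp_hasDerivAt d (hl d)
  have hg := hS.sg.continuous.comp hc'
  have hK : IsCompact (Icc a b ∩ ({d : ℝ | S.w (x + d • θ) = 0} ∩
      {d | c * ‖S.g (x + d • θ)‖ ^ 2 ≤ S.s (x + d • θ) θ ^ 2})) :=
    isCompact_Icc.inter_right ((isClosed_eq (hS.sm.continuous.comp hc') continuous_const).inter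
      (isClosed_le (continuous_const.mul (hg.norm.pow 2)) ((hg.inner continuous_const).pow 2)))
  refine (Lin.fin_zero h1 hK fun d hd h0 hs => ?_).subset fun d hd => ⟨hd.1, hd.2.2, hd.1, ?_⟩
  · have h2 : c * ‖S.g (x + d • θ)‖ ^ 2 ≤ S.s (x + d • θ) θ ^ 2 := hd.2.2
    have h3 := norm_pos_iff.2 (hS.reg _ h0)
    rw [hs] at h2
    nlinarith [mul_pos hc (pow_pos h3 2)]
  · change c * ‖S.g (x + d • θ)‖ ^ 2 ≤ S.s (x + d • θ) θ ^ 2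
    rw [s_eq (hS.reg _ hd.1), mul_pow, mul_comm]
    exact mul_le_mul_of_nonneg_left hd.2.1 (sq_nonneg _)

theorem RS_eq_of {x θ : E} (T : Finset ℝ) (hT : ∀ d ∈ T, S.w (x + d • θ) = 0)
    (h0 : ∀ d, S.w (x + d • θ) = 0 → d ∉ T → f (x, θ, d) = 0) :
    S.RS f x θ = ∑ d ∈ T, f (x, θ, d) := by
  refine finsum_cond_eq_sum_of_cond_iff _ fun {d} hd => ⟨fun h => ?_, hT d⟩
  by_contra hn
  exact hd (h0 d h hn)

/-- the hits in the box -/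
theorem Ok.box_hits (hS : S.Ok) (hπ : π.Rg) (x θ : E) : ∃ T : Finset ℝ,
    (∀ d, d ∈ T ↔ S.w (x + d • θ) = 0 ∧ S.Box π (x, θ, d)) ∧
    ∀ (k : ℕ) (f : Q → ℝ), S.Cl π k f → S.g x ≠ 0 → S.RS f x θ = ∑ d ∈ T, f (x, θ, d) := by
  have h := (hS.fin_hits x θ (half_pos hπ.η2.1) (π.ρ / 2) 2).subset
    (t := {d | S.w (x + d • θ) = 0 ∧ S.Box π (x, θ, d)})
    fun d hd => ⟨hd.1, hd.2.2.2.2.2, hd.2.2.1, hd.2.2.2.1⟩
  refine ⟨h.toFinset, fun d => h.mem_toFinset, fun k f hf hx => RS_eq_of _ (fun d hd => ?_) ?_⟩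
  · exact (h.mem_toFinset.1 hd).1
  · exact fun d hd hn => hf.bx _ hx (hS.reg _ hd) fun hb => hn (h.mem_toFinset.2 ⟨hd, hb⟩)

/-- the hits which are seen by `NS` -/
theorem Ok.ns_hits (hS : S.Ok) (hπ : π.Rg) (z : Q) : ∃ T : Finset ℝ,
    (∀ l, l ∈ T ↔ S.w (z.1 + l • z.2.1) = 0 ∧ π.η ^ 2 / 2 ≤ S.cs2 (z.1, z.2.1, l) ∧ π.ρ / 2 ≤ l ∧
      l ≤ z.2.2) ∧
    ∀ f : Q → ℝ, (∀ z', S.g (yy z') ≠ 0 → S.cs2 z' < π.η ^ 2 / 2 → f z' = 0) →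
      S.NS π f z = ∑ l ∈ T, f (z.1, z.2.1, l) * (π.xi l * π.xi (z.2.2 - l)) := by
  have h := hS.fin_hits z.1 z.2.1 (half_pos hπ.η2.1) (π.ρ / 2) z.2.2
  refine ⟨h.toFinset, fun d => h.mem_toFinset, fun f hf => RS_eq_of _ (fun d hd => ?_) ?_⟩
  · exact (h.mem_toFinset.1 hd).1
  · intro d hd hn
    rcases lt_or_ge (S.cs2 (z.1, z.2.1, d)) (π.η ^ 2 / 2) with h1 | h1
    · simp [hf (z.1, z.2.1, d) (hS.reg _ hd) h1]
    rcases lt_or_ge d (π.ρ / 2) with h2 | h2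
    · simp [hπ.xi_zero h2.le]
    rcases lt_or_ge z.2.2 d with h3 | h3
    · simp [hπ.xi_zero (d := z.2.2 - d) (by linarith [hπ.ρ0])]
    exact absurd (h.mem_toFinset.2 ⟨hd, h1, h2, h3⟩) hn

theorem NS_nonneg (hS : S.Ok) (h : ∀ z', S.g (yy z') ≠ 0 → 0 ≤ f z') (z : Q) : 0 ≤ S.NS π f z :=
  finsum_nonneg fun d => finsum_nonneg fun hd =>
    mul_nonneg (h (z.1, z.2.1, d) (hS.reg _ hd)) (mul_nonneg (Par.xi_nonneg _) (Par.xi_nonneg _))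

theorem N_nonneg (S : Sf) (π : Par) (z : Q) : 0 ≤ S.N π z :=
  finsum_nonneg fun _ => finsum_nonneg fun _ =>
    mul_nonneg (sq_nonneg _) (mul_nonneg (Par.xi_nonneg _) (Par.xi_nonneg _))

theorem NS_add {j : ℕ} (hS : S.Ok) (hπ : π.Rg) (hf : S.Cn π k f) (hg : S.Cn π j g) (z : Q) :
    S.NS π (fun z' => f z' + g z') z = S.NS π f z + S.NS π g z := by
  obtain ⟨T, -, hT⟩ := hS.ns_hits hπ z
  rw [hT f hf.van, hT g hg.van, hT _ fun z' h1 h2 => by simp [hf.van z' h1 h2, hg.van z' h1 h2],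
    ← Finset.sum_add_distrib]
  simp only [add_mul]

theorem NS_cmul (hS : S.Ok) (hπ : π.Rg) (hf : S.Cn π k f) (c : ℝ) (z : Q) :
    S.NS π (fun z' => c * f z') z = c * S.NS π f z := by
  obtain ⟨T, -, hT⟩ := hS.ns_hits hπ z
  rw [hT f hf.van, hT _ fun z' h1 h2 => by simp [hf.van z' h1 h2], Finset.mul_sum]
  simp only [mul_assoc]

theorem NS_mono {j : ℕ} (hS : S.Ok) (hπ : π.Rg) (hf : S.Cn π k f) (hg : S.Cn π j g) (z : Q)
    (h : ∀ l, S.w (z.1 + l • z.2.1) = 0 → π.η ^ 2 / 2 ≤ S.cs2 (z.1, z.2.1, l) → 0 < l →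
      l ≤ z.2.2 → f (z.1, z.2.1, l) ≤ g (z.1, z.2.1, l)) : S.NS π f z ≤ S.NS π g z := by
  obtain ⟨T, hm, hT⟩ := hS.ns_hits hπ z
  rw [hT f hf.van, hT g hg.van]
  refine Finset.sum_le_sum fun l hl => mul_le_mul_of_nonneg_right ?_
    (mul_nonneg (Par.xi_nonneg _) (Par.xi_nonneg _))
  obtain ⟨h1, h2, h3, h4⟩ := (hm l).1 hl
  exact h l h1 h2 (by linarith [hπ.ρ0]) h4

theorem NS_cu_add (hS : S.Ok) (hπ : π.Rg) {f g : E → ℝ} (hf : S.Cg f) (hg : S.Cg g) (z : Q) :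
    S.NS π (fun z' => π.cu (S.cs2 z') * (f (yy z') + g (yy z'))) z =
      S.NS π (fun z' => π.cu (S.cs2 z') * f (yy z')) z +
        S.NS π (fun z' => π.cu (S.cs2 z') * g (yy z')) z := by
  rw [← NS_add hS hπ (Cn.cug hS hπ hf) (Cn.cug hS hπ hg)]
  simp only [mul_add]

theorem NS_cu_cmul (hS : S.Ok) (hπ : π.Rg) {f : E → ℝ} (hf : S.Cg f) (c : ℝ) (z : Q) :
    S.NS π (fun z' => π.cu (S.cs2 z') * (c * f (yy z'))) z =
      c * S.NS π (fun z' => π.cu (S.cs2 z') * f (yy z')) z := by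
  rw [← NS_cmul hS hπ (Cn.cug hS hπ hf)]
  simp only [mul_left_comm]

theorem NS_cu_nonneg (hS : S.Ok) {f : E → ℝ} (hf : S.Cg f) (z : Q) :
    0 ≤ S.NS π (fun z' => π.cu (S.cs2 z') * f (yy z')) z :=
  NS_nonneg hS (fun _ h => mul_nonneg (Par.cu_nonneg _) (hf _ h).2) z

theorem NS_sgq_nonneg (hS : S.Ok) (z : Q) :
    0 ≤ S.NS π (fun z' => π.sgb (S.cs2 z') / S.cs2 z') z :=
  NS_nonneg hS (fun z' _ => div_nonneg (Par.sgb_nonneg _) (cs2_nonneg S z')) z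

theorem NS_cud_nonneg (hS : S.Ok) (z : Q) :
    0 ≤ S.NS π (fun z' => π.cu (S.cs2 z') * (z'.2.2 ^ 2 * S.A2 (yy z'))) z :=
  NS_nonneg hS (fun _ _ => mul_nonneg (Par.cu_nonneg _)
    (mul_nonneg (sq_nonneg _) (A2_nonneg S _))) z

theorem NS_cuc_nonneg (hS : S.Ok) (z : Q) :
    0 ≤ S.NS π (fun z' => π.cu (S.cs2 z') * S.cs2 z') z :=
  NS_nonneg hS (fun z' _ => mul_nonneg (Par.cu_nonneg _) (cs2_nonneg S z')) z

theorem NS_zero (S : Sf) (π : Par) (z : Q) : S.NS π (fun z' => π.cu (S.cs2 z') * 0) z = 0 := by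
  simp [NS, RS]

theorem NS_cud_le (hS : S.Ok) (hπ : π.Rg) (z : Q) :
    S.NS π (fun z' => π.cu (S.cs2 z') * (z'.2.2 ^ 2 * S.A2 (yy z'))) z ≤
      z.2.2 ^ 2 * S.NS π (fun z' => π.cu (S.cs2 z') * S.A2 (yy z')) z := by
  rw [← NS_cu_cmul hS hπ hS.cg_A2]
  refine NS_mono (k := 0) hS hπ ((Cn.cu hS hπ).mul fun z hz =>
    (contDiffAt_snd.snd.pow 2).mul (O.A22 hS hz)) (Cn.cug hS hπ (hS.cg_A2.cmul (sq_nonneg _))) z
    fun l _ _ h1 h2 => ?_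
  exact mul_le_mul_of_nonneg_left (mul_le_mul_of_nonneg_right (by gcongr) (A2_nonneg S _))
    (Par.cu_nonneg _)

end Sf

theorem Win.cut {C d₁ d₂ L e₀ : ℝ} {th gb ga ch : ℝ → ℝ} (h : Win C d₁ d₂ L th gb ga ch) {S : Sf}
    {π : Par} {η : E → ℝ} (hη : S.Eta π e₀ η) : Cut d₂ η th :=
  ⟨hη.sm, hη.nn, hη.le, h.sth, h.th0, h.th1, h.the⟩

end Vale.Agent.P218M1
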