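import Vale.Agent.P218M1.Cut
import Vale.Agent.P218M1.Gd
import Vale.Agent.P218M1.Gx
import Vale.Agent.P218M1.Ca

/-!
# P218M1, row BB: the pointwise part
-/

open MeasureTheory Metric Filter Topology Set
open scoped ContDiff RealInnerProductSpace ENNReal

noncomputable section

namespace Vale.Agent.P218M1

namespace Bb

open Sf

theorem amgm {x A B : ℝ} (hA : 0 ≤ A) (hB : 0 ≤ B) (h : x ^ 2 ≤ A * B) : 2 * x ≤ A + B := by
  by_contra hc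
  have h1 : A + B < 2 * x := lt_of_not_ge hc
  nlinarith [sq_nonneg (A - B), mul_pos (sub_pos.2 h1) (by linarith : 0 < 2 * x + (A + B))]

/-- bounded by one, with a bound for the square of the derivative in the direction `V` -/
def HB (f : Q → ℝ) (z V : Q) (m : ℝ) : Prop :=
  DifferentiableAt ℝ f z ∧ f z ^ 2 ≤ 1 ∧ fderiv ℝ f z V ^ 2 ≤ m

theorem HB.mul {f g : Q → ℝ} {z V : Q} {a b : ℝ} (hf : HB f z V a) (hg : HB g z V b) :
    HB (fun y => f y * g y) z V (2 * a + 2 * b) := by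
  have h := (Gd.HD.self hf.1 V).mul (Gd.HD.self hg.1 V)
  refine ⟨h.1, ?_, ?_⟩
  · rw [mul_pow]; exact mul_le_one₀ hf.2.1 (sq_nonneg _) hg.2.1
  · rw [h.2]
    have h1 := mul_le_mul hf.2.1 hg.2.2 (sq_nonneg _) zero_le_one
    have h2 := mul_le_mul hg.2.1 hf.2.2 (sq_nonneg _) zero_le_one
    nlinarith [sq_nonneg (f z * fderiv ℝ g z V - fderiv ℝ f z V * g z)]

theorem HB.of {f : Q → ℝ} {z V : Q} {a m : ℝ} (h : Gd.HD f z V a) (h0 : 0 ≤ f z) (h1 : f z ≤ 1)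
    (hm : a ^ 2 ≤ m) : HB f z V m :=
  ⟨h.1, by nlinarith, by rw [h.2]; exact hm⟩

variable (S : Sf) (π : Par) (η : E → ℝ) (th : ℝ → ℝ)

/-- the square root of the weight -/
def u (z : Q) : ℝ := π.W0 z.1 * η z.1 * π.B0 (S.cs1 z) * Par.K0 (S.cs2 z) * ct (2 * S.N π z) *
  π.xi z.2.2 * th (S.sq z)

/-- the square root of the whole weight -/
def zB (z : Q) : ℝ := u S π η th z * (S.tt π z * G1 (S.tt π z))

/-- the field whose divergence is a null Lagrangian -/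
def Vf (z : Q) : E := trc (S.Z z) • S.Pv z - S.Z z (S.Pv z)

def fi (i : Fin 3) (z : Q) : ℝ := zB S π η th z ^ 2 * Vf S z i

def i1 (z : Q) : ℝ := S.ze π η th z * (S.tt π z * G1 (S.tt π z)) ^ 2 * hs (S.Z z)

def i2 (z : Q) : ℝ := S.ze π η th z * G2 (S.tt π z) * ⟪S.P z.1 (S.gt π z), S.gt π z⟫

theorem u_sq (z : Q) : u S π η th z ^ 2 = S.ze π η th z := by
  unfold u ze Wt Par.W o0; ring

theorem i1_eq (z : Q) : i1 S π η th z = zB S π η th z ^ 2 * hs (S.Z z) := by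
  unfold i1 zB; rw [mul_pow (u S π η th z), u_sq]

variable {S π η th} {z : Q} {k : ℕ}

/-! ### smoothness -/

theorem sm_cs1 (hS : S.Ok) (h : S.g z.1 ≠ 0) : ContDiffAt ℝ ∞ S.cs1 z :=
  ((Gx.sm_n hS contDiffAt_fst h).inner ℝ Gx.sm_θ).pow 2

theorem sm_cs2 (hS : S.Ok) (h : S.g (yy z) ≠ 0) : ContDiffAt ℝ ∞ S.cs2 z :=
  ((Gx.sm_n hS Gx.sm_yy.contDiffAt h).inner ℝ Gx.sm_θ).pow 2

theorem sm_d : ContDiffAt ℝ ∞ (fun z : Q => z.2.2) z := by fun_prop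

theorem sm_sq (hS : S.Ok) (hz : z ∈ S.O) : ContDiffAt ℝ ∞ S.sq z :=
  (Gx.sm_Pv hS hz).norm_sq ℝ

theorem sm_tt (hS : S.Ok) (hz : z ∈ S.O) : ContDiffAt ℝ ∞ (S.tt π) z :=
  (sm_d.mul (Gx.sm_kk hS hz)).div_const _

theorem sm_lv (hS : S.Ok) (hz : z ∈ S.O) : ContDiffAt ℝ ∞ S.lv z :=
  (sm_cs1 hS (O.g1 hz)).smul ((Gx.sm_X hS contDiffAt_fst Gx.sm_θ hz.1).clm_apply
    (Gx.sm_p hS contDiffAt_fst Gx.sm_θ hz.1))

theorem sm_gt (hS : S.Ok) (hz : z ∈ S.O) : ContDiffAt ℝ ∞ (S.gt π) z :=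
  (((Gx.sm_kk hS hz).div_const _).smul (Gx.sm_Pv hS hz)).add ((sm_tt hS hz).smul (sm_lv hS hz))

theorem sm_Vf (hS : S.Ok) (hz : z ∈ S.O) : ContDiffAt ℝ ∞ (Vf S) z :=
  ((Gx.sm_trc (Gx.sm_Z hS hz)).smul (Gx.sm_Pv hS hz)).sub
    ((Gx.sm_Z hS hz).clm_apply (Gx.sm_Pv hS hz))

theorem sm_N (nsc : NSC) (hS : S.Ok) (hπ : π.Rg) (hz : z ∈ S.O) : ContDiffAt ℝ k (S.N π) z := by
  refine nsc.sm S π k _ hS hπ ⟨fun z hz => ?_, fun z _ hc => ?_⟩ z hz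
  · exact (((π.sg0_smooth.contDiffAt.comp z (sm_cs2 hS (O.g2 hz))).pow 2)).of_le (cast_le_inf k)
  · rw [hπ.sg0_zero (by linarith [hπ.η2.1])]; simp

theorem sm_u (nsc : NSC) (hS : S.Ok) (hπ : π.Rg) (hη : ContDiff ℝ ∞ η) (ht : ContDiff ℝ ∞ th)
    (hz : z ∈ S.O) : ContDiffAt ℝ k (u S π η th) z := by
  have c := cast_le_inf k
  refine ((((((?_ : ContDiffAt ℝ k _ z).mul ?_).mul ?_).mul ?_).mul ?_).mul ?_).mul ?_
  · exact (π.W0_smooth.contDiffAt.comp z contDiffAt_fst).of_le c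
  · exact (hη.contDiffAt.comp z contDiffAt_fst).of_le c
  · exact (π.B0_smooth.contDiffAt.comp z (sm_cs1 hS (O.g1 hz))).of_le c
  · exact (Par.K0_smooth.contDiffAt.comp z (sm_cs2 hS (O.g2 hz))).of_le c
  · exact ct_cd.contDiffAt.comp z (contDiffAt_const.mul (sm_N nsc hS hπ hz))
  · exact (π.xi_smooth.contDiffAt.comp z sm_d).of_le c
  · exact (ht.contDiffAt.comp z (sm_sq hS hz)).of_le c

theorem sm_zB (nsc : NSC) (hS : S.Ok) (hπ : π.Rg) (hη : ContDiff ℝ ∞ η) (ht : ContDiff ℝ ∞ th)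
    (hz : z ∈ S.O) : ContDiffAt ℝ (1 : ℕ) (zB S π η th) z := by
  have h := (sm_tt (π := π) hS hz).of_le (cast_le_inf 1)
  exact (sm_u nsc hS hπ hη ht hz).mul (h.mul ((G1_cd (by norm_num)).contDiffAt.comp z h))

/-! ### the support -/

/-- the support of the weights -/
structure Su (S : Sf) (π : Par) (th : ℝ → ℝ) (z : Q) : Prop where
  x : ‖z.1‖ ^ 2 < 2 * π.R ^ 2
  c1 : 1 - S.cs1 z < π.α ^ 2
  c2 : 1 / 4 < S.cs2 z
  n : S.N π z < 1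
  d : π.ρ / 2 < z.2.2
  s : th (S.sq z) ≠ 0
  t : S.tt π z < 1

theorem su (hπ : π.Rg) (hu : u S π η th z ≠ 0) (ht : S.tt π z < 1) : Su S π th z := by
  unfold u at hu
  simp only [ne_eq, mul_eq_zero, not_or] at hu
  obtain ⟨⟨⟨⟨⟨⟨h1, -⟩, h3⟩, h4⟩, h5⟩, h6⟩, h7⟩ := hu
  exact ⟨hπ.W0_ne h1, hπ.B0_ne h3, Par.K0_ne h4, by linarith [lt_of_ct_ne h5], hπ.xi_ne h6, h7, ht⟩

theorem su_zB (hπ : π.Rg) (h : zB S π η th z ≠ 0) : Su S π th z :=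
  su hπ (left_ne_zero_of_mul h) (lt_of_G1_ne (right_ne_zero_of_mul (right_ne_zero_of_mul h)))

theorem Su.c9 (hπ : π.Rg) (h : Su S π th z) : 9 / 10 ≤ S.cs1 z := by linarith [h.c1, hπ.α2.2]

theorem Su.d2 (hπ : π.Rg) (h : Su S π th z) : z.2.2 ≤ 2 * π.ε := by
  have h1 := h.t
  unfold tt at h1
  rw [div_lt_one hπ.ε0] at h1
  have h2 := kk_sq S z
  have h3 := kk_nonneg S z
  have h4 := h.c9 hπ
  have h5 : 1 / 2 ≤ S.kk z := by nlinarith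
  have h6 : 0 < z.2.2 := by linarith [h.d, hπ.ρ0]
  nlinarith

theorem Su.box (hπ : π.Rg) (h : Su S π th z) : S.Box π z :=
  ⟨by linarith [hπ.norm_le h.x.le, hπ.R0], h.d.le, by linarith [h.d2 hπ, hπ.ε1],
    by linarith [h.c9 hπ], by linarith [h.c2, hπ.η2.2]⟩

theorem Su.sq (hπ : π.Rg) (h : Su S π th z) : S.Sq π z :=
  ⟨h.x.le, by linarith [h.c1, hπ.α2.1], h.c2.le, h.n, h.d2 hπ⟩

theorem tt_nonneg (hπ : π.Rg) (hz : z ∈ S.O) : 0 ≤ S.tt π z :=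
  div_nonneg (mul_nonneg hz.2.2.le (kk_nonneg S z)) hπ.ε0.le

/-! ### the derivative of the weight -/

theorem norm_Pi_ee (hz : z ∈ S.O) (hθ : ‖z.2.1‖ = 1) (hc : 1 / 2 ≤ S.cs1 z) (i : Fin 3) :
    ‖S.Pi z.1 z.2.1 (ee i)‖ ^ 2 ≤ 2 := by
  have h := norm_Pi_sq hz.1 hθ (ee i)
  rw [norm_ee, one_pow, mul_one] at h
  refine h.trans ?_
  change (S.cs1 z)⁻¹ ≤ 2
  rw [inv_le_comm₀ (O.cs1_pos hz) (by norm_num)]
  linarith

theorem dW0_sq (hπ : π.Rg) {x v : E} (hx : ‖x‖ ^ 2 ≤ 2 * π.R ^ 2) (hv : ‖v‖ ^ 2 ≤ 2) :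
    fderiv ℝ π.W0 x v ^ 2 ≤ 33 * Cc ^ 2 * π.R ^ 2 := by
  rw [Par.fderiv_W0]
  have h1 := hπ.fderiv_ps_sq x v
  have h2 := inner_sq_le x v
  have h3 : Real.exp (-‖x‖ ^ 2 / 8) ≤ 1 := Real.exp_le_one_iff.2 (by nlinarith [sq_nonneg ‖x‖])
  have h4 := Real.exp_pos (-‖x‖ ^ 2 / 8)
  have h5 : π.W0 x ^ 2 ≤ 1 := by nlinarith [Par.W0_nonneg (π := π) x, Par.W0_le (π := π) x]
  have hR : 1 ≤ π.R ^ 2 := by nlinarith [hπ.R1]
  have hC : 1 ≤ Cc ^ 2 := by nlinarith [one_le_Cc]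
  have h6 : 8 * Cc ^ 2 / π.R ^ 2 ≤ 8 * Cc ^ 2 := div_le_self (by positivity) hR
  have h7 : fderiv ℝ π.ps x v ^ 2 ≤ 16 * Cc ^ 2 :=
    h1.trans ((mul_le_mul h6 hv (sq_nonneg _) (by positivity)).trans (by linarith))
  have h8 : ⟪x, v⟫ ^ 2 ≤ 4 * π.R ^ 2 :=
    h2.trans ((mul_le_mul hx hv (sq_nonneg _) (by positivity)).trans (by linarith))
  generalize fderiv ℝ π.ps x v = a at *
  generalize Real.exp (-‖x‖ ^ 2 / 8) = b at *
  generalize ⟪x, v⟫ = c at *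
  have h9 : (b * a) ^ 2 ≤ 16 * Cc ^ 2 := by
    rw [mul_pow]
    exact (mul_le_of_le_one_left (sq_nonneg _) (by nlinarith)).trans h7
  have h10 : (π.W0 x * c) ^ 2 ≤ 4 * π.R ^ 2 := by
    rw [mul_pow]
    exact (mul_le_of_le_one_left (sq_nonneg _) h5).trans h8
  have h11 : Cc ^ 2 ≤ Cc ^ 2 * π.R ^ 2 := le_mul_of_one_le_right (by positivity) hR
  have h12 : π.R ^ 2 ≤ Cc ^ 2 * π.R ^ 2 := le_mul_of_one_le_left (by positivity) hC
  nlinarith [sq_nonneg (π.W0 x * c / 4 + b * a)]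

theorem DG_co (f : Q → ℝ) (i : Fin 3) : S.D (ee i) f z ^ 2 ≤ ‖S.DG f z‖ ^ 2 := by
  have h := abs_apply_le (S.DG f z) i
  unfold DG at h ⊢
  rw [sum_smul_ee_apply] at h
  exact sq_le_sq' (by linarith [neg_abs_le (S.D (ee i) f z)]) ((le_abs_self _).trans h)

/-- the bound for the derivative of `u` -/
def mu (S : Sf) (π : Par) (η : E → ℝ) (th : ℝ → ℝ) (z : Q) : ℝ :=
  64 * (33 * Cc ^ 2 * π.R ^ 2 + 2 * ‖gradient η z.1‖ ^ 2 + 128 * Cc ^ 2 / π.α ^ 2 * S.A2 z.1 +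
    4 * Cc ^ 2 * ‖S.DG (S.N π) z‖ ^ 2) + 8 * deriv th (S.sq z) ^ 2 * (hs (S.Z z) * S.sq z)

theorem hb_u (K : Kit) {Λ : ℝ} (hG : Good S π Λ) (hη : ContDiff ℝ ∞ η) (h0 : ∀ x, 0 ≤ η x)
    (h1 : ∀ x, η x ≤ 1) (ht : ContDiff ℝ ∞ th) (t0 : ∀ s, 0 ≤ th s) (t1 : ∀ s, th s ≤ 1)
    (hH : S.Hit z) (h : Su S π th z) (hs4 : S.sq z < 1 / 4) (i : Fin 3) :
    HB (u S π η th) z (S.VD (ee i) z) (mu S π η th z) := by
  have hS := hG.ok
  have hπ := hG.rg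
  have hb := h.box hπ
  have hz := Ca.box_O hπ hb
  have hθ := hH.2.1
  have c9 := h.c9 hπ
  have hP := norm_Pi_ee hz hθ (by linarith) i
  have dW : DifferentiableAt ℝ π.W0 z.1 := π.W0_smooth.differentiable (by simp) _
  have dη : DifferentiableAt ℝ η z.1 := hη.differentiable (by simp) _
  have a1 : HB (fun y : Q => π.W0 y.1) z (S.VD (ee i) z) (33 * Cc ^ 2 * π.R ^ 2) :=
    HB.of ⟨dW.comp z differentiableAt_fst, K.gd.Dx S z _ _ hz dW⟩ (Par.W0_nonneg _) (Par.W0_le _)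
      (dW0_sq hπ h.x.le hP)
  have a2 : HB (fun y : Q => η y.1) z (S.VD (ee i) z) (2 * ‖gradient η z.1‖ ^ 2) := by
    refine HB.of ⟨dη.comp z differentiableAt_fst, K.gd.Dx S z _ _ hz dη⟩ (h0 _) (h1 _) ?_
    rw [← inner_grad]
    refine (inner_sq_le _ _).trans ?_
    nlinarith [sq_nonneg ‖gradient η z.1‖]
  have a3 : HB (fun y : Q => π.B0 (S.cs1 y)) z (S.VD (ee i) z)
      (128 * Cc ^ 2 / π.α ^ 2 * S.A2 z.1) := by
    refine HB.of (Gd.HD.rcomp ⟨Gx.diff (sm_cs1 hS (O.g1 hz)), K.gd.Dc1 S z _ hS hz⟩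
      ((π.B0_smooth.differentiable (by simp) _).hasDerivAt)) (Par.B0_nonneg _) (Par.B0_le _) ?_
    have b1 : deriv π.B0 (S.cs1 z) ^ 2 ≤ (2 * Cc / π.α ^ 2) ^ 2 :=
      sq_le_sq' (neg_le_of_abs_le (π.abs_dB0_le _)) (le_of_abs_le (π.abs_dB0_le _))
    have b2 := inner_sq_le (S.lv z) (ee i)
    rw [norm_ee, one_pow, mul_one] at b2
    have b3 := hS.norm_lv_le hz hθ (by linarith)
    have b4 : ⟪S.lv z, ee i⟫ ^ 2 ≤ 8 * π.α ^ 2 * S.A2 z.1 :=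
      (b2.trans b3).trans (mul_le_mul_of_nonneg_right (by linarith [h.c1]) (A2_nonneg _ _))
    have b5 : S.cs1 z ^ 2 ≤ 1 := by nlinarith [cs1_le S hθ]
    have b6 : (2 * S.cs1 z * ⟪S.lv z, ee i⟫) ^ 2 ≤ 32 * π.α ^ 2 * S.A2 z.1 := by
      have := mul_le_mul b5 b4 (sq_nonneg _) zero_le_one
      nlinarith
    rw [mul_pow]
    refine (mul_le_mul b1 b6 (sq_nonneg _) (sq_nonneg _)).trans (le_of_eq ?_)
    have := hπ.α0.ne'
    field_simp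
    ring
  have a4 : HB (fun y : Q => Par.K0 (S.cs2 y)) z (S.VD (ee i) z) 0 := by
    refine HB.of (Gd.HD.rcomp ⟨Gx.diff (sm_cs2 hS (O.g2 hz)), K.gd.Dc2 S z _ hS hz⟩
      ((Par.K0_smooth.differentiable (by simp) _).hasDerivAt)) (Par.K0_nonneg _) (Par.K0_le _) ?_
    have : 1 / 2 ≤ S.cs2 z := by
      by_contra hc
      linarith [O.sq_ge hz hθ c9 (le_of_not_ge hc)]
    rw [Par.dK0_zero this]; simp
  have a5 : HB (fun y : Q => ct (2 * S.N π y)) z (S.VD (ee i) z)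
      (4 * Cc ^ 2 * ‖S.DG (S.N π) z‖ ^ 2) := by
    have dN : DifferentiableAt ℝ (S.N π) z :=
      (sm_N (k := 1) K.nsc hS hπ hz).differentiableAt (by simp)
    refine HB.of (Gd.HD.rcomp ((Gd.HD.const 2).mul (Gd.HD.self dN _)) (hasDerivAt_ct _))
      (ct_nonneg _) (ct_le_one _) ?_
    have b1 := mul_le_mul (dct_sq_le (2 * S.N π z)) (DG_co (S := S) (z := z) (S.N π) i)
      (sq_nonneg _) (sq_nonneg _)
    unfold Sf.D at b1
    nlinarith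
  have a6 : HB (fun y : Q => π.xi y.2.2) z (S.VD (ee i) z) 0 := by
    refine HB.of (Gd.HD.rcomp (Gd.hd z _) ((π.xi_smooth.differentiable (by simp) _).hasDerivAt))
      (Par.xi_nonneg _) (Par.xi_le _) ?_
    rw [(K.unq.xi1 S π Λ z hG hH hb).2.2]; simp
  have a7 : HB (fun y : Q => th (S.sq y)) z (S.VD (ee i) z)
      (4 * deriv th (S.sq z) ^ 2 * (hs (S.Z z) * S.sq z)) := by
    refine HB.of (Gd.HD.rcomp ⟨Gx.diff (sm_sq hS hz), K.gd.Dsq S z _ hS hz⟩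
      ((ht.differentiable (by simp) _).hasDerivAt)) (t0 _) (t1 _) ?_
    have b1 := inner_apply_sq_le (S.Z z) (S.Pv z) (ee i)
    rw [norm_ee, one_pow, mul_one] at b1
    have := mul_le_mul_of_nonneg_left b1 (sq_nonneg (deriv th (S.sq z)))
    unfold Sf.sq
    unfold Sf.sq at this
    nlinarith
  have a := (((((a1.mul a2).mul a3).mul a4).mul a5).mul a6).mul a7
  refine ⟨a.1, a.2.1, a.2.2.trans ?_⟩
  unfold mu
  have p1 : 0 ≤ 128 * Cc ^ 2 / π.α ^ 2 * S.A2 z.1 := mul_nonneg (by positivity) (A2_nonneg _ _)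
  have p2 : 0 ≤ 4 * Cc ^ 2 * ‖S.DG (S.N π) z‖ ^ 2 := by positivity
  linarith

theorem ze_nonneg (z : Q) : 0 ≤ S.ze π η th z := by rw [← u_sq]; exact sq_nonneg _

theorem i2_nonneg (h : S.g z.1 ≠ 0) : 0 ≤ i2 S π η th z :=
  mul_nonneg (mul_nonneg (ze_nonneg z) (G2_nonneg _)) (inner_P_nonneg h _)

theorem tG_sq {t : ℝ} (h0 : 0 ≤ t) (h1 : t ≤ 1) : (t * G1 t) ^ 2 ≤ 36 := by
  have h := abs_G1_le h0
  have h2 : G1 t ^ 2 ≤ 36 := by nlinarith [abs_nonneg (G1 t), sq_abs (G1 t)]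
  have h3 : t ^ 2 ≤ 1 := by nlinarith
  rw [mul_pow]
  exact (mul_le_mul h3 h2 (sq_nonneg _) zero_le_one).trans (by norm_num)

theorem dzB (K : Kit) (hS : S.Ok) (hπ : π.Rg) (hz : z ∈ S.O) (hθ : ‖z.2.1‖ = 1) {m : ℝ}
    (h : Su S π th z) (hu : ∀ i, HB (u S π η th) z (S.VD (ee i) z) m) :
    ∑ i, S.D (ee i) (zB S π η th) z ^ 2 ≤ 216 * m + 120 * i2 S π η th z := by
  have t0 := tt_nonneg hπ hz
  have g1 := tG_sq t0 h.t.le
  have g2 := G12_sq_le t0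
  have key : ∀ i, S.D (ee i) (zB S π η th) z ^ 2 ≤
      72 * m + 60 * (S.ze π η th z * G2 (S.tt π z)) * S.gt π z i ^ 2 := fun i => by
    have ht : Gd.HD (S.tt π) z (S.VD (ee i) z) (S.gt π z i) :=
      ⟨Gx.diff (sm_tt hS hz), by rw [← inner_ee]; exact K.gd.Dt S π z _ hS hz⟩
    have h1 := ((Gd.HD.self (hu i).1 _).mul (ht.mul (ht.rcomp (hasDerivAt_G1 _)))).2
    have h2 : S.D (ee i) (zB S π η th) z = _ := h1
    rw [h2, ← u_sq]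
    have h3 := mul_le_mul (hu i).2.2 g1 (sq_nonneg _) ((sq_nonneg _).trans (hu i).2.2)
    have h4 := mul_le_mul_of_nonneg_left g2 (sq_nonneg (u S π η th z * S.gt π z i))
    generalize fderiv ℝ (u S π η th) z (S.VD (ee i) z) = a at *
    generalize u S π η th z = b at *
    generalize S.gt π z i = c at *
    generalize S.tt π z = t at *
    nlinarith [sq_nonneg (b * (t * (G2 t * c) + c * G1 t) - a * (t * G1 t))]
  refine (Finset.sum_le_sum fun i _ => key i).trans ?_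
  rw [Finset.sum_add_distrib, ← Finset.mul_sum, ← Finset.mul_sum, ← norm_sq_eq_sum]
  have h5 := mul_le_mul_of_nonneg_left (O.gt_sq_le hz hθ (by linarith [h.c9 hπ]) π)
    (mul_nonneg (ze_nonneg (S := S) (π := π) (η := η) (th := th) z) (G2_nonneg (S.tt π z)))
  unfold i2
  simp only [Finset.sum_const, Finset.card_univ, Fintype.card_fin, nsmul_eq_mul, Nat.cast_ofNat]
  nlinarith

theorem div_fi (K : Kit) (hS : S.Ok) (hz : z ∈ S.O) (hd : DifferentiableAt ℝ (zB S π η th) z) :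
    ∑ i, S.D (ee i) (fi S π η th i) z =
      2 * (zB S π η th z * ∑ i, S.D (ee i) (zB S π η th) z * Vf S z i) +
        zB S π η th z ^ 2 * (trc (S.Z z) ^ 2 - hs (S.Z z)) := by
  have h := K.gx.nl S z (fun _ => 1) hS hz contDiff_const
  simp only [one_mul, deriv_const', mul_zero, add_zero] at h
  rw [← h, Finset.mul_sum, Finset.mul_sum, Finset.mul_sum, ← Finset.sum_add_distrib]
  refine Finset.sum_congr rfl fun i _ => ?_
  have h1 := ((Gd.HD.self hd (S.VD (ee i) z)).sq.mul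
    (Gd.HD.self (Gx.diff (Gx.sm_co (sm_Vf hS hz) i)) _)).2
  have h2 : S.D (ee i) (fi S π η th i) z = _ := h1
  rw [h2]
  unfold Sf.D Vf
  ring

theorem Vf_sq (z : Q) : ‖Vf S z‖ ^ 2 ≤ 8 * (hs (S.Z z) * S.sq z) := by
  refine (norm_sub_sq_le _ _).trans ?_
  have h1 := norm_apply_sq_le (S.Z z) (S.Pv z)
  have h2 := mul_le_mul_of_nonneg_right (trc_sq_le (S.Z z)) (sq_nonneg ‖S.Pv z‖)
  rw [norm_smul, mul_pow, Real.norm_eq_abs, sq_abs]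
  unfold Sf.sq
  linarith

theorem cross {q : ℝ} (hq : ∑ i, S.D (ee i) (zB S π η th) z ^ 2 ≤ q) :
    2 * (zB S π η th z * ∑ i, S.D (ee i) (zB S π η th) z * Vf S z i) ≤
      zB S π η th z ^ 2 * hs (S.Z z) / 4 + 32 * (S.sq z * q) := by
  have q0 : 0 ≤ q := (Finset.sum_nonneg fun i _ => sq_nonneg _).trans hq
  have h0 := hs_nonneg (S.Z z)
  have s0 := sq_nonneg' S z
  refine amgm (by positivity) (by positivity) ?_
  have h1 := Finset.sum_mul_sq_le_sq_mul_sq Finset.univ (fun i => S.D (ee i) (zB S π η th) z)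
    (fun i => Vf S z i)
  rw [← norm_sq_eq_sum] at h1
  have h2 := h1.trans (mul_le_mul hq (Vf_sq z) (sq_nonneg _) q0)
  rw [mul_pow]
  exact (mul_le_mul_of_nonneg_left h2 (sq_nonneg _)).trans (le_of_eq (by ring))

/-- the integrand for the master estimate -/
def hh (S : Sf) (π : Par) (η : E → ℝ) (th : ℝ → ℝ) (d₁ : ℝ) (z : Q) : ℝ :=
  1 / 2 * i1 S π η th z + ∑ i, S.D (ee i) (fi S π η th i) z + -(3840 * d₁ ^ 2) * i2 S π η th z

theorem hh_ne (K : Kit) (hS : S.Ok) (hz : z ∈ S.O) (hd : DifferentiableAt ℝ (zB S π η th) z)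
    {d₁ : ℝ} (h : 0 < hh S π η th d₁ z) : zB S π η th z ≠ 0 := by
  intro h0
  unfold hh at h
  rw [div_fi K hS hz hd, i1_eq, h0] at h
  have := mul_nonneg (sq_nonneg d₁) (i2_nonneg (π := π) (η := η) (th := th) (O.g1 hz))
  nlinarith

theorem fin1 {b H T X s m j d : ℝ} (hb0 : 0 ≤ b) (hb : b ≤ 36) (hH : 0 ≤ H) (hX : 0 ≤ X)
    (hT : T ≤ H / 10 + 10 ^ 7 * X) (hj : 0 ≤ j) (hs : s ≤ d) :
    1 / 2 * (b * H) + (b * H / 4 + 32 * (s * (216 * m + 120 * j)) + b * (T - H)) +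
      -(3840 * d) * j ≤ 36 * 10 ^ 7 * X + 6912 * (s * m) := by
  have h1 := mul_le_mul_of_nonneg_left hT hb0
  have h2 := mul_le_mul_of_nonneg_right hb hX
  have h3 := mul_le_mul_of_nonneg_right hs hj
  have h4 := mul_nonneg hb0 hH
  nlinarith

theorem hh_le (K : Kit) (hS : S.Ok) (hπ : π.Rg) (hz : z ∈ S.O) (hθ : ‖z.2.1‖ = 1) {m d₁ : ℝ}
    (hd : DifferentiableAt ℝ (zB S π η th) z) (h : Su S π th z)
    (hu : ∀ i, HB (u S π η th) z (S.VD (ee i) z) m) (hs1 : S.sq z ≤ d₁ ^ 2) :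
    hh S π η th d₁ z ≤ 36 * 10 ^ 7 * (S.φ z.1 ^ 2 + S.φ (yy z) ^ 2 +
      S.sq z * S.A2 (yy z) + z.2.2 ^ 2 + ‖z.1‖ ^ 2 * S.sq z) + 6912 * (S.sq z * m) := by
  have h1 := cross (dzB K hS hπ hz hθ h hu)
  have h2 : zB S π η th z ^ 2 ≤ 36 := by
    unfold zB
    rw [mul_pow]
    exact (mul_le_mul (hu 0).2.1 (tG_sq (tt_nonneg hπ hz) h.t.le) (sq_nonneg _) zero_le_one).trans
      (by norm_num)
  have s0 := sq_nonneg' S z
  have a0 := A2_nonneg S (yy z)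
  have h3 := fin1 (m := m) (sq_nonneg _) h2 (hs_nonneg (S.Z z)) (by positivity)
    (K.gx.tz S z hS hz hθ (h.c9 hπ) h.c2.le) (i2_nonneg (π := π) (η := η) (th := th) (O.g1 hz)) hs1
  unfold hh
  rw [div_fi K hS hz hd, i1_eq]
  linarith

end Bb

end Vale.Agent.P218M1
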