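import Vale.Agent.P218M1.Basic

/-!
# P218M1: linearity and monotonicity of `RS`, `AV`, `II`; rules for `D`, `R`, `DG`
-/

open MeasureTheory Metric Filter Topology Set
open scoped ContDiff RealInnerProductSpace

noncomputable section

namespace Vale.Agent.P218M1

namespace Sf

variable {S : Sf} {π : Par} {k j : ℕ} {x θ : E} {z : Q} {f g : Q → ℝ}

/-! ### `RS` -/

theorem RS_add (hS : S.Ok) (hπ : π.Rg) (hf : S.Cl π k f) (hg : S.Cl π j g) (hx : S.g x ≠ 0)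
    (θ : E) : S.RS (fun z => f z + g z) x θ = S.RS f x θ + S.RS g x θ := by
  obtain ⟨T, -, hT⟩ := hS.box_hits hπ x θ
  rw [hT _ f hf hx, hT _ g hg hx, hT 0 _ ((hf.le k.zero_le).add (hg.le j.zero_le)) hx,
    Finset.sum_add_distrib]

theorem RS_fst (hS : S.Ok) (hπ : π.Rg) (hf : S.Cl π k f) (hx : S.g x ≠ 0) (θ : E)
    (c : E → E → ℝ) : S.RS (fun z => c z.1 z.2.1 * f z) x θ = c x θ * S.RS f x θ := by
  have h : S.RS (fun z => c z.1 z.2.1 * f z) x θ = S.RS (fun z => c x θ * f z) x θ := rfl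
  obtain ⟨T, -, hT⟩ := hS.box_hits hπ x θ
  rw [h, hT _ f hf hx, hT _ _ (hf.cmul _) hx, Finset.mul_sum]

theorem RS_cmul (hS : S.Ok) (hπ : π.Rg) (hf : S.Cl π k f) (hx : S.g x ≠ 0) (θ : E) (c : ℝ) :
    S.RS (fun z => c * f z) x θ = c * S.RS f x θ := RS_fst hS hπ hf hx θ fun _ _ => c

theorem hit_of (hx : S.w x = 0) (hθ : ‖θ‖ = 1) (hπ : π.Rg) {d : ℝ} (h : S.w (x + d • θ) = 0)
    (hb : S.Box π (x, θ, d)) : S.Hit (x, θ, d) := ⟨hx, hθ, (half_pos hπ.ρ0).trans_le hb.2.1, h⟩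

theorem RS_mono (hS : S.Ok) (hπ : π.Rg) (hf : S.Cl π k f) (hg : S.Cl π j g) (hx : S.w x = 0)
    (hθ : ‖θ‖ = 1) (h : ∀ d, S.Hit (x, θ, d) → S.Box π (x, θ, d) → f (x, θ, d) ≤ g (x, θ, d)) :
    S.RS f x θ ≤ S.RS g x θ := by
  obtain ⟨T, hm, hT⟩ := hS.box_hits hπ x θ
  rw [hT _ f hf (hS.reg x hx), hT _ g hg (hS.reg x hx)]
  exact Finset.sum_le_sum fun d hd =>
    h d (hit_of hx hθ hπ ((hm d).1 hd).1 ((hm d).1 hd).2) ((hm d).1 hd).2

theorem RS_zero (S : Sf) (x θ : E) : S.RS (fun _ => 0) x θ = 0 := by simp [RS]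

theorem RS_nonneg (hS : S.Ok) (hπ : π.Rg) (hf : S.Cl π k f) (hx : S.w x = 0) (hθ : ‖θ‖ = 1)
    (h : ∀ d, S.Hit (x, θ, d) → S.Box π (x, θ, d) → 0 ≤ f (x, θ, d)) : 0 ≤ S.RS f x θ := by
  simpa [RS_zero] using RS_mono hS hπ (Cl.zero (k := 0)) hf hx hθ h

/-- at most one hit contributes -/
theorem RS_le_one (hU : UNQ) {Λ : ℝ} (hG : Good S π Λ) (hf : S.Cl π k f) (hx : S.w x = 0)
    (hθ : ‖θ‖ = 1) {c : ℝ} (hc : 0 ≤ c)
    (h : ∀ d, S.Hit (x, θ, d) → S.Box π (x, θ, d) → 0 < f (x, θ, d) →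
      1 / 4 ≤ S.cs2 (x, θ, d) ∧ S.N π (x, θ, d) < 1 ∧ f (x, θ, d) ≤ c) : S.RS f x θ ≤ c := by
  obtain ⟨T, hm, hT⟩ := hG.ok.box_hits hG.rg x θ
  have hh : ∀ d ∈ T, S.Hit (x, θ, d) ∧ S.Box π (x, θ, d) := fun d hd =>
    ⟨hit_of hx hθ hG.rg ((hm d).1 hd).1 ((hm d).1 hd).2, ((hm d).1 hd).2⟩
  rw [hT _ f hf (hG.ok.reg x hx)]
  by_cases h0 : ∃ d ∈ T, 0 < f (x, θ, d)
  · obtain ⟨d, hd, h1⟩ := h0
    have h2 := h d (hh d hd).1 (hh d hd).2 h1
    rw [← Finset.add_sum_erase T _ hd]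
    have : ∑ d' ∈ T.erase d, f (x, θ, d') ≤ 0 := Finset.sum_nonpos fun d' hd' => by
      by_contra h3
      have h4 := Finset.mem_of_mem_erase hd'
      have h5 := h d' (hh d' h4).1 (hh d' h4).2 (not_le.1 h3)
      rcases lt_or_gt_of_ne (Finset.ne_of_mem_erase hd') with h6 | h6
      · linarith [(hU.u1 S π Λ x θ d' d hG (hh d' h4).1 (hh d hd).1 (hh d hd).2 h6 h5.1).1, h2.2.1]
      · linarith [(hU.u1 S π Λ x θ d d' hG (hh d hd).1 (hh d' h4).1 (hh d' h4).2 h6 h2.1).1, h5.2.1]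
    linarith [h2.2.2]
  · push Not at h0
    exact (Finset.sum_nonpos h0).trans hc

/-! ### `AV` -/

theorem AV_int (hS : S.Ok) (hπ : π.Rg) (hf : S.Cl π k f) (hx : S.g x ≠ 0) :
    Integrable fun u => gam u * (|S.cc x (un u)| * S.RS f x (un u)) :=
  ca'.iu S π f x hS hπ (hf.le k.zero_le) hx

theorem AV_add (hS : S.Ok) (hπ : π.Rg) (hf : S.Cl π k f) (hg : S.Cl π j g) (hx : S.g x ≠ 0) :
    S.AV (fun z => f z + g z) x = S.AV f x + S.AV g x := by
  simp only [AV, RS_add hS hπ hf hg hx, mul_add]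
  exact integral_add (AV_int hS hπ hf hx) (AV_int hS hπ hg hx)

theorem AV_fst (hS : S.Ok) (hπ : π.Rg) (hf : S.Cl π k f) (hx : S.g x ≠ 0) (c : E → ℝ) :
    S.AV (fun z => c z.1 * f z) x = c x * S.AV f x := by
  simp only [AV, RS_fst hS hπ hf hx _ fun x _ => c x, ← integral_const_mul]
  congr 1; ext u; ring

theorem AV_cmul (hS : S.Ok) (hπ : π.Rg) (hf : S.Cl π k f) (hx : S.g x ≠ 0) (c : ℝ) :
    S.AV (fun z => c * f z) x = c * S.AV f x := AV_fst hS hπ hf hx fun _ => c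

theorem AV_zero (S : Sf) (x : E) : S.AV (fun _ => 0) x = 0 := by simp [AV, RS_zero]

theorem AV_sum {ι : Type} {f : ι → Q → ℝ} {s : Finset ι} (hS : S.Ok) (hπ : π.Rg)
    (hf : ∀ i ∈ s, S.Cl π k (f i)) (hx : S.g x ≠ 0) :
    S.AV (fun z => ∑ i ∈ s, f i z) x = ∑ i ∈ s, S.AV (f i) x := by
  classical
  induction s using Finset.induction_on with
  | empty => simpa using AV_zero S x
  | insert a s ha ih =>
    simp only [Finset.sum_insert ha]
    rw [AV_add hS hπ (hf a (by simp)) (Cl.sum fun i hi => hf i (by simp [hi])) hx,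
      ih fun i hi => hf i (by simp [hi])]

/-- comparison with an integrable function of the direction -/
theorem AV_le (hS : S.Ok) (hπ : π.Rg) (hf : S.Cl π k f) (hx : S.g x ≠ 0) {F : E → ℝ}
    (hF : Integrable fun u => gam u * F u)
    (h : ∀ u, u ≠ 0 → |S.cc x (un u)| * S.RS f x (un u) ≤ F u) : S.AV f x ≤ ∫ u, gam u * F u := by
  refine integral_mono (AV_int hS hπ hf hx) hF fun u => ?_
  by_cases hu : u = 0
  · simp [hu, gam_zero]
  · exact mul_le_mul_of_nonneg_left (h u hu) (gam_nonneg u)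

theorem AV_mono_RS (hS : S.Ok) (hπ : π.Rg) (hf : S.Cl π k f) (hg : S.Cl π j g) (hx : S.g x ≠ 0)
    (h : ∀ θ, ‖θ‖ = 1 → S.RS f x θ ≤ S.RS g x θ) : S.AV f x ≤ S.AV g x :=
  AV_le hS hπ hf hx (AV_int hS hπ hg hx) fun _ hu =>
    mul_le_mul_of_nonneg_left (h _ (norm_un hu)) (abs_nonneg _)

theorem AV_mono (hS : S.Ok) (hπ : π.Rg) (hf : S.Cl π k f) (hg : S.Cl π j g) (hx : S.w x = 0)
    (h : ∀ z, z.1 = x → S.Hit z → S.Box π z → f z ≤ g z) : S.AV f x ≤ S.AV g x :=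
  AV_mono_RS hS hπ hf hg (hS.reg x hx) fun _ hθ => RS_mono hS hπ hf hg hx hθ fun _ => h _ rfl

theorem AV_congr (hS : S.Ok) (hπ : π.Rg) (hf : S.Cl π k f) (hg : S.Cl π j g) (hx : S.w x = 0)
    (h : ∀ z, z.1 = x → S.Hit z → S.Box π z → f z = g z) : S.AV f x = S.AV g x :=
  le_antisymm (AV_mono hS hπ hf hg hx fun z h0 h1 h2 => (h z h0 h1 h2).le)
    (AV_mono hS hπ hg hf hx fun z h0 h1 h2 => (h z h0 h1 h2).ge)

theorem AV_nonneg (hS : S.Ok) (hπ : π.Rg) (hf : S.Cl π k f) (hx : S.w x = 0)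
    (h : ∀ z, z.1 = x → S.Hit z → S.Box π z → 0 ≤ f z) : 0 ≤ S.AV f x := by
  simpa [AV_zero] using AV_mono hS hπ (Cl.zero (k := 0)) hf hx h

theorem AV_abs (hS : S.Ok) (hπ : π.Rg) (hf : S.Cl π k f) (hg : S.Cl π j g) (hx : S.w x = 0)
    (h : ∀ z, z.1 = x → S.Hit z → S.Box π z → |f z| ≤ g z) : |S.AV f x| ≤ S.AV g x := by
  refine abs_le.2 ⟨?_, AV_mono hS hπ hf hg hx fun z h0 h1 h2 => (abs_le.1 (h z h0 h1 h2)).2⟩
  have := AV_mono hS hπ (hg.cmul (-1)) hf hx fun z h0 h1 h2 => by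
    linarith [(abs_le.1 (h z h0 h1 h2)).1]
  rw [AV_cmul hS hπ hg (hS.reg x hx)] at this
  linarith

theorem AV_far (hS : S.Ok) (hf : S.Cl π k f) (hx : S.g x ≠ 0) (h : 3 * π.R < ‖x‖) :
    S.AV f x = 0 := by simp [AV, Ca.RS_far hS hf _ hx h]

/-! ### `II` -/

theorem II_int (hS : S.Ok) (hπ : π.Rg) (hf : S.Cl π k f) : Integrable (S.AV f) S.μ :=
  ca'.avi S π f hS hπ (hf.le k.zero_le)

theorem II_add (hS : S.Ok) (hπ : π.Rg) (hf : S.Cl π k f) (hg : S.Cl π j g) :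
    S.II (fun z => f z + g z) = S.II f + S.II g := by
  rw [II, II, II, ← integral_add (II_int hS hπ hf) (II_int hS hπ hg)]
  refine integral_congr_ae ?_
  filter_upwards [hS.sup] with x hx using AV_add hS hπ hf hg (hS.reg x hx)

theorem II_fst (hS : S.Ok) (hπ : π.Rg) (hf : S.Cl π k f) (c : E → ℝ) :
    S.II (fun z => c z.1 * f z) = ∫ x, c x * S.AV f x ∂S.μ := by
  refine integral_congr_ae ?_
  filter_upwards [hS.sup] with x hx using AV_fst hS hπ hf (hS.reg x hx) c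

theorem II_cmul (hS : S.Ok) (hπ : π.Rg) (hf : S.Cl π k f) (c : ℝ) :
    S.II (fun z => c * f z) = c * S.II f := by
  rw [II_fst hS hπ hf fun _ => c, integral_const_mul, II]

theorem II_neg (hS : S.Ok) (hπ : π.Rg) (hf : S.Cl π k f) : S.II (fun z => -f z) = -S.II f := by
  simpa using II_cmul hS hπ hf (-1)

theorem II_sub (hS : S.Ok) (hπ : π.Rg) (hf : S.Cl π k f) (hg : S.Cl π j g) :
    S.II (fun z => f z - g z) = S.II f - S.II g := by
  simp only [sub_eq_add_neg]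
  rw [II_add hS hπ hf hg.neg, II_neg hS hπ hg]

theorem II_zero (S : Sf) : S.II (fun _ => 0) = 0 := by simp [II, AV_zero]

theorem II_sum {ι : Type} {f : ι → Q → ℝ} {s : Finset ι} (hS : S.Ok) (hπ : π.Rg)
    (hf : ∀ i ∈ s, S.Cl π k (f i)) : S.II (fun z => ∑ i ∈ s, f i z) = ∑ i ∈ s, S.II (f i) := by
  classical
  induction s using Finset.induction_on with
  | empty => simpa using II_zero S
  | insert a s ha ih =>
    simp only [Finset.sum_insert ha]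
    rw [II_add hS hπ (hf a (by simp)) (Cl.sum fun i hi => hf i (by simp [hi])),
      ih fun i hi => hf i (by simp [hi])]

theorem II_mono_AV (hS : S.Ok) (hπ : π.Rg) (hf : S.Cl π k f) (hg : S.Cl π j g)
    (h : ∀ x, S.w x = 0 → S.AV f x ≤ S.AV g x) : S.II f ≤ S.II g := by
  refine integral_mono_ae (II_int hS hπ hf) (II_int hS hπ hg) ?_
  filter_upwards [hS.sup] with x hx using h x hx

theorem II_mono (hS : S.Ok) (hπ : π.Rg) (hf : S.Cl π k f) (hg : S.Cl π j g)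
    (h : ∀ z, S.Hit z → S.Box π z → f z ≤ g z) : S.II f ≤ S.II g :=
  II_mono_AV hS hπ hf hg fun _ hx => AV_mono hS hπ hf hg hx fun z _ => h z

theorem II_congr (hS : S.Ok) (hπ : π.Rg) (hf : S.Cl π k f) (hg : S.Cl π j g)
    (h : ∀ z, S.Hit z → S.Box π z → f z = g z) : S.II f = S.II g :=
  le_antisymm (II_mono hS hπ hf hg fun z h1 h2 => (h z h1 h2).le)
    (II_mono hS hπ hg hf fun z h1 h2 => (h z h1 h2).ge)

theorem II_nonneg (hS : S.Ok) (hπ : π.Rg) (hf : S.Cl π k f)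
    (h : ∀ z, S.Hit z → S.Box π z → 0 ≤ f z) : 0 ≤ S.II f := by
  simpa [II_zero] using II_mono hS hπ (Cl.zero (k := 0)) hf h

theorem II_eq_zero (hS : S.Ok) (h : ∀ x, S.w x = 0 → S.AV f x = 0) : S.II f = 0 := by
  refine integral_eq_zero_of_ae ?_
  filter_upwards [hS.sup] with x hx using h x hx

/-- comparison with a function on the big ball -/
theorem II_le_IB (hS : S.Ok) (hπ : π.Rg) (hf : S.Cl π k f) {F : E → ℝ} (hF : S.Cg F)
    (h : ∀ x, S.w x = 0 → ‖x‖ ≤ 3 * π.R → S.AV f x ≤ F x) : S.II f ≤ S.IB π F := by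
  rw [IB, ← integral_indicator measurableSet_ball]
  refine integral_mono_ae (II_int hS hπ hf)
    ((integrable_indicator_iff measurableSet_ball).2 (hF.intOn hS isBounded_ball)) ?_
  filter_upwards [hS.sup] with x hx
  rcases le_or_gt ‖x‖ (3 * π.R) with h1 | h1
  · rw [indicator_of_mem (mem_ball_zero_iff.2 (by linarith))]; exact h x hx h1
  · rw [AV_far hS hf (hS.reg x hx) h1]
    by_cases h2 : x ∈ ball (0 : E) (3 * π.R + 3)
    · rw [indicator_of_mem h2]; exact (hF x (hS.reg x hx)).2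
    · rw [indicator_of_notMem h2]

/-- the sum of the translations -/
theorem II_div (hB : BYD) (hS : S.Ok) (hπ : π.Rg) {f : Fin 3 → Q → ℝ} (hf : ∀ i, S.Cl π 1 (f i)) :
    S.II (fun z => ∑ i, S.D (ee i) (f i) z) = 0 := by
  rw [II_sum (k := 0) hS hπ fun i _ => (hf i).D hS (ee i)]
  exact Finset.sum_eq_zero fun i _ => hB S π (f i) (ee i) hS hπ (hf i)

/-! ### the named integrals -/

section named

variable {η : E → ℝ} {th : ℝ → ℝ} (hS : S.Ok) (hπ : π.Rg) (hη : ContDiff ℝ ∞ η)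
  (ht : ContDiff ℝ ∞ th)
include hS hπ hη ht

theorem cl_zeG {G : ℝ → ℝ} (hG : ContDiff ℝ k G) (h0 : ∀ t, 1 ≤ t → G t = 0) :
    S.Cl π k fun z => S.ze π η th z * G (S.tt π z) :=
  (cl_WtG hS hπ hG h0).of_zero
    (fun z hz => (O.ze hS hπ hz hη ht).mul (hG.contDiffAt.comp z (O.tt hS hz))) fun z h => by
      rw [ze, mul_right_comm, h, zero_mul]

theorem cl_S1 : S.Cl π 0 fun z => S.ze π η th z * (S.tt π z * -G1 (S.tt π z)) / 2 :=
  (cl_zeG hS hπ hη ht (G := fun t => t * -G1 t) (contDiff_id.mul (G1_cd (by omega)).neg)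
    fun _ h => by simp [G1_zero h]).div_const 2

theorem cl_S2 : S.Cl π 0 fun z =>
    S.ze π η th z * G2 (S.tt π z) * ⟪S.P z.1 (S.gt π z), S.gt π z⟫ :=
  (cl_zeG hS hπ hη ht (G2_cd (by omega)) fun _ => G2_zero).mul fun _ hz =>
    ((O.P1 hS hz).clm_apply (O.gt hS hz)).inner ℝ (O.gt hS hz)

theorem cl_Bb : S.Cl π 0 fun z => S.ze π η th z * (S.tt π z * G1 (S.tt π z)) ^ 2 * hs (S.Z z) :=
  (cl_zeG hS hπ hη ht (G := fun t => (t * G1 t) ^ 2) ((contDiff_id.mul (G1_cd (by omega))).pow 2)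
    fun _ h => by simp [G1_zero h]).mul fun z hz => hs_cd.contDiffAt.comp z (O.Z hS hz)

theorem S1_nonneg : 0 ≤ S.S1 π η th := II_nonneg hS hπ (cl_S1 hS hπ hη ht) fun z h _ =>
  div_nonneg (mul_nonneg (ze_nonneg S π η th z) (mul_nonneg (tt_nonneg hπ h.2.2.1.le)
    (neg_nonneg.2 (G1_nonpos _)))) two_pos.le

theorem S2_nonneg : 0 ≤ S.S2 π η th := II_nonneg hS hπ (cl_S2 hS hπ hη ht) fun z h _ =>
  mul_nonneg (mul_nonneg (ze_nonneg S π η th z) (G2_nonneg _)) (inner_P_nonneg (h.g1 hS) _)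

theorem Bb_nonneg : 0 ≤ S.Bb π η th := II_nonneg hS hπ (cl_Bb hS hπ hη ht) fun z _ _ =>
  mul_nonneg (mul_nonneg (ze_nonneg S π η th z) (sq_nonneg _)) (hs_nonneg _)

omit hη ht

theorem cl_Sg : S.Cl π 0 fun z => S.Wt π z * G2 (S.tt π z) * ‖S.gt π z‖ ^ 2 :=
  (cl_WtG hS hπ (G2_cd (by omega)) fun _ => G2_zero).mul fun _ hz => (O.gt hS hz).norm_sq ℝ

theorem Sg_nonneg : 0 ≤ S.Sg π := II_nonneg hS hπ (cl_Sg hS hπ) fun z _ _ =>
  mul_nonneg (mul_nonneg (Wt_nonneg S π z) (G2_nonneg _)) (sq_nonneg _)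

theorem cl_Mm : S.Cl π 0 (S.Mm π) :=
  ((cl_WtG hS hπ (G1_cd (by omega)) fun _ => G1_zero).mul
    fun _ hz => (O.kk hS hz).div_const _).mul fun _ hz => (O.vs2 hS hz).sub (O.vs1 hS hz)

theorem FF_nonneg : 0 ≤ S.FF π := II_nonneg hS hπ (cl_Psi (k := 0) hS hπ (by omega)) fun z _ _ =>
  mul_nonneg (Wt_nonneg S π z) (G0_nonneg _)

theorem O.rpow (hz : z ∈ S.O) (κ : ℝ) : ContDiffAt ℝ k (fun z => (1 + S.tt π z) ^ (-κ)) z :=
  (contDiffAt_const.add (O.tt hS hz)).rpow_const_of_ne (by linarith [O.tt_pos hz hπ])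

theorem cl_z0 (κ : ℝ) : S.Cl π k fun z => S.za π z * (1 + S.tt π z) ^ (-κ) :=
  (cl_za hS hπ).mul fun _ hz => O.rpow hS hπ hz κ

theorem cl_Tb (κ : ℝ) {gb : ℝ → ℝ} (hgb : ContDiff ℝ ∞ gb) : S.Cl π 0 fun z =>
    (S.za π z * (1 + S.tt π z) ^ (-κ)) ^ 2 * gb (S.sq z) * hs (S.Z z) :=
  ((cl_z0 hS hπ κ).sq.mul fun _ hz => cd_sm hgb (O.sq hS hz)).mul
    fun z hz => hs_cd.contDiffAt.comp z (O.Z hS hz)

theorem cl_En {ch : ℝ → ℝ} (hch : Continuous ch) :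
    S.Cl π 0 fun z => ch (S.sq z) * ‖S.DG (S.za π) z‖ ^ 2 :=
  ((cl_za hS hπ).DG_sq hS).mul' fun _ hz => cd_cont0 hch (O.sq hS hz)

theorem cl_uu (σ : ℝ) :
    S.Cl π k fun z => π.pt z.1 ^ 2 * hv σ (S.cc z.1 z.2.1) * S.o0 π z ^ 2 * Gb (S.tt π z) := by
  refine Cl.of_box (fun z hz => ?_) fun z h => ?_
  · exact (((cd_sm π.pt_smooth cd1).pow 2).mul ((hv_cd σ).contDiffAt.comp z (O.cc1 hS hz))).mul
      ((O.o0 hS hπ hz).pow 2) |>.mul (cd_sm Gb_smooth (O.tt hS hz))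
  · simp only [mul_ne_zero_iff, ne_eq, OfNat.ofNat_ne_zero, not_false_eq_true, pow_eq_zero_iff] at h
    obtain ⟨h1, h2, -, h4⟩ := o0_ne hπ h.1.2
    have h5 : 1 / 2 ≤ S.cs1 z := by linarith [hπ.α2.2]
    have h6 := d_le_of_tt hπ h5 (by linarith [lt_of_Gb_ne h.2])
    exact ⟨by linarith [hπ.pt_ne h.1.1.1, hπ.R0], h4.le, by linarith [hπ.ε1], h5,
      by linarith [hπ.η2.2]⟩

end named

/-! ### rules for derivatives along a vector -/

section rules

variable {V : Type} [NormedAddCommGroup V] [NormedSpace ℝ V] (v : Q)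

theorem fd_mul (hf : DifferentiableAt ℝ f z) (hg : DifferentiableAt ℝ g z) :
    fderiv ℝ (fun z => f z * g z) z v = fderiv ℝ f z v * g z + f z * fderiv ℝ g z v := by
  rw [fderiv_fun_mul hf hg]; simp; ring

theorem fd_comp {φ : ℝ → ℝ} {a : ℝ} (hφ : HasDerivAt φ a (f z)) (hf : DifferentiableAt ℝ f z) :
    fderiv ℝ (fun z => φ (f z)) z v = a * fderiv ℝ f z v := by
  have h : HasFDerivAt (fun z => φ (f z)) _ z := hφ.comp_hasFDerivAt z hf.hasFDerivAt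
  rw [h.fderiv]; simp

theorem fd_inner {a b : Q → E} (ha : DifferentiableAt ℝ a z) (hb : DifferentiableAt ℝ b z) :
    fderiv ℝ (fun z => ⟪a z, b z⟫) z v = ⟪fderiv ℝ a z v, b z⟫ + ⟪a z, fderiv ℝ b z v⟫ := by
  rw [fderiv_inner_apply ℝ ha hb, add_comm]

theorem fd_smul {a : Q → V} (hf : DifferentiableAt ℝ f z) (ha : DifferentiableAt ℝ a z) :
    fderiv ℝ (fun z => f z • a z) z v = fderiv ℝ f z v • a z + f z • fderiv ℝ a z v := by
  rw [fderiv_fun_smul hf ha]; simp [add_comm]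

theorem fd_coord {a : Q → E} (ha : DifferentiableAt ℝ a z) (i : Fin 3) :
    fderiv ℝ (fun z => a z i) z v = fderiv ℝ a z v i := by
  have h : HasFDerivAt (fun z => a z i) _ z :=
    (EuclideanSpace.proj i : E →L[ℝ] ℝ).hasFDerivAt.comp z ha.hasFDerivAt
  rw [h.fderiv]; rfl

theorem fd_app {L : Q → E →L[ℝ] E} {a : Q → E} (hL : DifferentiableAt ℝ L z)
    (ha : DifferentiableAt ℝ a z) :
    fderiv ℝ (fun z => L z (a z)) z v = fderiv ℝ L z v (a z) + L z (fderiv ℝ a z v) := by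
  rw [fderiv_clm_apply hL ha]; simp [add_comm]

end rules

section DR

variable {V : Type} [NormedAddCommGroup V] [NormedSpace ℝ V] (e τ ν : E)

theorem D_const (c : V) : S.D e (fun _ => c) z = 0 := by simp [D]
theorem R_const (c : V) : S.R τ ν (fun _ => c) z = 0 := by simp [R]
theorem D_congr {a b : Q → V} (h : a =ᶠ[𝓝 z] b) : S.D e a z = S.D e b z := by rw [D, D, h.fderiv_eq]
theorem R_congr {a b : Q → V} (h : a =ᶠ[𝓝 z] b) : S.R τ ν a z = S.R τ ν b z := by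
  rw [R, R, h.fderiv_eq]
theorem D_add {a b : Q → V} (ha : DifferentiableAt ℝ a z) (hb : DifferentiableAt ℝ b z) :
    S.D e (fun z => a z + b z) z = S.D e a z + S.D e b z := by simp [D, fderiv_fun_add ha hb]
theorem R_add {a b : Q → V} (ha : DifferentiableAt ℝ a z) (hb : DifferentiableAt ℝ b z) :
    S.R τ ν (fun z => a z + b z) z = S.R τ ν a z + S.R τ ν b z := by simp [R, fderiv_fun_add ha hb]
theorem D_sub {a b : Q → V} (ha : DifferentiableAt ℝ a z) (hb : DifferentiableAt ℝ b z) :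
    S.D e (fun z => a z - b z) z = S.D e a z - S.D e b z := by simp [D, fderiv_fun_sub ha hb]
theorem R_sub {a b : Q → V} (ha : DifferentiableAt ℝ a z) (hb : DifferentiableAt ℝ b z) :
    S.R τ ν (fun z => a z - b z) z = S.R τ ν a z - S.R τ ν b z := by simp [R, fderiv_fun_sub ha hb]
theorem D_neg {a : Q → V} : S.D e (fun z => -a z) z = -S.D e a z := by simp [D, fderiv_fun_neg]
theorem R_neg {a : Q → V} : S.R τ ν (fun z => -a z) z = -S.R τ ν a z := by simp [R, fderiv_fun_neg]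
theorem D_mul (hf : DifferentiableAt ℝ f z) (hg : DifferentiableAt ℝ g z) :
    S.D e (fun z => f z * g z) z = S.D e f z * g z + f z * S.D e g z := fd_mul _ hf hg
theorem R_mul (hf : DifferentiableAt ℝ f z) (hg : DifferentiableAt ℝ g z) :
    S.R τ ν (fun z => f z * g z) z = S.R τ ν f z * g z + f z * S.R τ ν g z := fd_mul _ hf hg
theorem D_cmul (hf : DifferentiableAt ℝ f z) (c : ℝ) :
    S.D e (fun z => c * f z) z = c * S.D e f z := by
  rw [D_mul e (differentiableAt_const c) hf, D_const]; ring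
theorem R_cmul (hf : DifferentiableAt ℝ f z) (c : ℝ) :
    S.R τ ν (fun z => c * f z) z = c * S.R τ ν f z := by
  rw [R_mul τ ν (differentiableAt_const c) hf, R_const]; ring
theorem D_comp {φ : ℝ → ℝ} {a : ℝ} (hφ : HasDerivAt φ a (f z)) (hf : DifferentiableAt ℝ f z) :
    S.D e (fun z => φ (f z)) z = a * S.D e f z := fd_comp _ hφ hf
theorem R_comp {φ : ℝ → ℝ} {a : ℝ} (hφ : HasDerivAt φ a (f z)) (hf : DifferentiableAt ℝ f z) :
    S.R τ ν (fun z => φ (f z)) z = a * S.R τ ν f z := fd_comp _ hφ hf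
theorem D_sm {φ : ℝ → ℝ} (hφ : ContDiff ℝ ∞ φ) (hf : DifferentiableAt ℝ f z) :
    S.D e (fun z => φ (f z)) z = deriv φ (f z) * S.D e f z :=
  D_comp e (hφ.differentiable (by simp) _).hasDerivAt hf
theorem R_sm {φ : ℝ → ℝ} (hφ : ContDiff ℝ ∞ φ) (hf : DifferentiableAt ℝ f z) :
    S.R τ ν (fun z => φ (f z)) z = deriv φ (f z) * S.R τ ν f z :=
  R_comp τ ν (hφ.differentiable (by simp) _).hasDerivAt hf
theorem D_sq (hf : DifferentiableAt ℝ f z) : S.D e (fun z => f z ^ 2) z = 2 * f z * S.D e f z := by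
  simpa using D_comp (S := S) e (hasDerivAt_pow 2 (f z)) hf
theorem R_sq (hf : DifferentiableAt ℝ f z) :
    S.R τ ν (fun z => f z ^ 2) z = 2 * f z * S.R τ ν f z := by
  simpa using R_comp (S := S) τ ν (hasDerivAt_pow 2 (f z)) hf
theorem D_inner {a b : Q → E} (ha : DifferentiableAt ℝ a z) (hb : DifferentiableAt ℝ b z) :
    S.D e (fun z => ⟪a z, b z⟫) z = ⟪S.D e a z, b z⟫ + ⟪a z, S.D e b z⟫ := fd_inner _ ha hb
theorem R_inner {a b : Q → E} (ha : DifferentiableAt ℝ a z) (hb : DifferentiableAt ℝ b z) :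
    S.R τ ν (fun z => ⟪a z, b z⟫) z = ⟪S.R τ ν a z, b z⟫ + ⟪a z, S.R τ ν b z⟫ := fd_inner _ ha hb
theorem D_smul {a : Q → V} (hf : DifferentiableAt ℝ f z) (ha : DifferentiableAt ℝ a z) :
    S.D e (fun z => f z • a z) z = S.D e f z • a z + f z • S.D e a z := fd_smul _ hf ha
theorem R_smul {a : Q → V} (hf : DifferentiableAt ℝ f z) (ha : DifferentiableAt ℝ a z) :
    S.R τ ν (fun z => f z • a z) z = S.R τ ν f z • a z + f z • S.R τ ν a z := fd_smul _ hf ha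
theorem D_coord {a : Q → E} (ha : DifferentiableAt ℝ a z) (i : Fin 3) :
    S.D e (fun z => a z i) z = S.D e a z i := fd_coord _ ha i
theorem D_app {L : Q → E →L[ℝ] E} {a : Q → E} (hL : DifferentiableAt ℝ L z)
    (ha : DifferentiableAt ℝ a z) :
    S.D e (fun z => L z (a z)) z = S.D e L z (a z) + L z (S.D e a z) := fd_app _ hL ha

/-- `D e f z` is linear in `e` -/
def DL (S : Sf) (z : Q) : E →L[ℝ] Q :=
  (S.Pi z.1 z.2.1).prod ((0 : E →L[ℝ] E).prod (innerSL ℝ (S.Pv z)))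

theorem D_eq {a : Q → V} : S.D e a z = (fderiv ℝ a z ∘L S.DL z) e := rfl

theorem D_sum_ee {a : Q → V} : S.D e a z = ∑ i, e i • S.D (ee i) a z := by
  simp only [D_eq]; exact map_eq_sum _ e

theorem DG_inner (f : Q → ℝ) : ⟪S.DG f z, e⟫ = S.D e f z := by
  rw [DG, inner_sum_ee, D_sum_ee e]; simp [mul_comm]

theorem DG_coord (f : Q → ℝ) (i : Fin 3) : S.DG f z i = S.D (ee i) f z := sum_smul_ee_apply _ i

theorem DG_eq {a : E} (h : ∀ e, S.D e f z = ⟪a, e⟫) : S.DG f z = a :=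
  ext_inner_right ℝ fun e => by rw [DG_inner, h]

theorem norm_DG_le {c : ℝ} (h : ∀ e, S.D e f z ^ 2 ≤ c * ‖e‖ ^ 2) (hc : 0 ≤ c) :
    ‖S.DG f z‖ ^ 2 ≤ c := by
  have h1 := h (S.DG f z)
  rw [← DG_inner, real_inner_self_eq_norm_sq] at h1
  by_cases h0 : ‖S.DG f z‖ ^ 2 = 0
  · rw [h0]; exact hc
  · exact le_of_mul_le_mul_right (by nlinarith) (lt_of_le_of_ne (sq_nonneg _) (Ne.symm h0))

theorem D_sq_le (f : Q → ℝ) : S.D e f z ^ 2 ≤ ‖S.DG f z‖ ^ 2 * ‖e‖ ^ 2 := by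
  rw [← DG_inner]; exact inner_sq_le _ _

theorem DG_mul (hf : DifferentiableAt ℝ f z) (hg : DifferentiableAt ℝ g z) :
    S.DG (fun z => f z * g z) z = g z • S.DG f z + f z • S.DG g z := DG_eq fun e => by
  rw [D_mul e hf hg, inner_add_left, real_inner_smul_left, real_inner_smul_left, DG_inner,
    DG_inner]; ring

theorem DG_comp {φ : ℝ → ℝ} {a : ℝ} (hφ : HasDerivAt φ a (f z)) (hf : DifferentiableAt ℝ f z) :
    S.DG (fun z => φ (f z)) z = a • S.DG f z := DG_eq fun e => by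
  rw [D_comp e hφ hf, real_inner_smul_left, DG_inner]

theorem DG_sm {φ : ℝ → ℝ} (hφ : ContDiff ℝ ∞ φ) (hf : DifferentiableAt ℝ f z) :
    S.DG (fun z => φ (f z)) z = deriv φ (f z) • S.DG f z :=
  DG_comp (hφ.differentiable (by simp) _).hasDerivAt hf

theorem DG_sq (hf : DifferentiableAt ℝ f z) :
    S.DG (fun z => f z ^ 2) z = (2 * f z) • S.DG f z := DG_eq fun e => by
  rw [D_sq e hf, real_inner_smul_left, DG_inner]

/-- the product rule for the divergence -/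
theorem div_smul {a : Q → E} (hf : DifferentiableAt ℝ f z) (ha : DifferentiableAt ℝ a z) :
    ∑ i, S.D (ee i) (fun z => f z * a z i) z =
      ⟪S.DG f z, a z⟫ + f z * ∑ i, S.D (ee i) (fun z => a z i) z := by
  have h : ∀ i, DifferentiableAt ℝ (fun z => a z i) z := fun i =>
    (EuclideanSpace.proj i : E →L[ℝ] ℝ).differentiableAt.comp z ha
  simp only [fun i => D_mul (S := S) (ee i) hf (h i), Finset.sum_add_distrib, Finset.mul_sum,
    inner_eq_sum, DG_coord]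

theorem div_eq_trc {a : Q → E} {L : E →L[ℝ] E} (ha : DifferentiableAt ℝ a z)
    (h : ∀ e, S.D e a z = L e) : ∑ i, S.D (ee i) (fun z => a z i) z = trc L := by
  simp only [D_coord _ ha, h, trc]

end DR

end Sf

/-- from `C¹` to differentiable -/
theorem dif {V W : Type} [NormedAddCommGroup V] [NormedSpace ℝ V] [NormedAddCommGroup W]
    [NormedSpace ℝ W] {f : V → W} {z : V} (h : ContDiffAt ℝ (1 : ℕ) f z) : DifferentiableAt ℝ f z :=
  h.differentiableAt (by simp)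

end Vale.Agent.P218M1
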