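import Vale.Agent.P218M1.Spec

/-!
# P218M1: the row CON, integrals over cones, shells and cylinders
-/

open MeasureTheory Metric Filter Topology Set
open scoped ContDiff RealInnerProductSpace ENNReal

noncomputable section

namespace Vale.Agent.P218M1

namespace ConA

theorem ct0 (s : ℝ) : 0 ≤ ct s := Real.smoothTransition.nonneg _

theorem ct1 (s : ℝ) : ct s ≤ 1 := Real.smoothTransition.le_one _

theorem cte {s : ℝ} (h : s ≤ 1) : ct s = 1 :=
  Real.smoothTransition.one_of_one_le (by linarith)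

theorem ctz {s : ℝ} (h : 2 ≤ s) : ct s = 0 :=
  Real.smoothTransition.zero_of_nonpos (by linarith)

theorem ctp {s : ℝ} (h : s < 2) : 0 < ct s :=
  Real.smoothTransition.pos_of_pos (by linarith)

theorem ctl {s : ℝ} (h : 1 < s) : ct s < 1 :=
  Real.smoothTransition.lt_one_of_lt_one (by linarith)

theorem ctm {s t : ℝ} (h : s ≤ t) : ct t ≤ ct s :=
  Real.smoothTransition.monotone (by linarith)

theorem ctc : Continuous ct :=
  Real.smoothTransition.continuous.comp (continuous_const.sub continuous_id)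

theorem gam0 (u : E) : 0 ≤ gam u := mul_nonneg (ct0 _) (by linarith [ct1 (‖u‖ ^ 2)])

theorem gam1 (u : E) : gam u ≤ 1 := by
  unfold gam
  nlinarith [ct0 (‖u‖ ^ 2 / 2), ct1 (‖u‖ ^ 2 / 2), ct0 (‖u‖ ^ 2), ct1 (‖u‖ ^ 2)]

theorem gamc : Continuous gam := by
  unfold gam
  have := ctc
  fun_prop

theorem gam_ne {u : E} (h : gam u ≠ 0) : 1 < ‖u‖ ∧ ‖u‖ < 2 := by
  have h0 := norm_nonneg u
  constructor
  · by_contra hc
    push Not at hc
    exact h (by unfold gam; rw [cte (s := ‖u‖ ^ 2) (by nlinarith)]; ring)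
  · by_contra hc
    push Not at hc
    exact h (by unfold gam; rw [ctz (s := ‖u‖ ^ 2 / 2) (by nlinarith)]; ring)

theorem gami : Integrable gam := by
  refine gamc.integrable_of_hasCompactSupport ?_
  refine HasCompactSupport.intro (isCompact_closedBall (0 : E) 2) fun u hu => ?_
  by_contra h
  exact hu (by simpa using (gam_ne h).2.le)

/-- the lower bound of the radial weight on a shell -/
def c0 : ℝ := ct (361 / 200) * (1 - ct (121 / 100))

theorem c0p : 0 < c0 :=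
  mul_pos (ctp (by norm_num)) (by linarith [ctl (s := 121 / 100) (by norm_num)])

theorem gam_lo {u : E} (h1 : 11 / 10 ≤ ‖u‖) (h2 : ‖u‖ ≤ 19 / 10) : c0 ≤ gam u := by
  unfold c0 gam
  have a : ct (361 / 200) ≤ ct (‖u‖ ^ 2 / 2) := ctm (by nlinarith)
  have b : ct (‖u‖ ^ 2) ≤ ct (121 / 100) := ctm (by nlinarith)
  exact mul_le_mul a (by linarith) (by linarith [ct1 (121 / 100)]) (ct0 _)

theorem unm : Measurable un := by
  unfold un
  exact (measurable_norm.inv).smul measurable_id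

theorem un_norm (u : E) : ‖un u‖ ≤ 1 := by
  unfold un
  rw [norm_smul, norm_inv, norm_norm]
  exact inv_mul_le_one_of_le₀ le_rfl (norm_nonneg _)

theorem inn_le {n : E} (hn : ‖n‖ = 1) (u : E) : |⟪n, un u⟫| ≤ 1 := by
  have := abs_real_inner_le_norm n (un u)
  rw [hn, one_mul] at this
  exact this.trans (un_norm u)

theorem un_smul {l : ℝ} (hl : 0 < l) (u : E) : un (l • u) = un u := by
  unfold un
  rw [norm_smul, Real.norm_eq_abs, abs_of_pos hl, smul_smul, mul_inv, mul_right_comm,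
    inv_mul_cancel₀ hl.ne', one_mul]

theorem ee_norm (i : Fin 3) : ‖ee i‖ = 1 := by simp [ee]

theorem ee_inner (i : Fin 3) (u : E) : ⟪ee i, u⟫ = u i := by
  simp [ee, EuclideanSpace.inner_single_left]

theorem exT {n : E} (hn : ‖n‖ = 1) : ∃ T : E ≃ₗᵢ[ℝ] E, T (ee 0) = n :=
  ⟨_, Submodule.reflection_sub (by rw [hn, ee_norm])⟩

theorem comp_T (T : E ≃ₗᵢ[ℝ] E) (f : E → ℝ) : ∫ u, f (T u) = ∫ u, f u :=
  T.measurePreserving.integral_comp T.toHomeomorph.measurableEmbedding f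

/-- rotation invariance -/
theorem rinv {n : E} (hn : ‖n‖ = 1) (Φ : ℝ → ℝ) :
    ∫ u, gam u * Φ ⟪n, un u⟫ = ∫ u, gam u * Φ ⟪ee 0, un u⟫ := by
  obtain ⟨T, hT⟩ := exT hn
  rw [← comp_T T]
  refine integral_congr_ae (Eventually.of_forall fun u => ?_)
  have h1 : gam (T u) = gam u := by simp [gam]
  have h2 : un (T u) = T (un u) := by simp [un]
  simp only [h1, h2, ← hT, T.inner_map_map]

theorem gint {n : E} (hn : ‖n‖ = 1) {Φ : ℝ → ℝ} (hΦ : Measurable Φ)
    (hb : ∀ c, |c| ≤ 1 → |Φ c| ≤ 1) : Integrable fun u => gam u * Φ ⟪n, un u⟫ := by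
  refine gami.mul_bdd (c := 1) ?_ (Eventually.of_forall fun u => hb _ (inn_le hn u))
  exact (hΦ.comp (measurable_const.inner unm)).aestronglyMeasurable

theorem nsq (u : E) : ‖u‖ ^ 2 = u 0 ^ 2 + u 1 ^ 2 + u 2 ^ 2 := by
  rw [EuclideanSpace.real_norm_sq_eq, Fin.sum_univ_three]

theorem sin_sq {u : E} (hu : 0 < ‖u‖) :
    (1 - ⟪ee 0, un u⟫ ^ 2) * ‖u‖ ^ 2 = u 1 ^ 2 + u 2 ^ 2 := by
  rw [ee_inner]
  have : un u 0 = ‖u‖⁻¹ * u 0 := by simp [un]
  rw [this]
  have h := nsq u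
  field_simp
  linarith

/-- boxes -/
def box (a b : Fin 3 → ℝ) : Set E := WithLp.ofLp ⁻¹' Icc a b

theorem box_m (a b : Fin 3 → ℝ) : MeasurableSet (box a b) :=
  (PiLp.volume_preserving_ofLp (Fin 3)).measurable measurableSet_Icc

theorem box_v (a b : Fin 3 → ℝ) : volume (box a b) = volume (Icc a b) :=
  (PiLp.volume_preserving_ofLp (Fin 3)).measure_preimage measurableSet_Icc.nullMeasurableSet

theorem box_i (a b : Fin 3 → ℝ) (c : ℝ) : Integrable (indicator (box a b) fun _ => c) := by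
  refine (integrable_indicator_iff (box_m a b)).2 (integrableOn_const ?_)
  rw [box_v]
  exact isCompact_Icc.measure_lt_top.ne

theorem box_int {a b : Fin 3 → ℝ} (h : a ≤ b) (c : ℝ) :
    ∫ u, indicator (box a b) (fun _ => c) u = (b 0 - a 0) * (b 1 - a 1) * (b 2 - a 2) * c := by
  rw [integral_indicator (box_m a b), setIntegral_const, measureReal_def, box_v,
    Real.volume_Icc_pi_toReal h, Fin.prod_univ_three, smul_eq_mul]

theorem mem_box {a b : Fin 3 → ℝ} {u : E} : u ∈ box a b ↔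
    (a 0 ≤ u 0 ∧ a 1 ≤ u 1 ∧ a 2 ≤ u 2) ∧ (u 0 ≤ b 0 ∧ u 1 ≤ b 1 ∧ u 2 ≤ b 2) := by
  simp only [box, mem_preimage, mem_Icc, Pi.le_def, Fin.forall_fin_succ, IsEmpty.forall_iff,
    and_true]
  rfl

/-- the indicator of the cone as a function of the cosine -/
def ind (β c : ℝ) : ℝ := if 1 - c ^ 2 ≤ β ^ 2 then 1 else 0

theorem ind_eq (n : E) (β : ℝ) (u : E) :
    indicator {u | 1 - ⟪n, un u⟫ ^ 2 ≤ β ^ 2} (1 : E → ℝ) u = ind β ⟪n, un u⟫ := by
  simp only [indicator, ind, mem_ofPred_eq, Pi.one_apply]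

theorem ind_m (β : ℝ) : Measurable (ind β) := by
  unfold ind
  refine Measurable.ite ?_ measurable_const measurable_const
  exact measurableSet_le (by fun_prop) measurable_const

theorem ind0 (β c : ℝ) : 0 ≤ ind β c := by unfold ind; split_ifs <;> norm_num

theorem ind1 (β c : ℝ) : ind β c ≤ 1 := by unfold ind; split_ifs <;> norm_num

theorem ind_i {n : E} (hn : ‖n‖ = 1) (β : ℝ) : Integrable fun u => gam u * ind β ⟪n, un u⟫ :=
  gint hn (ind_m β) fun c _ => abs_le.2 ⟨by linarith [ind0 β c], ind1 β c⟩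

theorem up0 (β : ℝ) : ∫ u, gam u * ind β ⟪ee 0, un u⟫ ≤ 64 * β ^ 2 := by
  have hb := abs_nonneg β
  have hle : (![-2, -(2 * |β|), -(2 * |β|)] : Fin 3 → ℝ) ≤ ![2, 2 * |β|, 2 * |β|] := by
    intro i
    fin_cases i <;> simp
  have h := box_int hle 1
  have e : 64 * β ^ 2 = ∫ u, indicator (box ![-2, -(2 * |β|), -(2 * |β|)] ![2, 2 * |β|, 2 * |β|])
      (fun _ => (1 : ℝ)) u := by
    rw [h]
    simp only [Matrix.cons_val_zero, Matrix.cons_val_one, Matrix.cons_val]
    rw [← sq_abs β]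
    ring
  rw [e]
  refine integral_mono (ind_i (ee_norm 0) β) (box_i _ _ _) fun u => ?_
  by_cases hg : gam u = 0
  · simp only [hg, zero_mul]
    exact indicator_nonneg (fun _ _ => zero_le_one) _
  by_cases hi : 1 - ⟪ee 0, un u⟫ ^ 2 ≤ β ^ 2
  · obtain ⟨g1, g2⟩ := gam_ne hg
    have hs := sin_sq (u := u) (by linarith)
    have hn := nsq u
    have h4 : ‖u‖ ^ 2 ≤ 4 := by nlinarith
    have h5 : u 1 ^ 2 + u 2 ^ 2 ≤ (2 * |β|) ^ 2 := by
      rw [← hs, mul_pow, sq_abs]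
      calc _ ≤ β ^ 2 * ‖u‖ ^ 2 := by gcongr
        _ ≤ β ^ 2 * 4 := by gcongr
        _ = _ := by ring
    have a0 := abs_le_of_sq_le_sq' (a := u 0) (b := 2) (by nlinarith) (by norm_num)
    have a1 := abs_le_of_sq_le_sq' (a := u 1) (b := 2 * |β|) (by nlinarith) (by positivity)
    have a2 := abs_le_of_sq_le_sq' (a := u 2) (b := 2 * |β|) (by nlinarith) (by positivity)
    have hm : u ∈ box ![-2, -(2 * |β|), -(2 * |β|)] ![2, 2 * |β|, 2 * |β|] := by
      rw [mem_box]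
      simp only [Matrix.cons_val_zero, Matrix.cons_val_one, Matrix.cons_val]
      exact ⟨⟨a0.1, a1.1, a2.1⟩, a0.2, a1.2, a2.2⟩
    simp only [indicator_of_mem hm]
    nlinarith [gam0 u, gam1 u, ind0 β ⟪ee 0, un u⟫, ind1 β ⟪ee 0, un u⟫]
  · simp only [ind, hi, if_false, mul_zero]
    exact indicator_nonneg (fun _ _ => zero_le_one) _

theorem lo0 {β : ℝ} (h0 : 0 ≤ β) (h1 : β ≤ 1) :
    c0 / 10 * β ^ 2 ≤ ∫ u, gam u * ind β ⟪ee 0, un u⟫ := by
  have hle : (![13 / 10, -(β / 2), -(β / 2)] : Fin 3 → ℝ) ≤ ![14 / 10, β / 2, β / 2] := by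
    intro i
    fin_cases i <;> simp <;> linarith
  have h := box_int hle c0
  have e : c0 / 10 * β ^ 2 = ∫ u, indicator (box ![13 / 10, -(β / 2), -(β / 2)]
      ![14 / 10, β / 2, β / 2]) (fun _ => c0) u := by
    rw [h]
    simp only [Matrix.cons_val_zero, Matrix.cons_val_one, Matrix.cons_val]
    ring
  rw [e]
  refine integral_mono (box_i _ _ _) (ind_i (ee_norm 0) β) fun u => ?_
  by_cases hm : u ∈ box ![13 / 10, -(β / 2), -(β / 2)] ![14 / 10, β / 2, β / 2]
  · simp only [indicator_of_mem hm]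
    rw [mem_box] at hm
    simp only [Matrix.cons_val_zero, Matrix.cons_val_one, Matrix.cons_val] at hm
    obtain ⟨⟨a0, a1, a2⟩, b0, b1, b2⟩ := hm
    have hn := nsq u
    have hp := norm_nonneg u
    have s1 : u 1 ^ 2 ≤ β ^ 2 / 4 := by nlinarith
    have s2 : u 2 ^ 2 ≤ β ^ 2 / 4 := by nlinarith
    have sb : β ^ 2 ≤ 1 := by nlinarith
    have n1 : 11 / 10 ≤ ‖u‖ := by
      refine le_of_sq_le_sq ?_ hp
      nlinarith [sq_nonneg (u 1), sq_nonneg (u 2)]
    have n2 : ‖u‖ ≤ 19 / 10 := by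
      refine le_of_sq_le_sq ?_ (by norm_num)
      nlinarith
    have hs := sin_sq (u := u) (by linarith)
    have hi : 1 - ⟪ee 0, un u⟫ ^ 2 ≤ β ^ 2 := by
      have q : 1 ≤ ‖u‖ ^ 2 := by nlinarith
      by_contra hc
      push Not at hc
      nlinarith [sq_nonneg β]
    simp only [ind, hi, if_true, mul_one]
    exact gam_lo n1 n2
  · simp only [indicator_of_notMem hm]
    exact mul_nonneg (gam0 u) (ind0 _ _)

theorem B0c (π : Par) : Continuous π.B0 := by
  unfold Par.B0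
  have := ctc
  fun_prop

theorem B00 (π : Par) (c : ℝ) : 0 ≤ π.B0 c := ct0 _

theorem B01 (π : Par) (c : ℝ) : π.B0 c ≤ 1 := ct1 _

theorem B0sq (π : Par) (c : ℝ) : π.B0 c ^ 2 ≤ 1 := by nlinarith [B00 π c, B01 π c]

theorem B0z (π : Par) (h : π.Rg) {c : ℝ} (hc : π.α ^ 2 ≤ 1 - c) : π.B0 c = 0 := by
  have := h.α0
  refine ctz ?_
  rw [le_div_iff₀ (by positivity)]
  linarith

theorem B0e (π : Par) (h : π.Rg) {c : ℝ} (hc : 1 - c ≤ π.α ^ 2 / 2) : π.B0 c = 1 := by
  have := h.α0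
  refine cte ?_
  rw [div_le_iff₀ (by positivity)]
  linarith

theorem mmi (π : Par) {n : E} (hn : ‖n‖ = 1) :
    Integrable fun u => gam u * (|⟪n, un u⟫| * π.B0 (⟪n, un u⟫ ^ 2) ^ 2) := by
  refine gint hn (Φ := fun c => |c| * π.B0 (c ^ 2) ^ 2) ?_ fun c hc => ?_
  · have := B0c π
    exact Continuous.measurable (by fun_prop)
  · rw [abs_of_nonneg (by positivity)]
    nlinarith [B0sq π (c ^ 2), abs_nonneg c, sq_nonneg (π.B0 (c ^ 2))]

theorem mm_up (π : Par) (h : π.Rg) : π.mm ≤ 64 * π.α ^ 2 := by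
  refine le_trans ?_ (up0 π.α)
  refine integral_mono (mmi π (ee_norm 0)) (ind_i (ee_norm 0) _) fun u => ?_
  refine mul_le_mul_of_nonneg_left ?_ (gam0 u)
  have hc := inn_le (ee_norm 0) u
  by_cases hi : 1 - ⟪ee 0, un u⟫ ^ 2 ≤ π.α ^ 2
  · simp only [ind, hi, if_true]
    nlinarith [B0sq π (⟪ee 0, un u⟫ ^ 2), abs_nonneg ⟪ee 0, un u⟫,
      sq_nonneg (π.B0 (⟪ee 0, un u⟫ ^ 2))]
  · rw [B0z π h (not_le.1 hi).le]
    simp only [ind, hi, if_false]
    simp

theorem mm_lo (π : Par) (h : π.Rg) : c0 / 80 * π.α ^ 2 ≤ π.mm := by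
  have h0 := h.α0
  have h1 := h.α1
  have a := lo0 (β := π.α / 2) (by positivity) (by linarith)
  have b : ∫ u, 1 / 2 * (gam u * ind (π.α / 2) ⟪ee 0, un u⟫) ≤ π.mm := by
    refine integral_mono ((ind_i (ee_norm 0) _).const_mul _) (mmi π (ee_norm 0)) fun u => ?_
    have hg := gam0 u
    by_cases hi : 1 - ⟪ee 0, un u⟫ ^ 2 ≤ (π.α / 2) ^ 2
    · have e : π.B0 (⟪ee 0, un u⟫ ^ 2) = 1 := B0e π h (by nlinarith)
      have q : 1 / 2 ≤ |⟪ee 0, un u⟫| := by
        refine le_of_sq_le_sq ?_ (abs_nonneg _)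
        rw [sq_abs]
        nlinarith
      simp only [ind, hi, if_true, e]
      nlinarith
    · simp only [ind, hi, if_false, mul_zero]
      positivity
  rw [integral_const_mul] at b
  nlinarith

theorem hvc (σ : ℝ) : Continuous (hv σ) := by
  unfold hv
  have := ctc
  fun_prop

theorem half0 (π : Par) (h : π.Rg) {n : E} (hn : ‖n‖ = 1) {σ : ℝ} (hσ : σ = 1 ∨ σ = -1) :
    ∫ u, gam u * (|⟪n, un u⟫| * (hv σ ⟪n, un u⟫ * π.B0 (⟪n, un u⟫ ^ 2) ^ 2)) = π.mm / 2 := by
  have hi : ∀ s : ℝ, Integrable fun u =>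
      gam u * (|⟪n, un u⟫| * (hv s ⟪n, un u⟫ * π.B0 (⟪n, un u⟫ ^ 2) ^ 2)) := by
    intro s
    refine gint hn (Φ := fun c => |c| * (hv s c * π.B0 (c ^ 2) ^ 2)) ?_ fun c hc => ?_
    · have := B0c π
      have := hvc s
      exact Continuous.measurable (by fun_prop)
    · have a0 : 0 ≤ hv s c := ct0 _
      have a1 : hv s c ≤ 1 := ct1 _
      rw [abs_of_nonneg (by positivity)]
      exact mul_le_one₀ hc (by positivity) (mul_le_one₀ a1 (by positivity) (B0sq π _))
  have e1 : ∫ u, gam u * (|⟪n, un u⟫| * (hv (-σ) ⟪n, un u⟫ * π.B0 (⟪n, un u⟫ ^ 2) ^ 2)) =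
      ∫ u, gam u * (|⟪n, un u⟫| * (hv σ ⟪n, un u⟫ * π.B0 (⟪n, un u⟫ ^ 2) ^ 2)) := by
    rw [← integral_neg_eq_self]
    refine integral_congr_ae (Eventually.of_forall fun u => ?_)
    have h1 : gam (-u) = gam u := by simp [gam]
    have h2 : un (-u) = -un u := by simp [un]
    simp only [h1, h2, inner_neg_right, abs_neg, neg_sq, hv, neg_mul_neg]
  have e2 := integral_add (hi σ) (hi (-σ))
  have e3 : ∫ u, (gam u * (|⟪n, un u⟫| * (hv σ ⟪n, un u⟫ * π.B0 (⟪n, un u⟫ ^ 2) ^ 2)) +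
      gam u * (|⟪n, un u⟫| * (hv (-σ) ⟪n, un u⟫ * π.B0 (⟪n, un u⟫ ^ 2) ^ 2))) = π.mm := by
    have := rinv hn (fun c => |c| * π.B0 (c ^ 2) ^ 2)
    unfold Par.mm
    rw [← this]
    refine integral_congr_ae (Eventually.of_forall fun u => ?_)
    beta_reduce
    generalize ⟪n, un u⟫ = c
    by_cases hb : π.B0 (c ^ 2) = 0
    · simp [hb]
    have h0 := h.α0
    have h1 := h.α1
    have hc : 1 - c ^ 2 < π.α ^ 2 := by
      by_contra hc
      exact hb (B0z π h (not_lt.1 hc))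
    have hs : (σ * c) ^ 2 = c ^ 2 := by rcases hσ with rfl | rfl <;> ring
    have hh : hv σ c + hv (-σ) c = 1 := by
      unfold hv
      rcases le_total 0 (σ * c) with q | q
      · have : 1 / 2 ≤ σ * c := le_of_sq_le_sq (by nlinarith) q
        rw [cte (by linarith), ctz (by linarith), add_zero]
      · have : 1 / 2 ≤ -(σ * c) := le_of_sq_le_sq (by nlinarith) (by linarith)
        rw [ctz (by linarith), cte (by linarith), zero_add]
    linear_combination gam u * |c| * π.B0 (c ^ 2) ^ 2 * hh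
  linarith

/-- the shell on which the radial weight is bounded below -/
def sh : Set E := {u | 11 / 10 ≤ ‖u‖ ∧ ‖u‖ ≤ 19 / 10}

theorem sh_m : MeasurableSet sh :=
  (measurableSet_le measurable_const measurable_norm).inter
    (measurableSet_le measurable_norm measurable_const)

theorem hom0 (F : E → ℝ) (h0 : ∀ θ, 0 ≤ F θ) (hF : Integrable fun u => gam u * F (un u)) :
    IntegrableOn (fun u => F (un u)) {u | 1 / 2 ≤ ‖u‖ ∧ ‖u‖ ≤ 2} ∧
    ∫ u in {u | 1 / 2 ≤ ‖u‖ ∧ ‖u‖ ≤ 2}, F (un u) ≤ 3 / c0 * ∫ u, gam u * F (un u) := by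
  have hc := c0p
  set G : E → ℝ := indicator sh fun u => F (un u) with hG
  have G0 : ∀ u, 0 ≤ G u := fun u => indicator_nonneg (fun _ _ => h0 _) _
  have e : G = fun u => indicator sh (fun u => (gam u)⁻¹) u * (gam u * F (un u)) := by
    funext u
    by_cases hu : u ∈ sh
    · have := (hc.trans_le (gam_lo hu.1 hu.2)).ne'
      simp only [hG, indicator_of_mem hu]
      field_simp
    · simp only [hG, indicator_of_notMem hu, zero_mul]
  have hb : ∀ u, indicator sh (fun u => (gam u)⁻¹) u ≤ c0⁻¹ := by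
    intro u
    by_cases hu : u ∈ sh
    · simp only [indicator_of_mem hu]
      exact inv_anti₀ hc (gam_lo hu.1 hu.2)
    · simp only [indicator_of_notMem hu]
      positivity
  have Gi : Integrable G := by
    rw [e]
    refine hF.bdd_mul (c := c0⁻¹) ?_ (Eventually.of_forall fun u => ?_)
    · exact (gamc.measurable.inv.indicator sh_m).aestronglyMeasurable
    · rw [Real.norm_eq_abs, abs_of_nonneg (indicator_nonneg (fun u _ => inv_nonneg.2 (gam0 u)) _)]
      exact hb u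
  have Gl : ∫ u, G u ≤ c0⁻¹ * ∫ u, gam u * F (un u) := by
    rw [← integral_const_mul]
    refine integral_mono Gi (hF.const_mul _) fun u => ?_
    rw [e]
    exact mul_le_mul_of_nonneg_right (hb u) (mul_nonneg (gam0 u) (h0 _))
  have Gs : ∀ l : ℝ, 0 < l → ∫ u, G (l • u) = (l ^ 3)⁻¹ * ∫ u, G u := by
    intro l hl
    rw [Measure.integral_comp_smul, finrank_euclideanSpace_fin, abs_of_pos (by positivity),
      smul_eq_mul]
  have Ge : ∀ (l : ℝ) (u : E), 0 < l → 11 / 10 ≤ l * ‖u‖ → l * ‖u‖ ≤ 19 / 10 →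
      G (l • u) = F (un u) := by
    intro l u hl h1 h2
    have hm : l • u ∈ sh := by
      simp only [sh, mem_ofPred_eq, norm_smul, Real.norm_eq_abs, abs_of_pos hl]
      exact ⟨h1, h2⟩
    simp only [hG, indicator_of_mem hm, un_smul hl]
  have i1 := Gi.comp_smul (R := 11 / 5) (by norm_num)
  have i2 := Gi.comp_smul (R := 4 / 3) (by norm_num)
  have i3 := Gi.comp_smul (R := 4 / 5) (by norm_num)
  have hS : MeasurableSet {u : E | 1 / 2 ≤ ‖u‖ ∧ ‖u‖ ≤ 2} :=
    (measurableSet_le measurable_const measurable_norm).inter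
      (measurableSet_le measurable_norm measurable_const)
  have hA : MeasurableSet {u : E | ‖u‖ ≤ 17 / 20} :=
    measurableSet_le measurable_norm measurable_const
  have hB : MeasurableSet {u : E | ‖u‖ ≤ 7 / 5} :=
    measurableSet_le measurable_norm measurable_const
  have I : IntegrableOn (fun u => F (un u)) {u | 1 / 2 ≤ ‖u‖ ∧ ‖u‖ ≤ 2} := by
    have j1 : IntegrableOn (fun u => F (un u))
        ({u : E | 1 / 2 ≤ ‖u‖ ∧ ‖u‖ ≤ 2} ∩ {u : E | ‖u‖ ≤ 17 / 20}) :=
      i1.integrableOn.congr_fun (fun u hu => Ge _ u (by norm_num)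
        (by linarith [hu.1.1]) (by linarith [show ‖u‖ ≤ 17 / 20 from hu.2])) (hS.inter hA)
    have j2 : IntegrableOn (fun u => F (un u))
        ({u : E | ‖u‖ ≤ 17 / 20}ᶜ ∩ {u : E | ‖u‖ ≤ 7 / 5}) :=
      i2.integrableOn.congr_fun (fun u hu => Ge _ u (by norm_num)
        (by linarith [show 17 / 20 < ‖u‖ from not_le.1 hu.1])
        (by linarith [show ‖u‖ ≤ 7 / 5 from hu.2])) (hA.compl.inter hB)
    have j3 : IntegrableOn (fun u => F (un u))
        ({u : E | 1 / 2 ≤ ‖u‖ ∧ ‖u‖ ≤ 2} ∩ {u : E | ‖u‖ ≤ 7 / 5}ᶜ) :=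
      i3.integrableOn.congr_fun (fun u hu => Ge _ u (by norm_num)
        (by linarith [show 7 / 5 < ‖u‖ from not_le.1 hu.2])
        (by linarith [hu.1.2])) (hS.inter hB.compl)
    refine ((j1.union j2).union j3).mono_set fun u hu => ?_
    by_cases a : ‖u‖ ≤ 17 / 20
    · exact Or.inl (Or.inl ⟨hu, a⟩)
    by_cases b : ‖u‖ ≤ 7 / 5
    · exact Or.inl (Or.inr ⟨a, b⟩)
    · exact Or.inr ⟨hu, b⟩
  refine ⟨I, ?_⟩
  have hle : ∫ u in {u | 1 / 2 ≤ ‖u‖ ∧ ‖u‖ ≤ 2}, F (un u) ≤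
      ∫ u, (G ((11 / 5 : ℝ) • u) + G ((4 / 3 : ℝ) • u) + G ((4 / 5 : ℝ) • u)) := by
    rw [← integral_indicator hS]
    refine integral_mono ((integrable_indicator_iff hS).2 I) ((i1.add i2).add i3) fun u => ?_
    have g1 := G0 ((11 / 5 : ℝ) • u)
    have g2 := G0 ((4 / 3 : ℝ) • u)
    have g3 := G0 ((4 / 5 : ℝ) • u)
    by_cases hu : u ∈ {u : E | 1 / 2 ≤ ‖u‖ ∧ ‖u‖ ≤ 2}
    · simp only [indicator_of_mem hu]
      obtain ⟨u1, u2⟩ := hu
      by_cases a : ‖u‖ ≤ 17 / 20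
      · linarith [Ge (11 / 5) u (by norm_num) (by linarith) (by linarith)]
      by_cases b : ‖u‖ ≤ 7 / 5
      · linarith [Ge (4 / 3) u (by norm_num) (by linarith) (by linarith)]
      · linarith [Ge (4 / 5) u (by norm_num) (by linarith) (by linarith)]
    · simp only [indicator_of_notMem hu]
      linarith
  have i4 : Integrable fun u => G ((11 / 5 : ℝ) • u) + G ((4 / 3 : ℝ) • u) := i1.add i2
  rw [integral_add i4 i3, integral_add i1 i2, Gs _ (by norm_num), Gs _ (by norm_num),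
    Gs _ (by norm_num)] at hle
  have Gn : 0 ≤ ∫ u, G u := integral_nonneg G0
  rw [div_eq_mul_inv 3 c0, mul_assoc]
  refine hle.trans ?_
  norm_num
  linarith

theorem c2i : Integrable fun r : ℝ => ct (r ^ 2) := by
  have hc : Continuous fun r : ℝ => ct (r ^ 2) := ctc.comp (continuous_pow 2)
  refine hc.integrable_of_hasCompactSupport ?_
  refine HasCompactSupport.intro (isCompact_Icc (a := -2) (b := 2)) fun r hr => ctz ?_
  by_contra h
  push Not at h
  exact hr ⟨by nlinarith, by nlinarith⟩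

theorem beti : Integrable bet := c2i.const_mul _

theorem bet_int : ∫ s, bet s ≤ 1 := by
  unfold bet
  rw [integral_const_mul]
  exact inv_mul_le_one_of_le₀ le_rfl (integral_nonneg fun r => ct0 _)

/-- the splitting of space along the first axis -/
def spl (q : E) : ℝ × EuclideanSpace ℝ (Fin 2) := (q 0, WithLp.toLp 2 fun j => q j.succ)

theorem spl_mp : MeasurePreserving spl := by
  have a := PiLp.volume_preserving_ofLp (Fin 3)
  have b := volume_preserving_piFinSuccAbove (fun _ : Fin 3 => ℝ) 0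
  have c := (MeasurePreserving.id (volume : Measure ℝ)).prod (PiLp.volume_preserving_toLp (Fin 2))
  exact (c.comp b).comp a

theorem cyl_iff (z q : E) (r : ℝ) (hr : 0 < r) :
    (∃ l : ℝ, q + l • ee 0 ∈ ball z r) ↔ (spl q).2 ∈ ball (spl z).2 r := by
  have key : ∀ l : ℝ, dist (q + l • ee 0) z ^ 2 =
      (q 0 + l - z 0) ^ 2 + dist (spl q).2 (spl z).2 ^ 2 := by
    intro l
    rw [dist_eq_norm, dist_eq_norm, nsq, EuclideanSpace.real_norm_sq_eq, Fin.sum_univ_two]
    simp [spl, ee]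
    ring
  simp only [mem_ball]
  constructor
  · rintro ⟨l, hl⟩
    have := key l
    refine lt_of_pow_lt_pow_left₀ 2 hr.le ?_
    have h2 : dist (q + l • ee 0) z ^ 2 < r ^ 2 := by gcongr
    nlinarith [sq_nonneg (q 0 + l - z 0)]
  · intro h
    refine ⟨z 0 - q 0, lt_of_pow_lt_pow_left₀ 2 hr.le ?_⟩
    rw [key]
    have h2 : dist (spl q).2 (spl z).2 ^ 2 < r ^ 2 := by gcongr
    linarith [show (q 0 + (z 0 - q 0) - z 0) ^ 2 = 0 by ring]

theorem cyl0 (z θ : E) (r : ℝ) (hθ : ‖θ‖ = 1) (hr : 0 < r) :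
    Integrable (fun p => bet ⟪p, θ⟫ * indicator {p | ∃ l : ℝ, p + l • θ ∈ ball z r} 1 p) ∧
    ∫ p, bet ⟪p, θ⟫ * indicator {p | ∃ l : ℝ, p + l • θ ∈ ball z r} 1 p ≤ Real.pi * r ^ 2 := by
  obtain ⟨T, hT⟩ := exT hθ
  set w := (spl (T.symm z)).2 with hw
  set D : EuclideanSpace ℝ (Fin 2) → ℝ := indicator (ball w r) fun _ => 1 with hD
  have Di : Integrable D :=
    (integrable_indicator_iff measurableSet_ball).2 (integrableOn_const measure_ball_lt_top.ne)
  have Dv : ∫ v, D v = Real.pi * r ^ 2 := by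
    rw [hD, integral_indicator measurableSet_ball, setIntegral_const, measureReal_def,
      EuclideanSpace.volume_ball_fin_two, ENNReal.toReal_mul, ENNReal.toReal_pow,
      ENNReal.toReal_ofReal hr.le, ENNReal.toReal_ofReal Real.pi_pos.le, smul_eq_mul]
    ring
  set g : ℝ × EuclideanSpace ℝ (Fin 2) → ℝ := fun x => bet x.1 * D x.2 with hg
  have gi : Integrable g := beti.mul_prod Di
  have mp : MeasurePreserving (spl ∘ T.symm) := spl_mp.comp T.symm.measurePreserving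
  have e : (fun p => bet ⟪p, θ⟫ * indicator {p | ∃ l : ℝ, p + l • θ ∈ ball z r} 1 p) =
      g ∘ (spl ∘ T.symm) := by
    funext p
    obtain ⟨q, rfl⟩ := T.surjective p
    have a : ⟪T q, θ⟫ = q 0 := by rw [← hT, T.inner_map_map, real_inner_comm, ee_inner]
    have b : (∃ l : ℝ, T q + l • θ ∈ ball z r) ↔ (spl q).2 ∈ ball w r := by
      rw [hw, ← cyl_iff _ _ _ hr]
      refine exists_congr fun l => ?_
      rw [mem_ball, mem_ball, ← T.dist_map (q + l • ee 0), map_add, map_smul, hT,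
        T.apply_symm_apply]
    simp only [Function.comp, T.symm_apply_apply, hg, a, hD]
    congr 1
    by_cases h : (spl q).2 ∈ ball w r
    · rw [indicator_of_mem h, indicator_of_mem (show T q ∈ {p | ∃ l : ℝ, p + l • θ ∈ ball z r}
        from b.2 h), Pi.one_apply]
    · rw [indicator_of_notMem h, indicator_of_notMem
        (show T q ∉ {p | ∃ l : ℝ, p + l • θ ∈ ball z r} from fun h' => h (b.1 h'))]
  rw [e]
  refine ⟨mp.integrable_comp_of_integrable gi, ?_⟩
  have f : ∫ p, (g ∘ (spl ∘ T.symm)) p = ∫ x, g x := by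
    rw [← mp.map_eq, integral_map mp.measurable.aemeasurable
      (by rw [mp.map_eq]; exact gi.aestronglyMeasurable)]
    rfl
  rw [f, hg, Measure.volume_eq_prod, integral_prod_mul, Dv]
  have : 0 ≤ Real.pi * r ^ 2 := by positivity
  nlinarith [bet_int]

end ConA

open ConA in
theorem con : CON where
  up := ⟨64, by norm_num, fun n β hn => by
    simp only [ind_eq]
    rw [rinv hn (ind β)]
    exact up0 β⟩
  lo := ⟨c0 / 10, by linarith [c0p], fun n β hn h0 h1 => by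
    simp only [ind_eq]
    rw [rinv hn (ind β)]
    exact lo0 h0 h1⟩
  mm := ⟨c0 / 80, 64, by linarith [c0p], fun π h => ⟨mm_lo π h, mm_up π h⟩⟩
  inv π n hn := rinv hn fun c => |c| * π.B0 (c ^ 2) ^ 2
  half π n σ h hn hσ := half0 π h hn hσ
  hom := ⟨3 / c0, div_pos (by norm_num) c0p, hom0⟩
  cyl := cyl0

end Vale.Agent.P218M1
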