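import Vale.Agent.P218M1.Alg

/-!
# P218M1, row ROT: rotations of the direction, tangential derivatives of averages
-/

set_option linter.all false

open MeasureTheory Metric Filter Topology Set
open scoped ContDiff RealInnerProductSpace ENNReal Convolution

noncomputable section

namespace Vale.Agent.P218M1

namespace Rot

/-- differentiation under the integral sign -/
theorem par {P : Type} [NormedAddCommGroup P] [NormedSpace ℝ P] {Φ : P × E → ℝ} {s : Set P}
    {k : Set E} (hs : IsOpen s) (hk : IsCompact k) (h0 : ∀ p ∈ s, ∀ u ∉ k, Φ (p, u) = 0)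
    (hΦ : ContDiffOn ℝ 1 Φ (s ×ˢ univ)) {x : P} (hx : x ∈ s) :
    ContDiffAt ℝ 1 (fun p => ∫ u, Φ (p, u)) x ∧
      ∀ v, fderiv ℝ (fun p => ∫ u, Φ (p, u)) x v = ∫ u, fderiv ℝ Φ (x, u) (v, 0) := by
  have e : ∀ g : E → ℝ, ((fun _ : E => (1 : ℝ)) ⋆[ContinuousLinearMap.mul ℝ ℝ, volume] g) 0 =
      ∫ u, g u := fun g => by
    simpa [convolution] using integral_neg_eq_self g volume
  have l1 : LocallyIntegrable (fun _ : E => (1 : ℝ)) volume := locallyIntegrable_const 1
  have o : IsOpen (s ×ˢ (univ : Set E)) := hs.prod isOpen_univ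
  refine ⟨?_, fun v => ?_⟩
  · have := contDiffOn_convolution_right_with_param_comp (n := 1) (ContinuousLinearMap.mul ℝ ℝ)
      (v := fun _ => 0) contDiffOn_const (g := fun p u => Φ (p, u)) hs hk
      (fun p u a b => h0 p a u b) l1 hΦ
    simp only [e] at this
    exact this.contDiffAt (hs.mem_nhds hx)
  have := (hasFDerivAt_convolution_right_with_param (ContinuousLinearMap.mul ℝ ℝ)
    (g := fun p u => Φ (p, u)) hs hk (fun p u a b => h0 p a u b) l1 hΦ (x, 0) hx).comp x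
    (f := fun p => (p, (0 : E))) (hasFDerivAt_prodMk_left x (0 : E))
  simp only [Function.comp_def, e] at this
  rw [this.fderiv, ContinuousLinearMap.comp_apply, convolution_precompR_apply _ l1, e]
  · rfl
  · refine HasCompactSupport.intro hk fun u hu => ?_
    have : Φ =ᶠ[𝓝 (x, u)] 0 := mem_of_superset ((hs.prod hk.isClosed.isOpen_compl).mem_nhds ⟨hx, hu⟩)
      fun q hq => h0 _ hq.1 _ hq.2
    exact this.fderiv_eq.trans (by simp)
  · exact (hΦ.continuousOn_fderiv_of_isOpen o le_rfl).comp_continuous (.prodMk_right x)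
      fun u => ⟨hx, trivial⟩

/-- the rotation field is divergence free -/
theorem div0 {Φ : E → ℝ} (h : ContDiff ℝ 1 Φ) (hc : HasCompactSupport Φ) (τ ν : E) :
    ∫ u, fderiv ℝ Φ u (rot τ ν u) = 0 := by
  have c : ∀ v, Continuous fun u => fderiv ℝ Φ u v := fun v =>
    (h.continuous_fderiv one_ne_zero).clm_apply continuous_const
  have i : ∀ a b : E, Integrable fun u => ⟪a, u⟫ * fderiv ℝ Φ u b := fun a b =>
    Continuous.integrable_of_hasCompactSupport (by fun_prop) (hc.fderiv_apply ℝ b).mul_left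
  have k : ∀ a b : E, ∫ u, ⟪a, u⟫ * fderiv ℝ Φ u b = -∫ u, ⟪a, b⟫ * Φ u := fun a b => by
    have e : ∀ u, fderiv ℝ (fun u => ⟪a, u⟫) u b = ⟪a, b⟫ := fun u => by
      rw [(innerSL ℝ a).hasFDerivAt.fderiv (f := fun u => ⟪a, u⟫)]; rfl
    have := h.continuous
    rw [integral_mul_fderiv_eq_neg_fderiv_mul_of_integrable (f := fun u => ⟪a, u⟫) _ (i a b)
      (Continuous.integrable_of_hasCompactSupport (by fun_prop) hc.mul_left)
      (fun u _ => (innerSL ℝ a).differentiableAt) fun u _ => h.differentiable one_ne_zero u]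
    · simp only [e]
    · simp only [e]
      exact Continuous.integrable_of_hasCompactSupport (by fun_prop) hc.mul_left
  simp only [rot, map_sub, map_smul, smul_eq_mul, real_inner_comm τ, real_inner_comm ν]
  rw [integral_sub (i _ _) (i _ _), k, k, real_inner_comm, sub_self]

theorem sct : ContDiff ℝ ∞ ct := Real.smoothTransition.contDiff.comp (by fun_prop)

theorem gam_in {u : E} (h : ‖u‖ ≤ 1) : gam u = 0 := by
  rw [gam, ct, ct, Real.smoothTransition.one_of_one_le (x := 2 - ‖u‖ ^ 2)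
    (by nlinarith [norm_nonneg u]), sub_self, mul_zero]

theorem gam_out {u : E} (h : 2 ≤ ‖u‖) : gam u = 0 := by
  rw [gam, ct, Real.smoothTransition.zero_of_nonpos (by nlinarith), zero_mul]

theorem sgam : ContDiff ℝ ∞ gam := by
  have := sct
  have := contDiff_norm_sq ℝ (E := E) (n := ∞)
  unfold gam
  fun_prop

theorem sun {u : E} (h : u ≠ 0) : ContDiffAt ℝ ∞ un u :=
  ((contDiffAt_norm ℝ h).inv (norm_ne_zero_iff.2 h)).smul contDiffAt_id

theorem rad {H : ℝ → ℝ} {u v : E} (h : DifferentiableAt ℝ H (‖u‖ ^ 2)) (hv : ⟪u, v⟫ = 0) :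
    fderiv ℝ (fun u : E => H (‖u‖ ^ 2)) u v = 0 := by
  rw [(h.hasDerivAt.comp_hasFDerivAt u (hasStrictFDerivAt_norm_sq u).hasFDerivAt).fderiv
    (f := fun u : E => H (‖u‖ ^ 2))]
  simp [hv]

theorem dgam {u v : E} (hv : ⟪u, v⟫ = 0) : fderiv ℝ gam u v = 0 := by
  have := sct.differentiable (by simp)
  exact rad (H := fun s => ct (s / 2) * (1 - ct s)) (by fun_prop) hv

theorem dun {u v : E} (h : u ≠ 0) (hv : ⟪u, v⟫ = 0) : fderiv ℝ un u v = ‖u‖⁻¹ • v := by
  have h1 : 0 < ‖u‖ ^ 2 := by positivity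
  have := rad (H := fun s => (√s)⁻¹) ((Real.hasDerivAt_sqrt h1.ne').inv
    (Real.sqrt_pos.2 h1).ne').differentiableAt hv
  simp only [Real.sqrt_sq (norm_nonneg _)] at this
  have d := ((contDiffAt_norm ℝ (n := 1) h).inv (norm_ne_zero_iff.2 h)).differentiableAt one_ne_zero
  rw [(d.hasFDerivAt.smul (hasFDerivAt_id u)).fderiv (f := un)]
  simp [show fderiv ℝ (norm⁻¹ : E → ℝ) u v = 0 from this]

theorem dG {Ψ : E × E → ℝ} {x u e v : E} (h : u ≠ 0) (hΨ : DifferentiableAt ℝ Ψ (x, un u))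
    (hv : ⟪u, v⟫ = 0) : fderiv ℝ (fun q : E × E => gam q.2 * Ψ (q.1, un q.2)) (x, u) (e, v) =
      gam u * fderiv ℝ Ψ (x, un u) (e, ‖u‖⁻¹ • v) := by
  have d1 : HasFDerivAt (fun q : E × E => gam q.2) (fderiv ℝ gam u ∘L .snd ℝ E E) (x, u) :=
    (sgam.differentiable (by simp) u).hasFDerivAt.comp (x, u) (f := Prod.snd) hasFDerivAt_snd
  have d0 : HasFDerivAt (fun q : E × E => un q.2) (fderiv ℝ un u ∘L .snd ℝ E E) (x, u) :=
    ((sun h).differentiableAt (by simp)).hasFDerivAt.comp (x, u) (f := Prod.snd) hasFDerivAt_snd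
  have d2 : HasFDerivAt (fun q : E × E => Ψ (q.1, un q.2)) _ (x, u) :=
    hΨ.hasFDerivAt.comp (x, u) (f := fun q : E × E => (q.1, un q.2)) (hasFDerivAt_fst.prodMk d0)
  rw [(d1.fun_mul d2).fderiv]
  simp [dgam hv, dun h hv]

variable {S : Sf} {π : Par} {f : Q → ℝ} {z : Q} {x : E}

theorem sn (hS : S.Ok) (h : S.g x ≠ 0) : ContDiffAt ℝ ∞ S.n x :=
  ((hS.sg.contDiffAt.norm ℝ h).inv (norm_ne_zero_iff.2 h)).smul hS.sg.contDiffAt

theorem scc (hS : S.Ok) (h : S.g z.1 ≠ 0) : ContDiffAt ℝ ∞ (fun z : Q => S.cc z.1 z.2.1) z :=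
  ((sn hS h).comp z contDiffAt_fst).inner ℝ contDiffAt_snd.fst

theorem skk (hS : S.Ok) (h : z ∈ S.O) : ContDiffAt ℝ ∞ S.kk z :=
  (scc hS (Sf.O.g1 h)).abs (Sf.cc_ne h.1)

/-- a hit is transversal, or the integrand vanishes near it -/
theorem near {k : ℕ} (hS : S.Ok) (hπ : π.Rg) (hf : S.Cl π k f) (h1 : S.g z.1 ≠ 0)
    (h2 : S.g (yy z) ≠ 0) : z ∈ S.O ∨ f =ᶠ[𝓝 z] 0 := by
  refine or_iff_not_imp_left.2 fun c => ?_
  have cy : Continuous yy := by unfold yy; fun_prop
  have e1 := (hS.sg.continuous.comp continuous_fst).continuousAt.eventually_ne h1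
  have e2 := (hS.sg.continuous.comp cy).continuousAt.eventually_ne h2
  have e3 : ∀ᶠ z' in 𝓝 z, ¬ S.Box π z' := by
    have := hπ.η0
    have := hπ.ρ0
    rcases not_and_or.1 c with c | c
    · refine (((scc hS h1).continuousAt.pow 2).eventually_lt_const (u := 1 / 2) ?_).mono
        fun z' a b => a.not_ge b.2.2.2.1
      simp [Sf.cc_eq, not_not.1 c]
    rcases not_and_or.1 c with c | c
    · refine (((((sn hS h2).continuousAt.comp cy.continuousAt).inner
        continuousAt_snd.fst).pow 2).eventually_lt_const (u := π.η ^ 2 / 2) ?_).mono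
        fun z' a b => a.not_ge b.2.2.2.2
      change S.cc _ _ ^ 2 < _
      rw [Sf.cc_eq, not_not.1 c, mul_zero, zero_pow two_ne_zero]
      positivity
    · exact (continuousAt_snd.snd.eventually_lt_const (u := π.ρ / 2) (by linarith)).mono
        fun z' a b => a.not_ge b.2.1
  filter_upwards [e1, e2, e3] with z' a b c using hf.bx z' a b c

theorem RS_k (S : Sf) (h : Q → ℝ) (x θ : E) :
    S.RS (fun z => S.kk z * h z) x θ = |S.cc x θ| * S.RS h x θ :=
  (mul_finsum_mem (s := {d | S.w (x + d • θ) = 0}) (fun d => h (x, θ, d)) |S.cc x θ|).symm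

theorem cl_k (hS : S.Ok) (hf : S.Cl π 1 f) : S.Cl π 1 fun z => S.kk z * f z :=
  ⟨fun z hz => ((skk hS hz).of_le (cast_le_inf 1)).mul (hf.sm z hz),
    fun z a b c => by rw [hf.bx z a b c, mul_zero]⟩

/-- the integrand of the average -/
def Ph (S : Sf) (f : Q → ℝ) (q : E × E) : ℝ :=
  gam q.2 * S.RS (fun z => S.kk z * f z) q.1 (un q.2)

theorem Ph0 (x : E) : Ph S f =ᶠ[𝓝 (x, 0)] 0 := by
  filter_upwards [continuousAt_snd.norm.eventually_lt_const (u := 1) (by simp)] with q hq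
  simp [Ph, gam_in hq.le]

theorem sPh (ca : CA) (hS : S.Ok) (hπ : π.Rg) (hf : S.Cl π 1 f) (hx : S.g x ≠ 0) (u : E) :
    ContDiffAt ℝ 1 (Ph S f) (x, u) := by
  rcases eq_or_ne u 0 with rfl | h
  · exact contDiffAt_const.congr_of_eventuallyEq (Ph0 x)
  exact ((sgam.of_le (cast_le_inf 1)).comp contDiff_snd).contDiffAt.mul
    ((ca.rsk S π 1 _ x (un u) hS hπ (cl_k hS hf) hx).1.comp (x, u) (f := fun q => (q.1, un q.2))
      (contDiffAt_fst.prodMk (((sun h).of_le (cast_le_inf 1)).comp (x, u) contDiffAt_snd)))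

theorem dPh (ca : CA) (hS : S.Ok) (hπ : π.Rg) (hf : S.Cl π 1 f) (hx : S.g x ≠ 0) {u e v : E}
    (hv : ⟪u, v⟫ = 0) {V : Q → Q} {c : Q → ℝ} (hV : ∀ d, (x, un u, d) ∈ S.O →
      V (x, un u, d) = (e, ‖u‖⁻¹ • v, -⟪S.p2 (x, un u, d), e + d • ‖u‖⁻¹ • v⟫) ∧
      fderiv ℝ S.kk (x, un u, d) (V (x, un u, d)) = S.kk (x, un u, d) * c (x, un u, d)) :
    fderiv ℝ (Ph S f) (x, u) (e, v) = gam u * (|S.cc x (un u)| *
      S.RS (fun z => fderiv ℝ f z (V z) + c z * f z) x (un u)) := by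
  rcases eq_or_ne u 0 with rfl | h
  · rw [(Ph0 x).fderiv_eq, gam_in (by simp)]
    simp
  obtain ⟨h1, h2⟩ := ca.rsk S π 1 _ x (un u) hS hπ (cl_k hS hf) hx
  rw [← RS_k]
  refine (dG h (h1.differentiableAt one_ne_zero) hv).trans (congrArg _ ((h2 le_rfl _ _).trans ?_))
  refine finsum_congr fun d => finsum_congr fun hd => ?_
  rcases near (z := (x, un u, d)) hS hπ hf hx (hS.reg _ hd) with o | o
  · obtain ⟨a, b⟩ := hV d o
    dsimp only
    rw [← a, fderiv_fun_mul ((skk hS o).differentiableAt (by simp))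
      ((hf.sm _ o).differentiableAt one_ne_zero)]
    simp only [ContinuousLinearMap.add_apply, ContinuousLinearMap.smul_apply, smul_eq_mul, b]
    ring
  · have o' : (fun z => S.kk z * f z) =ᶠ[𝓝 (x, un u, d)] 0 := o.mono fun z hz => by simp [hz]
    simp [o'.fderiv_eq, o.fderiv_eq, o.eq_of_nhds]

end Rot

open Rot

/-- **BYR** -/
theorem byr (ca : CA) : BYR := by
  intro S π f τ ν x hS hπ hf hx
  have h1 : ContDiff ℝ 1 fun u => Ph S f (x, u) := contDiff_iff_contDiffAt.2 fun u =>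
    (sPh ca hS hπ hf hx u).comp u (contDiffAt_const.prodMk contDiffAt_id)
  refine Eq.trans (integral_congr_ae (.of_forall fun u => ?_)) (div0 h1 (HasCompactSupport.intro
    (isCompact_closedBall 0 2) fun u hu => by
      simp [Ph, gam_out (not_le.1 (mem_closedBall_zero_iff.not.1 hu)).le]) τ ν)
  have e : ‖u‖⁻¹ • rot τ ν u = rot τ ν (un u) := by
    simp [rot, un, real_inner_smul_left, smul_sub, smul_smul]
  have d := ((sPh ca hS hπ hf hx u).differentiableAt one_ne_zero).hasFDerivAt.comp u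
    (hasFDerivAt_prodMk_right x u)
  rw [d.fderiv (f := fun u => Ph S f (x, u))]
  refine (dPh ca hS hπ hf hx (e := 0) (v := rot τ ν u) (by rw [real_inner_comm, inner_rot]) (V := S.VR τ ν)
    fun d o => ⟨by simp [Sf.VR, e, real_inner_smul_right], ?_⟩).symm
  have d1 := (((sn hS hx).differentiableAt (by simp)).hasFDerivAt.comp (x, un u, d) (f := Prod.fst)
    hasFDerivAt_fst).inner ℝ (hasFDerivAt_fst.comp (x, un u, d) hasFDerivAt_snd)
  rw [(d1.abs (Sf.cc_ne o.1)).fderiv (f := S.kk)]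
  have := Sf.cc_ne o.1
  simp [Sf.VR, Sf.kk, Sf.p1, Sf.p_eq o.1, real_inner_smul_left]
  change (SignType.sign (S.cc x (un u)) : ℝ) * _ = _
  rw [← sign_mul_self]
  field_simp

/-- **AVS** -/
theorem avs (ca : CA) (gd : GD) : AVS := by
  intro S π f x hS hπ hf hx
  obtain ⟨h1, h2⟩ := par (Φ := Ph S f) (isOpen_ne_fun hS.sg.continuous continuous_const)
    (isCompact_closedBall 0 2) (fun p _ u hu => by
      simp [Ph, gam_out (not_le.1 (mem_closedBall_zero_iff.not.1 hu)).le])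
    (fun q hq => (sPh ca hS hπ hf hq.1 q.2).contDiffWithinAt) hx
  have e : S.AV f = fun p => ∫ u, Ph S f (p, u) := funext fun p => by simp only [Ph, RS_k, Sf.AV]
  rw [e]
  refine ⟨h1, fun τ hτ => (h2 τ).trans (integral_congr_ae (.of_forall fun u => ?_))⟩
  refine dPh ca hS hπ hf hx (inner_zero_right _) (V := S.VD τ) fun d o => ⟨?_, ?_⟩
  · simp [Sf.VD, Sf.Pi_tan hτ, Sf.Pv, Sf.p1, inner_sub_left, Sf.p_tan hτ]
  · rw [real_inner_comm]
    exact gd.Dk S _ τ hS o

end Vale.Agent.P218M1
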