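import Vale.Agent.P218M1.Cut
import Vale.Agent.P218M1.Ca
import Vale.Agent.P218M1.Rot
import Vale.Agent.P218M1.Gx

/-!
# P218M1, row DB: preparations
-/

open MeasureTheory Metric Filter Topology Set
open scoped ContDiff RealInnerProductSpace ENNReal

noncomputable section

namespace Vale.Agent.P218M1

namespace Db

open Sf

/-! ### weighted averages -/

section avg

variable {K : Set E} {q U g : E → ℝ} {m : ℝ}

theorem int_mul (hK : IsCompact K) (qi : Integrable q) (qK : ∀ u, u ∉ K → q u = 0)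
    (hg : ContinuousOn g K) : Integrable fun u => q u * g u :=
  (qi.integrableOn.mul_continuousOn hg hK).integrable_of_forall_notMem_eq_zero
    fun u hu => by simp [qK u hu]

theorem int_le (hK : IsCompact K) (qi : Integrable q) (q1 : ∀ u, q u ≤ 1)
    (qK : ∀ u, u ∉ K → q u = 0) (hg : ContinuousOn g K) (g0 : ∀ u, 0 ≤ g u) :
    ∫ u, q u * g u ≤ ∫ u in K, g u := by
  rw [← setIntegral_eq_integral_of_forall_compl_eq_zero (s := K) fun u hu => by simp [qK u hu]]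
  exact setIntegral_mono_on (int_mul hK qi qK hg).integrableOn (hg.integrableOn_compact hK)
    hK.measurableSet fun u _ => mul_le_of_le_one_left (g0 u) (q1 u)

theorem var_le (hK : IsCompact K) (hm : 0 < m) (hq : ∫ u, q u = m) (q0 : ∀ u, 0 ≤ q u)
    (q1 : ∀ u, q u ≤ 1) (qK : ∀ u, u ∉ K → q u = 0) (hU : ContinuousOn U K) :
    ∫ u, q u * |U u - (∫ v, q v * U v) / m| ≤ (∫ u in K, ∫ v in K, |U u - U v|) / m := by
  have qi : Integrable q := Integrable.of_integral_ne_zero (by rw [hq]; exact hm.ne')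
  have h1 : ∀ a : ℝ, |a - (∫ v, q v * U v) / m| ≤ (∫ v in K, |a - U v|) / m := fun a => by
    have e : a - (∫ v, q v * U v) / m = (∫ v, q v * (a - U v)) / m := by
      simp only [mul_sub]
      rw [integral_sub (qi.mul_const a) (int_mul hK qi qK hU), integral_mul_const, hq]
      field_simp
    rw [e, abs_div, abs_of_pos hm]
    refine div_le_div_of_nonneg_right (abs_integral_le_integral_abs.trans ?_) hm.le
    simp only [abs_mul, abs_of_nonneg (q0 _)]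
    exact int_le hK qi q1 qK (continuousOn_const.sub hU).abs fun _ => abs_nonneg _
  have h2 : IntegrableOn (fun p : E × E => |U p.1 - U p.2|) (K ×ˢ K) (volume.prod volume) :=
    ContinuousOn.integrableOn_compact (hK.prod hK)
      ((hU.comp continuousOn_fst fun _ h => h.1).sub (hU.comp continuousOn_snd fun _ h => h.2)).abs
  rw [IntegrableOn, ← Measure.prod_restrict] at h2
  have h3 := (hU.sub (continuousOn_const (c := (∫ v, q v * U v) / m))).abs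
  refine (int_le hK qi q1 qK h3 fun _ => abs_nonneg _).trans ?_
  exact (setIntegral_mono_on (h3.integrableOn_compact hK) (h2.integral_prod_left.div_const m)
    hK.measurableSet fun u _ => h1 (U u)).trans_eq (integral_div _ _)

end avg

/-! ### the cone of directions -/

/-- the truncated cone -/
def KK (n : E) (c : ℝ) : Set E := {u | c * ‖u‖ ≤ ⟪n, u⟫ ∧ 1 / 2 ≤ ⟪n, u⟫ ∧ ‖u‖ ≤ 2}

theorem KK_convex (n : E) {c : ℝ} (hc : 0 ≤ c) : Convex ℝ (KK n c) := by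
  intro u hu v hv a b ha hb hab
  have h1 := norm_add_le (a • u) (b • v)
  rw [norm_smul, norm_smul, Real.norm_of_nonneg ha, Real.norm_of_nonneg hb] at h1
  have h2 := mul_le_mul_of_nonneg_left h1 hc
  have u1 := mul_le_mul_of_nonneg_left hu.1 ha
  have u2 := mul_le_mul_of_nonneg_left hu.2.1 ha
  have u3 := mul_le_mul_of_nonneg_left hu.2.2 ha
  have v1 := mul_le_mul_of_nonneg_left hv.1 hb
  have v2 := mul_le_mul_of_nonneg_left hv.2.1 hb
  have v3 := mul_le_mul_of_nonneg_left hv.2.2 hb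
  simp only [KK, mem_ofPred_eq, inner_add_right, real_inner_smul_right]
  refine ⟨by linarith, by linarith, by linarith⟩

theorem KK_sub (n : E) (c : ℝ) : KK n c ⊆ closedBall 0 2 := fun _ hu =>
  mem_closedBall_zero_iff.2 hu.2.2

theorem KK_compact (n : E) (c : ℝ) : IsCompact (KK n c) := by
  have h1 : IsClosed {u : E | c * ‖u‖ ≤ ⟪n, u⟫} := isClosed_le (by fun_prop) (by fun_prop)
  have h2 : IsClosed {u : E | 1 / 2 ≤ ⟪n, u⟫} := isClosed_le (by fun_prop) (by fun_prop)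
  have h3 : IsClosed {u : E | ‖u‖ ≤ 2} := isClosed_le (by fun_prop) (by fun_prop)
  exact (isCompact_closedBall (0 : E) 2).of_isClosed_subset (h1.inter (h2.inter h3)) (KK_sub n c)

theorem dun {u : E} (h : u ≠ 0) (v : E) :
    fderiv ℝ un u v = ‖u‖⁻¹ • rot (un u) v (un u) := by
  have h0 : ‖u‖ ≠ 0 := norm_ne_zero_iff.2 h
  have h1 : 0 < ‖u‖ ^ 2 := by positivity
  have h2 := ((Real.hasDerivAt_sqrt h1.ne').inv (Real.sqrt_pos.2 h1).ne').comp_hasFDerivAt u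
    (hasStrictFDerivAt_norm_sq u).hasFDerivAt
  have e : un = fun u : E => ((fun s => √s)⁻¹ ∘ fun x : E => ‖x‖ ^ 2) u • id u := by
    funext u
    simp [un]
  have h3 := (h2.fun_smul (hasFDerivAt_id u)).fderiv
  rw [← e] at h3
  rw [h3, rot, real_inner_self_eq_norm_sq, norm_un h]
  simp only [un, real_inner_smul_left, smul_sub, smul_smul]
  simp [Real.sqrt_sq (norm_nonneg u)]
  rw [sub_eq_add_neg, ← neg_smul]
  congr 2
  field_simp

theorem norm_rot {θ : E} (hθ : ‖θ‖ = 1) (i : Fin 3) : ‖rot θ (ee i) θ‖ ≤ 1 := by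
  refine (abs_le_of_sq_le_sq' ?_ zero_le_one).2
  rw [rot, real_inner_self_eq_norm_sq, hθ, norm_sub_sq_real]
  simp only [one_pow, one_smul, norm_ee, real_inner_smul_right, norm_smul, hθ, mul_one,
    Real.norm_eq_abs, sq_abs, real_inner_comm θ]
  nlinarith [sq_nonneg ⟪θ, ee i⟫]

theorem norm_le_sum (L : E →L[ℝ] ℝ) : ‖L‖ ≤ ∑ i, |L (ee i)| := by
  refine L.opNorm_le_bound (Finset.sum_nonneg fun _ _ => abs_nonneg _) fun v => ?_
  rw [map_eq_sum L v, Finset.sum_mul]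
  refine (norm_sum_le _ _).trans (Finset.sum_le_sum fun i _ => ?_)
  rw [norm_smul, mul_comm]
  exact mul_le_mul_of_nonneg_left (abs_apply_le v i) (abs_nonneg _)

/-! ### the functions on pairs -/

variable {S : Sf} {π : Par} {Λ : ℝ} {z : Q} {k : ℕ}

/-- the part of the weight which depends on the second point -/
def kp (S : Sf) (π : Par) (z : Q) : ℝ := Par.K0 (S.cs2 z) * ct (2 * S.N π z) * π.xi z.2.2

/-- the indicator of a near neighbour -/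
def a0 (S : Sf) (π : Par) (z : Q) : ℝ := kp S π z ^ 2 * Gb (S.tt π z)

/-- the same with cutoffs -/
def AA (S : Sf) (π : Par) (z : Q) : ℝ := (π.pt z.1 * π.Bt (S.cs1 z)) ^ 2 * a0 S π z

/-- the majorant of the angular derivative -/
def MM (S : Sf) (π : Par) (z : Q) : ℝ :=
  π.W z.1 * π.B1 (S.cs1 z) * ∑ i, |fderiv ℝ (AA S π) z (S.VR z.2.1 (ee i) z)|

theorem o0_eq (S : Sf) (π : Par) (z : Q) : S.o0 π z = π.B0 (S.cs1 z) * kp S π z := by
  simp only [o0, kp, mul_assoc]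

theorem kp_mem (S : Sf) (π : Par) (z : Q) : 0 ≤ kp S π z ∧ kp S π z ≤ 1 :=
  ⟨mul_nonneg (mul_nonneg (Par.K0_nonneg _) (ct_nonneg _)) (Par.xi_nonneg _),
    mul_le_one₀ (mul_le_one₀ (Par.K0_le _) (ct_nonneg _) (ct_le_one _)) (Par.xi_nonneg _)
      (Par.xi_le _)⟩

theorem a0_mem (S : Sf) (π : Par) (z : Q) : 0 ≤ a0 S π z ∧ a0 S π z ≤ 1 :=
  ⟨mul_nonneg (sq_nonneg _) (Gb_nonneg _),
    mul_le_one₀ (pow_le_one₀ (kp_mem S π z).1 (kp_mem S π z).2) (Gb_nonneg _) (Gb_le _)⟩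

theorem AA_mem (S : Sf) (π : Par) (z : Q) : 0 ≤ AA S π z ∧ AA S π z ≤ 1 :=
  ⟨mul_nonneg (sq_nonneg _) (a0_mem S π z).1, mul_le_one₀
    (pow_le_one₀ (mul_nonneg (Par.pt_nonneg _) (Par.Bt_nonneg _))
      (mul_le_one₀ (Par.pt_le _) (Par.Bt_nonneg _) (Par.Bt_le _))) (a0_mem S π z).1 (a0_mem S π z).2⟩

theorem MM_nonneg (S : Sf) (π : Par) (z : Q) : 0 ≤ MM S π z :=
  mul_nonneg (mul_nonneg (Par.W_nonneg _) (Par.B1_nonneg _))
    (Finset.sum_nonneg fun _ _ => abs_nonneg _)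

theorem kp_ne (hπ : π.Rg) (h : kp S π z ≠ 0) :
    1 / 4 < S.cs2 z ∧ S.N π z < 1 ∧ π.ρ / 2 < z.2.2 :=
  ⟨Par.K0_ne (left_ne_zero_of_mul (left_ne_zero_of_mul h)),
    by linarith [lt_of_ct_ne (right_ne_zero_of_mul (left_ne_zero_of_mul h))],
    hπ.xi_ne (right_ne_zero_of_mul h)⟩

theorem d_le (hπ : π.Rg) (h0 : 0 ≤ z.2.2) (hc : 1 / 2 ≤ S.cs1 z) (ht : S.tt π z ≤ 1) :
    z.2.2 ≤ 2 * π.ε := by
  have h1 : 1 / 2 ≤ S.kk z := (abs_le_of_sq_le_sq' (by rw [kk_sq]; linarith) (kk_nonneg S z)).2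
  rw [tt, div_le_one hπ.ε0] at ht
  nlinarith

theorem box_of (hπ : π.Rg) (hx : ‖z.1‖ ≤ 2 * π.R) (hc : 1 - S.cs1 z ≤ 4 * π.α ^ 2)
    (h : kp S π z ≠ 0) (ht : S.tt π z ≤ 1) : S.Box π z := by
  obtain ⟨h1, -, h3⟩ := kp_ne hπ h
  have h4 : 1 / 2 ≤ S.cs1 z := by linarith [hπ.α2.2]
  have h5 := d_le hπ (by linarith [hπ.ρ0]) h4 ht
  exact ⟨by linarith [hπ.R0], h3.le, by linarith [hπ.ε1], h4, by linarith [hπ.η2.2]⟩

theorem sm_cs1 (hS : S.Ok) (h : S.g z.1 ≠ 0) : ContDiffAt ℝ k S.cs1 z :=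
  ((Rot.scc hS h).pow 2).of_le (cast_le_inf k)

theorem sm_cs2 (hS : S.Ok) (h : S.g (yy z) ≠ 0) : ContDiffAt ℝ k S.cs2 z :=
  (((Gx.sm_n hS Gx.sm_yy.contDiffAt h).inner ℝ Gx.sm_θ).pow 2).of_le (cast_le_inf k)

theorem sm_tt (hS : S.Ok) (hz : z ∈ S.O) : ContDiffAt ℝ k (S.tt π) z :=
  ((contDiffAt_snd.snd.mul (Gx.sm_kk hS hz)).div_const _).of_le (cast_le_inf k)

theorem sm_sq (hS : S.Ok) (hz : z ∈ S.O) : ContDiffAt ℝ k S.sq z :=
  ((Gx.sm_Pv hS hz).norm_sq ℝ).of_le (cast_le_inf k)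

theorem sm_N (nsc : NSC) (hS : S.Ok) (hπ : π.Rg) (hz : z ∈ S.O) : ContDiffAt ℝ k (S.N π) z :=
  nsc.sm S π k (fun z' => π.sg0 (S.cs2 z') ^ 2) hS hπ ⟨fun z hz => (Par.sg0_cd.contDiffAt.comp z (sm_cs2 hS (O.g2 hz))).pow 2,
    fun z _ h => by rw [hπ.sg0_zero (by linarith [hπ.η2.1]), zero_pow two_ne_zero]⟩ z hz

theorem sm_kp (nsc : NSC) (hS : S.Ok) (hπ : π.Rg) (hz : z ∈ S.O) : ContDiffAt ℝ k (kp S π) z :=
  ((Par.K0_cd.contDiffAt.comp z (sm_cs2 hS (O.g2 hz))).mul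
    (ct_cd.contDiffAt.comp z (contDiffAt_const.mul (sm_N nsc hS hπ hz)))).mul
    (Par.xi_cd.contDiffAt.comp z contDiffAt_snd.snd)

theorem sm_a0 (nsc : NSC) (hS : S.Ok) (hπ : π.Rg) (hz : z ∈ S.O) : ContDiffAt ℝ k (a0 S π) z :=
  ((sm_kp nsc hS hπ hz).pow 2).mul (Gb_cd.contDiffAt.comp z (sm_tt hS hz))

theorem sm_ct (hS : S.Ok) (hz : z ∈ S.O) :
    ContDiffAt ℝ k (fun z : Q => (π.pt z.1 * π.Bt (S.cs1 z)) ^ 2) z :=
  ((Par.pt_cd.contDiffAt.comp z contDiffAt_fst).mul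
    (Par.Bt_cd.contDiffAt.comp z (sm_cs1 hS (O.g1 hz)))).pow 2

theorem cl_AA (nsc : NSC) (hS : S.Ok) (hπ : π.Rg) : S.Cl π k (AA S π) := by
  refine ⟨fun z hz => (sm_ct hS hz).mul (sm_a0 nsc hS hπ hz), fun z _ _ hb => ?_⟩
  by_contra h
  have h1 := pow_ne_zero_iff two_ne_zero |>.1 (left_ne_zero_of_mul h)
  have h2 := right_ne_zero_of_mul h
  exact hb (box_of hπ (hπ.pt_ne (left_ne_zero_of_mul h1)).le (hπ.Bt_ne (right_ne_zero_of_mul h1)).le
    (pow_ne_zero_iff two_ne_zero |>.1 (left_ne_zero_of_mul h2))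
    (by linarith [lt_of_Gb_ne (right_ne_zero_of_mul h2)]))

theorem box_of_d (nsc : NSC) (hS : S.Ok) (hπ : π.Rg) (h1 : S.g z.1 ≠ 0) (h2 : S.g (yy z) ≠ 0)
    (h : fderiv ℝ (AA S π) z ≠ 0) : S.Box π z := by
  by_contra hb
  have e : AA S π =ᶠ[𝓝 z] fun _ => 0 := (Ca.ev_nbox hS h1 h2 hb).mono fun y hy =>
    (cl_AA (k := 0) nsc hS hπ).bx y hy.1 hy.2.1 hy.2.2
  exact h (e.fderiv_eq.trans (fderiv_const_apply _))

theorem cl_MM (nsc : NSC) (hS : S.Ok) (hπ : π.Rg) : S.Cl π 0 (MM S π) := by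
  refine ⟨fun z hz => ?_, fun z h1 h2 hb => ?_⟩
  · refine ((Par.W_cd.contDiffAt.comp z contDiffAt_fst).mul
      (Par.B1_cd.contDiffAt.comp z (sm_cs1 hS (O.g1 hz)))).mul (ContDiffAt.sum fun i _ => ?_)
    have h1 : ContDiffAt ℝ 0 (fderiv ℝ (AA S π)) z :=
      ((cl_AA (k := 1) nsc hS hπ).sm z hz).fderiv_right (by simp)
    have h2 : ContDiffAt ℝ ∞ (fun z : Q => rot z.2.1 (ee i) z.2.1) z := by
      unfold rot
      exact ((Gx.sm_θ.inner ℝ Gx.sm_θ).smul contDiffAt_const).sub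
        ((Gx.sm_θ.inner ℝ contDiffAt_const).smul Gx.sm_θ)
    have h3 : ContDiffAt ℝ ∞ (fun z : Q => S.VR z.2.1 (ee i) z) z :=
      contDiffAt_const.prodMk (h2.prodMk (contDiffAt_snd.snd.mul
        ((Gx.sm_p hS Gx.sm_yy.contDiffAt Gx.sm_θ hz.2.1).inner ℝ h2)).neg)
    exact (contDiff_zero.2 continuous_abs).contDiffAt.comp z (h1.clm_apply (h3.of_le (by simp)))
  · have h : fderiv ℝ (AA S π) z = 0 := by_contra fun h => hb (box_of_d nsc hS hπ h1 h2 h)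
    simp [MM, h]

theorem d_a0 (nsc : NSC) (hS : S.Ok) (hπ : π.Rg) (hz : z ∈ S.O) (V : Q) :
    fderiv ℝ (a0 S π) z V = 2 * kp S π z * fderiv ℝ (kp S π) z V * Gb (S.tt π z) +
      kp S π z ^ 2 * (4 * deriv ct (4 * S.tt π z) * fderiv ℝ (S.tt π) z V) := by
  have h1 := ((sm_kp (k := 1) nsc hS hπ hz).differentiableAt (by simp)).hasFDerivAt
  have h2 := ((sm_tt (k := 1) (π := π) hS hz).differentiableAt (by simp)).hasFDerivAt
  rw [((h1.pow 2).mul ((hasDerivAt_Gb _).comp_hasFDerivAt z h2)).fderiv (f := a0 S π)]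
  simp
  ring

theorem d_kp (nsc : NSC) (hS : S.Ok) (hπ : π.Rg) (hz : z ∈ S.O) (h1 : π.xi z.2.2 = 1)
    (h2 : deriv π.xi z.2.2 = 0) (V : Q) : fderiv ℝ (kp S π) z V =
      deriv Par.K0 (S.cs2 z) * fderiv ℝ S.cs2 z V * ct (2 * S.N π z) +
        Par.K0 (S.cs2 z) * (deriv ct (2 * S.N π z) * (2 * fderiv ℝ (S.N π) z V)) := by
  have d1 := ((sm_cs2 (k := 1) hS (O.g2 hz)).differentiableAt (by simp)).hasFDerivAt
  have d2 := ((sm_N (k := 1) nsc hS hπ hz).differentiableAt (by simp)).hasFDerivAt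
  have d3 : HasFDerivAt (fun z : Q => z.2.2) _ z := (hasFDerivAt_snd (𝕜 := ℝ)).snd
  have d4 := (Par.K0_smooth.differentiable (by simp) (S.cs2 z)).hasDerivAt
  have d5 := (π.xi_smooth.differentiable (by simp) z.2.2).hasDerivAt.comp_hasFDerivAt z
    (f := fun z : Q => z.2.2) d3
  rw [(((d4.comp_hasFDerivAt z d1).mul ((hasDerivAt_ct _).comp_hasFDerivAt z (d2.const_mul 2))).mul
    d5).fderiv (f := kp S π)]
  simp [h1, h2]
  ring

theorem kp_of_d (nsc : NSC) (hS : S.Ok) (hπ : π.Rg) (hz : z ∈ S.O)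
    (h : fderiv ℝ (AA S π) z ≠ 0) : kp S π z ≠ 0 := by
  intro h0
  have h1 := ((sm_ct (k := 1) (π := π) hS hz).differentiableAt (by simp)).hasFDerivAt
  have h2 := ((sm_a0 (k := 1) nsc hS hπ hz).differentiableAt (by simp)).hasFDerivAt
  have h3 : fderiv ℝ (a0 S π) z = 0 :=
    ContinuousLinearMap.ext fun V => by simp [d_a0 nsc hS hπ hz, h0]
  refine h ?_
  rw [(h1.mul h2).fderiv (f := AA S π), h3]
  simp [a0, h0]

theorem d_AA (hS : S.Ok) (hπ : π.Rg) (hg : S.g z.1 ≠ 0) (h1 : π.W z.1 ≠ 0)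
    (h2 : π.B1 (S.cs1 z) ≠ 0) : fderiv ℝ (AA S π) z = fderiv ℝ (a0 S π) z := by
  have e1 : ∀ᶠ y : Q in 𝓝 z, ‖y.1‖ ^ 2 < 2 * π.R ^ 2 :=
    ContinuousAt.eventually_lt (by fun_prop) continuousAt_const (hπ.W_ne h1)
  have e2 : ∀ᶠ y : Q in 𝓝 z, 1 - S.cs1 y < 2 * π.α ^ 2 :=
    (continuousAt_const.sub (sm_cs1 (k := 0) hS hg).continuousAt).eventually_lt
      continuousAt_const (hπ.B1_ne h2)
  refine EventuallyEq.fderiv_eq ?_
  filter_upwards [e1, e2] with y a b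
  simp [AA, hπ.pt_one a.le, hπ.Bt_one b.le]

/-! ### at most one hit -/

/-- `g` lives on the pairs without occlusion -/
def Sup (S : Sf) (π : Par) (g : Q → ℝ) : Prop := ∀ z, S.w z.1 = 0 → S.w (yy z) = 0 → g z ≠ 0 →
  S.Box π z ∧ kp S π z ≠ 0

theorem single (unq : UNQ) (hG : Good S π Λ) {x θ : E} (hx : S.w x = 0) (hθ : ‖θ‖ = 1) :
    (∀ g, Sup S π g → S.RS g x θ = 0) ∨ ∃ d, S.Hit (x, θ, d) ∧ S.Box π (x, θ, d) ∧
      ∀ g, Sup S π g → S.RS g x θ = g (x, θ, d) := by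
  have hh : ∀ d, S.w (x + d • θ) = 0 → S.Box π (x, θ, d) → S.Hit (x, θ, d) := fun d h1 h2 =>
    ⟨hx, hθ, (half_pos hG.rg.ρ0).trans_le h2.2.1, h1⟩
  by_cases h : ∃ d, S.w (x + d • θ) = 0 ∧ S.Box π (x, θ, d) ∧ kp S π (x, θ, d) ≠ 0
  · obtain ⟨d, h1, h2, h3⟩ := h
    refine Or.inr ⟨d, hh d h1 h2, h2, fun g hg => ?_⟩
    rw [RS, finsum_eq_single _ d fun d' hd' => ?_, finsum_eq_if, if_pos h1]
    rw [finsum_eq_if]
    split_ifs with h4
    · by_contra h5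
      obtain ⟨h6, h7⟩ := hg (x, θ, d') hx h4 h5
      rcases lt_or_gt_of_ne hd' with e | e
      · linarith [(unq.u1 S π Λ x θ d' d hG (hh d' h4 h6) (hh d h1 h2) h2 e
          (kp_ne hG.rg h7).1.le).1, (kp_ne hG.rg h3).2.1]
      · linarith [(unq.u1 S π Λ x θ d d' hG (hh d h1 h2) (hh d' h4 h6) h6 e
          (kp_ne hG.rg h3).1.le).1, (kp_ne hG.rg h7).2.1]
    · rfl
  · refine Or.inl fun g hg => finsum_mem_eq_zero_of_forall_eq_zero
      (s := {d | S.w (x + d • θ) = 0}) fun d hd => ?_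
    by_contra h5
    exact h ⟨d, hd, hg (x, θ, d) hx hd h5⟩

theorem sup_of {g : Q → ℝ} (hS : S.Ok) (hg : S.Cl π k g) (h : ∀ z, kp S π z = 0 → g z = 0) :
    Sup S π g := fun z h1 h2 h3 =>
  ⟨by_contra fun hb => h3 (hg.bx z (hS.reg _ h1) (hS.reg _ h2) hb), fun h0 => h3 (h z h0)⟩

theorem sup_d (nsc : NSC) (hS : S.Ok) (hπ : π.Rg) {g : Q → ℝ}
    (h : ∀ z, fderiv ℝ (AA S π) z = 0 → g z = 0) : Sup S π g := fun z h1 h2 h3 => by
  have h4 : fderiv ℝ (AA S π) z ≠ 0 := fun h0 => h3 (h z h0)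
  have h5 := box_of_d nsc hS hπ (hS.reg _ h1) (hS.reg _ h2) h4
  exact ⟨h5, kp_of_d nsc hS hπ (Ca.box_O hπ h5) h4⟩

end Db

end Vale.Agent.P218M1
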