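import Vale.Agent.P218M1.DbA
import Vale.Agent.P218M1.Basic

/-!
# P218M1, row DB, part B: integrated bounds of the diagonal and angular terms
-/

open MeasureTheory Metric Filter Topology Set
open scoped ContDiff RealInnerProductSpace ENNReal

noncomputable section

namespace Vale.Agent.P218M1

namespace Db

open Sf

variable {S : Sf} {π : Par} {Λ d t : ℝ} {z : Q} {η : E → ℝ} {th : ℝ → ℝ}

/-- the integrand of `S1` -/
def s1 (S : Sf) (π : Par) (η : E → ℝ) (th : ℝ → ℝ) (z : Q) : ℝ :=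
  S.ze π η th z * (S.tt π z * -G1 (S.tt π z)) / 2

/-- the remainder of the diagonal term -/
def hh (S : Sf) (π : Par) (η : E → ℝ) (th : ℝ → ℝ) (z : Q) : ℝ :=
  π.W z.1 * π.B0 (S.cs1 z) ^ 2 * (AA S π z * (1 - AA S π z)) - 64 * s1 S π η th z

theorem cl_s1 (hS : S.Ok) (hπ : π.Rg) (hc : Cut d η th) : S.Cl π 0 (s1 S π η th) := by
  refine Cl.of_Wt hπ (fun z hz => ((O.ze hS hπ hz hc.sη hc.sth).mul ((O.tt hS hz).mul
    ((G1_cd (by norm_num)).contDiffAt.comp z (O.tt hS hz)).neg)).div_const _) fun z h => ?_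
  have h1 := (div_ne_zero_iff.1 h).1
  exact ⟨left_ne_zero_of_mul (left_ne_zero_of_mul h1),
    (lt_of_G1_ne (neg_ne_zero.1 (right_ne_zero_of_mul (right_ne_zero_of_mul h1)))).le⟩

theorem cl_hh (hS : S.Ok) (hπ : π.Rg) (hc : Cut d η th) : S.Cl π 0 (hh S π η th) :=
  (((cl_AA nsc' hS hπ).mul fun z hz => contDiffAt_const.sub ((cl_AA nsc' hS hπ).sm z hz)).mul'
    fun z hz => (Par.W_cd.contDiffAt.comp z contDiffAt_fst).mul
      ((Par.B0_cd.contDiffAt.comp z (O.cs1 hS hz)).pow 2)).sub ((cl_s1 hS hπ hc).cmul 64)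

theorem gb_le {s : ℝ} (h0 : 0 ≤ s) (h : s < 1 / 2) : Gb s * (1 - Gb s) ≤ 64 * (s * -G1 s / 2) := by
  have h1 : 0 ≤ s * -G1 s := mul_nonneg h0 (neg_nonneg.2 (G1_nonpos s))
  rcases le_or_gt s (1 / 4) with e | e
  · rw [Gb_one e]
    linarith
  · have h2 : (1 / 2 : ℝ) ^ 5 ≤ max (1 - s) 0 ^ 5 :=
      pow_le_pow_left₀ (by norm_num) (le_max_of_le_left (by linarith)) 5
    have h3 := mul_le_mul e.le h2 (by norm_num) h0
    unfold G1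
    nlinarith [sq_nonneg (Gb s - 1 / 2)]

theorem alg1 {w G K c e h σ : ℝ} (w0 : 0 ≤ w) (w1 : w ≤ 1) (G0 : 0 ≤ G) (G1 : G ≤ 1) (K0 : 0 ≤ K)
    (K1 : K ≤ 1) (c1 : c ≤ 1) (e0 : 0 ≤ e) (e1 : e ≤ 1) (h0 : 0 ≤ h) (h1 : h ≤ 1)
    (hσ : G * (1 - G) ≤ 64 * σ) :
    w * G * (1 - K * c * G) - 64 * (w * (e * h) * σ) ≤ 1 - e + (1 - h) + (1 - K) + (1 - c) := by
  have a1 : 1 - K * c ≤ 1 - K + (1 - c) := by nlinarith
  have a2 : 0 ≤ 1 - K * c := by nlinarith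
  have a3 : w * G * G ≤ 1 := mul_le_one₀ (mul_le_one₀ w1 G0 G1) G0 G1
  have a4 : w * G * G * (1 - K * c) ≤ 1 - K * c := mul_le_of_le_one_left a2 a3
  have a5 : w * (e * h) * (G * (1 - G)) ≤ w * (e * h) * (64 * σ) :=
    mul_le_mul_of_nonneg_left hσ (by positivity)
  have a6 : 0 ≤ 1 - e * h := by nlinarith
  have a7 : w * (G * (1 - G)) ≤ 1 := mul_le_one₀ w1 (by nlinarith) (by nlinarith)
  have a8 := mul_le_of_le_one_left a6 a7
  have a9 : 1 - e * h ≤ 1 - e + (1 - h) := by nlinarith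
  linarith

theorem hh_le (hK : Kit) (hG : Good S π Λ) (hc : Cut d η th) (d0 : 0 < d) (d1 : d ≤ 1)
    (hz : S.Hit z) (hb : S.Box π z) (h : 0 < hh S π η th z) : S.Sq π z ∧
      hh S π η th z ≤ 1 - η z.1 ^ 2 + 2 * S.NS π (fun z' => π.sgb (S.cs2 z') / S.cs2 z') z +
        68 * π.ε ^ 2 / d ^ 4 * (S.sq z ^ 2 / z.2.2 ^ 2) := by
  have hπ := hG.rg
  have hO := hb.O hπ
  have t0 := tt_nonneg (S := S) hπ hz.2.2.1.le
  have p1 : 0 ≤ s1 S π η th z := div_nonneg (mul_nonneg (ze_nonneg _ _ _ _ _)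
    (mul_nonneg t0 (neg_nonneg.2 (G1_nonpos _)))) zero_le_two
  have p2 : π.W z.1 * π.B0 (S.cs1 z) ^ 2 * (AA S π z * (1 - AA S π z)) ≠ 0 := by
    intro h0
    rw [hh, h0] at h
    linarith
  have hW := left_ne_zero_of_mul (left_ne_zero_of_mul p2)
  have hB := (pow_ne_zero_iff two_ne_zero).1 (right_ne_zero_of_mul (left_ne_zero_of_mul p2))
  have hA := right_ne_zero_of_mul (left_ne_zero_of_mul (right_ne_zero_of_mul p2))
  have hk := (pow_ne_zero_iff two_ne_zero).1 (left_ne_zero_of_mul hA)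
  have ht := lt_of_Gb_ne (right_ne_zero_of_mul hA)
  have hq := (sq_of_ne hπ (hπ.W_ne hW).le (o0_eq S π z ▸ mul_ne_zero hB hk) (by linarith)).1
  refine ⟨hq, ?_⟩
  have e : hh S π η th z = S.Wt π z * Gb (S.tt π z) * (1 - Par.K0 (S.cs2 z) ^ 2 *
      ct (2 * S.N π z) ^ 2 * Gb (S.tt π z)) - 64 * (S.Wt π z * (η z.1 ^ 2 * th (S.sq z) ^ 2) *
        (S.tt π z * -G1 (S.tt π z) / 2)) := by
    simp only [hh, s1, ze, AA, a0, kp, Wt, o0, hπ.pt_one hq.1, hπ.Bt_one hq.2.1,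
      (hK.unq.xi1 S π Λ z hG hz hb).2.1]
    ring
  have b1 := alg1 (Wt_nonneg S π z) (Wt_le S π z) (Gb_nonneg _) (Gb_le _) (sq_nonneg _)
    (pow_le_one₀ (Par.K0_nonneg (S.cs2 z)) (Par.K0_le _)) (ct_sq_le (2 * S.N π z))
    (sq_nonneg _) (pow_le_one₀ (hc.η0 z.1) (hc.η1 _)) (sq_nonneg _)
    (pow_le_one₀ (hc.th0 (S.sq z)) (hc.th1 _)) (gb_le t0 ht)
  have X0 : 0 ≤ π.ε ^ 2 / d ^ 4 * (S.sq z ^ 2 / z.2.2 ^ 2) := by positivity
  have b2 : 1 - th (S.sq z) ^ 2 ≤ 4 * (π.ε ^ 2 / d ^ 4 * (S.sq z ^ 2 / z.2.2 ^ 2)) := by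
    rcases le_total (S.sq z) (d ^ 2) with c | c
    · rw [hc.the _ c]
      linarith
    · refine (sub_le_self _ (sq_nonneg _)).trans ((hq.ind hz.2.2.1 (pow_pos d0 2) c).trans_eq ?_)
      ring
  have b3 : 1 - Par.K0 (S.cs2 z) ^ 2 ≤ 64 * (π.ε ^ 2 / d ^ 4 * (S.sq z ^ 2 / z.2.2 ^ 2)) := by
    rcases le_total (1 / 2) (S.cs2 z) with c | c
    · rw [Par.K0_one c]
      linarith
    · refine (sub_le_self _ (sq_nonneg _)).trans ((hq.ind hz.2.2.1 (by norm_num)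
        (O.sq_ge hO hz.2.1 (hq.cs1 hπ) c)).trans ?_)
      have c1 : π.ε ^ 2 ≤ π.ε ^ 2 / d ^ 4 :=
        le_div_self (sq_nonneg _) (pow_pos d0 4) (pow_le_one₀ d0.le d1)
      have c2 := mul_le_mul_of_nonneg_right c1 (show 0 ≤ S.sq z ^ 2 / z.2.2 ^ 2 by positivity)
      norm_num
      linarith
  have b4 : 1 - ct (2 * S.N π z) ^ 2 ≤
      2 * S.NS π (fun z' => π.sgb (S.cs2 z') / S.cs2 z') z := by
    obtain ⟨c1, c2⟩ := hK.unq.nb0 S π Λ z hG hz hb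
    rcases le_total (2 * S.N π z) 1 with c | c
    · rw [ct_one c]
      linarith
    · linarith [sq_nonneg (ct (2 * S.N π z))]
  rw [e, mul_div_assoc (68 : ℝ)]
  linarith

theorem ii_hh (hK : Kit) : ∃ C : ℝ, 0 < C ∧ ∀ (S : Sf) (π : Par) (Λ d : ℝ) (η : E → ℝ)
    (th : ℝ → ℝ), Good S π Λ → Cut d η th → 0 < d → d ≤ 1 →
    S.II (hh S π η th) ≤ C * (S.AE π η + π.ε ^ 2 * S.AA π / d ^ 4) := by
  obtain ⟨C, hC, h⟩ := hK.me
  refine ⟨70 * C, by positivity, fun S π Λ d η th hG hc d0 d1 => ?_⟩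
  have z0 : S.Cg fun _ => (0 : ℝ) := Cg.const le_rfl
  refine (h S π Λ 1 0 2 (68 * π.ε ^ 2 / d ^ 4) _ (fun x => 1 - η x ^ 2) (fun _ => 0) (fun _ => 0)
    (fun _ => 0) (fun _ => 0) hG one_pos le_rfl zero_le_two (by positivity) (cl_hh hG.ok hG.rg hc)
    (cg_one_sub hc.sη.continuous hc.η0 hc.η1) z0 z0 z0 z0 (fun x _ _ h => by simp at h)
    fun z hz hb h0 => ?_).trans ?_
  · obtain ⟨h1, h2⟩ := hh_le hK hG hc d0 d1 hz hb h0
    refine ⟨h1, by linarith [cs2_nonneg S z], ?_⟩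
    simp only [NS_zero]
    linarith
  · have a1 := AE_nonneg (S := S) (π := π) hc.η0 hc.η1
    have a2 := AA_nonneg (π := π) hG.ok
    have c1 : π.ε ^ 2 * S.AA π ≤ π.ε ^ 2 * S.AA π / d ^ 4 :=
      le_div_self (by positivity) (pow_pos d0 4) (pow_le_one₀ d0.le d1)
    have c2 := mul_le_mul_of_nonneg_right hG.rg.α2.2 a1
    rw [IB_zero, mul_comm 70, mul_assoc C]
    refine mul_le_mul_of_nonneg_left ?_ hC.le
    have e : 68 * π.ε ^ 2 / d ^ 4 * S.AA π = 68 * (π.ε ^ 2 * S.AA π / d ^ 4) := by ring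
    unfold AE at *
    linarith

theorem amgm (a : ℝ) (t0 : 0 < t) : a ≤ t + a ^ 2 / t := by
  rw [← sub_le_iff_le_add', le_div_iff₀ t0]
  nlinarith [sq_nonneg (a - t)]

theorem amgm4 {a : ℝ} (a0 : 0 ≤ a) (t0 : 0 < t) : a ≤ t + (a ^ 2) ^ 2 / t ^ 3 := by
  rcases le_total a t with c | c
  · exact c.trans (le_add_of_nonneg_right (by positivity))
  · refine le_trans ?_ (le_add_of_nonneg_left t0.le)
    rw [le_div_iff₀ (pow_pos t0 3)]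
    nlinarith [mul_le_mul_of_nonneg_left (pow_le_pow_left₀ t0.le c 3) a0]

theorem abs_rot {θ v : E} (hθ : ‖θ‖ = 1) (i : Fin 3) : |⟪v, rot θ (ee i) θ⟫| ≤ ‖v‖ :=
  (abs_real_inner_le_norm _ _).trans (mul_le_of_le_one_right (norm_nonneg _) (norm_rot hθ i))

/-- the sum of the error densities -/
def TT (S : Sf) (π : Par) (z : Q) : ℝ := 1 + S.A2 z.1 + (1 + S.A2 (yy z)) +
  S.NS π (fun z' => π.cu (S.cs2 z') * S.A2 (yy z')) z +
  (π.ε ^ 2)⁻¹ * S.NS π (fun z' => π.sgb (S.cs2 z') / S.cs2 z') z + S.sq z ^ 2 / z.2.2 ^ 2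

section real

variable {a b s D e C n m om T : ℝ}

theorem re1 (s0 : 0 ≤ s) (D0 : 0 < D) (D1 : D ≤ 2 * e) (t0 : 0 < t) (o2 : t ≤ om)
    (o3 : e ^ 2 / t ^ 3 ≤ om) (hT : 1 + (s ^ 2) ^ 2 / D ^ 2 ≤ T) : s ≤ 4 * (om * T) := by
  have n5 : 0 ≤ (s ^ 2) ^ 2 / D ^ 2 := by positivity
  have c1 := amgm4 s0 t0
  have c2 : (s ^ 2) ^ 2 / t ^ 3 ≤ 4 * (e ^ 2 / t ^ 3 * ((s ^ 2) ^ 2 / D ^ 2)) := by
    have c3 := mul_le_mul_of_nonneg_right (pow_le_pow_left₀ D0.le D1 2) n5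
    rw [mul_div_cancel₀ _ (pow_pos D0 2).ne'] at c3
    exact (div_le_div_of_nonneg_right c3 (pow_pos t0 3).le).trans_eq (by ring)
  have c4 := mul_le_mul_of_nonneg_right o3 n5
  have c5 := mul_le_mul_of_nonneg_left hT (t0.le.trans o2)
  linarith

theorem re2 (hC : 0 ≤ C) (t0 : 0 < t) (ha : a ^ 2 ≤ C * (4 * e * n)) (hb : b ^ 2 ≤ C * (e * m))
    (n0 : 0 ≤ n) (m0 : 0 ≤ m) (o1 : e / t ≤ om) (o2 : t ≤ om) (h1 : 1 ≤ T) (h2 : n + m ≤ T) :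
    a + b ≤ (2 + 4 * C) * (om * T) := by
  have o0 := t0.le.trans o2
  have c1 := amgm a t0
  have c2 := amgm b t0
  have c4 : a ^ 2 / t ≤ 4 * C * (e / t * n) :=
    (div_le_div_of_nonneg_right ha t0.le).trans_eq (by ring)
  have c5 : b ^ 2 / t ≤ C * (e / t * m) := (div_le_div_of_nonneg_right hb t0.le).trans_eq (by ring)
  have c6 := mul_le_mul_of_nonneg_left (mul_le_mul_of_nonneg_right o1 n0) hC
  have c7 := mul_le_mul_of_nonneg_left (mul_le_mul_of_nonneg_right o1 m0) hC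
  have c8 := mul_le_mul_of_nonneg_left (mul_le_mul_of_nonneg_left h2 o0) hC
  have c9 := mul_le_mul_of_nonneg_left h1 o0
  have c10 := mul_nonneg hC (mul_nonneg o0 m0)
  linarith

theorem re3 (t0 : 0 < t) (hs : s ^ 2 ≤ 256 * n) (n0 : 0 ≤ n) (m0 : 0 ≤ m)
    (hm : 1 ≤ 64 * (e ^ 2 * m)) (o0 : e ^ 2 ≤ om) (o1 : e ^ 2 / t ≤ om) (o2 : t ≤ om)
    (hT : 1 + n + m ≤ T) : e * s + 2 ≤ 128 * (om * T) := by
  have o3 := t0.le.trans o2
  have c9 : e * s - t * (s ^ 2 / 4) ≤ e ^ 2 / t := by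
    rw [le_div_iff₀ t0]
    nlinarith [sq_nonneg (e - t * s / 2)]
  have c10 := mul_le_mul o2 hs (sq_nonneg _) o3
  have c11 := mul_le_mul_of_nonneg_right o0 m0
  have c12 := mul_le_mul_of_nonneg_left hT o3
  have c13 := mul_nonneg o3 n0
  linarith

end real

theorem rc2 (hK : Kit) (hS : S.Ok) (hO : z ∈ S.O) (hθ : ‖z.2.1‖ = 1) (D1 : z.2.2 ≤ 2 * π.ε)
    (c1 : 1 / 4 < S.cs2 z) (c2 : S.cs2 z < 1 / 2) (i : Fin 3) :
    ‖S.X2 z (S.p2 z)‖ ^ 2 ≤ 256 * S.A2 (yy z) ∧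
      |S.R z.2.1 (ee i) S.cs2 z| ≤ π.ε * ‖S.X2 z (S.p2 z)‖ + 2 := by
  have D0 := hO.2.2
  have n2 := A2_nonneg S (yy z)
  have c4 := O.cs2_p2 hO
  have c5 : ‖S.p2 z‖ ^ 2 ≤ 4 := by nlinarith [sq_nonneg ‖S.p2 z‖]
  have c6 : S.cs2 z * ‖S.p2 z‖ ≤ 1 := (abs_le_of_sq_le_sq' (by nlinarith) zero_le_one).2
  refine ⟨(norm_apply_sq_le _ _).trans ((mul_le_mul (hS.hs_X2_le hO hθ c1.le) c5 (sq_nonneg _)
    (by positivity)).trans_eq (by ring)), ?_⟩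
  rw [hK.gd.Rc2 S z _ _ hS hO]
  refine (abs_add_le _ _).trans (add_le_add ?_ ?_)
  · rw [abs_mul, abs_mul z.2.2, abs_of_pos D0, abs_of_nonneg (by positivity)]
    exact (mul_le_mul (show 2 * S.cs2 z ^ 2 ≤ 1 / 2 by nlinarith)
      (mul_le_mul D1 (abs_rot hθ i) (abs_nonneg _) (by linarith))
      (by positivity) (by norm_num)).trans_eq (by ring)
  · rw [abs_mul, abs_of_nonneg (by linarith)]
    linarith [mul_le_mul_of_nonneg_left (abs_rot (v := S.p2 z) hθ i) (cs2_nonneg S z)]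

theorem ra0 (hS : S.Ok) (hπ : π.Rg) (hO : z ∈ S.O) (x1 : π.xi z.2.2 = 1)
    (x2 : deriv π.xi z.2.2 = 0) {V : Q} {p q r : ℝ}
    (h1 : |deriv Par.K0 (S.cs2 z) * fderiv ℝ S.cs2 z V| ≤ p) (h2 : |fderiv ℝ (S.N π) z V| ≤ q)
    (h3 : |fderiv ℝ (S.tt π) z V| ≤ r) :
    |fderiv ℝ (a0 S π) z V| ≤ 2 * p + 4 * (Cc * q) + 4 * (Cc * r) := by
  obtain ⟨k0, k1⟩ := kp_mem S π z
  have hc := Cc_pos
  have c3 : |fderiv ℝ (kp S π) z V| ≤ p * 1 + 1 * (Cc * (2 * q)) := by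
    rw [d_kp nsc' hS hπ hO x1 x2]
    refine (abs_add_le _ _).trans (add_le_add ?_ ?_)
    · rw [abs_mul, abs_of_nonneg (ct_nonneg _)]
      exact mul_le_mul h1 (ct_le_one _) (ct_nonneg _) ((abs_nonneg _).trans h1)
    · rw [abs_mul, abs_mul, abs_mul, abs_of_nonneg (Par.K0_nonneg _), abs_two]
      gcongr
      exacts [Par.K0_le _, abs_dct_le _]
  have c4 : |2 * kp S π z * fderiv ℝ (kp S π) z V * Gb (S.tt π z)| ≤
      2 * 1 * |fderiv ℝ (kp S π) z V| * 1 := by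
    rw [abs_mul, abs_mul, abs_mul, abs_two, abs_of_nonneg k0, abs_of_nonneg (Gb_nonneg _)]
    gcongr
    exacts [Gb_nonneg _, Gb_le _]
  have c5 : |kp S π z ^ 2 * (4 * deriv ct (4 * S.tt π z) * fderiv ℝ (S.tt π) z V)| ≤
      1 * (4 * Cc * r) := by
    rw [abs_mul, abs_mul, abs_mul, abs_of_nonneg (sq_nonneg _), abs_of_pos four_pos]
    gcongr
    exacts [pow_le_one₀ k0 k1, abs_dct_le _]
  rw [d_a0 nsc' hS hπ hO]
  refine (abs_add_le _ _).trans ?_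
  linarith

theorem MM_le (hK : Kit) : ∃ c : ℝ, 0 < c ∧ ∀ (S : Sf) (π : Par) (Λ t : ℝ) (z : Q), Good S π Λ →
    0 < t → t ≤ 1 → S.Hit z → S.Box π z → 0 < MM S π z →
    S.Sq π z ∧ MM S π z ≤ c * (t + π.ε ^ 2 / t ^ 5) * TT S π z := by
  obtain ⟨C, hC, hnb⟩ := hK.nb
  have hc := Cc_pos
  refine ⟨3 * (Cc * (1048 + 16 * C)), by positivity, fun S π Λ t z hG t0 t1 hz hb h => ?_⟩
  have hS := hG.ok
  have hπ := hG.rg
  have hO := hb.O hπ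
  have hW := left_ne_zero_of_mul (left_ne_zero_of_mul h.ne')
  have hB := right_ne_zero_of_mul (left_ne_zero_of_mul h.ne')
  have hk : kp S π z ≠ 0 := kp_of_d nsc' hS hπ hO fun h0 => h.ne' (by simp [MM, h0])
  have ht : S.tt π z < 1 / 2 := not_le.1 fun c => h.ne' (by
    simp [MM, d_AA hS hπ (O.g1 hO) hW hB, d_a0 nsc' hS hπ hO, Gb,
      ct_zero (show 2 ≤ 4 * S.tt π z by linarith), dct_zero_ge (show 2 ≤ 4 * S.tt π z by linarith)])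
  have hq : S.Sq π z := ⟨(hπ.W_ne hW).le, (hπ.B1_ne hB).le, (kp_ne hπ hk).1.le, (kp_ne hπ hk).2.1,
    d_le_of_tt hπ hb.2.2.2.1 (by linarith)⟩
  refine ⟨hq, ?_⟩
  obtain ⟨-, x1, x2⟩ := hK.unq.xi1 S π Λ z hG hz hb
  obtain ⟨-, a, b, a0', b0, hab, ha, hb', -⟩ := hnb S π Λ z hG hz hb (by linarith [hq.2.2.2.1])
  clear hnb
  have D0 := hz.2.2.1
  have D1 := hq.2.2.2.2
  have e0 := hπ.ε2.1
  obtain ⟨om, hom⟩ : ∃ om, om = t + π.ε ^ 2 / t ^ 5 := ⟨_, rfl⟩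
  have o1 : ∀ j ≤ 5, π.ε ^ 2 / t ^ j ≤ om := fun j hj => by
    have := div_le_div_of_nonneg_left e0.le (pow_pos t0 5) (pow_le_pow_of_le_one t0.le t1 hj)
    linarith
  have o2 : t ≤ om := hom ▸ le_add_of_nonneg_right (by positivity)
  have o3 : π.ε ^ 2 / t ≤ om := by simpa using o1 1 (by norm_num)
  have n1 := A2_nonneg S z.1
  have n2 := A2_nonneg S (yy z)
  have n3 := NS_cu_nonneg (π := π) hS hS.cg_A2 z
  have n4 := mul_nonneg (inv_nonneg.2 e0.le) (NS_sgq_nonneg (π := π) hS z)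
  have n5 : 0 ≤ S.sq z ^ 2 / z.2.2 ^ 2 := by positivity
  obtain ⟨T, hT⟩ : ∃ T, T = TT S π z := ⟨_, rfl⟩
  have hT' := hT
  unfold TT at hT'
  have r1 : ‖S.Pv z‖ ≤ 4 * (om * T) := re1 (norm_nonneg _) D0 D1 t0 o2 (o1 3 (by norm_num))
    (show 1 + S.sq z ^ 2 / z.2.2 ^ 2 ≤ T by linarith)
  have r2 : a + b ≤ (2 + 4 * C) * (om * T) := re2 hC.le t0
    (ha.trans (mul_le_mul_of_nonneg_left ((NS_cud_le hS hπ z).trans
      (mul_le_mul_of_nonneg_right ((pow_le_pow_left₀ D0.le D1 2).trans_eq (by ring)) n3)) hC.le))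
    (by rwa [mul_inv_cancel_left₀ e0.ne']) n3 n4 o3 o2 (by linarith) (by linarith)
  have r3 : ∀ i, |deriv Par.K0 (S.cs2 z) * S.R z.2.1 (ee i) S.cs2 z| ≤
      4 * Cc * (128 * (om * T)) := by
    intro i
    by_cases c : deriv Par.K0 (S.cs2 z) = 0
    · have := mul_nonneg (t0.le.trans o2) (show 0 ≤ T by linarith)
      rw [c, zero_mul, abs_zero]
      positivity
    obtain ⟨c1, c2⟩ := Par.dK0_ne c
    obtain ⟨c7, c8⟩ := rc2 hK hS hO hz.2.1 D1 c1 c2 i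
    rw [abs_mul]
    refine mul_le_mul (Par.abs_dK0_le _) (c8.trans (re3 t0 c7 n2 n5 ((hq.ind D0 (by norm_num)
      (O.sq_ge hO hz.2.1 (hq.cs1 hπ) c2.le)).trans_eq (by ring))
      (by simpa using o1 0 (by norm_num)) o3 o2 (by linarith))) (abs_nonneg _) (by positivity)
  have r4 : ∀ i, |fderiv ℝ (AA S π) z (S.VR z.2.1 (ee i) z)| ≤ Cc * (1048 + 16 * C) * (om * T) := by
    intro i
    have c2 : |fderiv ℝ (S.tt π) z (S.VR z.2.1 (ee i) z)| ≤ 4 * (om * T) := by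
      refine (congrArg _ (hK.gd.Rt S π z _ _ hS hO)).trans_le ?_
      rw [abs_mul, abs_of_nonneg (tt_nonneg hπ D0.le)]
      exact (mul_le_of_le_one_left (abs_nonneg _) (by linarith)).trans
        ((abs_rot hz.2.1 i).trans r1)
    rw [d_AA hS hπ (O.g1 hO) hW hB]
    exact (ra0 hS hπ hO x1 x2 (r3 i) ((hab z.2.1 (ee i)).trans ((mul_le_of_le_one_left
      (add_nonneg a0' b0) (norm_rot hz.2.1 i)).trans r2)) c2).trans_eq (by ring)
  have r5 := Finset.sum_le_sum fun i (_ : i ∈ Finset.univ) => r4 i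
  rw [Finset.sum_const, Finset.card_univ, Fintype.card_fin, nsmul_eq_mul] at r5
  refine (mul_le_of_le_one_left (Finset.sum_nonneg fun _ _ => abs_nonneg _)
    (mul_le_one₀ (Par.W_le _) (Par.B1_nonneg _) (Par.B1_le _))).trans (r5.trans_eq ?_)
  rw [← hom, ← hT]
  push_cast
  ring

theorem ii_MM (hK : Kit) : ∃ C : ℝ, 0 < C ∧ ∀ (S : Sf) (π : Par) (Λ t : ℝ), Good S π Λ → 0 < t →
    t ≤ 1 → S.II (MM S π) ≤ C * (t * S.AA π + π.ε ^ 2 * S.AA π / t ^ 5) := by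
  obtain ⟨C, hC, h⟩ := hK.me
  obtain ⟨c, hc, hM⟩ := MM_le hK
  refine ⟨C * (5 * c), by positivity, fun S π Λ t hG t0 t1 => ?_⟩
  have hS := hG.ok
  have e0 := hG.rg.ε2.1
  obtain ⟨om, hom⟩ : ∃ om, om = c * (t + π.ε ^ 2 / t ^ 5) := ⟨_, rfl⟩
  have o0 : 0 ≤ om := by rw [hom]; positivity
  have z0 : S.Cg fun _ => (0 : ℝ) := Cg.const le_rfl
  have z1 : S.Cg fun x => om * (1 + S.A2 x) := ((Cg.const zero_le_one).add hS.cg_A2).cmul o0
  refine (h S π Λ 1 0 (om * (π.ε ^ 2)⁻¹) om _ _ _ _ (fun _ => 0) (fun _ => 0) hG one_pos le_rfl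
    (by positivity) o0 (cl_MM nsc' hS hG.rg) z1 z1 (hS.cg_A2.cmul o0) z0 z0
    (fun x _ _ h => by simp at h) fun z hz hb h0 => ?_).trans ?_
  · obtain ⟨h1, h2⟩ := hM S π Λ t z hG t0 t1 hz hb h0
    refine ⟨h1, by linarith [cs2_nonneg S z], ?_⟩
    rw [← hom, TT] at h2
    simp only [NS_cu_cmul hS hG.rg hS.cg_A2]
    linarith
  · have a2 := AA_nonneg (π := π) hS
    have a3 := mul_le_mul_of_nonneg_left (IB_A2_le (π := π) hS) o0
    have a4 := mul_le_mul_of_nonneg_right hG.rg.α2.2 (mul_nonneg o0 a2)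
    have a5 := mul_nonneg o0 a2
    have e : 5 * c * (t * S.AA π + π.ε ^ 2 * S.AA π / t ^ 5) = 5 * (om * S.AA π) := by
      rw [hom]
      ring
    rw [IB_zero, IB_cmul, IB_cmul, mul_assoc C, e, inv_mul_cancel_right₀ e0.ne']
    refine mul_le_mul_of_nonneg_left ?_ hC.le
    unfold Sf.AA at *
    linarith

end Db

end Vale.Agent.P218M1
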