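import Vale.Agent.P218M1.Da
import Vale.Agent.P218M1.Me
import Vale.Agent.P218M1.Gd

/-!
# P218M1: the pointwise estimates for the gradient of the fraction
-/

open MeasureTheory Metric Filter Topology Set
open scoped ContDiff RealInnerProductSpace ENNReal

noncomputable section

namespace Vale.Agent.P218M1

namespace Dc

theorem yg (x y : ℝ) {t : ℝ} (ht : 0 < t) : x * y ≤ t * x ^ 2 + y ^ 2 / t := by
  have h : t * x ^ 2 + y ^ 2 / t - x * y = ((t * x - y / 2) ^ 2 + 3 / 4 * y ^ 2) / t := by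
    field_simp; ring
  have : 0 ≤ ((t * x - y / 2) ^ 2 + 3 / 4 * y ^ 2) / t := by positivity
  linarith

theorem yg1 (x : ℝ) {t : ℝ} (ht : 0 < t) : x ≤ t * x ^ 2 + 1 / t := by
  simpa using yg x 1 ht

/-- the budget of the remainder terms -/
def bud (t ε D A Ay N3 Nb e Qv : ℝ) : ℝ :=
  t + t * A + t * Ay + t * N3 + t * (e / ε ^ 2) + t * (Qv / D ^ 4) + e / t + ε ^ 2 * Ay / t +
    ε ^ 2 * N3 / t + ε ^ 2 * Qv / D ^ 4 / t + ε ^ 2 * Qv / t ^ 9 + Nb / t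

/-- the signs of the ingredients of the budget -/
structure Pos (t ε D A Ay N3 Nb e Qv : ℝ) : Prop where
  t0 : 0 < t
  t1 : t ≤ 1
  ε0 : 0 < ε
  D0 : 0 < D
  D1 : D ≤ 1
  A0 : 0 ≤ A
  y0 : 0 ≤ Ay
  N0 : 0 ≤ N3
  b0 : 0 ≤ Nb
  e0 : 0 ≤ e
  Q0 : 0 ≤ Qv

section real

variable {t ε D A Ay N3 Nb e Qv : ℝ}

theorem Pos.all (h : Pos t ε D A Ay N3 Nb e Qv) :
    0 ≤ t ∧ 0 ≤ t * A ∧ 0 ≤ t * Ay ∧ 0 ≤ t * N3 ∧ 0 ≤ t * (e / ε ^ 2) ∧ 0 ≤ t * (Qv / D ^ 4) ∧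
      0 ≤ e / t ∧ 0 ≤ ε ^ 2 * Ay / t ∧ 0 ≤ ε ^ 2 * N3 / t ∧ 0 ≤ ε ^ 2 * Qv / D ^ 4 / t ∧
      0 ≤ ε ^ 2 * Qv / t ^ 9 ∧ 0 ≤ Nb / t := by
  obtain ⟨h1, _, h2, h3, _, h4, h5, h6, h7, h8, h9⟩ := h
  refine ⟨?_, ?_, ?_, ?_, ?_, ?_, ?_, ?_, ?_, ?_, ?_, ?_⟩ <;> positivity

theorem Pos.nonneg (h : Pos t ε D A Ay N3 Nb e Qv) : 0 ≤ bud t ε D A Ay N3 Nb e Qv := by
  obtain ⟨h1, h2, h3, h4, h5, h6, h7, h8, h9, h10, h11, h12⟩ := h.all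
  unfold bud; linarith

theorem Pos.one_le (h : Pos t ε D A Ay N3 Nb e Qv) {q : ℝ} (hq : q ^ 2 ≤ 4 * (ε ^ 2 * Qv))
    {c : ℝ} (hc : D ^ 4 ≤ c * q ^ 2) (hc0 : 0 ≤ c) : 1 / t ≤ 4 * c * (ε ^ 2 * Qv / D ^ 4 / t) := by
  have hD := pow_pos h.D0 4
  rw [← mul_div_assoc, ← mul_div_assoc]
  refine div_le_div_of_nonneg_right ?_ h.t0.le
  rw [le_div_iff₀ hD]
  nlinarith [mul_le_mul_of_nonneg_left hq hc0]

/-- the term with the derivative of `K0` -/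
theorem Pos.bK (h : Pos t ε D A Ay N3 Nb e Qv) {q m r d : ℝ} (hq : q ^ 2 ≤ 4 * (ε ^ 2 * Qv))
    (h4 : 1 / 4 ≤ q) (hm : m ^ 2 ≤ Ay) (hr : r ^ 2 ≤ A) (hd : d ^ 2 ≤ 4 * ε ^ 2) :
    2 * (m + r * (d * m)) + 2 * r ≤ 256 * bud t ε D A Ay N3 Nb e Qv := by
  obtain ⟨h1, h2, h3, h4', h5, h6, h7, h8, h9, h10, h11, h12⟩ := h.all
  have a1 := h.one_le hq (c := 16) (by nlinarith [pow_le_one₀ h.D0.le h.D1 (n := 4)]) (by norm_num)
  have a2 := yg1 m h.t0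
  have a3 := yg1 r h.t0
  have a4 := yg r (d * m) h.t0
  have a5 : (d * m) ^ 2 / t ≤ 4 * (ε ^ 2 * Ay / t) := by
    rw [← mul_div_assoc, mul_pow]
    refine div_le_div_of_nonneg_right ?_ h.t0.le
    nlinarith [mul_le_mul hd hm (sq_nonneg m) (by positivity)]
  have a6 := mul_le_mul_of_nonneg_left hm h1
  have a7 := mul_le_mul_of_nonneg_left hr h1
  unfold bud; linarith

/-- the term with the derivative of the occlusion -/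
theorem Pos.bN (h : Pos t ε D A Ay N3 Nb e Qv) {C n r a b : ℝ} (hC : 0 < C) (hn : n ^ 2 ≤ C * N3)
    (hr : r ^ 2 ≤ A) (ha : a ^ 2 ≤ C * (4 * (ε ^ 2 * N3))) (hb : b ^ 2 ≤ C * Nb) (h1 : 1 ≤ 2 * Nb) :
    n + r * (a + b) ≤ (4 * C + 2) * bud t ε D A Ay N3 Nb e Qv := by
  obtain ⟨h1', h2, h3, h4, h5, h6, h7, h8, h9, h10, h11, h12⟩ := h.all
  have a1 : 1 / t ≤ 2 * (Nb / t) := by
    rw [← mul_div_assoc]; exact div_le_div_of_nonneg_right h1 h.t0.le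
  have a2 := yg1 n h.t0
  have a3 := yg r a h.t0
  have a4 := yg r b h.t0
  have a5 : a ^ 2 / t ≤ 4 * (C * (ε ^ 2 * N3 / t)) := by
    rw [← mul_div_assoc, ← mul_div_assoc]
    exact div_le_div_of_nonneg_right (by linarith) h.t0.le
  have a6 : b ^ 2 / t ≤ C * (Nb / t) := by
    rw [← mul_div_assoc]; exact div_le_div_of_nonneg_right hb h.t0.le
  have a7 : t * n ^ 2 ≤ C * (t * N3) := by nlinarith [mul_le_mul_of_nonneg_left hn h1']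
  have a8 := mul_le_mul_of_nonneg_left hr h1'
  have a9 : t * N3 + ε ^ 2 * N3 / t + Nb / t ≤ bud t ε D A Ay N3 Nb e Qv := by unfold bud; linarith
  have a10 : t * A + Nb / t ≤ bud t ε D A Ay N3 Nb e Qv := by unfold bud; linarith
  have a11 := mul_le_mul_of_nonneg_left a9 hC.le
  have a12 := mul_nonneg hC.le h4
  have a13 := mul_nonneg hC.le h12
  nlinarith

/-- the rotation of the rescaled distance -/
theorem Pos.bR (h : Pos t ε D A Ay N3 Nb e Qv) {v r : ℝ} (hq : (v ^ 2) ^ 2 ≤ 4 * (ε ^ 2 * Qv))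
    (hr : r ^ 2 ≤ A) : r * v ≤ 4 * bud t ε D A Ay N3 Nb e Qv := by
  obtain ⟨h1, h2, h3, h4, h5, h6, h7, h8, h9, h10, h11, h12⟩ := h.all
  have ht := h.t0
  have a1 := yg r v ht
  have a2 := mul_le_mul_of_nonneg_left hr h1
  have a3 : v ^ 2 / t ≤ t + 4 * (ε ^ 2 * Qv / t ^ 9) := by
    rcases le_total (v ^ 2) (t ^ 2) with hv | hv
    · have : v ^ 2 / t ≤ t := by rw [div_le_iff₀ ht]; linarith
      linarith
    · have : v ^ 2 / t ≤ 4 * (ε ^ 2 * Qv / t ^ 9) := by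
        rw [← mul_div_assoc, div_le_div_iff₀ ht (by positivity)]
        have b1 : t ^ 8 ≤ t ^ 2 := pow_le_pow_of_le_one h1 h.t1 (by norm_num)
        have b2 : v ^ 2 * t ^ 8 ≤ 4 * (ε ^ 2 * Qv) := by
          nlinarith [mul_le_mul_of_nonneg_left (b1.trans hv) (sq_nonneg v)]
        nlinarith [mul_le_mul_of_nonneg_right b2 h1]
      linarith
  unfold bud; linarith

/-- the part of the main term where the static cutoffs are not one -/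
theorem Pos.bG (h : Pos t ε D A Ay N3 Nb e Qv) {q g c : ℝ} (hq : q ^ 2 ≤ 4 * (ε ^ 2 * Qv))
    (hq5 : q ≤ 5) (hg : g ^ 2 ≤ 2 * (q / ε ^ 2) + 2 * A) (hg0 : 0 ≤ g) (e1 : e ≤ 1) (hc0 : 0 ≤ c)
    (hc1 : c ≤ 1) (hc : c ≠ 0 → D ^ 2 ≤ q) : (e + c) * g ≤ 10 * bud t ε D A Ay N3 Nb e Qv := by
  obtain ⟨h1, h2, h3, h4, h5, h6, h7, h8, h9, h10, h11, h12⟩ := h.all
  have ht := h.t0
  have hε := h.ε0
  have a1 := yg1 g ht
  have a2 := mul_le_mul_of_nonneg_left hg h1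
  have a3 : q / ε ^ 2 ≤ 5 / ε ^ 2 := by gcongr
  have a4 : e * g ≤ 10 * (t * (e / ε ^ 2)) + 2 * (t * A) + e / t := by
    have b1 : g ≤ 10 * (t / ε ^ 2) + 2 * (t * A) + 1 / t := by
      have : t * (5 / ε ^ 2) = 5 * (t / ε ^ 2) := by ring
      nlinarith [mul_le_mul_of_nonneg_left a3 h1]
    calc e * g ≤ e * (10 * (t / ε ^ 2) + 2 * (t * A) + 1 / t) := mul_le_mul_of_nonneg_left b1 h.e0
      _ = 10 * (t * (e / ε ^ 2)) + e * (2 * (t * A)) + e / t := by ring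
      _ ≤ _ := by nlinarith
  have a5 : c * g ≤ 8 * (t * (Qv / D ^ 4)) + 2 * (t * A) + 4 * (ε ^ 2 * Qv / D ^ 4 / t) := by
    by_cases h0 : c = 0
    · rw [h0, zero_mul]; linarith
    · have b0 := hc h0
      have hD := pow_pos h.D0 2
      have b1 := h.one_le hq (c := 1) (by nlinarith) (by norm_num)
      have b2 : q / ε ^ 2 ≤ 4 * (Qv / D ^ 4) := by
        rw [← mul_div_assoc, div_le_div_iff₀ (by positivity) (pow_pos h.D0 4)]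
        have b3 : D ^ 4 ≤ D ^ 2 := pow_le_pow_of_le_one h.D0.le h.D1 (by norm_num)
        nlinarith [mul_le_mul_of_nonneg_left (b3.trans b0) (hD.le.trans b0)]
      nlinarith [mul_le_mul_of_nonneg_left b2 h1, mul_le_mul_of_nonneg_right hc1 hg0]
  unfold bud; nlinarith

theorem abs_mul_le {a b A B : ℝ} (ha : |a| ≤ A) (hb : a ≠ 0 → |b| ≤ B) (hB : 0 ≤ B) :
    |a * b| ≤ A * B := by
  have hA := (abs_nonneg a).trans ha
  by_cases h : a = 0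
  · rw [h, zero_mul, abs_zero]; positivity
  · rw [abs_mul]; exact mul_le_mul ha (hb h) (abs_nonneg _) hA

theorem abs_mul_one {x X y : ℝ} (h1 : |x| ≤ X) (h2 : 0 ≤ y) (h3 : y ≤ 1) : |y * x| ≤ X := by
  rw [abs_mul, abs_of_nonneg h2]
  exact (mul_le_of_le_one_left (abs_nonneg _) h3).trans h1

theorem comb {v o b G x c k y w K C B g : ℝ} (v0 : 0 ≤ v) (v1 : v ≤ 1) (o0 : 0 ≤ o) (o1 : o ≤ 1)
    (b0 : 0 ≤ b) (b1 : b ≤ 1) (G0 : 0 ≤ G) (G1 : G ≤ 1) (c0 : 0 ≤ c) (c1 : c ≤ 1) (k0 : 0 ≤ k)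
    (k1 : k ≤ 1) (K0 : 0 ≤ K) (C0 : 0 ≤ C) (B0 : 0 ≤ B) (T1 : |x| ≤ 4 * K * (256 * B))
    (T2 : |y| ≤ K * (2 * ((4 * C + 2) * B))) (T3 : |w| ≤ 4 * K * (g + 4 * B)) :
    |v * (2 * o * b * G * (x * c + k * y) + o ^ 2 * w)| ≤
      K * (2100 + 16 * C) * B + 4 * K * (o ^ 2 * g) := by
  refine abs_mul_one ?_ v0 v1
  have u1 : |2 * o * b * G| ≤ 2 := by
    rw [abs_of_nonneg (by positivity)]
    calc _ ≤ 2 * 1 * 1 * (1 : ℝ) := by gcongr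
      _ = 2 := by norm_num
  have u3 := abs_mul_one T1 c0 c1
  have u4 := abs_mul_one T2 k0 k1
  rw [mul_comm] at u3
  have u5 := abs_mul_le u1 (fun _ => (abs_add_le _ _).trans (add_le_add u3 u4)) (by positivity)
  refine (abs_add_le _ _).trans ((add_le_add u5 (le_of_eq (abs_mul _ _))).trans ?_)
  rw [abs_of_nonneg (sq_nonneg _)]
  have u6 := mul_le_mul_of_nonneg_left T3 (sq_nonneg o)
  have u7 := mul_le_mul_of_nonneg_right (pow_le_one₀ o0 o1 (n := 2)) (mul_nonneg K0 B0)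
  nlinarith [mul_nonneg K0 B0]

theorem comb2 {c w x o g a b G s B : ℝ} (c0 : 0 ≤ c) (w0 : 0 ≤ w) (x0 : 0 ≤ x) (o0 : 0 ≤ o)
    (o1 : o ≤ 1) (g0 : 0 ≤ g) (a0 : 0 ≤ a) (a1 : a ≤ 1) (b0 : 0 ≤ b) (b1 : b ≤ 1) (G1 : 1 ≤ G)
    (s0 : 0 < s) (hω : w * x ≤ 2) (h : (1 - a + (1 - b)) * g ≤ 10 * B) :
    c * (w * x) * (o * g) ≤ w * o * (a * b) * G * g ^ 2 / s + c ^ 2 * (s * (w * x ^ 2)) +
      20 * c * B := by
  have h1 : (1 - a * b) * g ≤ 10 * B :=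
    (mul_le_mul_of_nonneg_right (by nlinarith [mul_nonneg (sub_nonneg.2 a1) (sub_nonneg.2 b1)])
      g0).trans h
  have h2 : 0 ≤ (1 - a * b) * g := mul_nonneg (sub_nonneg.2 (mul_le_one₀ a1 b0 b1)) g0
  have h3 : w * x * o * ((1 - a * b) * g) ≤ 2 * (10 * B) :=
    mul_le_mul ((mul_le_of_le_one_right (by positivity) o1).trans hω) h1 h2 (by norm_num)
  have h4 := mul_le_mul_of_nonneg_left h3 c0
  have h5 := mul_le_mul_of_nonneg_left (yg (c * x) g s0) (by positivity : 0 ≤ w * o * (a * b))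
  have h6 : w * o * (a * b) * (g ^ 2 / s) ≤ w * o * (a * b) * G * g ^ 2 / s := by
    rw [mul_div_assoc, mul_assoc _ G]
    exact mul_le_mul_of_nonneg_left (le_mul_of_one_le_left (by positivity) G1) (by positivity)
  have h7 : w * o * (a * b) * (s * (c * x) ^ 2) ≤ c ^ 2 * (s * (w * x ^ 2)) :=
    calc _ = (o * (a * b)) * (c ^ 2 * (s * (w * x ^ 2))) := by ring
      _ ≤ _ := mul_le_of_le_one_left (by positivity)
        (mul_le_one₀ o1 (by positivity) (mul_le_one₀ a1 b0 b1))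
  nlinarith

end real

/-! ### the derivative of the integrand -/

open Gd Da

section pointwise

variable {S : Sf} {π : Par} {Λ σ D t : ℝ} {z : Q} {η : E → ℝ} {th : ℝ → ℝ}

theorem VV_eq (S : Sf) (e τ ν : E) (z : Q) :
    S.VD e z - S.VR τ ν z = W S e (-rot τ ν z.2.1) z := by
  simp [Sf.VD, Sf.VR, W]

theorem D_eq (S : Sf) (f : Q → ℝ) (z : Q) (e : E) : S.D e f z = ⟪S.DG f z, e⟫ := by
  let L : E →L[ℝ] Q := (S.Pi z.1 z.2.1).prod ((0 : E →L[ℝ] E).prod (innerSL ℝ (S.Pv z)))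
  have h : ∀ e, S.D e f z = (fderiv ℝ f z ∘L L) e := fun e => rfl
  rw [Sf.DG, inner_sum_ee, h, map_eq_sum]
  simp only [h, smul_eq_mul, mul_comm]

theorem dF (K : Kit) (hG : Good S π Λ) (hz : S.Hit z) (hb : S.Box π z) (hW : π.W z.1 ≠ 0)
    (e r : E) (he : ⟪S.lv z, e⟫ + ⟪S.p1 z, r⟫ = 0) :
    fderiv ℝ (Fu S π σ) z (W S e r z) = hv σ (S.cc z.1 z.2.1) *
      (2 * S.o0 π z * π.B0 (S.cs1 z) * Gb (S.tt π z) * (deriv Par.K0 (S.cs2 z) *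
        (2 * S.cs2 z ^ 2 * ⟪S.X2 z (S.p2 z), e + z.2.2 • r⟫ + 2 * S.cs2 z * ⟪S.p2 z, r⟫) *
          ct (2 * S.N π z) +
        Par.K0 (S.cs2 z) * (deriv ct (2 * S.N π z) * (2 * fderiv ℝ (S.N π) z (W S e r z)))) +
      S.o0 π z ^ 2 * (4 * deriv ct (4 * S.tt π z) *
        (⟪S.gt π z, e⟫ + S.tt π z * ⟪S.Pv z, r⟫))) := by
  have hS := hG.ok
  have hπ := hG.rg
  have hO := Ca.box_O hπ hb
  obtain ⟨-, x1, x2⟩ := K.unq.xi1 S π Λ z hG hz hb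
  have p1 := hπ.pt_one (hπ.W_ne hW).le
  have p2 : fderiv ℝ π.pt z.1 (W S e r z).1 = 0 := by
    by_contra h
    linarith [(hπ.fderiv_pt_ne h).1, hπ.W_ne hW]
  have h1 := ((hx z (W S e r z)).comp (π.pt_smooth.differentiable (by simp) z.1).hasFDerivAt).sq
  have h2 := (wcc e r hS hO).rcomp
    ((hv_cd (k := 1) σ).differentiable (by simp) (S.cc z.1 z.2.1)).hasDerivAt
  have h3 := (wc1 e r hS hO).rcomp (π.B0_smooth.differentiable (by simp) (S.cs1 z)).hasDerivAt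
  have h4 := (wc2 e r hS hO).rcomp (Par.K0_smooth.differentiable (by simp) (S.cs2 z)).hasDerivAt
  have h5 := ((HD.const (2 : ℝ)).mul (HD.self ((sm_N K.nsc hS hπ hO 1).differentiableAt (by simp))
    (W S e r z))).rcomp (hasDerivAt_ct _)
  have h6 := (hd z (W S e r z)).rcomp (π.xi_smooth.differentiable (by simp) z.2.2).hasDerivAt
  have h7 := (wt e r π hS hO).rcomp (hasDerivAt_Gb _)
  have h := ((h1.mul h2).mul (((h3.mul h4).mul h5).mul h6).sq).mul h7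
  refine h.2.trans ?_
  simp only [he, p1, p2, x1, x2, Sf.o0]
  ring

theorem dF_ne (K : Kit) (hG : Good S π Λ) (hz : S.Hit z) (hb : S.Box π z) (hW : π.W z.1 ≠ 0)
    (e r : E) (he : ⟪S.lv z, e⟫ + ⟪S.p1 z, r⟫ = 0) (h : fderiv ℝ (Fu S π σ) z (W S e r z) ≠ 0) :
    S.o0 π z ≠ 0 ∧ S.tt π z < 1 / 2 := by
  rw [dF K hG hz hb hW e r he] at h
  refine ⟨fun h0 => h (by rw [h0]; ring), not_le.1 fun h0 => h ?_⟩
  rw [Gb, ct_zero (by linarith), dct_zero_ge (s := 4 * S.tt π z) (by linarith)]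
  ring

/-- the budget at a pair -/
def BB (S : Sf) (π : Par) (D t : ℝ) (η : E → ℝ) (z : Q) : ℝ :=
  bud t π.ε D (S.A2 z.1) (S.A2 (yy z)) (S.NS π (fun z' => π.cu (S.cs2 z') * S.A2 (yy z')) z)
    (S.NS π (fun z' => π.sgb (S.cs2 z') / S.cs2 z') z) (1 - η z.1 ^ 2) (S.sq z ^ 2 / z.2.2 ^ 2)

theorem pos (K : Kit) (hG : Good S π Λ) (hc : Cut D η th) (hD : 0 < D) (hD1 : D ≤ 1) (ht : 0 < t)
    (ht1 : t ≤ 1) (hz : S.Hit z) (hb : S.Box π z) :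
    Pos t π.ε D (S.A2 z.1) (S.A2 (yy z)) (S.NS π (fun z' => π.cu (S.cs2 z') * S.A2 (yy z')) z)
      (S.NS π (fun z' => π.sgb (S.cs2 z') / S.cs2 z') z) (1 - η z.1 ^ 2)
      (S.sq z ^ 2 / z.2.2 ^ 2) :=
  ⟨ht, ht1, hG.rg.ε0, hD, hD1, S.A2_nonneg _, S.A2_nonneg _,
    Me.NS_nn K.unq hG (Me.cg_A2 hG.ok) hz hb,
    (K.unq.nb0 S π Λ z hG hz hb).1.trans (K.unq.nb0 S π Λ z hG hz hb).2,
    sub_nonneg.2 (cut_mem hc z.1 0).1, by positivity⟩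

theorem sq_Q (hπ : π.Rg) (h : Su S π z) :
    S.sq z ^ 2 ≤ 4 * (π.ε ^ 2 * (S.sq z ^ 2 / z.2.2 ^ 2)) := by
  have h1 := h.pos hπ
  have h2 := h.d_le hπ
  have h3 : z.2.2 ^ 2 ≤ 4 * π.ε ^ 2 := by nlinarith
  rw [← mul_div_assoc, ← mul_div_assoc, le_div_iff₀ (by positivity)]
  nlinarith [mul_le_mul_of_nonneg_left h3 (sq_nonneg (S.sq z))]

theorem NS_d (K : Kit) (hG : Good S π Λ) (hz : S.Hit z) (h : Su S π z) :
    S.NS π (fun z' => π.cu (S.cs2 z') * (z'.2.2 ^ 2 * S.A2 (yy z'))) z ≤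
      4 * (π.ε ^ 2 * S.NS π (fun z' => π.cu (S.cs2 z') * S.A2 (yy z')) z) := by
  have hπ := hG.rg
  obtain ⟨T, hT, q⟩ := K.unq.ns S π Λ z hG hz (h.box hπ)
  rw [q _ fun w _ b => by rw [hπ.cu_zero b.le, zero_mul],
    q _ fun w _ b => by rw [hπ.cu_zero b.le, zero_mul], Finset.mul_sum, Finset.mul_sum]
  refine Finset.sum_le_sum fun l hl => ?_
  obtain ⟨h1, h2, -⟩ := (hT l).1 hl
  have h3 : l ^ 2 ≤ 4 * π.ε ^ 2 := by nlinarith [h.d_le hπ]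
  have h4 := mul_nonneg (Par.cu_nonneg (π := π) (S.cs2 (z.1, z.2.1, l)))
    (S.A2_nonneg (yy (z.1, z.2.1, l)))
  nlinarith [mul_le_mul_of_nonneg_left h3 h4]

theorem T1 (K : Kit) (hG : Good S π Λ) (hc : Cut D η th) (hD : 0 < D) (hD1 : D ≤ 1) (ht : 0 < t)
    (ht1 : t ≤ 1) (hz : S.Hit z) (h : Su S π z) {e r : E} (e1 : ‖e‖ ≤ 1)
    (hr : ‖r‖ ^ 2 ≤ S.A2 z.1) :
    |deriv Par.K0 (S.cs2 z) * (2 * S.cs2 z ^ 2 * ⟪S.X2 z (S.p2 z), e + z.2.2 • r⟫ +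
      2 * S.cs2 z * ⟪S.p2 z, r⟫)| ≤ 4 * Cc * (256 * BB S π D t η z) := by
  have hπ := hG.rg
  have hO := Ca.box_O hπ (h.box hπ)
  have P := pos K hG hc hD hD1 ht ht1 hz (h.box hπ)
  have hθ := hz.2.1
  have c9 : 9 / 10 ≤ S.cs1 z := by linarith [hπ.α2.2, (o0_ne hπ h.2.1).1]
  have d0 := h.pos hπ
  have d2 : z.2.2 ^ 2 ≤ 4 * π.ε ^ 2 := by nlinarith [h.d_le hπ]
  refine abs_mul_le (Par.abs_dK0_le _) (fun h0 => ?_) (mul_nonneg (by norm_num) P.nonneg)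
  have c2 := Sf.O.cs2_pos hO
  have c3 : S.cs2 z * ‖S.p2 z‖ ^ 2 = 1 := Sf.O.cs2_p2 hO
  have m1 : (S.cs2 z ^ 2 * ‖S.X2 z (S.p2 z)‖) ^ 2 ≤ S.A2 (yy z) :=
    calc _ = S.cs2 z ^ 4 * ‖S.X2 z (S.p2 z)‖ ^ 2 := by ring
      _ ≤ S.cs2 z ^ 4 * (hs (S.X2 z) * ‖S.p2 z‖ ^ 2) := by gcongr; exact norm_apply_sq_le _ _
      _ = S.cs2 z ^ 3 * hs (S.X2 z) * (S.cs2 z * ‖S.p2 z‖ ^ 2) := by ring
      _ ≤ _ := by rw [c3, mul_one]; exact hG.ok.hs_X2 hO hθ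
  refine le_trans ?_ (P.bK (sq_Q hπ h) (Sf.O.sq_ge hO hθ c9 (Par.dK0_ne h0).2.le) m1 hr d2)
  have m2 : ‖e + z.2.2 • r‖ ≤ 1 + z.2.2 * ‖r‖ := by
    refine (norm_add_le _ _).trans ?_
    rw [norm_smul, Real.norm_of_nonneg d0.le]; linarith
  have m3 : |⟪S.X2 z (S.p2 z), e + z.2.2 • r⟫| ≤ ‖S.X2 z (S.p2 z)‖ * (1 + z.2.2 * ‖r‖) :=
    (abs_real_inner_le_norm _ _).trans (by gcongr)
  have m4 := abs_real_inner_le_norm (S.p2 z) r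
  have m5 : S.cs2 z * ‖S.p2 z‖ ≤ 1 := by
    refine (sq_le_one_iff₀ (by positivity)).1 ?_
    rw [mul_pow, sq (S.cs2 z), mul_assoc, c3, mul_one]; exact S.cs2_le hθ
  refine (abs_add_le _ _).trans ?_
  rw [abs_mul, abs_mul (2 * S.cs2 z), abs_of_pos (by positivity : 0 < 2 * S.cs2 z ^ 2),
    abs_of_pos (by positivity : 0 < 2 * S.cs2 z)]
  linarith [mul_le_mul_of_nonneg_left m3 (sq_nonneg (S.cs2 z)),
    mul_le_mul_of_nonneg_left m4 c2.le, mul_le_mul_of_nonneg_right m5 (norm_nonneg r)]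

/-- what is used from `NB` -/
def Nb (S : Sf) (π : Par) (C : ℝ) (z : Q) : Prop :=
  ‖S.DG (S.N π) z‖ ^ 2 ≤ C * S.NS π (fun z' => π.cu (S.cs2 z') * S.A2 (yy z')) z ∧
    ∃ a b : ℝ, (∀ τ ν, |S.R τ ν (S.N π) z| ≤ ‖rot τ ν z.2.1‖ * (a + b)) ∧
      a ^ 2 ≤ C * S.NS π (fun z' => π.cu (S.cs2 z') * (z'.2.2 ^ 2 * S.A2 (yy z'))) z ∧
      b ^ 2 ≤ C * S.NS π (fun z' => π.sgb (S.cs2 z') / S.cs2 z') z

theorem T2 (K : Kit) {C : ℝ} (hC : 0 < C) (hG : Good S π Λ) (hc : Cut D η th) (hD : 0 < D)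
    (hD1 : D ≤ 1) (ht : 0 < t) (ht1 : t ≤ 1) (hz : S.Hit z) (h : Su S π z) (nb : Nb S π C z)
    {e τ ν : E} (e1 : ‖e‖ ≤ 1) (hr : ‖rot τ ν z.2.1‖ ^ 2 ≤ S.A2 z.1) :
    |deriv ct (2 * S.N π z) * (2 * fderiv ℝ (S.N π) z (W S e (-rot τ ν z.2.1) z))| ≤
      Cc * (2 * ((4 * C + 2) * BB S π D t η z)) := by
  have hb := h.box hG.rg
  have P := pos K hG hc hD hD1 ht ht1 hz hb
  have hB : 0 ≤ BB S π D t η z := P.nonneg
  obtain ⟨n1, a, b, n2, n3, n4⟩ := nb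
  refine abs_mul_le (abs_dct_le _) (fun h0 => ?_) (by positivity)
  have m1 := P.bN hC n1 hr (n3.trans (mul_le_mul_of_nonneg_left (NS_d K hG hz h) hC.le)) n4
    (by linarith [(dct_ne h0).1, (K.unq.nb0 S π Λ z hG hz hb).2])
  have m2 : |S.D e (S.N π) z| ≤ ‖S.DG (S.N π) z‖ := by
    rw [D_eq]
    exact (abs_real_inner_le_norm _ _).trans (mul_le_of_le_one_right (norm_nonneg _) e1)
  have m3 := (abs_sub _ _).trans (add_le_add m2 (n2 τ ν))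
  rw [← VV_eq, map_sub, abs_mul, abs_two]
  exact mul_le_mul_of_nonneg_left (m3.trans m1) (by norm_num)

theorem T3 (K : Kit) (hG : Good S π Λ) (hc : Cut D η th) (hD : 0 < D) (hD1 : D ≤ 1) (ht : 0 < t)
    (ht1 : t ≤ 1) (hz : S.Hit z) (h : Su S π z) {e r : E} (e0 : ⟪S.g z.1, e⟫ = 0) (e1 : ‖e‖ ≤ 1)
    (hr : ‖r‖ ^ 2 ≤ S.A2 z.1) :
    |4 * deriv ct (4 * S.tt π z) * (⟪S.gt π z, e⟫ + S.tt π z * ⟪S.Pv z, r⟫)| ≤
      4 * Cc * (‖S.P z.1 (S.gt π z)‖ + 4 * BB S π D t η z) := by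
  have hπ := hG.rg
  have P := pos K hG hc hD hD1 ht ht1 hz (h.box hπ)
  have hB : 0 ≤ BB S π D t η z := P.nonneg
  refine abs_mul_le (by rw [abs_mul]; norm_num; exact abs_dct_le _) (fun _ => ?_) (by positivity)
  have m1 : |⟪S.gt π z, e⟫| ≤ ‖S.P z.1 (S.gt π z)‖ := by
    rw [← Sf.P_tan e0, ← Sf.P_sym]
    exact (abs_real_inner_le_norm _ _).trans (mul_le_of_le_one_right (norm_nonneg _) e1)
  have m2 := abs_real_inner_le_norm (S.Pv z) r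
  have m3 := P.bR (v := ‖S.Pv z‖) (sq_Q hπ h) hr
  refine (abs_add_le _ _).trans (add_le_add m1 ?_)
  rw [abs_mul, abs_of_nonneg (h.tt_nonneg hπ)]
  exact (mul_le_of_le_one_left (abs_nonneg _) h.2.2.le).trans
    (m2.trans ((mul_comm _ _).trans_le m3))

/-- the bound for the derivative of the integrand -/
theorem dF_le (K : Kit) {C : ℝ} (hC : 0 < C) (hG : Good S π Λ) (hc : Cut D η th) (hD : 0 < D)
    (hD1 : D ≤ 1) (ht : 0 < t) (ht1 : t ≤ 1) (hz : S.Hit z) (hW : π.W z.1 ≠ 0) (h : Su S π z)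
    (nb : Nb S π C z) {e τ ν : E} (he : ⟪S.lv z, e⟫ + ⟪S.p1 z, -rot τ ν z.2.1⟫ = 0)
    (e0 : ⟪S.g z.1, e⟫ = 0) (e1 : ‖e‖ ≤ 1) (hr : ‖rot τ ν z.2.1‖ ^ 2 ≤ S.A2 z.1) :
    |fderiv ℝ (Fu S π σ) z (W S e (-rot τ ν z.2.1) z)| ≤
      Cc * (2100 + 16 * C) * BB S π D t η z +
        4 * Cc * (S.o0 π z ^ 2 * ‖S.P z.1 (S.gt π z)‖) := by
  have hr' : ‖-rot τ ν z.2.1‖ ^ 2 ≤ S.A2 z.1 := by rwa [norm_neg]
  rw [dF K hG hz (h.box hG.rg) hW e _ he]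
  exact comb (hv_nonneg _ _) (hv_le _ _) (o0_nonneg z) ((o0_le z).trans (Par.B0_le _))
    (Par.B0_nonneg _) (Par.B0_le _) (Gb_nonneg _) (Gb_le _) (ct_nonneg _) (ct_le_one _)
    (Par.K0_nonneg _) (Par.K0_le _) Cc_pos.le hC.le
    (pos K hG hc hD hD1 ht ht1 hz (h.box hG.rg)).nonneg (T1 K hG hc hD hD1 ht ht1 hz h e1 hr')
    (T2 K hC hG hc hD hD1 ht ht1 hz h nb e1 hr) (T3 K hG hc hD hD1 ht ht1 hz h e0 e1 hr')

/-- the main term -/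
theorem main_le (K : Kit) (hG : Good S π Λ) (hc : Cut D η th) (hD : 0 < D) (hD1 : D ≤ 1)
    (ht : 0 < t) (ht1 : t ≤ 1) {s : ℝ} (hs : 0 < s) (hz : S.Hit z) (h : Su S π z)
    (h2 : S.tt π z < 1 / 2) (hω : π.W z.1 * (1 + ‖z.1‖) ≤ 2) {c : ℝ} (c0 : 0 ≤ c) :
    c * (π.W z.1 * (1 + ‖z.1‖)) * (S.o0 π z ^ 2 * ‖S.P z.1 (S.gt π z)‖) ≤
      S.ze π η th z * G2 (S.tt π z) * ⟪S.P z.1 (S.gt π z), S.gt π z⟫ / s +
        c ^ 2 * (s * (π.W z.1 * (1 + ‖z.1‖) ^ 2)) + 20 * c * BB S π D t η z := by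
  have hS := hG.ok
  have hπ := hG.rg
  have hb := h.box hπ
  have hO := Ca.box_O hπ hb
  have P := pos K hG hc hD hD1 ht ht1 hz hb
  have hθ := hz.2.1
  obtain ⟨o1, o2, o3, -⟩ := o0_ne hπ h.2.1
  have c9 : 9 / 10 ≤ S.cs1 z := by linarith [hπ.α2.2]
  obtain ⟨k1, k2⟩ := cut_mem hc z.1 (S.sq z)
  have g1 : ‖S.gt π z‖ ^ 2 ≤ 2 * (S.sq z / π.ε ^ 2) + 2 * S.A2 z.1 := by
    have m1 := norm_add_sq_le (S.Uv π z) (S.tt π z • S.lv z)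
    have m2 : ‖S.Uv π z‖ ^ 2 ≤ S.sq z / π.ε ^ 2 := by
      rw [Sf.norm_Uv]
      exact div_le_div_of_nonneg_right
        (mul_le_of_le_one_left (S.sq_nonneg' z) (S.cs1_le hθ)) (sq_nonneg _)
    have m3 : ‖S.lv z‖ ^ 2 ≤ S.A2 z.1 := (hS.norm_lv_le hO hθ (by linarith)).trans
      (mul_le_of_le_one_left (S.A2_nonneg _) (by linarith))
    have m4 : ‖S.tt π z • S.lv z‖ ^ 2 ≤ ‖S.lv z‖ ^ 2 := by
      rw [norm_smul, mul_pow, Real.norm_of_nonneg (h.tt_nonneg hπ)]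
      exact mul_le_of_le_one_left (sq_nonneg _) (pow_le_one₀ (h.tt_nonneg hπ) h.2.2.le)
    rw [Sf.gt]; linarith
  have g3 := P.bG (c := 1 - th (S.sq z) ^ 2) (sq_Q hπ h) (Sf.O.sq_le_four hO hθ c9 o2.le)
    ((Sf.norm_P_le (Sf.O.g1 hO) _).trans g1) (norm_nonneg _) (by linarith [sq_nonneg (η z.1)])
    (by linarith) (by linarith [sq_nonneg (th (S.sq z))])
    (fun h0 => le_of_not_ge fun h1 => h0 (by rw [hc.the _ h1]; norm_num))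
  have G : 1 ≤ G2 (S.tt π z) := by
    have : (1 / 2 : ℝ) ^ 4 ≤ max (1 - S.tt π z) 0 ^ 4 :=
      pow_le_pow_left₀ (by norm_num) (le_max_of_le_left (by linarith)) 4
    unfold G2; linarith
  rw [← Sf.norm_P_sq (Sf.O.g1 hO)]
  exact comb2 c0 (Par.W_nonneg _) (by positivity) (sq_nonneg _) (o0_sq_le z) (norm_nonneg _)
    (sq_nonneg _) k1 (sq_nonneg _) k2 G hs hω g3

end pointwise

end Dc

end Vale.Agent.P218M1
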