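import Mathlib

/-!
# P218M1: smooth surfaces in space as level sets, and the calculus on rays

See notes/P218/Mult1.md.
-/

open MeasureTheory Metric Filter Topology Set
open scoped ContDiff RealInnerProductSpace ENNReal

noncomputable section

namespace Vale.Agent.P218M1

/-- Euclidean space -/
abbrev E := EuclideanSpace ℝ (Fin 3)

/-- the standard basis -/
def ee (i : Fin 3) : E := EuclideanSpace.single i 1

/-- the trace -/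
def trc (L : E →L[ℝ] E) : ℝ := ∑ i, L (ee i) i

/-- the square of the Hilbert-Schmidt norm -/
def hs (L : E →L[ℝ] E) : ℝ := ∑ i, ‖L (ee i)‖ ^ 2

/-- the divergence -/
def dvg (Y : E → E) (x : E) : ℝ := trc (fderiv ℝ Y x)

/-- the rank one map `v ↦ ⟪a, v⟫ b` -/
def ro (a b : E) : E →L[ℝ] E := (innerSL ℝ a).smulRight b

/-- a surface: the zero set of `w`, with the area measure `μ` -/
structure Sf where
  w : E → ℝ
  μ : Measure E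

namespace Sf

variable (S : Sf)

/-- the surface -/
def M : Set E := {x | S.w x = 0}

/-- the gradient -/
def g (x : E) : E := gradient S.w x

/-- the unit normal -/
def n (x : E) : E := ‖S.g x‖⁻¹ • S.g x

/-- the Hessian -/
def D2 (x : E) : E →L[ℝ] E := fderiv ℝ S.g x

/-- the tangential projection -/
def P (x : E) : E →L[ℝ] E := ContinuousLinearMap.id ℝ E - ro (S.n x) (S.n x)

/-- the second fundamental form, `A = - d n` on the tangent plane -/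
def A (x : E) : E →L[ℝ] E := (-‖S.g x‖⁻¹) • (S.P x ∘L S.D2 x ∘L S.P x)

/-- the mean curvature; the mean curvature vector is `H n` -/
def H (x : E) : ℝ := trc (S.A x)

/-- `|A|²` -/
def A2 (x : E) : ℝ := hs (S.A x)

/-- the normal speed of the rescaled flow -/
def φ (x : E) : ℝ := S.H x + ⟪x, S.n x⟫ / 2

/-- the standing assumptions; the divergence theorem determines `μ` -/
structure Ok : Prop where
  sm : ContDiff ℝ ∞ S.w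
  reg : ∀ x, S.w x = 0 → S.g x ≠ 0
  fin : IsFiniteMeasureOnCompacts S.μ
  sup : ∀ᵐ x ∂S.μ, S.w x = 0
  div : ∀ Y : E → E, ContDiff ℝ 1 Y → HasCompactSupport Y →
    ∫ x, ⟪S.n x, Y x⟫ ∂S.μ = ∫ x in {x | S.w x < 0}, dvg Y x
  fv : ∀ Y : E → E, ContDiff ℝ 1 Y → HasCompactSupport Y →
    ∫ x, (trc (S.P x ∘L fderiv ℝ Y x) + S.H x * ⟪S.n x, Y x⟫) ∂S.μ = 0

/-- the area ratio bound -/
def AR (Λ : ℝ) : Prop := ∀ z r, 0 < r → S.μ.real (ball z r) ≤ Λ * r ^ 2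

/-- the local Gauss-Bonnet bound -/
def GBc (G : ℝ) : Prop := ∀ r, 0 < r →
  ∫ x in ball 0 r, S.A2 x ∂S.μ ≤ G * (1 + ∫ x in ball 0 (21 * r), S.H x ^ 2 ∂S.μ)

/-- continuous and nonnegative at the regular points -/
def Cg (f : E → ℝ) : Prop := ∀ x, S.g x ≠ 0 → ContinuousAt f x ∧ 0 ≤ f x

/-- `C^k` near the surface, with compact support on the surface -/
def Nr {F : Type} [NormedAddCommGroup F] [NormedSpace ℝ F] (k : ℕ) (f : E → F) : Prop :=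
  (∀ x, S.w x = 0 → ContDiffAt ℝ k f x) ∧
    ∃ K, IsCompact K ∧ ∀ x, S.w x = 0 → x ∉ K → f =ᶠ[𝓝 x] 0

/-- `x` has a neighbour in the surface within `2 ε`, in a direction close to the normal -/
def Pair (ε : ℝ) (x : E) : Prop := ∃ y, S.w y = 0 ∧ y ≠ x ∧ ‖y - x‖ ≤ 2 * ε ∧
  ‖y - x‖ / 2 ≤ |⟪y - x, S.n x⟫|

end Sf

/-- a smooth family of surfaces over the open set of times `I` -/
structure Fam (S : ℝ → Sf) (I : Set ℝ) : Prop where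
  op : IsOpen I
  ok : ∀ τ ∈ I, (S τ).Ok
  sm : ContDiffOn ℝ ∞ (fun p : ℝ × E => (S p.1).w p.2) (I ×ˢ univ)

/-- the time derivative of the defining function -/
def wd (S : ℝ → Sf) (τ : ℝ) (x : E) : ℝ := deriv (fun σ => (S σ).w x) τ

/-- a rescaled mean curvature flow -/
structure RFlow (S : ℝ → Sf) (I : Set ℝ) : Prop extends Fam S I where
  eq : ∀ τ ∈ I, ∀ x, (S τ).w x = 0 → wd S τ x = -(‖(S τ).g x‖ * (S τ).φ x)

/-- at the scale `r` there is a lot of area in separated balls with ratio at least `1 + κ` -/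
def Thick (S : Sf) (κ m₀ R₀ r : ℝ) : Prop := ∃ Z : Finset E,
  (∀ z ∈ Z, ‖z‖ < R₀ ∧ (1 + κ) * (Real.pi * r ^ 2) ≤ S.μ.real (ball z r)) ∧
  (∀ z ∈ Z, ∀ z' ∈ Z, z ≠ z' → 2 * r ≤ ‖z - z'‖) ∧ m₀ ≤ Z.card * r ^ 2

/-- **DP**: the main theorem of the block -/
def DP : Prop := ∀ Λ G κ m₀ R₀ : ℝ, 0 < κ → 0 < m₀ → 0 < R₀ →
  ∃ R' m' D₀ ε₀ : ℝ, ∃ J : ℕ, 0 < R' ∧ 0 < m' ∧ 0 < D₀ ∧ 0 < ε₀ ∧
    ∀ (S : ℝ → Sf) (I : Set ℝ) (a b ε : ℝ) (h : ℝ → ℝ), RFlow S I → a ≤ b → Icc a b ⊆ I →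
      (∀ τ ∈ Icc a b, (S τ).AR Λ ∧ (S τ).GBc G) → 0 < ε → ε ≤ ε₀ →
      IntegrableOn h (Icc a b) →
      (∀ τ ∈ Icc a b, ∫ x in ball 0 R', (S τ).φ x ^ 2 ∂(S τ).μ ≤ h τ) →
      ∫ τ in a..b, h τ ≤ D₀ →
      (S a).μ.real {x | ‖x‖ < R' ∧ (S a).w x = 0 ∧ (S a).Pair ε x} ≤ m' →
      ∫ x in ball 0 R', (S b).φ x ^ 2 ∂(S b).μ ≤ 1 →
      ∃ j ≤ J, ¬ Thick (S b) κ m₀ R₀ (ε / 10 / 2 ^ j)

/-! ### the calculus on rays -/

/-- the profile of all cutoffs: one up to `1`, zero from `2` on -/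
def ct (s : ℝ) : ℝ := Real.smoothTransition (2 - s)

/-- base point, direction, distance -/
abbrev Q := E × E × ℝ

/-- the second point -/
def yy (z : Q) : E := z.1 + z.2.2 • z.2.1

/-- the unit vector -/
def un (u : E) : E := ‖u‖⁻¹ • u

/-- the radial weight on the directions -/
def gam (u : E) : ℝ := ct (‖u‖ ^ 2 / 2) * (1 - ct (‖u‖ ^ 2))

/-- the infinitesimal rotation -/
def rot (τ ν θ : E) : E := ⟪θ, τ⟫ • ν - ⟪θ, ν⟫ • τ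

/-- the weight on lines -/
def bet (s : ℝ) : ℝ := (∫ r, ct (r ^ 2))⁻¹ * ct (s ^ 2)

namespace Sf

variable (S : Sf)

def s (a θ : E) : ℝ := ⟪S.g a, θ⟫
def cc (a θ : E) : ℝ := ⟪S.n a, θ⟫
def p (a θ : E) : E := (S.s a θ)⁻¹ • S.g a
def Pi (a θ : E) : E →L[ℝ] E := ContinuousLinearMap.id ℝ E - ro (S.p a θ) θ
def Pt (a θ : E) : E →L[ℝ] E := ContinuousLinearMap.id ℝ E - ro θ (S.p a θ)
def X (a θ : E) : E →L[ℝ] E := (-(S.s a θ)⁻¹) • (S.Pt a θ ∘L S.D2 a ∘L S.Pi a θ)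
/-- the speed along the direction `θ` -/
def vs (a θ : E) : ℝ := S.φ a / S.cc a θ

def cs1 (z : Q) : ℝ := S.cc z.1 z.2.1 ^ 2
def cs2 (z : Q) : ℝ := S.cc (yy z) z.2.1 ^ 2
def kk (z : Q) : ℝ := |S.cc z.1 z.2.1|
def p1 (z : Q) : E := S.p z.1 z.2.1
def p2 (z : Q) : E := S.p (yy z) z.2.1
def X1 (z : Q) : E →L[ℝ] E := S.X z.1 z.2.1
def X2 (z : Q) : E →L[ℝ] E := S.X (yy z) z.2.1
def Pv (z : Q) : E := S.p1 z - S.p2 z
def Z (z : Q) : E →L[ℝ] E := S.X2 z - S.X1 z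
def lv (z : Q) : E := S.cs1 z • S.X1 z (S.p1 z)
/-- the square of the relative tilt -/
def sq (z : Q) : ℝ := ‖S.Pv z‖ ^ 2

/-- transversal configurations -/
def O : Set Q := {z | S.s z.1 z.2.1 ≠ 0 ∧ S.s (yy z) z.2.1 ≠ 0 ∧ 0 < z.2.2}

/-- pairs of points of the surface -/
def Hit (z : Q) : Prop := S.w z.1 = 0 ∧ ‖z.2.1‖ = 1 ∧ 0 < z.2.2 ∧ S.w (yy z) = 0

def VD (e : E) (z : Q) : Q := (S.Pi z.1 z.2.1 e, 0, ⟪S.Pv z, e⟫)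
def VR (τ ν : E) (z : Q) : Q :=
  (0, rot τ ν z.2.1, -(z.2.2 * ⟪S.p2 z, rot τ ν z.2.1⟫))

variable {F : Type} [NormedAddCommGroup F] [NormedSpace ℝ F]

/-- translation of the line -/
def D (e : E) (f : Q → F) (z : Q) : F := fderiv ℝ f z (S.VD e z)
/-- rotation of the line about the base point -/
def R (τ ν : E) (f : Q → F) (z : Q) : F := fderiv ℝ f z (S.VR τ ν z)
/-- the gradient with respect to `D` -/
def DG (f : Q → ℝ) (z : Q) : E := ∑ i, S.D (ee i) f z • ee i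

/-- the sum over the hits of the ray -/
def RS (f : Q → ℝ) (x θ : E) : ℝ := ∑ᶠ (d : ℝ) (_ : S.w (x + d • θ) = 0), f (x, θ, d)
/-- the sum over the hits of the backward ray -/
def RB (f : Q → ℝ) (y θ : E) : ℝ :=
  ∑ᶠ (d : ℝ) (_ : S.w (y - d • θ) = 0), f (y - d • θ, θ, d)
/-- the sum over the hits of the line -/
def LS (h : E → ℝ) (x θ : E) : ℝ := ∑ᶠ (l : ℝ) (_ : S.w (x + l • θ) = 0), h (x + l • θ)
/-- the average over the directions -/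
def AV (f : Q → ℝ) (x : E) : ℝ := ∫ u, gam u * (|S.cc x (un u)| * S.RS f x (un u))
/-- the integral over all pairs -/
def II (f : Q → ℝ) : ℝ := ∫ x, S.AV f x ∂S.μ

/-- `C^k` at the transversal configurations -/
def Sm (k : ℕ) (f : Q → F) : Prop := ∀ z ∈ S.O, ContDiffAt ℝ k f z

/-- the speeds for the time derivative `v` of the defining function -/
def v1 (v : E → ℝ) (z : Q) : ℝ := -v z.1 / S.s z.1 z.2.1
def v2 (v : E → ℝ) (z : Q) : ℝ := -v (yy z) / S.s (yy z) z.2.1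
def VT (v : E → ℝ) (z : Q) : Q := (S.v1 v z • z.2.1, 0, S.v2 v z - S.v1 v z)

end Sf

/-- the parameters of the functional -/
structure Par where
  R : ℝ
  α : ℝ
  ε : ℝ
  η : ℝ
  ρ : ℝ

/-- the ranges of the parameters -/
structure Par.Rg (π : Par) : Prop where
  R1 : 1 ≤ π.R
  α0 : 0 < π.α
  α1 : π.α ≤ 1 / 10
  ε0 : 0 < π.ε
  ε1 : π.ε ≤ 1 / 10
  η0 : 0 < π.η
  η1 : π.η ≤ 1 / 10
  ρ0 : 0 < π.ρ

/-- separation of transversal hits, and the tail of the almost tangential hits -/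
structure Sep (S : Sf) (π : Par) : Prop where
  sep : ∀ z : Q, S.Hit z → ‖z.1‖ ≤ 3 * π.R + 2 → π.η ^ 2 / 2 ≤ S.cs1 z → π.η ^ 2 / 2 ≤ S.cs2 z →
    2 * π.ρ ≤ z.2.2
  tail : ∀ (x θ : E) (T : Finset ℝ), ‖x‖ ≤ 3 * π.R → ‖θ‖ = 1 →
    (∀ d ∈ T, 0 < d ∧ d ≤ 2 ∧ S.w (x + d • θ) = 0 ∧ π.η ^ 2 / 2 ≤ S.cs2 (x, θ, d) ∧
      S.cs2 (x, θ, d) ≤ 2 * π.η ^ 2) → ∑ d ∈ T, 256 * S.cs2 (x, θ, d) ^ 3 ≤ π.ε ^ 2

/-- the assumptions at one time -/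
structure Good (S : Sf) (π : Par) (Λ : ℝ) : Prop where
  ok : S.Ok
  ar : S.AR Λ
  rg : π.Rg
  sp : Sep S π

/-- `(1 - t)₊⁶` and its derivatives -/
def G0 (t : ℝ) : ℝ := max (1 - t) 0 ^ 6
def G1 (t : ℝ) : ℝ := -6 * max (1 - t) 0 ^ 5
def G2 (t : ℝ) : ℝ := 30 * max (1 - t) 0 ^ 4
/-- one up to `1 / 4`, zero from `1 / 2` on -/
def Gb (t : ℝ) : ℝ := ct (4 * t)
/-- selects the sign `σ` of the cosine -/
def hv (σ c : ℝ) : ℝ := ct (2 - 4 * (σ * c))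

namespace Par

variable (π : Par)

/-- the weights, as functions of the square of the cosine -/
def B0 (c : ℝ) : ℝ := ct (2 * (1 - c) / π.α ^ 2)
def B1 (c : ℝ) : ℝ := ct ((1 - c) / π.α ^ 2)
def Bt (c : ℝ) : ℝ := ct ((1 - c) / (2 * π.α ^ 2))
def K0 (c : ℝ) : ℝ := 1 - ct (4 * c)
def sg0 (c : ℝ) : ℝ := 16 * c ^ 2 * (1 - ct (c / π.η ^ 2))
def cu (c : ℝ) : ℝ := 1 - ct (2 * c / π.η ^ 2)
def sgb (c : ℝ) : ℝ := 256 * c ^ 4 * π.cu c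
def xi (d : ℝ) : ℝ := 1 - ct (2 * d / π.ρ)
def ps (x : E) : ℝ := ct (‖x‖ ^ 2 / π.R ^ 2)
def pt (x : E) : ℝ := ct (‖x‖ ^ 2 / (2 * π.R ^ 2))
def W0 (x : E) : ℝ := Real.exp (-‖x‖ ^ 2 / 8) * π.ps x
def W (x : E) : ℝ := π.W0 x ^ 2
/-- the mass of the cone -/
def mm : ℝ := ∫ u, gam u * (|⟪ee 0, un u⟫| * π.B0 (⟪ee 0, un u⟫ ^ 2) ^ 2)

end Par

namespace Sf

variable (S : Sf) (π : Par)

/-- the box in which all integrands live -/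
def Box (z : Q) : Prop := ‖z.1‖ ≤ 3 * π.R ∧ π.ρ / 2 ≤ z.2.2 ∧ z.2.2 ≤ 2 ∧ 1 / 2 ≤ S.cs1 z ∧
  π.η ^ 2 / 2 ≤ S.cs2 z

/-- the class of integrands -/
structure Cl (k : ℕ) (f : Q → ℝ) : Prop where
  sm : S.Sm k f
  bx : ∀ z, S.g z.1 ≠ 0 → S.g (yy z) ≠ 0 → ¬ S.Box π z → f z = 0

/-- the class of summands for `NS` -/
structure Cn (k : ℕ) (f : Q → ℝ) : Prop where
  sm : S.Sm k f
  van : ∀ z, S.g (yy z) ≠ 0 → S.cs2 z < π.η ^ 2 / 2 → f z = 0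

/-- the sum over the hits between the two points -/
def NS (f : Q → ℝ) (z : Q) : ℝ :=
  S.RS (fun z' => f z' * (π.xi z'.2.2 * π.xi (z.2.2 - z'.2.2))) z.1 z.2.1

/-- the occlusion -/
def N (z : Q) : ℝ := S.NS π (fun z' => π.sg0 (S.cs2 z') ^ 2) z

def tt (z : Q) : ℝ := z.2.2 * S.kk z / π.ε
def Uv (z : Q) : E := (S.kk z / π.ε) • S.Pv z
def gt (z : Q) : E := S.Uv π z + S.tt π z • S.lv z

/-- the square root of the weight, without the Gaussian -/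
def o0 (z : Q) : ℝ := π.B0 (S.cs1 z) * Par.K0 (S.cs2 z) * ct (2 * S.N π z) * π.xi z.2.2
/-- the weight -/
def Wt (z : Q) : ℝ := π.W z.1 * S.o0 π z ^ 2
def Psi (z : Q) : ℝ := S.Wt π z * G0 (S.tt π z)
/-- the functional -/
def FF : ℝ := S.II (S.Psi π)

/-- the integral over the big ball -/
def IB (f : E → ℝ) : ℝ := ∫ x in ball 0 (3 * π.R + 3), f x ∂S.μ
def AA : ℝ := S.IB π fun x => 1 + S.A2 x
def PP : ℝ := S.IB π fun x => S.φ x ^ 2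

/-- the support condition of the widest weights -/
def Sp (z : Q) : Prop := ‖z.1‖ ≤ 2 * π.R ∧ 1 - S.cs1 z ≤ 4 * π.α ^ 2 ∧ π.η ^ 2 ≤ S.cs2 z ∧
  S.N π z ≤ 2 ∧ z.2.2 ≤ 1

/-- proper pairs -/
def Sq (z : Q) : Prop := ‖z.1‖ ^ 2 ≤ 2 * π.R ^ 2 ∧ 1 - S.cs1 z ≤ 2 * π.α ^ 2 ∧ 1 / 4 ≤ S.cs2 z ∧
  S.N π z < 1 ∧ z.2.2 ≤ 2 * π.ε

/-- the time derivatives of the ingredients -/
def Tc1 (v : E → ℝ) (z : Q) : ℝ := 2 * S.cs1 z ^ 2 * S.D (S.p1 z) (S.v1 v) z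
def Tc2 (v : E → ℝ) (z : Q) : ℝ := 2 * S.cs2 z ^ 2 * S.D (S.p2 z) (S.v2 v) z
def TN (v : E → ℝ) (z : Q) : ℝ :=
  S.NS π (fun z' => deriv (fun c => π.sg0 c ^ 2) (S.cs2 z') * S.Tc2 v z') z

/-- the time derivative of the weights -/
def Hw (v : E → ℝ) (z : Q) : ℝ :=
  S.v1 v z * fderiv ℝ π.W z.1 z.2.1 * S.o0 π z ^ 2 * G0 (S.tt π z) +
  π.W z.1 * (2 * S.o0 π z * π.xi z.2.2 *
    (deriv π.B0 (S.cs1 z) * S.Tc1 v z * Par.K0 (S.cs2 z) * ct (2 * S.N π z) +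
     π.B0 (S.cs1 z) * (deriv Par.K0 (S.cs2 z) * S.Tc2 v z) * ct (2 * S.N π z) +
     π.B0 (S.cs1 z) * Par.K0 (S.cs2 z) * (deriv ct (2 * S.N π z) * (2 * S.TN π v z)))) *
    G0 (S.tt π z) +
  S.Wt π z * G1 (S.tt π z) * (S.tt π z * S.cs1 z * S.D (S.p1 z) (S.v1 v) z)

/-- the main term -/
def Mm (z : Q) : ℝ :=
  S.Wt π z * G1 (S.tt π z) * (S.kk z / π.ε) * (S.vs (yy z) z.2.1 - S.vs z.1 z.2.1)

/-- the cutoff round the balls with much energy -/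
structure Eta (e₀ : ℝ) (η : E → ℝ) : Prop where
  sm : ContDiff ℝ ∞ η
  nn : ∀ x, 0 ≤ η x
  le : ∀ x, η x ≤ 1
  en : ∀ x, ‖x‖ ≤ 2 * π.R → η x ≠ 0 → ∫ y in ball x (10 * π.ε), S.A2 y ∂S.μ ≤ e₀

def GE (η : E → ℝ) : ℝ := S.IB π fun x => ‖gradient η x‖ ^ 2
def AE (η : E → ℝ) : ℝ := S.IB π fun x => 1 - η x ^ 2

end Sf

/-- a window for the relative tilt; the functions are functions of its square -/
structure Win (C d₁ d₂ L : ℝ) (th gb ga ch : ℝ → ℝ) : Prop where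
  d0 : 0 < d₂
  d12 : d₂ ≤ d₁
  d1h : d₁ ≤ 1 / 2
  L1 : 1 ≤ L
  sth : ContDiff ℝ ∞ th
  sgb : ContDiff ℝ ∞ gb
  sps : ContDiff ℝ ∞ fun s => ga s / s
  psd : ∀ s, ga s / s + s * deriv (fun s => ga s / s) s = gb s
  cch : Continuous ch
  th0 : ∀ s, 0 ≤ th s
  th1 : ∀ s, th s ≤ 1
  the : ∀ s, s ≤ d₂ ^ 2 → th s = 1
  thz : ∀ s, d₁ ^ 2 ≤ s → th s = 0
  thd : ∀ s, 0 < s → |deriv th s| ≤ C / (L * s)
  thg : ∀ s, 0 < s → s * deriv th s ^ 2 ≤ C * gb s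
  gb0 : ∀ s, 0 ≤ gb s
  gbz : ∀ s, gb s ≠ 0 → d₂ ^ 2 / 2 ≤ s ∧ s ≤ 2 * d₁ ^ 2
  gbl : ∀ s, 0 < s → gb s ≤ 1 / (L ^ 2 * s)
  gaz : ∀ s, s ≤ d₂ ^ 2 / 2 → ga s = 0
  ga0 : ∀ s, 0 ≤ ga s
  gal : ∀ s, ga s ≤ C / L
  gag : ∀ s, 0 < s → s ≤ d₁ ^ 2 → ga s ^ 2 ≤ C * (s * gb s)
  ch0 : ∀ s, 0 ≤ ch s
  ch1 : ∀ s, ch s ≤ 1
  che : ∀ s, d₂ ^ 2 / 2 ≤ s → s ≤ d₁ ^ 2 → ch s = 1
  chz : ∀ s, ch s ≠ 0 → d₂ ^ 2 / 4 < s ∧ s < 2 * d₁ ^ 2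

/-- what the gain needs to know about the static cutoffs -/
structure Cut (d : ℝ) (η : E → ℝ) (th : ℝ → ℝ) : Prop where
  sη : ContDiff ℝ ∞ η
  η0 : ∀ x, 0 ≤ η x
  η1 : ∀ x, η x ≤ 1
  sth : ContDiff ℝ ∞ th
  th0 : ∀ s, 0 ≤ th s
  th1 : ∀ s, th s ≤ 1
  the : ∀ s, s ≤ d ^ 2 → th s = 1

namespace Sf

variable (S : Sf) (π : Par)

/-- the weight with the static cutoffs -/
def ze (η : E → ℝ) (th : ℝ → ℝ) (z : Q) : ℝ := S.Wt π z * (η z.1 ^ 2 * th (S.sq z) ^ 2)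
def S1 (η : E → ℝ) (th : ℝ → ℝ) : ℝ :=
  S.II fun z => S.ze π η th z * (S.tt π z * -G1 (S.tt π z)) / 2
def S2 (η : E → ℝ) (th : ℝ → ℝ) : ℝ :=
  S.II fun z => S.ze π η th z * G2 (S.tt π z) * ⟪S.P z.1 (S.gt π z), S.gt π z⟫
def Sg : ℝ := S.II fun z => S.Wt π z * G2 (S.tt π z) * ‖S.gt π z‖ ^ 2
def M0 (η : E → ℝ) (th : ℝ → ℝ) : ℝ :=
  S.II fun z => S.Mm π z * (η z.1 ^ 2 * th (S.sq z) ^ 2)
/-- the term with the gradient of the cone weight -/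
def Et (η : E → ℝ) (th : ℝ → ℝ) : ℝ :=
  -S.II fun z => π.W z.1 * (Par.K0 (S.cs2 z) * ct (2 * S.N π z) * π.xi z.2.2) ^ 2 *
    (η z.1 ^ 2 * th (S.sq z) ^ 2) * (deriv (fun c => π.B0 c ^ 2) (S.cs1 z) * (2 * S.cs1 z)) *
    G1 (S.tt π z) * ⟪S.P z.1 (S.lv z), S.gt π z⟫
def Bb (η : E → ℝ) (th : ℝ → ℝ) : ℝ :=
  S.II fun z => S.ze π η th z * (S.tt π z * G1 (S.tt π z)) ^ 2 * hs (S.Z z)
def za (z : Q) : ℝ := π.pt z.1 * S.o0 π z * ct (2 * z.2.2)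
def Tb (κ : ℝ) (gb : ℝ → ℝ) : ℝ :=
  S.II fun z => (S.za π z * (1 + S.tt π z) ^ (-κ)) ^ 2 * gb (S.sq z) * hs (S.Z z)
def En (ch : ℝ → ℝ) : ℝ := S.II fun z => ch (S.sq z) * ‖S.DG (S.za π) z‖ ^ 2
def zg (z : Q) : ℝ :=
  π.pt z.1 * π.Bt (S.cs1 z) * π.sg0 (S.cs2 z) * ct (S.N π z) * ct (2 * z.2.2) * π.xi z.2.2
def ig (z : Q) : ℝ := S.zg π z ^ 2 * (S.sq z ^ 2 / (1 + S.sq z)) / z.2.2 ^ 2
/-- the fraction of the directions of the half cone `σ` in which there is a near neighbour -/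
def uu (σ : ℝ) (x : E) : ℝ := 2 / π.mm *
  S.AV (fun z => π.pt z.1 ^ 2 * hv σ (S.cc z.1 z.2.1) * S.o0 π z ^ 2 * Gb (S.tt π z)) x
/-- the speed is the time derivative of a rescaled flow -/
def Spd (v : E → ℝ) : Prop := ContDiff ℝ ∞ v ∧ ∀ x, S.w x = 0 → v x = -(‖S.g x‖ * S.φ x)

end Sf

end Vale.Agent.P218M1
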