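import Vale.Agent.P218M1.Cut
import Vale.Agent.P218M1.Gd
import Vale.Agent.P218M1.Gx
import Vale.Agent.P218M1.Nsc
import Vale.Agent.P218M1.Ca

/-!
# P218M1, row HW: the functions, smoothness, the identity after the integration by parts
-/

open MeasureTheory Metric Filter Topology Set
open scoped ContDiff RealInnerProductSpace ENNReal

noncomputable section

namespace Vale.Agent.P218M1

namespace Hw

open Gd Par

theorem deriv_zero {f : ℝ → ℝ} (h : ∀ s, 0 ≤ f s) {s : ℝ} (hs : f s = 0) : deriv f s = 0 :=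
  IsLocalMin.deriv_eq_zero (Eventually.of_forall fun a => hs ▸ h a)

theorem fW_zero (π : Par) {x : E} (h : π.W x = 0) : fderiv ℝ π.W x = 0 :=
  IsLocalMin.fderiv_eq_zero (Eventually.of_forall fun a => h ▸ W_nonneg a)

/-- `t G₁(t)` -/
def Gt (t : ℝ) : ℝ := t * G1 t

theorem hGt (t : ℝ) : HasDerivAt Gt (G1 t + t * G2 t) t :=
  ((hasDerivAt_id' t).mul (hasDerivAt_G1 t)).congr_deriv (by ring)

/-- what is used about `G₀` and `t G₁` -/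
structure Gg (g : ℝ → ℝ) : Prop where
  sm : ContDiff ℝ (1 : ℕ) g
  le : ∀ t, 0 ≤ t → deriv g t ^ 2 ≤ 30 * G2 t
  z : ∀ t, 1 ≤ t → g t = 0 ∧ deriv g t = 0

theorem gg0 : Gg G0 :=
  ⟨G0_cd (by norm_num), fun t ht => by
    rw [deriv_G0]; linarith [G1_sq_le ht, G2_nonneg t],
    fun t ht => ⟨G0_zero ht, by rw [deriv_G0, G1_zero ht]⟩⟩

theorem ggt : Gg Gt :=
  ⟨contDiff_id.mul (G1_cd (by norm_num)), fun t ht => by
    rw [(hGt t).deriv]; exact G12_sq_le ht,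
    fun t ht => by rw [(hGt t).deriv, Gt, G1_zero ht, G2_zero ht]; simp⟩

/-! ### the weight of the occlusion -/

/-- smooth, zero below one, constant above two -/
structure Eu (ψ : ℝ → ℝ) : Prop where
  sm : ContDiff ℝ ∞ ψ
  z : ∀ s < 1, ψ s = 0
  c : ∃ k, ∀ s > 2, ψ s = k

/-- the Euler operator -/
def eu (n : ℝ) (ψ : ℝ → ℝ) (s : ℝ) : ℝ := n * ψ s + s * deriv ψ s

theorem deriv_const_on {ψ : ℝ → ℝ} {U : Set ℝ} (hU : IsOpen U) {k : ℝ} (h : ∀ s ∈ U, ψ s = k)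
    {s : ℝ} (hs : s ∈ U) : deriv ψ s = 0 := by
  have : ψ =ᶠ[𝓝 s] fun _ => k := by filter_upwards [hU.mem_nhds hs] using h
  rw [this.deriv_eq, deriv_const]

theorem Eu.eu {ψ : ℝ → ℝ} (h : Eu ψ) (n : ℝ) : Eu (eu n ψ) := by
  obtain ⟨k, hk⟩ := h.c
  refine ⟨(contDiff_const.mul h.sm).add (contDiff_id.mul (deriv_smooth h.sm)), fun s hs => ?_,
    n * k, fun s hs => ?_⟩
  · rw [Hw.eu, h.z s hs, deriv_const_on isOpen_Iio h.z hs]; simp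
  · rw [Hw.eu, hk s hs, deriv_const_on isOpen_Ioi hk hs]; simp

theorem Eu.bd {ψ : ℝ → ℝ} (h : Eu ψ) : ∃ C, 0 < C ∧ ∀ (π : Par) (c : ℝ),
    |ψ (c / π.η ^ 2)| ≤ C * π.cu c := by
  obtain ⟨k, hk⟩ := h.c
  obtain ⟨C, hC⟩ := (isCompact_Icc (a := (1 : ℝ)) (b := 2)).exists_bound_of_continuousOn
    h.sm.continuous.continuousOn
  refine ⟨|C| + |k| + 1, by positivity, fun π c => ?_⟩
  rcases lt_or_ge (c / π.η ^ 2) 1 with h1 | h1
  · rw [h.z _ h1, abs_zero]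
    exact mul_nonneg (by positivity) (cu_nonneg c)
  · rw [Par.cu, ct_zero (by rw [mul_div_assoc]; linarith), sub_zero, mul_one]
    rcases le_or_gt (c / π.η ^ 2) 2 with h2 | h2
    · have := hC _ ⟨h1, h2⟩
      rw [Real.norm_eq_abs] at this
      linarith [le_abs_self C, abs_nonneg k]
    · rw [hk _ h2]; linarith [abs_nonneg C]

theorem Eu.der {ψ : ℝ → ℝ} (h : Eu ψ) (n : ℕ) (a c : ℝ) :
    HasDerivAt (fun c => c ^ (n + 1) * ψ (c / a)) (c ^ n * Hw.eu (n + 1) ψ (c / a)) c := by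
  have h1 := (h.sm.differentiable (by simp) (c / a)).hasDerivAt.comp c
    ((hasDerivAt_id' c).div_const a)
  refine ((hasDerivAt_pow (n + 1) c).mul h1).congr_deriv ?_
  simp only [Hw.eu, Function.comp_apply, Nat.add_sub_cancel]
  push_cast
  ring

theorem eu0 : Eu fun s => (1 - ct s) ^ 2 :=
  ⟨(contDiff_const.sub ct_smooth).pow 2, fun s hs => by rw [ct_one hs.le]; simp,
    1, fun s hs => by rw [ct_zero hs.le]; simp⟩

/-- the profile of the derivative of the weight -/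
def chi : ℝ → ℝ := eu (3 + 1) fun s => (1 - ct s) ^ 2

theorem eu1 : Eu chi := eu0.eu _

/-- `2 c² (sg0²)'` -/
def hh (π : Par) (c : ℝ) : ℝ := 512 * (c ^ (4 + 1) * chi (c / π.η ^ 2))

theorem hh_eq (π : Par) (c : ℝ) : deriv (fun c => π.sg0 c ^ 2) c * (2 * c ^ 2) = hh π c := by
  have h1 : (fun c => π.sg0 c ^ 2) =
      fun c => 256 * (c ^ (3 + 1) * (fun s => (1 - ct s) ^ 2) (c / π.η ^ 2)) :=
    funext fun c => by rw [Par.sg0]; ring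
  rw [h1, ((eu0.der 3 (π.η ^ 2) c).const_mul 256).deriv, hh, chi]
  push_cast
  ring

theorem hh_sm (π : Par) : ContDiff ℝ ∞ (hh π) :=
  contDiff_const.mul ((contDiff_id.pow _).mul (eu1.sm.comp (contDiff_id.div_const _)))

theorem hh_bd : ∃ C, 0 < C ∧ ∀ (π : Par) (c : ℝ), 0 ≤ c →
    |hh π c| ≤ C * (π.cu c * c ^ 5) ∧ |deriv (hh π) c| ≤ C * (π.cu c * c ^ 4) := by
  obtain ⟨C, h0, hC⟩ := eu1.bd
  obtain ⟨C', h0', hC'⟩ := (eu1.eu ((4 : ℕ) + 1)).bd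
  refine ⟨512 * (C + C'), by positivity, fun π c hc => ⟨?_, ?_⟩⟩
  · rw [hh, abs_mul, abs_mul, abs_of_nonneg (pow_nonneg hc _), abs_of_pos (by norm_num)]
    have := mul_nonneg (cu_nonneg (π := π) c) (pow_nonneg hc 5)
    nlinarith [mul_le_mul_of_nonneg_left (hC π c) (pow_nonneg hc 5)]
  · rw [show deriv (hh π) c = _ from ((eu1.der 4 (π.η ^ 2) c).const_mul 512).deriv, abs_mul,
      abs_mul, abs_of_nonneg (pow_nonneg hc _), abs_of_pos (by norm_num)]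
    have := mul_nonneg (cu_nonneg (π := π) c) (pow_nonneg hc 4)
    nlinarith [mul_le_mul_of_nonneg_left (hC' π c) (pow_nonneg hc 4)]

theorem hh_zero {π : Par} (hπ : π.Rg) {c : ℝ} (h0 : 0 ≤ c) (h : c < π.η ^ 2 / 2) :
    hh π c = 0 ∧ deriv (hh π) c = 0 := by
  obtain ⟨C, -, hC⟩ := hh_bd
  simpa [hπ.cu_zero h.le] using hC π c h0

/-! ### the functions -/

section defs

variable (S : Sf) (π : Par) (v : E → ℝ)

def aa (g : ℝ → ℝ) (z : Q) : ℝ := π.W z.1 * S.o0 π z * g (S.tt π z)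
def r1 (z : Q) : ℝ := 4 * π.xi z.2.2 * deriv π.B0 (S.cs1 z) * K0 (S.cs2 z) * ct (2 * S.N π z) *
  (S.cs1 z * S.cs1 z)
def r4 (z : Q) : ℝ := S.o0 π z * S.cs1 z
def r2 (z : Q) : ℝ := 4 * π.xi z.2.2 * π.B0 (S.cs1 z) * deriv K0 (S.cs2 z) * ct (2 * S.N π z) *
  (S.cs2 z * S.cs2 z)
def r3 (z : Q) : ℝ := 4 * π.xi z.2.2 * π.B0 (S.cs1 z) * K0 (S.cs2 z) * deriv ct (2 * S.N π z)
def f1 (z : Q) : ℝ := aa S π G0 z * r1 S π z + aa S π Gt z * r4 S π z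
def f2 (z : Q) : ℝ := aa S π G0 z * r2 S π z
def f3 (z : Q) : ℝ := aa S π G0 z * r3 S π z
def mm (i : Fin 3) (z : Q) : ℝ := hh π (S.cs2 z) * S.p2 z i * S.v2 v z
def rr (z : Q) : ℝ := (deriv (hh π) (S.cs2 z) * (2 * S.cs2 z ^ 2 * ⟪S.X2 z (S.p2 z), S.p2 z⟫) -
  hh π (S.cs2 z) * trc (S.X2 z)) * S.v2 v z
def h0 (z : Q) : ℝ := S.v1 v z * (fderiv ℝ π.W z.1 z.2.1 * S.o0 π z * (S.o0 π z * G0 (S.tt π z)))
def FF (i : Fin 3) (z : Q) : ℝ := f1 S π z * S.p1 z i * S.v1 v z +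
  f2 S π z * S.p2 z i * S.v2 v z + f3 S π z * S.NS π (mm S π v i) z
/-- what remains after the integration by parts -/
def h1 (z : Q) : ℝ := h0 S π v z -
  ((∑ i, S.p1 z i * S.D (ee i) (f1 S π) z) * S.v1 v z - f1 S π z * trc (S.X1 z) * S.v1 v z) -
  ((∑ i, S.p2 z i * S.D (ee i) (f2 S π) z) * S.v2 v z - f2 S π z * trc (S.X2 z) * S.v2 v z) -
  ∑ i, S.D (ee i) (f3 S π) z * S.NS π (mm S π v i) z - f3 S π z * S.NS π (rr S π v) z

theorem Hw_eq (z : Q) : S.Hw π v z = h0 S π v z + f1 S π z * S.D (S.p1 z) (S.v1 v) z +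
    f2 S π z * S.D (S.p2 z) (S.v2 v) z + f3 S π z * S.TN π v z := by
  simp only [Sf.Hw, h0, f1, f2, f3, aa, r1, r2, r3, r4, Gt, Sf.Tc1, Sf.Tc2, Sf.Wt]
  ring

end defs

/-! ### smoothness -/

section smooth

variable {S : Sf} {π : Par} {v : E → ℝ} {z : Q}

theorem s_p1 (hS : S.Ok) (hz : z ∈ S.O) : ContDiffAt ℝ ∞ S.p1 z :=
  Gx.sm_p hS contDiffAt_fst Gx.sm_θ hz.1

theorem s_p2 (hS : S.Ok) (hz : z ∈ S.O) : ContDiffAt ℝ ∞ S.p2 z :=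
  Gx.sm_p hS Gx.sm_yy.contDiffAt Gx.sm_θ hz.2.1

theorem s_X2 (hS : S.Ok) (hz : z ∈ S.O) : ContDiffAt ℝ ∞ S.X2 z :=
  Gx.sm_X hS Gx.sm_yy.contDiffAt Gx.sm_θ hz.2.1

theorem s_X1 (hS : S.Ok) (hz : z ∈ S.O) : ContDiffAt ℝ ∞ S.X1 z :=
  Gx.sm_X hS contDiffAt_fst Gx.sm_θ hz.1

theorem s_cs1 (hS : S.Ok) (hz : z ∈ S.O) : ContDiffAt ℝ ∞ S.cs1 z :=
  ((Gx.sm_n hS contDiffAt_fst (Sf.O.g1 hz)).inner ℝ Gx.sm_θ).pow 2

theorem s_cs2 (hS : S.Ok) (hz : z ∈ S.O) : ContDiffAt ℝ ∞ S.cs2 z :=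
  ((Gx.sm_n hS Gx.sm_yy.contDiffAt (Sf.O.g2 hz)).inner ℝ Gx.sm_θ).pow 2

theorem s_d : ContDiffAt ℝ ∞ (fun z : Q => z.2.2) z := by fun_prop

theorem s_tt (hS : S.Ok) (hz : z ∈ S.O) : ContDiffAt ℝ ∞ (S.tt π) z :=
  (s_d.mul (Gx.sm_kk hS hz)).div_const _

theorem s_gt (hS : S.Ok) (hz : z ∈ S.O) : ContDiffAt ℝ ∞ (S.gt π) z :=
  (((Gx.sm_kk hS hz).div_const _).smul (Gx.sm_Pv hS hz)).add ((s_tt hS hz).smul
    ((s_cs1 hS hz).smul ((s_X1 hS hz).clm_apply (s_p1 hS hz))))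

theorem s_v1 (hS : S.Ok) (hv : S.Spd v) (hz : z ∈ S.O) : ContDiffAt ℝ ∞ (S.v1 v) z :=
  (hv.1.contDiffAt.comp z contDiffAt_fst).neg.div (Gx.sm_s hS contDiffAt_fst Gx.sm_θ) hz.1

theorem s_v2 (hS : S.Ok) (hv : S.Spd v) (hz : z ∈ S.O) : ContDiffAt ℝ ∞ (S.v2 v) z :=
  (hv.1.contDiffAt.comp z Gx.sm_yy.contDiffAt).neg.div
    (Gx.sm_s hS Gx.sm_yy.contDiffAt Gx.sm_θ) hz.2.1

theorem s_VD (hS : S.Ok) (hz : z ∈ S.O) {e : Q → E} (he : ContDiffAt ℝ ∞ e z) :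
    ContDiffAt ℝ ∞ (fun z => S.VD (e z) z) z := by
  have h1 : ContDiffAt ℝ ∞ (fun z => e z - ⟪S.p1 z, e z⟫ • z.2.1) z :=
    he.sub (((s_p1 hS hz).inner ℝ he).smul Gx.sm_θ)
  simp only [Sf.VD, Sf.Pi_apply]
  exact h1.prodMk (contDiffAt_const.prodMk ((Gx.sm_Pv hS hz).inner ℝ he))

theorem s_D (hS : S.Ok) (hz : z ∈ S.O) {e : Q → E} (he : ContDiffAt ℝ ∞ e z) {f : Q → ℝ} {k : ℕ}
    (hf : ContDiffAt ℝ (k + 1 : ℕ) f z) : ContDiffAt ℝ k (fun z => S.D (e z) f z) z :=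
  (hf.fderiv_right (by push_cast; exact le_rfl)).clm_apply
    ((s_VD hS hz he).of_le (cast_le_inf k))

theorem dn {F : Type} [NormedAddCommGroup F] [NormedSpace ℝ F] {f : Q → F}
    (h : ContDiffAt ℝ ∞ f z) (k : ℕ) : ContDiffAt ℝ k f z := h.of_le (cast_le_inf k)

theorem cp {φ : ℝ → ℝ} (hφ : ContDiff ℝ ∞ φ) {f : Q → ℝ} {k : ℕ} (h : ContDiffAt ℝ k f z) :
    ContDiffAt ℝ k (fun z => φ (f z)) z := (hφ.of_le (cast_le_inf k)).contDiffAt.comp z h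

variable (K : Kit) {Λ : ℝ} (hG : Good S π Λ)
include K hG

theorem s_N (k : ℕ) (hz : z ∈ S.O) : ContDiffAt ℝ k (S.N π) z :=
  K.nsc.sm S π k _ hG.ok hG.rg ⟨fun _ h => (cp π.sg0_smooth (dn (s_cs2 hG.ok h) k)).pow 2,
    fun z _ h => by rw [hG.rg.sg0_zero (by linarith [hG.rg.η2.1])]; simp⟩ z hz

theorem s_ctN {φ : ℝ → ℝ} (hφ : ContDiff ℝ ∞ φ) (k : ℕ) (hz : z ∈ S.O) :
    ContDiffAt ℝ k (fun z => φ (2 * S.N π z)) z :=
  cp hφ (contDiffAt_const.mul (s_N K hG k hz))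

theorem s_o0 (k : ℕ) (hz : z ∈ S.O) : ContDiffAt ℝ k (S.o0 π) z :=
  (((cp π.B0_smooth (dn (s_cs1 hG.ok hz) k)).mul (cp K0_smooth (dn (s_cs2 hG.ok hz) k))).mul
    (s_ctN K hG ct_smooth k hz)).mul (cp π.xi_smooth (dn s_d k))

theorem s_r (k : ℕ) (hz : z ∈ S.O) : ContDiffAt ℝ k (r1 S π) z ∧ ContDiffAt ℝ k (r2 S π) z ∧
    ContDiffAt ℝ k (r3 S π) z ∧ ContDiffAt ℝ k (r4 S π) z := by
  have c1 := dn (s_cs1 hG.ok hz) k
  have c2 := dn (s_cs2 hG.ok hz) k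
  have x : ContDiffAt ℝ k (fun z : Q => 4 * π.xi z.2.2) z :=
    contDiffAt_const.mul (cp π.xi_smooth (dn s_d k))
  exact ⟨(((x.mul (cp (deriv_smooth π.B0_smooth) c1)).mul (cp K0_smooth c2)).mul
      (s_ctN K hG ct_smooth k hz)).mul (c1.mul c1),
    (((x.mul (cp π.B0_smooth c1)).mul (cp (deriv_smooth K0_smooth) c2)).mul
      (s_ctN K hG ct_smooth k hz)).mul (c2.mul c2),
    ((x.mul (cp π.B0_smooth c1)).mul (cp K0_smooth c2)).mul (s_ctN K hG dct_smooth k hz),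
    (s_o0 K hG k hz).mul c1⟩

theorem s_aa {g : ℝ → ℝ} (hg : Gg g) (hz : z ∈ S.O) : ContDiffAt ℝ (1 : ℕ) (aa S π g) z :=
  (((W_cd.contDiffAt.comp z contDiffAt_fst).mul (s_o0 K hG 1 hz))).mul
    (hg.sm.contDiffAt.comp z (dn (s_tt hG.ok hz) 1))

theorem s_f (hz : z ∈ S.O) : ContDiffAt ℝ (1 : ℕ) (f1 S π) z ∧ ContDiffAt ℝ (1 : ℕ) (f2 S π) z ∧
    ContDiffAt ℝ (1 : ℕ) (f3 S π) z := by
  obtain ⟨h1, h2, h3, h4⟩ := s_r K hG 1 hz
  have a0 := s_aa K hG gg0 hz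
  exact ⟨(a0.mul h1).add ((s_aa K hG ggt hz).mul h4), a0.mul h2, a0.mul h3⟩

omit K in
theorem cn_mm (hv : S.Spd v) (k : ℕ) (i : Fin 3) : S.Cn π k (mm S π v i) :=
  ⟨fun _ h => ((cp (hh_sm π) (dn (s_cs2 hG.ok h) k)).mul
      (dn (Gx.sm_co (s_p2 hG.ok h) i) k)).mul (dn (s_v2 hG.ok hv h) k),
    fun z _ h => by rw [mm, (hh_zero hG.rg (S.cs2_nonneg z) h).1]; simp⟩

omit K in
theorem cn_TN (hv : S.Spd v) :
    S.Cn π 0 fun z' => deriv (fun c => π.sg0 c ^ 2) (S.cs2 z') * S.Tc2 v z' :=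
  ⟨fun _ h => (cp (deriv_smooth (π.sg0_smooth.pow 2)) (dn (s_cs2 hG.ok h) 0)).mul
      ((contDiffAt_const.mul ((dn (s_cs2 hG.ok h) 0).pow 2)).mul
        (s_D hG.ok h (s_p2 hG.ok h) (dn (s_v2 hG.ok hv h) _))),
    fun z _ h => by
      rw [Sf.Tc2, ← mul_assoc, hh_eq, (hh_zero hG.rg (S.cs2_nonneg z) h).1, zero_mul]⟩

theorem s_FF (hv : S.Spd v) (i : Fin 3) (hz : z ∈ S.O) :
    ContDiffAt ℝ (1 : ℕ) (FF S π v i) z := by
  obtain ⟨h1, h2, h3⟩ := s_f K hG hz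
  exact (((h1.mul (dn (Gx.sm_co (s_p1 hG.ok hz) i) 1)).mul (dn (s_v1 hG.ok hv hz) 1)).add
    ((h2.mul (dn (Gx.sm_co (s_p2 hG.ok hz) i) 1)).mul (dn (s_v2 hG.ok hv hz) 1))).add
    (h3.mul (K.nsc.sm S π 1 _ hG.ok hG.rg (cn_mm hG hv 1 i) z hz))

theorem s_Hw (hv : S.Spd v) (hz : z ∈ S.O) : ContDiffAt ℝ (0 : ℕ) (S.Hw π v) z := by
  obtain ⟨h1, h2, h3⟩ := s_f K hG hz
  have l : ((0 : ℕ) : WithTop ℕ∞) ≤ (1 : ℕ) := by simp
  have o := s_o0 K hG 0 hz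
  have w : ContDiffAt ℝ (0 : ℕ) (fun z : Q => fderiv ℝ π.W z.1 z.2.1) z :=
    dn (((π.W_smooth.fderiv_right (m := ∞) (by simp)).contDiffAt.comp z contDiffAt_fst).clm_apply
      Gx.sm_θ) 0
  rw [show S.Hw π v = _ from funext (Hw_eq S π v)]
  exact ((((dn (s_v1 hG.ok hv hz) 0).mul ((w.mul o).mul (o.mul
    ((G0_cd (by norm_num)).contDiffAt.comp z (dn (s_tt hG.ok hz) 0))))).add
    ((h1.of_le l).mul (s_D hG.ok hz (s_p1 hG.ok hz) (dn (s_v1 hG.ok hv hz) _)))).add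
    ((h2.of_le l).mul (s_D hG.ok hz (s_p2 hG.ok hz) (dn (s_v2 hG.ok hv hz) _)))).add
    ((h3.of_le l).mul (K.nsc.sm S π 0 _ hG.ok hG.rg (cn_TN hG hv) z hz))

end smooth

/-! ### the identity -/

section ident

variable {S : Sf} {π : Par} {v : E → ℝ} {z : Q}

theorem D_sum (f : Q → ℝ) (e : E) : S.D e f z = ∑ i, e i * S.D (ee i) f z := by
  let L : E →L[ℝ] Q := (S.Pi z.1 z.2.1).prod ((0 : E →L[ℝ] E).prod (innerSL ℝ (S.Pv z)))
  exact map_eq_sum (fderiv ℝ f z ∘L L) e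

theorem D_mul {u w : Q → ℝ} (hu : DifferentiableAt ℝ u z) (hw : DifferentiableAt ℝ w z) (e : E) :
    S.D e (fun z => u z * w z) z = u z * S.D e w z + S.D e u z * w z :=
  ((HD.self hu _).mul (HD.self hw _)).2

theorem D_add {u w : Q → ℝ} (hu : DifferentiableAt ℝ u z) (hw : DifferentiableAt ℝ w z) (e : E) :
    S.D e (fun z => u z + w z) z = S.D e u z + S.D e w z :=
  ((HD.self hu _).add (HD.self hw _)).2

theorem D_comp {u : Q → ℝ} {φ : ℝ → ℝ} (hφ : DifferentiableAt ℝ φ (u z))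
    (hu : DifferentiableAt ℝ u z) (e : E) :
    S.D e (fun z => φ (u z)) z = deriv φ (u z) * S.D e u z :=
  ((HD.self hu _).rcomp hφ.hasDerivAt).2

theorem df {F : Type} [NormedAddCommGroup F] [NormedSpace ℝ F] {f : Q → F}
    (h : ContDiffAt ℝ (1 : ℕ) f z) : DifferentiableAt ℝ f z := h.differentiableAt (by simp)

/-- the divergence of `u w P` -/
theorem bp {u w : Q → ℝ} {P : Q → E} {X : E →L[ℝ] E} (hu : DifferentiableAt ℝ u z)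
    (hw : DifferentiableAt ℝ w z) (hP : DifferentiableAt ℝ P z) (hX : ∀ e, S.D e P z = -X e) :
    ∑ i, S.D (ee i) (fun z => u z * P z i * w z) z =
      (∑ i, P z i * S.D (ee i) u z) * w z - u z * trc X * w z + u z * S.D (P z) w z := by
  have h1 : ∀ i, HD (fun z => P z i) z (S.VD (ee i) z) (-X (ee i) i) := fun i =>
    ((HD.self hP _).comp (Gx.co i).hasFDerivAt).val (congrArg (fun a : E => a i) (hX (ee i)))
  have h2 : ∀ i, S.D (ee i) (fun z => u z * P z i * w z) z = u z * P z i * S.D (ee i) w z +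
      (u z * -X (ee i) i + S.D (ee i) u z * P z i) * w z := fun i =>
    (((HD.self hu _).mul (h1 i)).mul (HD.self hw _)).2
  rw [D_sum w (P z)]
  simp only [h2, trc, Fin.sum_univ_three]
  ring

variable (K : Kit) {Λ : ℝ} (hG : Good S π Λ) (hv : S.Spd v)
include K hG hv

theorem div_mm (hz : z ∈ S.O) : ∑ i, S.D (ee i) (mm S π v i) z =
    rr S π v z + deriv (fun c => π.sg0 c ^ 2) (S.cs2 z) * S.Tc2 v z := by
  have c2 := df (dn (s_cs2 hG.ok hz) 1)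
  have hd := (hh_sm π).differentiable (by simp) (S.cs2 z)
  have h := bp (S := S) (u := fun z => hh π (S.cs2 z)) (hd.comp z c2) (df (dn (s_v2 hG.ok hv hz) 1))
    (df (dn (s_p2 hG.ok hz) 1)) fun e => K.gd.Dp2 S z e hG.ok hz
  rw [← D_sum, D_comp hd c2, K.gd.Dc2 S z _ hG.ok hz] at h
  rw [Sf.Tc2, ← mul_assoc, hh_eq, rr]
  exact h.trans (by ring)

theorem TN_eq (hz : S.Hit z) (hb : S.Box π z) :
    S.TN π v z = ∑ i, S.D (ee i) (S.NS π (mm S π v i)) z - S.NS π (rr S π v) z := by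
  obtain ⟨T, hT, hs⟩ := K.unq.ns S π Λ z hG hz hb
  have hO := Ca.box_O hG.rg hb
  have h1 : ∀ i, S.D (ee i) (S.NS π (mm S π v i)) z =
      ∑ l ∈ T, S.D (ee i) (mm S π v i) (z.1, z.2.1, l) := fun i => by
    rw [K.nsc.dD S π Λ _ z _ hG (cn_mm hG hv 1 i) hz hb]
    refine hs _ fun z' h h' => ?_
    rw [Sf.D, (Nsc.van_near hG.ok (cn_mm hG hv 1 i) h h').fderiv_eq]
    simp
  rw [Sf.TN, hs _ (cn_TN hG hv).van, hs (rr S π v) fun z' _ h => by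
    obtain ⟨a, b⟩ := hh_zero hG.rg (S.cs2_nonneg z') h
    rw [rr, a, b]; simp]
  simp only [h1]
  rw [Finset.sum_comm, ← Finset.sum_sub_distrib]
  refine Finset.sum_congr rfl fun l hl => ?_
  obtain ⟨a, -, -, c⟩ := (hT l).1 hl
  rw [div_mm K hG hv (z := (z.1, z.2.1, l)) ⟨hO.1, Sf.s_ne_of_sq (by linarith [hG.rg.η2.1]) c,
    a⟩]
  ring

theorem h1_eq (hz : S.Hit z) (hb : S.Box π z) :
    S.Hw π v z - ∑ i, S.D (ee i) (FF S π v i) z = h1 S π v z := by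
  have hO := Ca.box_O hG.rg hb
  obtain ⟨a1, a2, a3⟩ := s_f K hG hO
  have p1 := dn (s_p1 hG.ok hO) 1
  have p2 := dn (s_p2 hG.ok hO) 1
  have v1 := df (dn (s_v1 hG.ok hv hO) 1)
  have v2 := df (dn (s_v2 hG.ok hv hO) 1)
  have b1 := bp (S := S) (df a1) v1 (df p1) fun e => K.gd.Dp1 S z e hG.ok hO
  have b2 := bp (S := S) (df a2) v2 (df p2) fun e => K.gd.Dp2 S z e hG.ok hO
  have h : ∀ i, S.D (ee i) (FF S π v i) z =
      S.D (ee i) (fun z => f1 S π z * S.p1 z i * S.v1 v z) z +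
      S.D (ee i) (fun z => f2 S π z * S.p2 z i * S.v2 v z) z +
      (f3 S π z * S.D (ee i) (S.NS π (mm S π v i)) z +
        S.D (ee i) (f3 S π) z * S.NS π (mm S π v i) z) := fun i => by
    have c1 := ((df a1).mul (df (dn (Gx.sm_co (s_p1 hG.ok hO) i) 1))).mul v1
    have c2 := ((df a2).mul (df (dn (Gx.sm_co (s_p2 hG.ok hO) i) 1))).mul v2
    have c3 := df (K.nsc.sm S π 1 _ hG.ok hG.rg (cn_mm hG hv 1 i) z hO)
    exact (((HD.self c1 _).add (HD.self c2 _)).add ((HD.self (df a3) _).mul (HD.self c3 _))).2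
  simp only [h, Finset.sum_add_distrib]
  rw [b1, b2, Hw_eq, TN_eq K hG hv hz hb, h1, ← Finset.mul_sum]
  ring

end ident

end Hw

end Vale.Agent.P218M1
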