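import Vale.Agent.P218M1.LinA

/-!
# P218M1, row LIN: the area measure, seen from the lines in one direction
-/

open MeasureTheory Metric Filter Topology Set
open scoped ContDiff RealInnerProductSpace

noncomputable section

namespace Vale.Agent.P218M1

namespace Lin

variable {S : Sf} {θ : E}

theorem s_eq (S : Sf) (x θ : E) : S.s x θ = fderiv ℝ S.w x θ := inner_gradient_left

theorem s_cont (hS : S.Ok) (θ : E) : Continuous fun x => S.s x θ := by
  simp only [s_eq]
  exact (hS.sm.continuous_fderiv (by simp)).clm_apply continuous_const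

theorem cc_eq (S : Sf) (x θ : E) : S.cc x θ = ‖S.g x‖⁻¹ * S.s x θ := real_inner_smul_left _ _ _

theorem line_deriv {f : E → ℝ} (hf : Differentiable ℝ f) (p θ : E) (l : ℝ) :
    HasDerivAt (fun l : ℝ => f (p + l • θ)) (fderiv ℝ f (p + l • θ) θ) l := by
  have h : HasDerivAt (fun l : ℝ => p + l • θ) θ l := by
    simpa using ((hasDerivAt_id l).smul_const θ).const_add p
  exact (hf _).hasFDerivAt.comp_hasDerivAt l h

theorem line_emb (hθ : ‖θ‖ = 1) (p : E) : IsClosedEmbedding fun l : ℝ => p + l • θ := by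
  refine Isometry.isClosedEmbedding (Isometry.of_dist_eq fun a b => ?_)
  rw [dist_add_left, dist_eq_norm, ← sub_smul, norm_smul, hθ, mul_one, dist_eq_norm]

theorem dvg_smul {F : E → ℝ} (hF : Differentiable ℝ F) (θ x : E) :
    dvg (fun x => F x • θ) x = fderiv ℝ F x θ := by
  unfold dvg trc
  rw [fderiv_smul_const (hF x)]
  have e : θ = ∑ i, θ i • ee i := by
    ext j
    simp [ee, Finset.sum_apply, Pi.single_apply]
  conv_rhs => rw [e]
  rw [map_sum]
  refine Finset.sum_congr rfl fun i _ => ?_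
  simp [mul_comm]

theorem sign_near' {f : E → ℝ} (hf : Continuous f) {x : E} (h : f x ≠ 0) :
    ∀ᶠ y in 𝓝 x, Real.sign (f y) = Real.sign (f x) := by
  rcases lt_or_gt_of_ne h with h | h
  · filter_upwards [hf.continuousAt.eventually (gt_mem_nhds h)] with y hy
    rw [Real.sign_of_neg hy, Real.sign_of_neg h]
  · filter_upwards [hf.continuousAt.eventually (lt_mem_nhds h)] with y hy
    rw [Real.sign_of_pos hy, Real.sign_of_pos h]

/-- the statement for smooth functions -/
theorem smooth (hS : S.Ok) (hθ : ‖θ‖ = 1) {h : E → ℝ} (h1 : ContDiff ℝ 1 h)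
    (hc : HasCompactSupport h) (hs : ∀ x ∈ tsupport h, S.s x θ ≠ 0) :
    Integrable (fun p => bet ⟪p, θ⟫ * S.LS h p θ) ∧
      ∫ x, |S.cc x θ| * h x ∂S.μ = ∫ p, bet ⟪p, θ⟫ * S.LS h p θ := by
  set F : E → ℝ := fun x => Real.sign (S.s x θ) * h x with hF
  have hFc : HasCompactSupport F := hc.mul_left
  have hoff : ∀ x, x ∉ tsupport h → F =ᶠ[𝓝 x] 0 := fun x hx => by
    filter_upwards [notMem_tsupport_iff_eventuallyEq.1 hx] with y hy
    simp [hF, hy]
  have hF1 : ContDiff ℝ 1 F := by
    refine contDiff_iff_contDiffAt.2 fun x => ?_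
    by_cases hx : x ∈ tsupport h
    · refine ((contDiffAt_const (c := Real.sign (S.s x θ))).mul
        h1.contDiffAt).congr_of_eventuallyEq ?_
      filter_upwards [sign_near' (s_cont hS θ) (hs x hx)] with y hy
      simp only [hF, hy]
    · exact contDiffAt_const.congr_of_eventuallyEq (hoff x hx)
  have hFd : Differentiable ℝ F := hF1.differentiable one_ne_zero
  have hdc : Continuous fun x => fderiv ℝ F x θ :=
    (hF1.continuous_fderiv one_ne_zero).clm_apply continuous_const
  have hU : MeasurableSet {x | S.w x < 0} :=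
    (isOpen_lt hS.sm.continuous continuous_const).measurableSet
  obtain ⟨i1, i2⟩ := lines (G := {x | S.w x < 0}.indicator fun x => fderiv ℝ F x θ)
    (hdc.measurable.indicator hU)
    ((hdc.integrable_of_hasCompactSupport (hFc.fderiv_apply ℝ θ)).indicator hU) hθ
  have e : ∀ p : E, ∫ l : ℝ, {x | S.w x < 0}.indicator (fun x => fderiv ℝ F x θ) (p + l • θ) =
      S.LS h p θ := by
    intro p
    have h2 := one_dim (line_deriv (hS.sm.differentiable (by simp)) p θ) (line_deriv hFd p θ)
      (hdc.comp (line_emb hθ p).continuous) (hFc.comp_isClosedEmbedding (line_emb hθ p))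
      fun d _ => by
        by_cases hx : p + d • θ ∈ tsupport h
        · left
          rw [← s_eq]
          exact hs _ hx
        · exact Or.inr ((line_emb hθ p).continuous.continuousAt.eventually (hoff _ hx))
    refine Eq.trans h2 ?_
    unfold Sf.LS
    refine finsum_congr fun d => finsum_congr fun _ => ?_
    rw [← s_eq]
    simp only [hF]
    by_cases hx : p + d • θ ∈ tsupport h
    · rcases lt_or_gt_of_ne (hs _ hx) with h3 | h3
      · simp [Real.sign_of_neg h3]
      · simp [Real.sign_of_pos h3]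
    · simp [image_eq_zero_of_notMem_tsupport hx]
  simp only [e] at i1 i2
  refine ⟨i1, ?_⟩
  have h3 := hS.div (fun x => F x • θ) (hF1.smul contDiff_const) hFc.smul_right
  simp only [dvg_smul hFd] at h3
  rw [i2, integral_indicator hU, ← h3]
  congr 1
  funext x
  rw [real_inner_smul_right]
  change |S.cc x θ| * h x = Real.sign (S.s x θ) * h x * S.cc x θ
  rw [cc_eq, abs_mul, abs_of_nonneg (inv_nonneg.2 (norm_nonneg _))]
  rcases lt_trichotomy (S.s x θ) 0 with h4 | h4 | h4
  · rw [Real.sign_of_neg h4, abs_of_neg h4]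
    ring
  · simp [h4]
  · rw [Real.sign_of_pos h4, abs_of_pos h4]
    ring

/-- the sum over the hits of a line is a finite sum -/
theorem LS_fin (hS : S.Ok) (hθ : ‖θ‖ = 1) {K : Set E} (hK : IsCompact K)
    (hs : ∀ x ∈ K, S.s x θ ≠ 0) (p : E) : ∃ T : Finset ℝ,
      (∀ l, l ∈ T ↔ S.w (p + l • θ) = 0 ∧ p + l • θ ∈ K) ∧
      ∀ h : E → ℝ, (∀ x, S.w x = 0 → h x ≠ 0 → x ∈ K) → S.LS h p θ = ∑ l ∈ T, h (p + l • θ) := by
  have hT := fin_zero (line_deriv (hS.sm.differentiable (by simp)) p θ)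
    ((line_emb hθ p).isCompact_preimage hK) fun d hd _ => by
      rw [← s_eq]
      exact hs _ hd
  refine ⟨hT.toFinset, fun l => hT.mem_toFinset, fun h hh => ?_⟩
  apply finsum_cond_eq_sum_of_cond_iff
  intro d hd
  rw [hT.mem_toFinset]
  exact ⟨fun h0 => ⟨h0, hh _ h0 hd⟩, fun h0 => h0.1⟩

theorem exists_cut {U T : Set E} (hU : IsOpen U) (hT : IsCompact T) (hTU : T ⊆ U) :
    ∃ c : E → ℝ, ContDiff ℝ ∞ c ∧ HasCompactSupport c ∧ tsupport c ⊆ U ∧ (∀ z ∈ T, c z = 1) ∧
      ∀ z, 0 ≤ c z ∧ c z ≤ 1 := by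
  obtain ⟨L, hL, hKL, hLU⟩ := exists_compact_between hT hU hTU
  obtain ⟨χ, h1, h0, h2⟩ := exists_contMDiffMap_one_nhds_of_subset_interior
    (modelWithCornersSelf ℝ E) (n := (⊤ : ℕ∞)) hT.isClosed hKL
  have hs : tsupport (χ : E → ℝ) ⊆ L := by
    apply closure_minimal _ hL.isClosed
    intro z hz
    by_contra h
    exact hz (h0 z h)
  exact ⟨χ, χ.contMDiff.contDiff, hL.of_isClosed_subset (isClosed_tsupport _) hs, hs.trans hLU,
    fun z hz => h1.self_of_nhdsSet z hz, fun z => h2 z⟩

theorem int_cc (hS : S.Ok) (hθ : ‖θ‖ = 1) {h : E → ℝ} (h1 : Continuous h)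
    (hc : HasCompactSupport h) : Integrable (fun x => |S.cc x θ| * h x) S.μ := by
  have := hS.fin
  have hg : Continuous S.g := (InnerProductSpace.toDual ℝ E).symm.continuous.comp
    (hS.sm.continuous_fderiv (by simp))
  refine (h1.integrable_of_hasCompactSupport hc).bdd_mul (c := 1) ?_
    (Eventually.of_forall fun x => ?_)
  · simp only [cc_eq]
    exact (hg.norm.measurable.inv.mul (s_cont hS θ).measurable).abs.aestronglyMeasurable
  · rw [Real.norm_eq_abs, abs_abs]
    refine (abs_real_inner_le_norm _ _).trans ?_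
    rw [hθ, mul_one, Sf.n, norm_smul, norm_inv, norm_norm]
    exact inv_mul_le_one_of_le₀ le_rfl (norm_nonneg _)

/-- the statement for continuous functions -/
theorem cont (hS : S.Ok) (hθ : ‖θ‖ = 1) {h : E → ℝ} (h1 : Continuous h)
    (hc : HasCompactSupport h) (hs : ∀ x ∈ tsupport h, S.s x θ ≠ 0) :
    Integrable (fun p => bet ⟪p, θ⟫ * S.LS h p θ) ∧
      ∫ x, |S.cc x θ| * h x ∂S.μ = ∫ p, bet ⟪p, θ⟫ * S.LS h p θ := by
  obtain ⟨c, c1, c2, c3, c4, c5⟩ := exists_cut (U := {x | S.s x θ ≠ 0})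
    (isOpen_ne_fun (s_cont hS θ) continuous_const) hc.isCompact hs
  obtain ⟨j1, j2⟩ := smooth hS hθ (c1.of_le (by simp)) c2 c3
  have hap : ∀ δ : ℝ, 0 < δ → ∃ g : E → ℝ, Integrable (fun p => bet ⟪p, θ⟫ * S.LS g p θ) ∧
      |(∫ x, |S.cc x θ| * h x ∂S.μ) - ∫ p, bet ⟪p, θ⟫ * S.LS g p θ| ≤
        δ * ∫ x, |S.cc x θ| * c x ∂S.μ ∧
      ∀ p, |bet ⟪p, θ⟫ * S.LS h p θ - bet ⟪p, θ⟫ * S.LS g p θ| ≤
        δ * (bet ⟪p, θ⟫ * S.LS c p θ) := by
    intro δ hδ
    obtain ⟨g, g1, g2, g3⟩ := h1.exists_contDiff_approx 1 (ε := fun _ => δ) continuous_const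
      fun _ => hδ
    have g4 : tsupport g ⊆ tsupport h := closure_mono g3
    have g5 : HasCompactSupport g := hc.mono g3
    obtain ⟨k1, k2⟩ := smooth hS hθ g1 g5 fun x hx => hs x (g4 hx)
    have hd : ∀ x, |h x - g x| ≤ δ * c x := fun x => by
      by_cases hx : x ∈ tsupport h
      · rw [c4 x hx, mul_one, abs_sub_comm]
        exact (g2 x).le
      · rw [image_eq_zero_of_notMem_tsupport hx,
          image_eq_zero_of_notMem_tsupport fun h' => hx (g4 h'), sub_zero, abs_zero]
        exact mul_nonneg hδ.le (c5 x).1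
    refine ⟨g, k1, ?_, fun p => ?_⟩
    · rw [← k2, ← integral_sub (int_cc hS hθ h1 hc) (int_cc hS hθ g1.continuous g5),
        ← integral_const_mul, ← Real.norm_eq_abs]
      refine norm_integral_le_of_norm_le ((int_cc hS hθ c1.continuous c2).const_mul δ)
        (Eventually.of_forall fun x => ?_)
      rw [← mul_sub, Real.norm_eq_abs, abs_mul, abs_abs, mul_left_comm]
      exact mul_le_mul_of_nonneg_left (hd x) (abs_nonneg _)
    · obtain ⟨T, -, hT⟩ := LS_fin hS hθ c2.isCompact c3 p
      have hsub : tsupport h ⊆ tsupport c := fun x hx => subset_tsupport _ (by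
        rw [Function.mem_support, c4 x hx]; exact one_ne_zero)
      rw [← mul_sub, abs_mul, abs_of_nonneg (bet_nn _), mul_left_comm,
        hT h fun x _ hx => hsub (subset_tsupport _ hx),
        hT g fun x _ hx => hsub (g4 (subset_tsupport _ hx)),
        hT c fun x _ hx => subset_tsupport _ hx, ← Finset.sum_sub_distrib, Finset.mul_sum]
      exact mul_le_mul_of_nonneg_left ((Finset.abs_sum_le_sum_abs _ _).trans
        (Finset.sum_le_sum fun l _ => hd _)) (bet_nn _)
  choose g g1 g2 g3 using fun n : ℕ => hap (1 / ((n : ℝ) + 1)) Nat.one_div_pos_of_nat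
  have hm : AEStronglyMeasurable (fun p => bet ⟪p, θ⟫ * S.LS h p θ) volume := by
    refine aestronglyMeasurable_of_tendsto_ae atTop (fun n => (g1 n).aestronglyMeasurable)
      (Eventually.of_forall fun p => ?_)
    rw [tendsto_iff_dist_tendsto_zero]
    refine squeeze_zero (fun _ => dist_nonneg) (fun n => ?_)
      (by simpa using tendsto_one_div_add_atTop_nhds_zero_nat.mul_const (bet ⟪p, θ⟫ * S.LS c p θ))
    rw [dist_comm, Real.dist_eq]
    simpa using g3 n p
  have hi : Integrable (fun p => bet ⟪p, θ⟫ * S.LS h p θ) := by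
    have h2 : Integrable (fun p => bet ⟪p, θ⟫ * S.LS h p θ - bet ⟪p, θ⟫ * S.LS (g 0) p θ) :=
      (j1.const_mul _).mono' (hm.sub (g1 0).aestronglyMeasurable) (Eventually.of_forall (g3 0))
    exact (h2.add (g1 0)).congr (Eventually.of_forall fun p => sub_add_cancel _ _)
  refine ⟨hi, ?_⟩
  rw [← sub_eq_zero, ← abs_nonpos_iff]
  refine ge_of_tendsto' (by simpa using (tendsto_one_div_add_atTop_nhds_zero_nat.mul_const
    (2 * ∫ x, |S.cc x θ| * c x ∂S.μ))) fun n => ?_
  have h3 : |(∫ p, bet ⟪p, θ⟫ * S.LS h p θ) - ∫ p, bet ⟪p, θ⟫ * S.LS (g n) p θ| ≤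
      1 / ((n : ℝ) + 1) * ∫ x, |S.cc x θ| * c x ∂S.μ := by
    rw [← integral_sub hi (g1 n), j2, ← integral_const_mul, ← Real.norm_eq_abs]
    exact norm_integral_le_of_norm_le (j1.const_mul _) (Eventually.of_forall (g3 n))
  have h4 := g2 n
  rw [one_div] at h3 h4
  rw [abs_le] at h3 h4 ⊢
  constructor <;> linarith [h3.1, h3.2, h4.1, h4.2]

end Lin

open Lin in
/-- **LIN** -/
theorem lin' : LIN := by
  intro S θ h R hS hθ hh
  have hK : IsCompact ({x | S.w x = 0} ∩ tsupport h) := by
    refine (isCompact_closedBall (0 : E) R).of_isClosed_subset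
      ((isClosed_eq hS.sm.continuous continuous_const).inter (isClosed_tsupport h)) fun x hx => ?_
    rw [mem_closedBall, dist_zero_right]
    exact ((hh x hx.1).resolve_right fun h' => notMem_tsupport_iff_eventuallyEq.2 h' hx.2).1
  obtain ⟨c, c1, c2, c3, c4, -⟩ := exists_cut (U := {x | S.s x θ ≠ 0} ∩ {x | ContDiffAt ℝ 0 h x})
    ((isOpen_ne_fun (s_cont hS θ) continuous_const).inter
      (isOpen_iff_mem_nhds.2 fun x hx => ContDiffAt.eventually hx (by simp))) hK
    fun x hx => ((hh x hx.1).resolve_right fun h' => notMem_tsupport_iff_eventuallyEq.2 h' hx.2).2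
  have hs : tsupport (fun x => c x * h x) ⊆ tsupport c := tsupport_mul_subset_left
  have hc : Continuous fun x => c x * h x := by
    refine continuous_iff_continuousAt.2 fun x => ?_
    by_cases hx : x ∈ tsupport c
    · exact c1.continuous.continuousAt.mul (show ContDiffAt ℝ 0 h x from (c3 hx).2).continuousAt
    · exact continuousAt_const.congr
        (notMem_tsupport_iff_eventuallyEq.1 fun h' => hx (hs h')).symm
  have e : ∀ x, S.w x = 0 → c x * h x = h x := fun x hx => by
    by_cases h' : x ∈ tsupport h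
    · rw [c4 x ⟨hx, h'⟩, one_mul]
    · rw [image_eq_zero_of_notMem_tsupport h', mul_zero]
  have e2 : ∀ p, S.LS (fun x => c x * h x) p θ = S.LS h p θ := fun p =>
    finsum_congr fun d => finsum_congr fun hd => e _ hd
  obtain ⟨i1, i2⟩ := cont hS hθ hc c2.mul_right fun x hx => (c3 (hs hx)).1
  simp only [e2] at i1 i2
  refine ⟨i1, ?_⟩
  rw [← i2]
  refine integral_congr_ae ?_
  filter_upwards [hS.sup] with x hx
  rw [e x hx]

/-- **LIN**, in the form of the row -/
theorem lin (_ : FS) : LIN := lin'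

end Vale.Agent.P218M1
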