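import Vale.Agent.P218M1.MonoA

/-!
# P218M1: monotonicity with a weight
-/

open MeasureTheory Metric Filter Topology Set
open scoped ContDiff RealInnerProductSpace ENNReal

noncomputable section

namespace Vale.Agent.P218M1

namespace Mono

variable {S : Sf} {u : E → ℝ} {x y : E} {r s : ℝ}

theorem alg {u χ χ' k a b H ρ s q C B : ℝ} (hu : 0 ≤ u) (h0 : 0 ≤ χ) (h1 : χ ≤ 1) (hC : |χ'| ≤ C)
    (hk : 0 < k) (e : k * (ρ + s ^ 2) = 1) (ha : a ^ 2 ≤ ρ) (hb : k * |b| ≤ B) (hq : 0 < q) :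
    u * χ * (2 * s ^ 2 * k ^ 2 + k ^ 2 * a ^ 2) - (u * (χ * k) * 2 + χ * k * b +
      u * ((χ' / q * k - χ * k ^ 2) * (2 * (ρ - a ^ 2))) + H * (u * (χ * k) * a)) ≤
      (2 * C + 1) * (u / q + B + u * H ^ 2) := by
  have hC0 := (abs_nonneg _).trans hC
  have hB := (mul_nonneg hk.le (abs_nonneg b)).trans hb
  have uq := div_nonneg hu hq.le
  have e1 : u * χ * (2 * s ^ 2 * k ^ 2 + k ^ 2 * a ^ 2) - (u * (χ * k) * 2 + χ * k * b +
      u * ((χ' / q * k - χ * k ^ 2) * (2 * (ρ - a ^ 2))) + H * (u * (χ * k) * a)) =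
      u * χ * (H ^ 2 / 4 - (k * a + H / 2) ^ 2) + χ * (k * -b) +
        2 * (u / q) * (-χ' * (k * (ρ - a ^ 2))) := by
    linear_combination (2 * u * χ * k) * e
  have t1 : u * χ * (H ^ 2 / 4 - (k * a + H / 2) ^ 2) ≤ u * H ^ 2 := by
    have : χ * (H ^ 2 / 4 - (k * a + H / 2) ^ 2) ≤ H ^ 2 := by
      nlinarith [mul_nonneg h0 (sq_nonneg (k * a + H / 2)), mul_nonneg h0 (sq_nonneg H),
        mul_nonneg (sub_nonneg.2 h1) (sq_nonneg H)]
    rw [mul_assoc]
    exact mul_le_mul_of_nonneg_left this hu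
  have t2 : χ * (k * -b) ≤ B := by
    have := mul_le_mul_of_nonneg_left (neg_le_abs b) hk.le
    nlinarith [mul_nonneg hk.le (abs_nonneg b)]
  have t3 : -χ' * (k * (ρ - a ^ 2)) ≤ C := by
    have a1 : 0 ≤ k * (ρ - a ^ 2) := mul_nonneg hk.le (sub_nonneg.2 ha)
    have a2 : k * (ρ - a ^ 2) ≤ 1 := by nlinarith [sq_nonneg a, sq_nonneg s]
    nlinarith [neg_le_abs χ']
  have t4 := mul_le_mul_of_nonneg_left t3 uq
  rw [e1]
  nlinarith [mul_nonneg hC0 hB, mul_nonneg hC0 (mul_nonneg hu (sq_nonneg H))]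

/-- the cutoff -/
def ch (x : E) (r : ℝ) (y : E) : ℝ := ct (‖y - x‖ ^ 2 / r ^ 2)
/-- the regularised kernel -/
def kk (x : E) (s : ℝ) (y : E) : ℝ := (‖y - x‖ ^ 2 + s ^ 2)⁻¹

theorem sch : ContDiff ℝ 1 (ch x r) :=
  (sct.of_le (by simp)).comp (((contDiff_id.sub contDiff_const).norm_sq ℝ).div_const _)

theorem skk (hs : 0 < s) : ContDiff ℝ 1 (kk x s) :=
  (((contDiff_id.sub contDiff_const).norm_sq ℝ).add contDiff_const).inv fun _ => by positivity

theorem out (hr : 0 < r) (hy : y ∉ ball x (3 / 2 * r)) : 2 < ‖y - x‖ ^ 2 / r ^ 2 := by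
  have : 3 / 2 * r ≤ ‖y - x‖ := by simpa [dist_eq_norm] using hy
  rw [lt_div_iff₀ (by positivity)]
  nlinarith

/-- the good terms -/
def LL (S : Sf) (u : E → ℝ) (x : E) (r s : ℝ) (y : E) : ℝ :=
  u y * ch x r y * (2 * s ^ 2 * kk x s y ^ 2 + kk x s y ^ 2 * ⟪y - x, S.n y⟫ ^ 2)

theorem tr_eq (hg : S.g y ≠ 0) (hu : DifferentiableAt ℝ u y) (hs : 0 < s) :
    trc (S.P y ∘L fderiv ℝ (fun y => (u y * (ch x r y * kk x s y)) • (y - x)) y) =
      u y * (ch x r y * kk x s y) * 2 + ch x r y * kk x s y * ⟪S.P y (gradient u y), y - x⟫ +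
      u y * ((deriv ct (‖y - x‖ ^ 2 / r ^ 2) / r ^ 2 * kk x s y - ch x r y * kk x s y ^ 2) *
        (2 * (‖y - x‖ ^ 2 - ⟪y - x, S.n y⟫ ^ 2))) := by
  have h1 : HasDerivAt (fun t : ℝ => ct (t / r ^ 2) * (t + s ^ 2)⁻¹)
      (deriv ct (‖y - x‖ ^ 2 / r ^ 2) / r ^ 2 * kk x s y - ch x r y * kk x s y ^ 2)
      (‖y - x‖ ^ 2) := by
    have a := ((dct _).comp _ ((hasDerivAt_id' (‖y - x‖ ^ 2)).div_const (r ^ 2))).mul
      (((hasDerivAt_id' (‖y - x‖ ^ 2)).add_const (s ^ 2)).inv (by positivity))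
    refine HasDerivAt.congr_deriv a ?_
    simp only [Function.comp_apply, Pi.inv_apply, ch, kk, inv_pow]
    ring
  have h3 := h1.comp_hasFDerivAt y (hsq x y)
  have h2 : HasFDerivAt (fun y => (u y * (ch x r y * kk x s y)) • (y - x)) _ y :=
    (hu.hasFDerivAt.mul h3).smul ((hasFDerivAt_id y).sub_const x)
  rw [h2.fderiv, ContinuousLinearMap.comp_add, trc_add, ContinuousLinearMap.comp_smul, trc_smul,
    ContinuousLinearMap.comp_id, Sf.trc_P hg,
    show ∀ (l : E →L[ℝ] ℝ) (v : E), S.P y ∘L l.smulRight v = l.smulRight (S.P y v) from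
      fun l v => by ext1; simp, trc_smulRight, S.P_sym, inner_grad, real_inner_comm (S.n y),
    ← S.inner_P, real_inner_comm]
  simp only [Pi.mul_apply, Function.comp_apply, add_apply, smul_apply, smul_eq_mul,
    innerSL_apply_apply, ch, kk]
  ring

theorem iL (hS : S.Ok) (hr : 0 < r) (hs : 0 < s) (hu : ∀ y, S.w y = 0 → ContDiffAt ℝ 1 u y ∧ 0 ≤ u y)
    (a b : ℝ) : Integrable (fun y => u y * ch x r y *
      (a * kk x s y ^ 2 + b * (kk x s y ^ 2 * ⟪y - x, S.n y⟫ ^ 2))) S.μ := by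
  refine intg hS (isCompact_closedBall x (3 / 2 * r)) (fun y hy => ?_) fun y _ hy => by
    rw [ch, ct_zero (out hr fun a => hy (ball_subset_closedBall a)).le, mul_zero, zero_mul]
  have := (hu y hy).1.continuousAt
  have := (sch (x := x) (r := r)).continuous
  have := (skk (x := x) hs).continuous
  have := cn hS (hS.reg y hy)
  fun_prop

theorem key : ∃ C : ℝ, 0 < C ∧ ∀ (S : Sf) (u : E → ℝ) (x : E) (r s : ℝ), S.Ok → 0 < r → 0 < s →
    (∀ y, S.w y = 0 → ContDiffAt ℝ 1 u y ∧ 0 ≤ u y) →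
    ∫⁻ y, ENNReal.ofReal (LL S u x r s y) ∂S.μ ≤
      ENNReal.ofReal C * ∫⁻ y in ball x (2 * r), ENNReal.ofReal (u y / r ^ 2 +
        ‖S.P y (gradient u y)‖ / ‖y - x‖ + u y * S.H y ^ 2) ∂S.μ := by
  obtain ⟨C, hC⟩ := (isCompact_Icc (a := (0 : ℝ)) (b := 4)).exists_bound_of_continuousOn
    cdct.continuousOn
  have hC0 : 0 ≤ C := (norm_nonneg _).trans (hC 0 ⟨le_rfl, by norm_num⟩)
  refine ⟨2 * C + 1, by positivity, fun S u x r s hS hr hs hu => ?_⟩
  set Y : E → E := fun y => (u y * (ch x r y * kk x s y)) • (y - x) with hY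
  have sY : ∀ y, S.w y = 0 → ContDiffAt ℝ 1 Y y := fun y hy =>
    ((hu y hy).1.mul (sch.mul (skk hs)).contDiffAt).smul (contDiffAt_id.sub contDiffAt_const)
  have zY : ∀ y, y ∉ closedBall x (3 / 2 * r) → Y =ᶠ[𝓝 y] 0 := fun y hy => by
    filter_upwards [isClosed_closedBall.isOpen_compl.mem_nhds hy] with z hz
    simp [hY, ch, ct_zero (out hr fun a => hz (ball_subset_closedBall a)).le]
  have h0 := fvn S Y hS ⟨by exact_mod_cast sY, _, isCompact_closedBall x _, fun y _ => zY y⟩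
  have iT : Integrable (fun y => trc (S.P y ∘L fderiv ℝ Y y) + S.H y * ⟪S.n y, Y y⟫) S.μ :=
    intg hS (isCompact_closedBall x (3 / 2 * r)) (fun y hy =>
      (ctrc.continuousAt.comp ((cP hS (hS.reg y hy)).clm_comp
        ((sY y hy).fderiv_right (m := 0) (by simp)).continuousAt)).add
        ((cH hS (hS.reg y hy)).mul ((cn hS (hS.reg y hy)).inner (sY y hy).continuousAt)))
      fun y _ hy => by simp [(zY y hy).fderiv_eq, (zY y hy).self_of_nhds, trc]
  have i1 : Integrable (LL S u x r s) S.μ := by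
    simpa only [one_mul] using! iL (x := x) hS hr hs hu (2 * s ^ 2) 1
  rw [← ofReal_integral_eq_lintegral_ofReal i1 (hS.sup.mono fun y hy => by
      have := (hu y hy).2
      have := ct0 (‖y - x‖ ^ 2 / r ^ 2)
      simp only [LL, ch, Pi.zero_apply]
      positivity), ← sub_zero (∫ _, _ ∂_), ← h0, ← integral_sub i1 iT,
    ← lintegral_const_mul' _ _ ENNReal.ofReal_ne_top, ← lintegral_indicator measurableSet_ball]
  refine (ofReal_int_le (i1.sub iT)).trans (lintegral_mono_ae (hS.sup.mono fun y hy => ?_))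
  have hg := hS.reg y hy
  rw [Pi.sub_apply, tr_eq hg ((hu y hy).1.differentiableAt one_ne_zero) hs, hY,
    real_inner_smul_right, real_inner_comm (y - x) (S.n y), LL]
  by_cases h : y ∈ ball x (2 * r)
  · have h1 : ‖y - x‖ < 2 * r := by simpa [dist_eq_norm] using h
    rw [indicator_of_mem h, ← ENNReal.ofReal_mul (by positivity)]
    refine ENNReal.ofReal_le_ofReal (alg (hu y hy).2 (ct0 _) (ct1 _) (hC _ ⟨by positivity, ?_⟩)
      (by rw [kk]; positivity) (inv_mul_cancel₀ (by positivity)) ?_ ?_ (by positivity))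
    · rw [div_le_iff₀ (by positivity)]
      nlinarith [norm_nonneg (y - x)]
    · simpa [Sf.norm_n hg] using inner_sq_le (y - x) (S.n y)
    · rcases (norm_nonneg (y - x)).eq_or_lt with e | e
      · simp [norm_eq_zero.1 e.symm]
      · rw [kk, le_div_iff₀ e, mul_assoc, inv_mul_le_iff₀ (by positivity)]
        have := abs_real_inner_le_norm (S.P y (gradient u y)) (y - x)
        nlinarith [mul_nonneg (norm_nonneg (S.P y (gradient u y))) (sq_nonneg s)]
  · have h1 := out hr fun a => h (ball_subset_ball (by linarith) a)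
    simp [ch, ct_zero h1.le, dct_zero h1]

end Mono

open Mono in
theorem mono : MONO := by
  obtain ⟨c, hc, hd⟩ := dens
  obtain ⟨C, hC, hk⟩ := key
  refine ⟨4 / c * C + C, by positivity, fun S u x r hS hx hr hu => ?_⟩
  rw [ENNReal.ofReal_add (by positivity) hC.le, add_mul]
  refine add_le_add ?_ ?_
  · rcases (hu x hx).2.eq_or_lt with e | e
    · simp [← e]
    obtain ⟨δ, hδ, h1⟩ := Metric.eventually_nhds_iff_ball.1
      ((hu x hx).1.continuousAt.eventually (lt_mem_nhds (half_lt_self e)))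
    obtain ⟨s, ⟨h2, h3⟩, hs⟩ := (((hd S x hS hx).and (mem_nhdsWithin_of_mem_nhds
      (Iio_mem_nhds (lt_min hδ hr)))).and self_mem_nhdsWithin).exists
    have hs : 0 < s := hs
    obtain ⟨h4, h5⟩ := lt_min_iff.1 h3
    rw [ENNReal.ofReal_mul (by positivity), mul_assoc]
    refine le_trans ?_ (mul_le_mul_right (hk S u x r s hS hr hs hu) _)
    have h6 : ENNReal.ofReal (u x / (4 * s ^ 2)) * S.μ (ball x s) ≤
        ∫⁻ y, ENNReal.ofReal (LL S u x r s y) ∂S.μ := by
      rw [← setLIntegral_const]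
      refine le_trans (setLIntegral_mono_ae' measurableSet_ball (.of_forall fun y hy => ?_))
        (setLIntegral_le_lintegral _ _)
      have a1 := h1 y (ball_subset_ball h4.le hy)
      have a2 : ‖y - x‖ < s := by simpa [dist_eq_norm] using hy
      have a3 : ‖y - x‖ ^ 2 ≤ s ^ 2 := by gcongr
      have a4 : (2 * s ^ 2)⁻¹ ≤ kk x s y := inv_anti₀ (by positivity) (by linarith)
      refine ENNReal.ofReal_le_ofReal ?_
      rw [LL, ch, ct_one ((div_le_one (by positivity)).2 (a3.trans (by gcongr))), mul_one,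
        show u x / (4 * s ^ 2) = u x / 2 * (2 * s ^ 2 * (2 * s ^ 2)⁻¹ ^ 2 + 0) by field_simp; ring]
      have := (half_pos e).trans a1
      gcongr
      positivity
    refine le_trans ?_ (mul_le_mul_right ((mul_le_mul_right h2 _).trans h6) _)
    rw [← ENNReal.ofReal_mul (by positivity), ← ENNReal.ofReal_mul (by positivity)]
    exact ENNReal.ofReal_le_ofReal (le_of_eq (by field_simp))
  · let f : Ioi (0 : ℝ) → E → ℝ := fun s y => u y * ch x r y *
      (0 * kk x s y ^ 2 + 1 * (kk x s y ^ 2 * ⟪y - x, S.n y⟫ ^ 2))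
    have nb : (comap (Subtype.val : Ioi (0 : ℝ) → ℝ) (𝓝 0)).NeBot :=
      mem_closure_iff_comap_neBot.1 (by simp)
    have h1 := lintegral_liminf_le' (μ := S.μ.restrict (ball x r))
      (u := comap (Subtype.val : Ioi (0 : ℝ) → ℝ) (𝓝 0))
      (f := fun s y => ENNReal.ofReal (f s y))
      fun s => (iL hS hr s.2 hu 0 1).aemeasurable.ennreal_ofReal.restrict
    refine le_trans (le_trans ?_ h1) (liminf_le_of_frequently_le' (.of_forall fun s =>
      (setLIntegral_le_lintegral _ _).trans (le_trans (lintegral_mono_ae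
        (hS.sup.mono fun y hy => ENNReal.ofReal_le_ofReal ?_)) (hk S u x r s hS hr s.2 hu))))
    · refine setLIntegral_mono_ae' measurableSet_ball (.of_forall fun y hy => ?_)
      have a2 : ‖y - x‖ < r := by simpa [dist_eq_norm] using hy
      rcases (norm_nonneg (y - x)).eq_or_lt with e | e
      · simp [← e]
      refine le_of_eq (Tendsto.liminf_eq (ENNReal.tendsto_ofReal ?_)).symm
      have : ContinuousAt (fun s : ℝ => u y * ch x r y * (0 * kk x s y ^ 2 +
          1 * (kk x s y ^ 2 * ⟪y - x, S.n y⟫ ^ 2))) 0 := by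
        unfold kk
        fun_prop (disch := positivity)
      convert this.tendsto.comp tendsto_comap using 2
      · rfl
      rw [ch, ct_one ((div_le_one (by positivity)).2 (by gcongr)), kk]
      field_simp
      ring
    · have := (hu y hy).2
      have := ct0 (‖y - x‖ ^ 2 / r ^ 2)
      simp only [f, LL, ch, zero_mul, one_mul]
      gcongr
      positivity

end Vale.Agent.P218M1
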