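import Vale.Agent.P218M1.Lin
import Vale.Agent.P218M1.Ca
import Vale.Agent.P218M1.Cut

/-!
# P218M1, row RAD: the area measure, seen from the rays through a point
-/

open MeasureTheory Metric Filter Topology Set
open scoped ContDiff RealInnerProductSpace

noncomputable section

namespace Vale.Agent.P218M1

namespace Rad

open Lin

/-- the radial profile -/
def ps (a : ℝ) : ℝ := ct (a ^ 2 / 2) * (1 - ct (a ^ 2)) * a ^ 3

theorem ps_cont : Continuous ps := by unfold ps; fun_prop

theorem ps_nn {a : ℝ} (h : 0 ≤ a) : 0 ≤ ps a :=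
  mul_nonneg (mul_nonneg (ct_nonneg _) (one_sub_ct_nonneg _)) (pow_nonneg h 3)

theorem ps_norm (u : E) : ps ‖u‖ = gam u * ‖u‖ ^ 3 := rfl

/-- the kernel -/
def ka (s : ℝ) : ℝ := ps s⁻¹ * s⁻¹

theorem ka_int : IntegrableOn ka (Ioi 0) := by
  have h : IntegrableOn ka (Icc (1 / 2) 1) := by
    refine ContinuousOn.integrableOn_Icc ?_
    have h1 : ContinuousOn (fun s : ℝ => s⁻¹) (Icc (1 / 2) 1) :=
      continuousOn_inv₀.mono fun s hs => (lt_of_lt_of_le (by norm_num) hs.1).ne'
    exact (ps_cont.comp_continuousOn h1).mul h1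
  refine h.of_forall_sdiff_eq_zero measurableSet_Ioi fun s hs => ?_
  have h0 : 0 < s := hs.1
  have h1 := hs.2
  rw [mem_Icc, not_and_or, not_le, not_le] at h1
  unfold ka ps
  rcases h1 with h1 | h1
  · have h2 : 2 < s⁻¹ := by
      rw [lt_inv_comm₀ (by norm_num) h0]
      linarith
    rw [ct_zero (by nlinarith)]
    simp
  · have h2 : s⁻¹ < 1 := inv_lt_one_of_one_lt₀ h1
    have h3 : 0 < s⁻¹ := inv_pos.2 h0
    rw [ct_one (s := s⁻¹ ^ 2) (by nlinarith)]
    simp

/-- the constant -/
def c0 : ℝ := ∫ s in Ioi (0 : ℝ), ka s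

theorem c0_pos : 0 < c0 := by
  have hnn : 0 ≤ᵐ[volume.restrict (Ioi (0 : ℝ))] ka := by
    filter_upwards [ae_restrict_mem measurableSet_Ioi] with s hs
    exact mul_nonneg (ps_nn (inv_nonneg.2 (le_of_lt hs))) (inv_nonneg.2 (le_of_lt hs))
  rw [c0, setIntegral_pos_iff_support_of_nonneg_ae hnn ka_int]
  refine lt_of_lt_of_le ?_ (measure_mono (s := Ioo (3 / 5 : ℝ) (2 / 3)) fun s hs => ?_)
  · rw [Real.volume_Ioo]
    norm_num
  · have h0 : 0 < s := lt_trans (by norm_num) hs.1
    have h1 : s⁻¹ < 5 / 3 := by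
      rw [inv_lt_comm₀ h0 (by norm_num)]
      linarith [hs.1]
    have h2 : 3 / 2 < s⁻¹ := by
      rw [lt_inv_comm₀ (by norm_num) h0]
      linarith [hs.2]
    refine ⟨ne_of_gt ?_, h0⟩
    unfold ka ps
    rw [ct_zero (s := s⁻¹ ^ 2) (by nlinarith)]
    have := ct_pos (s := s⁻¹ ^ 2 / 2) (by nlinarith)
    positivity

/-- **integration over the rays from the origin** -/
theorem rays0 {G : E → ℝ} (hm : Measurable G) (hG : Integrable G) :
    Integrable (fun u => gam u * ∫ r in Ioi (0 : ℝ), r ^ 2 * G (r • un u)) ∧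
      ∫ u, gam u * ∫ r in Ioi (0 : ℝ), r ^ 2 * G (r • un u) = c0 * ∫ y, G y := by
  set ν : Measure ℝ := volume.restrict (Ioi 0) with hν
  set K : ℝ × E → ℝ := fun q => ps (‖q.2‖ * q.1⁻¹) * q.1⁻¹ * G q.2 with hK
  set K' : ℝ × E → ℝ := fun q => ps ‖q.2‖ * q.1 ^ 2 * G (q.1 • q.2) with hK'
  have hKm : Measurable K :=
    ((ps_cont.measurable.comp (measurable_snd.norm.mul measurable_fst.inv)).mul
      measurable_fst.inv).mul (hm.comp measurable_snd)
  have hK'm : Measurable K' :=
    ((ps_cont.measurable.comp measurable_snd.norm).mul (measurable_fst.pow_const 2)).mul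
      (hm.comp (measurable_fst.smul measurable_snd))
  have hpos : ∀ᵐ t ∂ν, 0 < t := ae_restrict_mem measurableSet_Ioi
  have hne : ∀ᵐ y : E, y ≠ 0 := by
    rw [ae_iff]
    simp
  have e0 : ∀ a : ℝ, 0 < a → ∀ t : ℝ, ps (a * t⁻¹) * t⁻¹ = a⁻¹ * ka (a⁻¹ * t) := by
    intro a ha t
    simp only [ka, mul_inv, inv_inv]
    field_simp
  have hi0 : ∀ a : ℝ, 0 < a → Integrable (fun t => ps (a * t⁻¹) * t⁻¹) ν := by
    intro a ha
    simp only [e0 a ha]
    refine Integrable.const_mul ?_ _
    have := (integrableOn_Ioi_comp_mul_left_iff ka 0 (inv_pos.2 ha)).2 (by simpa using ka_int)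
    exact this
  have hc0 : ∀ a : ℝ, 0 < a → ∫ t, ps (a * t⁻¹) * t⁻¹ ∂ν = c0 := by
    intro a ha
    simp only [e0 a ha]
    rw [integral_const_mul, hν, integral_comp_mul_left_Ioi ka 0 (inv_pos.2 ha), mul_zero, inv_inv,
      smul_eq_mul, ← mul_assoc, inv_mul_cancel₀ ha.ne', one_mul, c0]
  have hKi : Integrable K (ν.prod volume) := by
    rw [integrable_prod_iff' hKm.aestronglyMeasurable]
    refine ⟨hne.mono fun y hy => (hi0 _ (norm_pos_iff.2 hy)).mul_const (G y), ?_⟩
    refine (hG.norm.const_mul c0).congr (hne.mono fun y hy => ?_)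
    show c0 * ‖G y‖ = ∫ t, ‖K (t, y)‖ ∂ν
    rw [← hc0 _ (norm_pos_iff.2 hy), ← integral_mul_const]
    refine integral_congr_ae (hpos.mono fun t ht => ?_)
    simp only [hK]
    rw [norm_mul, Real.norm_of_nonneg (mul_nonneg (ps_nn (by positivity)) (by positivity))]
  have e1 : ∀ t : ℝ, 0 < t → ∀ u : E, K' (t, u) = t ^ 3 * K (t, t • u) := by
    intro t ht u
    simp only [hK, hK']
    rw [norm_smul, Real.norm_of_nonneg ht.le, mul_comm t, mul_inv_cancel_right₀ ht.ne']
    field_simp
  have e2 : ∀ (F : E → ℝ) (t : ℝ), 0 < t → ∫ u, t ^ 3 * F (t • u) = ∫ y, F y := by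
    intro F t ht
    rw [integral_const_mul, Measure.integral_comp_smul, finrank_euclideanSpace_fin, smul_eq_mul,
      abs_of_pos (by positivity), ← mul_assoc, mul_inv_cancel₀ (by positivity), one_mul]
  have hK'i : Integrable K' (ν.prod volume) := by
    obtain ⟨h1, h2⟩ := (integrable_prod_iff hKm.aestronglyMeasurable).1 hKi
    rw [integrable_prod_iff hK'm.aestronglyMeasurable]
    refine ⟨?_, h2.congr (hpos.mono fun t ht => ?_)⟩
    · filter_upwards [h1, hpos] with t h3 ht
      simp only [e1 t ht]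
      exact (Integrable.comp_smul h3 ht.ne').const_mul _
    · simp only [e1 t ht, norm_mul, Real.norm_of_nonneg (pow_pos ht 3).le]
      exact (e2 (fun y => ‖K (t, y)‖) t ht).symm
  have e3 : ∀ u : E, ∫ t, K' (t, u) ∂ν = gam u * ∫ r in Ioi (0 : ℝ), r ^ 2 * G (r • un u) := by
    intro u
    by_cases hu : u = 0
    · simp [hK', hu, gam_zero, ps]
    have h1 : 0 < ‖u‖ := norm_pos_iff.2 hu
    have h2 := integral_comp_mul_left_Ioi' (fun r => r ^ 2 * G (r • un u)) 0 h1
    rw [mul_zero] at h2
    rw [← h2, smul_eq_mul, ← integral_const_mul, ← integral_const_mul]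
    congr 1
    funext t
    simp only [hK', ps_norm, un, smul_smul]
    rw [mul_comm ‖u‖ t, mul_inv_cancel_right₀ h1.ne']
    ring
  refine ⟨hK'i.integral_prod_right.congr (Eventually.of_forall e3), ?_⟩
  rw [← integral_congr_ae (μ := volume) (Eventually.of_forall e3)]
  rw [← integral_integral_swap (f := fun t u => K' (t, u)) hK'i, ← integral_const_mul]
  have h4 : ∫ t, ∫ u, K' (t, u) ∂volume ∂ν = ∫ t, ∫ y, K (t, y) ∂volume ∂ν := by
    refine integral_congr_ae (hpos.mono fun t ht => ?_)
    simp only [e1 t ht]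
    exact e2 (fun y => K (t, y)) t ht
  rw [h4, integral_integral_swap (f := fun t y => K (t, y)) hKi]
  refine integral_congr_ae (hne.mono fun y hy => ?_)
  simp only [hK]
  rw [integral_mul_const, hc0 _ (norm_pos_iff.2 hy)]

theorem rays {G : E → ℝ} (hm : Measurable G) (hG : Integrable G) (x : E) :
    Integrable (fun u => gam u * ∫ r in Ioi (0 : ℝ), r ^ 2 * G (x + r • un u)) ∧
      ∫ u, gam u * ∫ r in Ioi (0 : ℝ), r ^ 2 * G (x + r • un u) = c0 * ∫ y, G y := by
  rw [← integral_add_left_eq_self G x]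
  exact rays0 (G := fun y => G (x + y)) (hm.comp (measurable_const_add x)) (hG.comp_add_left x)

variable {S : Sf} {x : E}

/-- the sum over the hits of the ray -/
def RL (S : Sf) (q : E → ℝ) (x θ : E) : ℝ :=
  ∑ᶠ (d : ℝ) (_ : S.w (x + d • θ) = 0), max d 0 ^ 3 * q (x + d • θ)

theorem dvg_rad {k : E → ℝ} (hk : Differentiable ℝ k) (x y : E) :
    dvg (fun y => k y • (y - x)) y = fderiv ℝ k y (y - x) + 3 * k y := by
  have h := ((hk y).hasFDerivAt.smul ((hasFDerivAt_id y).sub_const x)).fderiv
  have h2 := dvg_smul hk (y - x) y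
  unfold dvg trc at h2 ⊢
  rw [fderiv_smul_const (hk y)] at h2
  rw [← h2]
  erw [h]
  simp [Finset.sum_add_distrib, ee, add_comm]

theorem t_cont (hS : S.Ok) (x : E) : Continuous fun y => ⟪S.g y, y - x⟫ :=
  hS.sg.continuous.inner (continuous_id.sub continuous_const)

theorem norm_un {u : E} (hu : u ≠ 0) : ‖un u‖ = 1 := norm_smul_inv_norm hu

/-- the statement for smooth functions -/
theorem smooth (hS : S.Ok) {q : E → ℝ} (h1 : ContDiff ℝ 1 q) (hc : HasCompactSupport q)
    (hs : ∀ y ∈ tsupport q, ⟪S.g y, y - x⟫ ≠ 0) :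
    Integrable (fun u => gam u * RL S q x (un u)) ∧
      c0 * ∫ y, |⟪S.n y, y - x⟫| * q y ∂S.μ = ∫ u, gam u * RL S q x (un u) := by
  set F : E → ℝ := fun y => Real.sign ⟪S.g y, y - x⟫ * q y with hF
  have hFc : HasCompactSupport F := hc.mul_left
  have hoff : ∀ y, y ∉ tsupport q → F =ᶠ[𝓝 y] 0 := fun y hy => by
    filter_upwards [notMem_tsupport_iff_eventuallyEq.1 hy] with z hz
    simp [hF, hz]
  have hF1 : ContDiff ℝ 1 F := by
    refine contDiff_iff_contDiffAt.2 fun y => ?_
    by_cases hy : y ∈ tsupport q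
    · refine ((contDiffAt_const (c := Real.sign ⟪S.g y, y - x⟫)).mul
        h1.contDiffAt).congr_of_eventuallyEq ?_
      filter_upwards [sign_near' (t_cont hS x) (hs y hy)] with z hz
      simp only [hF, hz]
    · exact contDiffAt_const.congr_of_eventuallyEq (hoff y hy)
  have hFd : Differentiable ℝ F := hF1.differentiable one_ne_zero
  have hD := hF1.continuous_fderiv one_ne_zero
  set D : E → ℝ := fun y => fderiv ℝ F y (y - x) + 3 * F y with hDdef
  have hdc : Continuous D := (hD.clm_apply (continuous_id.sub continuous_const)).add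
    (continuous_const.mul hF1.continuous)
  have hDc : HasCompactSupport D := by
    refine HasCompactSupport.intro hc.isCompact fun y hy => ?_
    simp only [hDdef]
    rw [(hoff y hy).fderiv_eq, (hoff y hy).eq_of_nhds]
    simp
  have hU : MeasurableSet {x | S.w x < 0} :=
    (isOpen_lt hS.sm.continuous continuous_const).measurableSet
  obtain ⟨i1, i2⟩ := rays (G := {x | S.w x < 0}.indicator D) (hdc.measurable.indicator hU)
    ((hdc.integrable_of_hasCompactSupport hDc).indicator hU) x
  have e : ∀ u : E, gam u * ∫ r in Ioi (0 : ℝ), r ^ 2 * {x | S.w x < 0}.indicator D (x + r • un u) =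
      gam u * RL S q x (un u) := by
    intro u
    by_cases hu : u = 0
    · rw [hu, gam_zero, zero_mul, zero_mul]
    congr 1
    have hθ := norm_un hu
    set θ := un u
    have hl := (line_emb hθ x).continuous
    have h2 := one_dim (line_deriv (hS.sm.differentiable (by simp)) x θ)
      (fun l => (hasDerivAt_pos_pow 1 l).mul (line_deriv hFd x θ l))
      (by fun_prop) (hFc.comp_isClosedEmbedding (line_emb hθ x)).mul_left
      fun d _ => by
        by_cases hx : x + d • θ ∈ tsupport q
        · left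
          have h3 := hs _ hx
          rw [add_sub_cancel_left, real_inner_smul_right] at h3
          rw [← s_eq]
          exact right_ne_zero_of_mul h3
        · right
          filter_upwards [hl.continuousAt.eventually (hoff _ hx)] with l h
          simp [h]
    rw [← integral_indicator measurableSet_Ioi]
    refine Eq.trans ?_ (h2.trans ?_)
    · congr 1
      funext l
      by_cases h3 : S.w (x + l • θ) < 0
      · rw [indicator_of_mem (show l ∈ {l : ℝ | S.w (x + l • θ) < 0} from h3)]
        by_cases h4 : 0 < l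
        · rw [indicator_of_mem (show l ∈ Ioi (0 : ℝ) from h4),
            indicator_of_mem (show x + l • θ ∈ {x | S.w x < 0} from h3), max_eq_left h4.le]
          simp only [hDdef, add_sub_cancel_left, map_smul, smul_eq_mul]
          push_cast
          ring
        · rw [indicator_of_notMem (show l ∉ Ioi (0 : ℝ) from h4), max_eq_right (not_lt.1 h4)]
          simp
      · rw [indicator_of_notMem (show l ∉ {l : ℝ | S.w (x + l • θ) < 0} from h3)]
        refine indicator_apply_eq_zero.2 fun _ => ?_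
        rw [indicator_of_notMem (show x + l • θ ∉ {x | S.w x < 0} from h3), mul_zero]
    · unfold RL
      refine finsum_congr fun d => finsum_congr fun _ => ?_
      rw [← s_eq]
      simp only [hF, Pi.mul_apply, add_sub_cancel_left, real_inner_smul_right]
      by_cases h4 : 0 < d
      · by_cases hx : x + d • θ ∈ tsupport q
        · have h3 := hs _ hx
          rw [add_sub_cancel_left, real_inner_smul_right] at h3
          rcases lt_or_gt_of_ne (right_ne_zero_of_mul h3) with h5 | h5
          · simp [Sf.s, Real.sign_of_neg h5, Real.sign_of_neg (mul_neg_of_pos_of_neg h4 h5)]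
          · simp [Sf.s, Real.sign_of_pos h5, Real.sign_of_pos (mul_pos h4 h5)]
        · simp [image_eq_zero_of_notMem_tsupport hx]
      · simp [max_eq_right (not_lt.1 h4)]
  simp only [e] at i1 i2
  refine ⟨i1, ?_⟩
  have h3 := hS.div (fun y => F y • (y - x)) (hF1.smul (contDiff_id.sub contDiff_const))
    hFc.smul_right
  simp only [dvg_rad hFd] at h3
  rw [i2, integral_indicator hU, ← h3]
  congr 2
  funext y
  rw [real_inner_smul_right, Sf.n, real_inner_smul_left, abs_mul,
    abs_of_nonneg (inv_nonneg.2 (norm_nonneg _))]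
  simp only [hF]
  rcases lt_trichotomy ⟪S.g y, y - x⟫ 0 with h4 | h4 | h4
  · rw [Real.sign_of_neg h4, abs_of_neg h4]
    ring
  · simp [h4]
  · rw [Real.sign_of_pos h4, abs_of_pos h4]
    ring

theorem RL_fin (hS : S.Ok) {θ : E} (hθ : ‖θ‖ = 1) {K : Set E} (hK : IsCompact K)
    (hs : ∀ y ∈ K, ⟪S.g y, y - x⟫ ≠ 0) : ∃ T : Finset ℝ, ∀ h : E → ℝ, (∀ y, h y ≠ 0 → y ∈ K) →
      RL S h x θ = ∑ l ∈ T, max l 0 ^ 3 * h (x + l • θ) := by
  have hT := fin_zero (line_deriv (hS.sm.differentiable (by simp)) x θ)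
    ((line_emb hθ x).isCompact_preimage hK) fun d hd _ => by
      have h3 := hs _ hd
      rw [add_sub_cancel_left, real_inner_smul_right] at h3
      rw [← s_eq]
      exact right_ne_zero_of_mul h3
  refine ⟨hT.toFinset, fun h hh => ?_⟩
  apply finsum_cond_eq_sum_of_cond_iff
  intro d hd
  rw [hT.mem_toFinset]
  exact ⟨fun h0 => ⟨h0, hh _ (right_ne_zero_of_mul hd)⟩, fun h0 => h0.1⟩

theorem int_n (hS : S.Ok) (x : E) {h : E → ℝ} (h1 : Continuous h) (hc : HasCompactSupport h) :
    Integrable (fun y => |⟪S.n y, y - x⟫| * h y) S.μ := by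
  have := hS.fin
  have hg := hS.sg.continuous
  have h2 : Continuous fun y => ‖y - x‖ * h y := by fun_prop
  refine (h2.integrable_of_hasCompactSupport hc.mul_left).mono ?_
    (Eventually.of_forall fun y => ?_)
  · simp only [Sf.n, real_inner_smul_left]
    exact ((hg.norm.measurable.inv.mul (t_cont hS x).measurable).abs.mul
      h1.measurable).aestronglyMeasurable
  · rw [norm_mul, norm_mul, norm_norm, Real.norm_eq_abs, abs_abs]
    refine mul_le_mul_of_nonneg_right ((abs_real_inner_le_norm _ _).trans ?_) (norm_nonneg _)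
    refine mul_le_of_le_one_left (norm_nonneg _) ?_
    rw [Sf.n, norm_smul, norm_inv, norm_norm]
    exact inv_mul_le_one_of_le₀ le_rfl (norm_nonneg _)

/-- the statement for continuous functions -/
theorem cont (hS : S.Ok) {h : E → ℝ} (h1 : Continuous h) (hc : HasCompactSupport h)
    (hs : ∀ y ∈ tsupport h, ⟪S.g y, y - x⟫ ≠ 0) :
    c0 * ∫ y, |⟪S.n y, y - x⟫| * h y ∂S.μ = ∫ u, gam u * RL S h x (un u) := by
  obtain ⟨c, c1, c2, c3, c4, c5⟩ := exists_cut (U := {y | ⟪S.g y, y - x⟫ ≠ 0})
    (isOpen_ne_fun (t_cont hS x) continuous_const) hc.isCompact hs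
  obtain ⟨j1, j2⟩ := smooth hS (c1.of_le (by simp)) c2 c3
  have hap : ∀ δ : ℝ, 0 < δ → ∃ g : E → ℝ, Integrable (fun u => gam u * RL S g x (un u)) ∧
      |c0 * (∫ y, |⟪S.n y, y - x⟫| * h y ∂S.μ) - ∫ u, gam u * RL S g x (un u)| ≤
        δ * (c0 * ∫ y, |⟪S.n y, y - x⟫| * c y ∂S.μ) ∧
      ∀ u, |gam u * RL S h x (un u) - gam u * RL S g x (un u)| ≤
        δ * (gam u * RL S c x (un u)) := by
    intro δ hδ
    obtain ⟨g, g1, g2, g3⟩ := h1.exists_contDiff_approx 1 (ε := fun _ => δ) continuous_const
      fun _ => hδ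
    have g4 : tsupport g ⊆ tsupport h := closure_mono g3
    have g5 : HasCompactSupport g := hc.mono g3
    obtain ⟨k1, k2⟩ := smooth hS g1 g5 fun x hx => hs x (g4 hx)
    have hd : ∀ x, |h x - g x| ≤ δ * c x := fun x => by
      by_cases hx : x ∈ tsupport h
      · rw [c4 x hx, mul_one, abs_sub_comm]
        exact (g2 x).le
      · rw [image_eq_zero_of_notMem_tsupport hx,
          image_eq_zero_of_notMem_tsupport fun h' => hx (g4 h'), sub_zero, abs_zero]
        exact mul_nonneg hδ.le (c5 x).1
    refine ⟨g, k1, ?_, fun u => ?_⟩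
    · rw [← k2, ← mul_sub, abs_mul, abs_of_pos c0_pos, mul_left_comm,
        ← integral_sub (int_n hS x h1 hc) (int_n hS x g1.continuous g5),
        ← integral_const_mul, ← Real.norm_eq_abs]
      refine mul_le_mul_of_nonneg_left (norm_integral_le_of_norm_le
        ((int_n hS x c1.continuous c2).const_mul δ) (Eventually.of_forall fun x => ?_)) c0_pos.le
      rw [← mul_sub, Real.norm_eq_abs, abs_mul, abs_abs, mul_left_comm]
      exact mul_le_mul_of_nonneg_left (hd x) (abs_nonneg _)
    · by_cases hu : u = 0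
      · simp [hu, gam_zero]
      obtain ⟨T, hT⟩ := RL_fin hS (norm_un hu) c2.isCompact c3
      have hsub : tsupport h ⊆ tsupport c := fun x hx => subset_tsupport _ (by
        rw [Function.mem_support, c4 x hx]; exact one_ne_zero)
      rw [← mul_sub, abs_mul, abs_of_nonneg (gam_nonneg _), mul_left_comm,
        hT h fun x hx => hsub (subset_tsupport _ hx),
        hT g fun x hx => hsub (g4 (subset_tsupport _ hx)),
        hT c fun x hx => subset_tsupport _ hx, ← Finset.sum_sub_distrib, Finset.mul_sum]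
      refine mul_le_mul_of_nonneg_left ((Finset.abs_sum_le_sum_abs _ _).trans
        (Finset.sum_le_sum fun l _ => ?_)) (gam_nonneg _)
      have h0 : 0 ≤ max l 0 ^ 3 := pow_nonneg (le_max_right _ _) 3
      rw [← mul_sub, abs_mul, abs_of_nonneg h0, mul_left_comm]
      exact mul_le_mul_of_nonneg_left (hd _) h0
  choose g g1 g2 g3 using fun n : ℕ => hap (1 / ((n : ℝ) + 1)) Nat.one_div_pos_of_nat
  have hm : AEStronglyMeasurable (fun u => gam u * RL S h x (un u)) volume := by
    refine aestronglyMeasurable_of_tendsto_ae atTop (fun n => (g1 n).aestronglyMeasurable)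
      (Eventually.of_forall fun u => ?_)
    rw [tendsto_iff_dist_tendsto_zero]
    refine squeeze_zero (fun _ => dist_nonneg) (fun n => ?_)
      (by simpa using tendsto_one_div_add_atTop_nhds_zero_nat.mul_const (gam u * RL S c x (un u)))
    rw [dist_comm, Real.dist_eq]
    simpa using g3 n u
  have hi : Integrable (fun u => gam u * RL S h x (un u)) := by
    have h2 : Integrable (fun u => gam u * RL S h x (un u) - gam u * RL S (g 0) x (un u)) :=
      (j1.const_mul _).mono' (hm.sub (g1 0).aestronglyMeasurable) (Eventually.of_forall (g3 0))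
    exact (h2.add (g1 0)).congr (Eventually.of_forall fun p => sub_add_cancel _ _)
  rw [← sub_eq_zero, ← abs_nonpos_iff]
  refine ge_of_tendsto' (by simpa using (tendsto_one_div_add_atTop_nhds_zero_nat.mul_const
    (2 * (c0 * ∫ y, |⟪S.n y, y - x⟫| * c y ∂S.μ)))) fun n => ?_
  have h3 : |(∫ u, gam u * RL S h x (un u)) - ∫ u, gam u * RL S (g n) x (un u)| ≤
      1 / ((n : ℝ) + 1) * (c0 * ∫ y, |⟪S.n y, y - x⟫| * c y ∂S.μ) := by
    rw [← integral_sub hi (g1 n), j2, ← integral_const_mul, ← Real.norm_eq_abs]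
    exact norm_integral_le_of_norm_le (j1.const_mul _) (Eventually.of_forall (g3 n))
  have h4 := g2 n
  rw [one_div] at h3 h4
  rw [abs_le] at h3 h4 ⊢
  constructor <;> linarith [h3.1, h3.2, h4.1, h4.2]

/-- the configuration with the second point `y` -/
def zz (x y : E) : Q := (x, un (y - x), ‖y - x‖)

theorem yy_zz (x y : E) : yy (zz x y) = y := by
  by_cases h : y - x = 0
  · simp [yy, zz, (sub_eq_zero.1 h)]
  · simp [yy, zz, un, smul_smul, mul_inv_cancel₀ (norm_ne_zero_iff.2 h)]

theorem zz_cont {x y : E} (h : y - x ≠ 0) : ContinuousAt (zz x) y :=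
  continuousAt_const.prodMk (((Ca.cont_un h).comp (f := fun y => y - x) (by fun_prop)).prodMk
    (by fun_prop))

end Rad

open Lin Rad in
/-- **RAD** -/
theorem rad' : RAD := by
  refine ⟨c0, c0_pos, fun S π f x hS hπ hf hx => ?_⟩
  set h : E → ℝ := fun y => f (zz x y) / ‖y - x‖ ^ 3 with hh
  have hcase : ∀ y, S.w y = 0 → (‖y - x‖ ≤ 2 ∧ ⟪S.g y, y - x⟫ ≠ 0 ∧ ContDiffAt ℝ 0 h y) ∨
      h =ᶠ[𝓝 y] 0 := by
    intro y hy
    have hg := hS.reg y hy
    by_cases hb : S.Box π (zz x y)
    · left
      have hO := Ca.box_O hπ hb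
      have h0 : 0 < ‖y - x‖ := hO.2.2
      refine ⟨hb.2.2.1, ?_, ?_⟩
      · have h1 := hO.2.1
        rw [yy_zz] at h1
        simp only [Sf.s, zz, un, real_inner_smul_right] at h1
        exact right_ne_zero_of_mul h1
      · obtain ⟨u, hu, h2⟩ := contDiffAt_zero.1 (hf.sm _ hO)
        have h3 : ∀ᶠ y' in 𝓝 y, ContinuousAt h y' := by
          filter_upwards [(zz_cont (norm_pos_iff.1 h0)).eventually (eventually_mem_nhds_iff.2 hu),
            (continuous_id.sub continuous_const).continuousAt.eventually_ne (norm_pos_iff.1 h0)]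
            with y' h4 h5
          exact ((h2.continuousAt h4).comp (zz_cont h5)).div (by fun_prop)
            (pow_ne_zero _ (norm_ne_zero_iff.2 h5))
        exact contDiffAt_zero.2 ⟨_, h3, fun y' hy' => ContinuousAt.continuousWithinAt hy'⟩
    · right
      by_cases h0 : y - x = 0
      · have h1 : ∀ᶠ y' in 𝓝 y, ‖y' - x‖ < π.ρ / 2 :=
          (by fun_prop : Continuous fun y' => ‖y' - x‖).continuousAt.eventually
            (gt_mem_nhds (by simpa [h0] using hπ.ρ0))
        filter_upwards [h1, hS.sg.continuous.continuousAt.eventually_ne hg] with y' h2 h3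
        simp only [hh]
        rw [hf.bx _ hx (by rwa [yy_zz]) fun hb' => h2.not_ge hb'.2.1]
        simp
      · filter_upwards [(zz_cont h0).eventually (Ca.ev_nbox hS (z := zz x y) hx
          (by rwa [yy_zz]) hb)] with y' h2
        simp only [hh]
        rw [hf.bx _ h2.1 h2.2.1 h2.2.2]
        simp
  have hK : IsCompact ({y | S.w y = 0} ∩ tsupport h) := by
    refine (isCompact_closedBall x 2).of_isClosed_subset
      ((isClosed_eq hS.sm.continuous continuous_const).inter (isClosed_tsupport h)) fun y hy => ?_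
    rw [mem_closedBall, dist_eq_norm]
    exact ((hcase y hy.1).resolve_right fun h' => notMem_tsupport_iff_eventuallyEq.2 h' hy.2).1
  obtain ⟨c, c1, c2, c3, c4, -⟩ := exists_cut
    (U := {y | ⟪S.g y, y - x⟫ ≠ 0} ∩ {y | ContDiffAt ℝ 0 h y})
    ((isOpen_ne_fun (t_cont hS x) continuous_const).inter
      (isOpen_iff_mem_nhds.2 fun x hx => ContDiffAt.eventually hx (by simp))) hK
    fun y hy => ((hcase y hy.1).resolve_right fun h' =>
      notMem_tsupport_iff_eventuallyEq.2 h' hy.2).2
  have hs : tsupport (fun x => c x * h x) ⊆ tsupport c := tsupport_mul_subset_left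
  have hc : Continuous fun x => c x * h x := by
    refine continuous_iff_continuousAt.2 fun x => ?_
    by_cases hx : x ∈ tsupport c
    · exact c1.continuous.continuousAt.mul
        (show ContDiffAt ℝ 0 h x from (c3 hx).2).continuousAt
    · exact continuousAt_const.congr
        (notMem_tsupport_iff_eventuallyEq.1 fun h' => hx (hs h')).symm
  have e : ∀ x, S.w x = 0 → c x * h x = h x := fun x hx => by
    by_cases h' : x ∈ tsupport h
    · rw [c4 x ⟨hx, h'⟩, one_mul]
    · rw [image_eq_zero_of_notMem_tsupport h', mul_zero]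
  have i2 := cont hS hc c2.mul_right fun y hy => (c3 (hs hy)).1
  refine Eq.trans ?_ (i2.symm.trans ?_)
  · congr 1
    funext u
    by_cases hu : u = 0
    · rw [hu, gam_zero, zero_mul, zero_mul]
    congr 1
    refine finsum_congr fun d => finsum_congr fun hd => ?_
    beta_reduce
    rw [e _ hd]
    by_cases h0 : 0 < d
    · have e1 : zz x (x + d • un u) = (x, un u, d) := by
        simp only [zz, add_sub_cancel_left]
        rw [un, norm_smul, norm_un hu, mul_one, Real.norm_of_nonneg h0.le, smul_smul,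
          inv_mul_cancel₀ h0.ne', one_smul]
      simp only [hh]
      rw [e1, add_sub_cancel_left, norm_smul, norm_un hu, mul_one, Real.norm_of_nonneg h0.le,
        max_eq_left h0.le, mul_div_cancel₀ _ (pow_ne_zero _ h0.ne')]
    · rw [max_eq_right (not_lt.1 h0), hf.bx (x, un u, d) hx (hS.reg _ hd) fun hb =>
        h0 ((half_pos hπ.ρ0).trans_le hb.2.1)]
      simp
  · congr 1
    refine integral_congr_ae ?_
    filter_upwards [hS.sup] with y hy
    rw [e y hy]
    simp only [hh, zz, Sf.cc, un, real_inner_smul_right, abs_mul, abs_inv, abs_norm]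
    by_cases h0 : ‖y - x‖ = 0
    · simp [h0]
    · field_simp

/-- **RAD**, in the form of the row -/
theorem rad (_ : FS) (_ : CA) : RAD := rad'

end Vale.Agent.P218M1
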