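import Vale.Agent.P218M1.Alg

/-!
# P218M1: uniqueness of the partner, bounds for the occlusion
-/

open MeasureTheory Metric Filter Topology Set
open scoped ContDiff RealInnerProductSpace ENNReal

noncomputable section

namespace Vale.Agent.P218M1

namespace Unq

theorem ct1 {s : ℝ} (h : s ≤ 1) : ct s = 1 := Real.smoothTransition.one_of_one_le (by linarith)

theorem ct0 {s : ℝ} (h : 2 ≤ s) : ct s = 0 := Real.smoothTransition.zero_of_nonpos (by linarith)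

theorem ct_nn (s : ℝ) : 0 ≤ ct s := Real.smoothTransition.nonneg _

theorem ct_le (s : ℝ) : ct s ≤ 1 := Real.smoothTransition.le_one _

theorem ct_anti {s t : ℝ} (h : s ≤ t) : ct t ≤ ct s :=
  Real.smoothTransition.monotone (by linarith)

theorem ct_sm : ContDiff ℝ ∞ ct :=
  Real.smoothTransition.contDiff.comp (contDiff_const.sub contDiff_id)

theorem ct_der : ∃ K, 0 ≤ K ∧ ∀ s, 0 ≤ s → |s * deriv ct s| ≤ K := by
  obtain ⟨K, hK⟩ := (isCompact_Icc (a := (0 : ℝ)) (b := 2)).exists_bound_of_continuousOn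
    (continuous_id.mul (ct_sm.continuous_deriv (by simp))).continuousOn
  have h0 := (norm_nonneg _).trans (hK 0 ⟨le_rfl, zero_le_two⟩)
  refine ⟨K, h0, fun s hs => ?_⟩
  rcases le_or_gt s 2 with h | h
  · exact hK s ⟨hs, h⟩
  · rw [(show ct =ᶠ[𝓝 s] fun _ => 0 from mem_of_superset (Ioi_mem_nhds h) fun t ht =>
      ct0 (le_of_lt ht)).deriv_eq]
    simpa using h0

variable {π : Par} {S : Sf} {Λ c d : ℝ} {z : Q}

theorem xi1 (h : π.Rg) (e : π.ρ ≤ d) : π.xi d = 1 := by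
  rw [Par.xi, ct0 ((le_div_iff₀ h.ρ0).2 (by linarith)), sub_zero]

theorem xi0 (h : π.Rg) (e : d ≤ 0) : π.xi d = 0 := by
  rw [Par.xi, ct1 ((div_le_iff₀ h.ρ0).2 (by linarith [h.ρ0])), sub_self]

theorem eta (h : π.Rg) : 0 < π.η ^ 2 ∧ π.η ^ 2 ≤ 1 / 100 :=
  ⟨pow_pos h.η0 2, by nlinarith [h.η0, h.η1]⟩

theorem sg_lo (h : π.Rg) (e : c ≤ π.η ^ 2) : π.sg0 c = 0 := by
  rw [Par.sg0, ct1 ((div_le_one (eta h).1).2 e), sub_self, mul_zero]

theorem sg_hi (h : π.Rg) (e : 2 * π.η ^ 2 ≤ c) : π.sg0 c = 16 * c ^ 2 := by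
  rw [Par.sg0, ct0 ((le_div_iff₀ (eta h).1).2 e), sub_zero, mul_one]

theorem cu_lo (h : π.Rg) (e : c < π.η ^ 2 / 2) : π.cu c = 0 := by
  rw [Par.cu, ct1 ((div_le_one (eta h).1).2 (by linarith)), sub_self]

theorem cu_hi (h : π.Rg) (e : π.η ^ 2 ≤ c) : π.cu c = 1 := by
  rw [Par.cu, ct0 ((le_div_iff₀ (eta h).1).2 (by linarith)), sub_zero]

theorem cu_nn (π : Par) (c : ℝ) : 0 ≤ π.cu c := sub_nonneg.2 (ct_le _)

theorem cu_le (π : Par) (c : ℝ) : π.cu c ≤ 1 := sub_le_self _ (ct_nn _)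

theorem sgb_nn (π : Par) (c : ℝ) : 0 ≤ π.sgb c := mul_nonneg (by positivity) (cu_nn π c)

theorem sgb_le (π : Par) (c : ℝ) : π.sgb c ≤ 256 * c ^ 4 :=
  mul_le_of_le_one_right (by positivity) (cu_le π c)

theorem sg_le (e : 0 ≤ c) : π.sg0 c ^ 2 ≤ π.sgb c := by
  have h1 := ct_anti (show c / π.η ^ 2 ≤ 2 * c / π.η ^ 2 from
    div_le_div_of_nonneg_right (by linarith) (sq_nonneg _))
  have h2 := ct_nn (c / π.η ^ 2)
  have h3 := ct_le (c / π.η ^ 2)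
  rw [Par.sg0, Par.sgb, Par.cu, mul_pow, show (16 * c ^ 2) ^ 2 = 256 * c ^ 4 by ring]
  exact mul_le_mul_of_nonneg_left (by nlinarith) (by positivity)

theorem sg_sm (π : Par) : ContDiff ℝ ∞ fun c => π.sg0 c ^ 2 :=
  ((contDiff_const.mul (contDiff_id.pow 2)).mul
    (contDiff_const.sub (ct_sm.comp (contDiff_id.div_const _)))).pow 2

theorem sg_der : ∃ K, 0 < K ∧ ∀ π : Par, π.Rg → ∀ c, 0 ≤ c →
    |deriv (fun c => π.sg0 c ^ 2) c| ≤ K * (π.cu c * c ^ 3) := by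
  obtain ⟨K, K0, hK⟩ := ct_der
  refine ⟨32 * (32 + 16 * K), by positivity, fun π h c c0 => ?_⟩
  have h1 : HasDerivAt π.sg0 (16 * (2 * c) * (1 - ct (c / π.η ^ 2)) +
      16 * c ^ 2 * -(deriv ct (c / π.η ^ 2) * (1 / π.η ^ 2))) c :=
    (by simpa using (hasDerivAt_pow 2 c).const_mul 16 :
      HasDerivAt (fun c : ℝ => 16 * c ^ 2) (16 * (2 * c)) c).mul
      (((ct_sm.differentiable (by simp) _).hasDerivAt.comp c
        ((hasDerivAt_id c).div_const _)).const_sub 1)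
  rw [(h1.fun_pow 2).deriv]
  rcases le_total c (π.η ^ 2) with e | e
  · rw [sg_lo h e]
    simpa using mul_nonneg (by positivity) (mul_nonneg (cu_nn π c) (by positivity))
  have h2 := ct_nn (c / π.η ^ 2)
  have h3 := ct_le (c / π.η ^ 2)
  have h4 := abs_le.1 (hK (c / π.η ^ 2) (div_nonneg c0 (sq_nonneg _)))
  have h5 : |π.sg0 c| ≤ 16 * c ^ 2 := by
    rw [Par.sg0, abs_of_nonneg (mul_nonneg (by positivity) (by linarith))]
    exact mul_le_of_le_one_right (by positivity) (by linarith)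
  have h6 : |16 * (2 * c) * (1 - ct (c / π.η ^ 2)) +
      16 * c ^ 2 * -(deriv ct (c / π.η ^ 2) * (1 / π.η ^ 2))| ≤ (32 + 16 * K) * c := by
    rw [show 16 * c ^ 2 * -(deriv ct (c / π.η ^ 2) * (1 / π.η ^ 2)) =
      -16 * c * (c / π.η ^ 2 * deriv ct (c / π.η ^ 2)) by ring, abs_le]
    constructor <;> nlinarith [mul_le_mul_of_nonneg_left h4.1 c0, mul_le_mul_of_nonneg_left h4.2 c0,
      mul_nonneg c0 h2, mul_le_mul_of_nonneg_left h3 c0]
  rw [cu_hi h e, abs_mul, abs_mul]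
  norm_num only [Nat.cast_ofNat, pow_one]
  calc _ ≤ 2 * (16 * c ^ 2) * ((32 + 16 * K) * c) := by gcongr
    _ = _ := by ring

theorem cs2_sm (h : S.Ok) (e : S.g (yy z) ≠ 0) : ContDiffAt ℝ ∞ S.cs2 z := by
  have h1 : ContDiffAt ℝ ∞ (fun z => S.g (yy z)) z :=
    (h.sg.comp (by unfold yy; fun_prop)).contDiffAt
  exact ((((h1.norm ℝ e).inv (norm_ne_zero_iff.2 e)).smul h1).inner ℝ (by fun_prop)).pow 2

theorem sg_van (h : Good S π Λ) (z : Q) (e : S.g (yy z) ≠ 0) (e' : S.cs2 z < π.η ^ 2 / 2) :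
    (fun z => π.sg0 (S.cs2 z) ^ 2) =ᶠ[𝓝 z] fun _ => 0 :=
  ((cs2_sm h.ok e).continuousAt.eventually (Iio_mem_nhds e')).mono fun w hw => by
    simp [sg_lo h.rg (show S.cs2 w ≤ π.η ^ 2 by linarith [(eta h.rg).1])]

theorem sep1 (h : Good S π Λ) (h1 : S.Hit z) (h2 : ‖z.1‖ ≤ 3 * π.R) (h3 : 1 / 2 ≤ S.cs1 z)
    (h4 : π.η ^ 2 / 2 ≤ S.cs2 z) : 2 * π.ρ ≤ z.2.2 :=
  h.sp.sep z h1 (by linarith) (by linarith [(eta h.rg).2]) h4

theorem sep2 (h : Good S π Λ) {x θ : E} {l l' : ℝ} (hθ : ‖θ‖ = 1) (hx : ‖x‖ ≤ 3 * π.R) (l0 : 0 < l)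
    (l2 : l ≤ 2) (e : l < l') (h1 : S.w (x + l • θ) = 0) (h2 : S.w (x + l' • θ) = 0)
    (h3 : π.η ^ 2 / 2 ≤ S.cs2 (x, θ, l)) (h4 : π.η ^ 2 / 2 ≤ S.cs2 (x, θ, l')) :
    2 * π.ρ ≤ l' - l := by
  have q : yy (x + l • θ, θ, l' - l) = x + l' • θ := by simp [yy, sub_smul]
  refine h.sp.sep (x + l • θ, θ, l' - l) ⟨h1, hθ, sub_pos.2 e, q ▸ h2⟩
    ((norm_add_le _ _).trans ?_) h3 (by rw [Sf.cs2, q]; exact h4)
  rw [norm_smul, hθ, Real.norm_of_nonneg l0.le]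
  linarith

theorem ns (h : Good S π Λ) (h1 : S.Hit z) (h2 : S.Box π z) :
    ∃ T : Finset ℝ, (∀ l, l ∈ T ↔ 0 < l ∧ l < z.2.2 ∧ S.w (z.1 + l • z.2.1) = 0 ∧
      π.η ^ 2 / 2 ≤ S.cs2 (z.1, z.2.1, l)) ∧
      ∀ f : Q → ℝ, (∀ z', S.g (yy z') ≠ 0 → S.cs2 z' < π.η ^ 2 / 2 → f z' = 0) →
        S.NS π f z = ∑ l ∈ T, f (z.1, z.2.1, l) := by
  obtain ⟨x, θ, d⟩ := z
  obtain ⟨a1, a2, a3, a4⟩ := h1
  obtain ⟨b1, -, b3, b4, b5⟩ := h2
  have r0 := h.rg.ρ0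
  have fin : {l | 0 < l ∧ l < d ∧ S.w (x + l • θ) = 0 ∧ π.η ^ 2 / 2 ≤ S.cs2 (x, θ, l)}.Finite := by
    refine Finite.of_injOn (f := fun l => ⌊l / π.ρ⌋) (t := Icc 0 ⌊d / π.ρ⌋) (fun l hl => mem_Icc.2
      ⟨Int.floor_nonneg.2 (div_nonneg hl.1.le r0.le), Int.floor_mono
        (div_le_div_of_nonneg_right hl.2.1.le r0.le)⟩) (fun l hl l' hl' e => ?_) (finite_Icc _ _)
    have := Int.abs_sub_lt_one_of_floor_eq_floor e
    rw [← sub_div, abs_div, abs_of_pos r0, div_lt_one r0, abs_lt] at this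
    rcases lt_trichotomy l l' with q | q | q
    · linarith [sep2 h a2 b1 hl.1 (hl.2.1.le.trans b3) q hl.2.2.1 hl'.2.2.1 hl.2.2.2 hl'.2.2.2]
    · exact q
    · linarith [sep2 h a2 b1 hl'.1 (hl'.2.1.le.trans b3) q hl'.2.2.1 hl.2.2.1 hl'.2.2.2 hl.2.2.2]
  refine ⟨fin.toFinset, fun l => fin.mem_toFinset, fun f hf => ?_⟩
  rw [Sf.NS, Sf.RS, finsum_eq_sum_of_support_subset (s := fin.toFinset)]
  · refine Finset.sum_congr rfl fun l hl => ?_
    obtain ⟨c1, c2, c3, c4⟩ := fin.mem_toFinset.1 hl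
    have e1 := sep1 (z := (x, θ, l)) h ⟨a1, a2, c1, c3⟩ b1 b4 c4
    have e2 := sep2 h a2 b1 c1 (c2.le.trans b3) c2 c3 a4 c4 b5
    simp [c3, xi1 h.rg (show π.ρ ≤ l by linarith), xi1 h.rg (show π.ρ ≤ d - l by linarith)]
  · intro l hl
    by_cases e : S.w (x + l • θ) = 0
    · simp only [Function.mem_support, e, finsum_true, mul_ne_zero_iff] at hl
      exact Finset.mem_coe.2 (fin.mem_toFinset.2 ⟨not_le.1 fun q => hl.2.1 (xi0 h.rg q),
        not_le.1 fun q => hl.2.2 (xi0 h.rg (sub_nonpos.2 q)), e,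
        not_lt.1 fun q => hl.1 (hf _ (h.ok.reg _ e) q)⟩)
    · simp [e] at hl

theorem nb1 (h : Good S π Λ) (h1 : S.Hit z) (h2 : S.Box π z) :
    S.NS π (fun z' => π.sgb (S.cs2 z')) z ≤ S.N π z + π.ε ^ 2 := by
  obtain ⟨T, hT, e⟩ := ns h h1 h2
  rw [Sf.N, e _ fun w a b => (sg_van h w a b).eq_of_nhds, e _ fun w _ b => by
    rw [Par.sgb, cu_lo h.rg b, mul_zero], ← sub_le_iff_le_add', ← Finset.sum_sub_distrib]
  refine le_trans ?_ (h.sp.tail z.1 z.2.1 (T.filter fun l => S.cs2 (z.1, z.2.1, l) ≤ 2 * π.η ^ 2)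
    h2.1 h1.2.1 fun l hl => ?_)
  · rw [Finset.sum_filter]
    refine Finset.sum_le_sum fun l _ => ?_
    have c0 := S.cs2_nonneg (z.1, z.2.1, l)
    have c1 := S.cs2_le (z := (z.1, z.2.1, l)) h1.2.1
    split_ifs with q
    · nlinarith [sgb_le π (S.cs2 (z.1, z.2.1, l)), sq_nonneg (π.sg0 (S.cs2 (z.1, z.2.1, l))),
        mul_le_mul_of_nonneg_left c1 (pow_nonneg c0 3)]
    · rw [Par.sgb, sg_hi h.rg (not_le.1 q).le, cu_hi h.rg (by linarith [(eta h.rg).1])]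
      linarith
  · obtain ⟨a, b⟩ := Finset.mem_filter.1 hl
    obtain ⟨c1, c2, c3, c4⟩ := (hT l).1 a
    exact ⟨c1, c2.le.trans h2.2.2.1, c3, c4, b⟩

theorem eps (h : π.Rg) : π.ε ^ 2 ≤ 1 := by nlinarith [h.ε0, h.ε1]

end Unq

open Unq

theorem unq : UNQ where
  xi1 S π Λ z h h1 h2 := by
    have e := sep1 h h1 h2.1 h2.2.2.2.1 h2.2.2.2.2
    have r0 := h.rg.ρ0
    refine ⟨e, xi1 h.rg (by linarith), ?_⟩
    rw [(show π.xi =ᶠ[𝓝 z.2.2] fun _ => 1 from mem_of_superset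
      (Ioi_mem_nhds (show π.ρ < z.2.2 by linarith)) fun t ht => xi1 h.rg (le_of_lt ht)).deriv_eq,
      deriv_const]
  ns S π Λ z := ns
  u1 S π Λ x θ d d' h h1 h1' h2 e c := by
    obtain ⟨T, hT, q⟩ := ns h h1' h2
    have h3 := Finset.single_le_sum (f := fun l => π.sg0 (S.cs2 (x, θ, l)) ^ 2)
      (fun _ _ => sq_nonneg _) ((hT d).2 ⟨h1.2.2.1, e, h1.2.2.2, by linarith [(eta h.rg).2]⟩)
    rw [sg_hi h.rg (by linarith [(eta h.rg).2])] at h3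
    rw [Sf.N, q _ fun w a b => (sg_van h w a b).eq_of_nhds]
    refine ⟨le_trans ?_ h3, fun c' => le_trans ?_ h3⟩
    · exact one_le_pow₀ (by nlinarith)
    · have : 10 ≤ 16 * S.cs2 (x, θ, d) ^ 2 := by nlinarith
      nlinarith
  mono S π Λ x θ d d' h h1 h2 h1' h2' e := by
    obtain ⟨T, hT, q⟩ := ns h h1 h2
    obtain ⟨T', hT', q'⟩ := ns h h1' h2'
    rw [Sf.N, Sf.N, q _ fun w a b => (sg_van h w a b).eq_of_nhds,
      q' _ fun w a b => (sg_van h w a b).eq_of_nhds]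
    exact Finset.sum_le_sum_of_subset_of_nonneg (fun l hl =>
      let ⟨a, b, c⟩ := (hT l).1 hl; (hT' l).2 ⟨a, b.trans_le e, c⟩) fun _ _ _ => sq_nonneg _
  u2 S π Λ x θ T h hT := by
    rcases T.eq_empty_or_nonempty with rfl | ne
    · simp
    obtain ⟨h1, h2, h3⟩ := hT _ (T.max'_mem ne)
    obtain ⟨T', hT', q⟩ := ns h h1 h2
    have h4 := nb1 h h1 h2
    rw [q _ fun w _ b => by rw [Par.sgb, cu_lo h.rg b, mul_zero]] at h4
    have h5 := Finset.sum_le_sum_of_subset_of_nonneg (f := fun l => π.sgb (S.cs2 (x, θ, l)))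
      (show T.erase (T.max' ne) ⊆ T' from fun l hl =>
        let ⟨a, b⟩ := Finset.mem_erase.1 hl
        (hT' l).2 ⟨(hT l b).1.2.2.1, lt_of_le_of_ne (T.le_max' l b) a, (hT l b).1.2.2.2,
          (hT l b).2.1.2.2.2.2⟩) fun _ _ _ => sgb_nn π _
    rw [← Finset.add_sum_erase _ _ (T.max'_mem ne)]
    linarith [eps h.rg, sgb_le π (S.cs2 (x, θ, T.max' ne)), pow_le_one₀ (n := 4)
      (S.cs2_nonneg (x, θ, T.max' ne)) (S.cs2_le h1.2.1)]
  nb1 S π Λ z := nb1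
  nb0 S π Λ z h h1 h2 := by
    obtain ⟨T, hT, q⟩ := ns h h1 h2
    rw [Sf.N, q _ fun w a b => (sg_van h w a b).eq_of_nhds, q _ fun w _ b => by
      rw [Par.sgb, cu_lo h.rg b, mul_zero, zero_div]]
    refine ⟨Finset.sum_nonneg fun _ _ => sq_nonneg _, Finset.sum_le_sum fun l hl => ?_⟩
    exact (sg_le (S.cs2_nonneg _)).trans (le_div_self (sgb_nn π _)
      (by linarith [(eta h.rg).1, ((hT l).1 hl).2.2.2]) (S.cs2_le (z := (z.1, z.2.1, l)) h1.2.1))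

theorem nb (nsc : NSC) (gd : GD) (_ : UNQ) : NB := by
  obtain ⟨K, K0, hK⟩ := sg_der
  refine ⟨(2 * K + 1) ^ 2, by positivity, fun S π Λ z h h1 h2 h3 => ?_⟩
  obtain ⟨T, hT, q⟩ := ns h h1 h2
  have cn : S.Cn π 1 fun z => π.sg0 (S.cs2 z) ^ 2 :=
    ⟨fun w hw => (((sg_sm π).contDiffAt.comp w (cs2_sm h.ok (Sf.O.g2 hw))).of_le (cast_le_inf 1) :),
      fun w a b => (sg_van h w a b).eq_of_nhds⟩
  have v0 : ∀ f : Q → ℝ, S.NS π (fun w => π.cu (S.cs2 w) * f w) z =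
      ∑ l ∈ T, π.cu (S.cs2 (z.1, z.2.1, l)) * f (z.1, z.2.1, l) := fun f =>
    q _ fun w _ b => by rw [cu_lo h.rg b, zero_mul]
  have hO : ∀ l ∈ T, (z.1, z.2.1, l) ∈ S.O := fun l hl =>
    ⟨Sf.s_ne_of_sq one_half_pos h2.2.2.2.1,
      Sf.s_ne_of_sq (half_pos (eta h.rg).1) ((hT l).1 hl).2.2.2, ((hT l).1 hl).1⟩
  have ch : ∀ V : Q → Q, S.NS π (fun w => fderiv ℝ (fun z => π.sg0 (S.cs2 z) ^ 2) w (V w)) z =
      ∑ l ∈ T, deriv (fun c => π.sg0 c ^ 2) (S.cs2 (z.1, z.2.1, l)) *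
        fderiv ℝ S.cs2 (z.1, z.2.1, l) (V (z.1, z.2.1, l)) := fun V => by
    rw [q _ fun w a b => by simp [(sg_van h w a b).fderiv_eq]]
    refine Finset.sum_congr rfl fun l hl => ?_
    exact DFunLike.congr_fun (((sg_sm π).differentiable (by simp) _).hasDerivAt.comp_hasFDerivAt _
      ((cs2_sm h.ok (Sf.O.g2 (hO l hl))).differentiableAt (by simp)).hasFDerivAt).fderiv _
  set c := fun l => S.cs2 (z.1, z.2.1, l) with hc
  set A := fun l => S.A2 (yy (z.1, z.2.1, l)) with hA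
  have A0 : ∀ l, 0 ≤ A l := fun l => S.A2_nonneg _
  have c0 : ∀ l ∈ T, 0 < c l := fun l hl => Sf.O.cs2_pos (hO l hl)
  have c1 : ∀ l, c l ≤ 1 := fun l => S.cs2_le h1.2.1
  have w0 : ∀ l, 0 ≤ π.cu (c l) := fun l => cu_nn π _
  have p2 : ∀ l ∈ T, c l * ‖S.p2 (z.1, z.2.1, l)‖ = √(c l) := fun l hl => by
    rw [eq_comm, Real.sqrt_eq_iff_eq_sq (c0 l hl).le (mul_nonneg (c0 l hl).le (norm_nonneg _)),
      mul_pow, sq (c l), mul_assoc, Sf.O.cs2_p2 (hO l hl), mul_one]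
  have x2 : ∀ l ∈ T, c l ^ 2 * ‖S.X2 (z.1, z.2.1, l) (S.p2 (z.1, z.2.1, l))‖ ≤ √(A l) :=
    fun l hl => Real.le_sqrt_of_sq_le (by
      have e1 := mul_le_mul_of_nonneg_left (norm_apply_sq_le (S.X2 (z.1, z.2.1, l))
        (S.p2 (z.1, z.2.1, l))) (pow_pos (c0 l hl) 4).le
      have e2 := h.ok.hs_X2 (hO l hl) h1.2.1
      have e3 : c l * _ = 1 := Sf.O.cs2_p2 (hO l hl)
      calc _ = c l ^ 4 * ‖S.X2 (z.1, z.2.1, l) (S.p2 (z.1, z.2.1, l))‖ ^ 2 := by ring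
        _ ≤ c l ^ 3 * hs (S.X2 (z.1, z.2.1, l)) * (c l * ‖S.p2 (z.1, z.2.1, l)‖ ^ 2) :=
          e1.trans_eq (by ring)
        _ ≤ A l := by rw [e3, mul_one]; exact e2)
  have s4 : ∑ l ∈ T, π.cu (c l) * c l ^ 4 ≤ 1 := by
    have := nb1 h h1 h2
    rw [q _ fun w _ b => by rw [Par.sgb, cu_lo h.rg b, mul_zero]] at this
    have e : ∑ l ∈ T, π.sgb (c l) = 256 * ∑ l ∈ T, π.cu (c l) * c l ^ 4 := by
      rw [Finset.mul_sum]; exact Finset.sum_congr rfl fun l _ => by rw [Par.sgb]; ring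
    linarith [eps h.rg, e.symm.trans_le this]
  have cs : ∀ y G : ℝ → ℝ, (∀ l ∈ T, 0 ≤ G l ∧ c l ^ 2 * y l ^ 2 ≤ G l) →
      (2 * K * ∑ l ∈ T, π.cu (c l) * c l ^ 3 * y l) ^ 2 ≤
        (2 * K + 1) ^ 2 * ∑ l ∈ T, π.cu (c l) * G l := fun y G hG => by
    have e := Finset.sum_sq_le_sum_mul_sum_of_sq_le_mul T
      (r := fun l => π.cu (c l) * c l ^ 3 * y l) (f := fun l => π.cu (c l) * c l ^ 4)
      (g := fun l => π.cu (c l) * G l) (fun l _ => mul_nonneg (w0 l) (by positivity))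
      (fun l hl => mul_nonneg (w0 l) (hG l hl).1) fun l hl => by
        have := mul_le_mul_of_nonneg_left (hG l hl).2
          (show 0 ≤ π.cu (c l) ^ 2 * c l ^ 4 by positivity)
        linarith
    have g0 : 0 ≤ ∑ l ∈ T, π.cu (c l) * G l :=
      Finset.sum_nonneg fun l hl => mul_nonneg (w0 l) (hG l hl).1
    rw [mul_pow]
    exact mul_le_mul (by gcongr; linarith) (e.trans (mul_le_of_le_one_left g0 s4)) (sq_nonneg _)
      (sq_nonneg _)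
  have sq1 : ∀ l ∈ T, ∀ a, 0 ≤ a → c l ^ 2 * a ≤ a := fun l hl a ha =>
    mul_le_of_le_one_left ha (pow_le_one₀ (c0 l hl).le (c1 l))
  have nn : ∀ y : ℝ → ℝ, (∀ l ∈ T, 0 ≤ y l) → 0 ≤ 2 * K * ∑ l ∈ T, π.cu (c l) * c l ^ 3 * y l :=
    fun y hy => mul_nonneg (by positivity) (Finset.sum_nonneg fun l hl =>
      mul_nonneg (mul_nonneg (w0 l) (pow_pos (c0 l hl) 3).le) (hy l hl))
  refine ⟨?_, _, _, nn (fun l => l * √(A l)) fun l hl =>
    mul_nonneg ((hT l).1 hl).1.le (Real.sqrt_nonneg _), nn (fun l => √(c l))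
      fun l _ => Real.sqrt_nonneg _, fun τ ν => ?_, ?_, ?_, fun t t0 => ?_⟩
  · have e : S.DG (S.N π) z = ∑ l ∈ T, (deriv (fun c => π.sg0 c ^ 2) (c l) * (2 * c l ^ 2)) •
        S.X2 (z.1, z.2.1, l) (S.p2 (z.1, z.2.1, l)) := by
      ext j
      rw [Sf.DG, sum_smul_ee_apply, ← inner_ee, sum_inner]
      refine (nsc.dD S π Λ _ z (ee j) h cn h1 h2).trans ((ch (S.VD (ee j))).trans
        (Finset.sum_congr rfl fun l hl => ?_))
      rw [real_inner_smul_left, mul_assoc]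
      exact congrArg _ (gd.Dc2 S _ _ h.ok (hO l hl))
    rw [v0]
    refine le_trans (pow_le_pow_left₀ (norm_nonneg _) ?_ 2) (cs (fun l => √(A l)) A fun l hl =>
      ⟨A0 l, by rw [Real.sq_sqrt (A0 l)]; exact sq1 l hl _ (A0 l)⟩)
    rw [e, Finset.mul_sum]
    refine (norm_sum_le _ _).trans (Finset.sum_le_sum fun l hl => ?_)
    rw [norm_smul, Real.norm_eq_abs, abs_mul, abs_of_nonneg (a := 2 * c l ^ 2) (by positivity)]
    have := mul_le_mul (hK π h.rg _ (c0 l hl).le) (x2 l hl) (by positivity)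
      ((abs_nonneg _).trans (hK π h.rg _ (c0 l hl).le))
    linarith
  · rw [show S.R τ ν (S.N π) z = _ from (nsc.dR S π Λ _ z τ ν h cn h1 h2).trans (ch (S.VR τ ν)),
      ← mul_add, ← Finset.sum_add_distrib, Finset.mul_sum, Finset.mul_sum]
    refine (Finset.abs_sum_le_sum_abs _ _).trans (Finset.sum_le_sum fun l hl => ?_)
    have l0 := ((hT l).1 hl).1
    have a0 := c0 l hl
    have e1 : |c l ^ 2 * ⟪S.X2 (z.1, z.2.1, l) (S.p2 (z.1, z.2.1, l)), rot τ ν z.2.1⟫| ≤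
        √(A l) * ‖rot τ ν z.2.1‖ := by
      rw [abs_mul, abs_of_nonneg (sq_nonneg _)]
      exact (mul_le_mul_of_nonneg_left (abs_real_inner_le_norm _ _) (sq_nonneg _)).trans (by
        rw [← mul_assoc]; exact mul_le_mul_of_nonneg_right (x2 l hl) (norm_nonneg _))
    have e2 : |c l * ⟪S.p2 (z.1, z.2.1, l), rot τ ν z.2.1⟫| ≤ √(c l) * ‖rot τ ν z.2.1‖ := by
      rw [abs_mul, abs_of_pos a0, ← p2 l hl, mul_assoc]
      exact mul_le_mul_of_nonneg_left (abs_real_inner_le_norm _ _) a0.le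
    have e3 : |fderiv ℝ S.cs2 (z.1, z.2.1, l) (S.VR τ ν (z.1, z.2.1, l))| ≤
        2 * ((l * √(A l) + √(c l)) * ‖rot τ ν z.2.1‖) := by
      rw [show fderiv ℝ S.cs2 _ (S.VR τ ν _) = _ from gd.Rc2 S _ τ ν h.ok (hO l hl), abs_le]
      rw [abs_le] at e1 e2
      constructor <;> nlinarith [mul_le_mul_of_nonneg_left e1.1 l0.le,
        mul_le_mul_of_nonneg_left e1.2 l0.le]
    rw [abs_mul]
    exact (mul_le_mul (hK π h.rg _ a0.le) e3 (abs_nonneg _)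
      ((abs_nonneg _).trans (hK π h.rg _ a0.le))).trans_eq (by ring)
  · rw [v0]
    exact cs _ _ fun l hl => ⟨mul_nonneg (sq_nonneg _) (A0 l), by
      rw [mul_pow, Real.sq_sqrt (A0 l)]; exact sq1 l hl _ (mul_nonneg (sq_nonneg _) (A0 l))⟩
  · rw [q _ fun w _ b => by rw [Par.sgb, cu_lo h.rg b, mul_zero, zero_div]]
    refine (cs _ (fun l => 256 * c l ^ 3) fun l hl => ?_).trans_eq
      (congrArg _ (Finset.sum_congr rfl fun l hl => ?_))
    · have := pow_pos (c0 l hl) 3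
      rw [Real.sq_sqrt (c0 l hl).le]
      constructor <;> linarith
    · rw [eq_div_iff (c0 l hl).ne', Par.sgb]; ring
  · have e : ∑ l ∈ T, π.cu (c l) * c l ^ 3 * √(c l) ≤
        1 / t + t ^ 5 * ∑ l ∈ T, π.cu (c l) * c l := by
      refine le_trans ?_ (add_le_add_left (div_le_div_of_nonneg_right s4 t0.le) _)
      rw [Finset.sum_div, Finset.mul_sum, ← Finset.sum_add_distrib]
      refine Finset.sum_le_sum fun l hl => ?_
      have g0 := Real.sqrt_nonneg (c l)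
      have e := Real.sq_sqrt (c0 l hl).le
      have := w0 l
      generalize π.cu (c l) = w at *
      generalize √(c l) = g at *
      rw [← e]
      have k : g ^ 7 ≤ g ^ 8 / t + t ^ 5 * g ^ 2 := by
        rcases le_total t g with k | k
        · refine le_add_of_le_of_nonneg ((le_div_iff₀ t0).2 ?_) (by positivity)
          rw [pow_succ g 7]; gcongr
        · refine le_add_of_nonneg_of_le (by positivity) ?_
          rw [show g ^ 7 = g ^ 5 * g ^ 2 by ring]; gcongr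
      exact le_trans (by ring_nf; rfl) ((mul_le_mul_of_nonneg_left k this).trans_eq (by ring))
    rw [v0]
    exact mul_le_mul (by nlinarith) e (Finset.sum_nonneg fun l hl => mul_nonneg
      (mul_nonneg (w0 l) (pow_pos (c0 l hl) 3).le) (Real.sqrt_nonneg _)) (sq_nonneg _)

end Vale.Agent.P218M1
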