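import Vale.Agent.P218M1.Calc0
import Vale.Agent.P218M1.Cone
import Vale.Agent.P218M1.Cub
import Vale.Agent.P218M1.Gd
import Vale.Agent.P218M1.Gn
import Vale.Agent.P218M1.Gx
import Vale.Agent.P218M1.Lin
import Vale.Agent.P218M1.Me
import Vale.Agent.P218M1.Mono
import Vale.Agent.P218M1.Rad
import Vale.Agent.P218M1.Rot
import Vale.Agent.P218M1.Swp
import Vale.Agent.P218M1.Tr
import Vale.Agent.P218M1.Unq

/-!
# P218M1: the tools, without hypotheses
-/

namespace Vale.Agent.P218M1

theorem swp' : SWP := swp fs ca' lin'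
theorem byd' : BYD := byd fs ca' lin'
theorem nb' : NB := nb nsc' gd unq
theorem tr' : TR := tr ca' swp' nsc' con unq
theorem gn' : GN := gn ca' byd' nsc' unq nb' tr'
theorem cub' : CUB := cub ca' rad' mono
theorem me' : ME := me ca' nsc' unq tr' gn' cub'

theorem kit : Kit :=
  ⟨ca', byd', byr ca', avs ca' gd, nsc', con, gd, gx gd, unq, nb', tr', gn', me'⟩

end Vale.Agent.P218M1
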