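import Vale.Agent.P218M1.Alg

/-!
# P218M1: counting the hits of a line (row LC, first part)
-/

open MeasureTheory Metric Filter Topology Set
open scoped ContDiff RealInnerProductSpace ENNReal

noncomputable section

namespace Vale.Agent.P218M1.Lc

theorem ct_one {s : ℝ} (h : s ≤ 1) : ct s = 1 := Real.smoothTransition.one_of_one_le (by linarith)
theorem ct_zero {s : ℝ} (h : 2 ≤ s) : ct s = 0 := Real.smoothTransition.zero_of_nonpos (by linarith)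
theorem ct_nn (s : ℝ) : 0 ≤ ct s := Real.smoothTransition.nonneg _
theorem ct_le (s : ℝ) : ct s ≤ 1 := Real.smoothTransition.le_one _

@[fun_prop] theorem ct_cont : Continuous ct :=
  Real.smoothTransition.continuous.comp (continuous_const.sub continuous_id)

theorem c0 {X Y : Type} [NormedAddCommGroup X] [NormedSpace ℝ X] [NormedAddCommGroup Y]
    [NormedSpace ℝ Y] {f : X → Y} (hf : Continuous f) (x : X) : ContDiffAt ℝ 0 f x :=
  (contDiff_zero.2 hf).contDiffAt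

theorem count {T₀ T : Finset ℝ} {g : ℝ → ℝ} (hg : ∀ k, 0 ≤ g k)
    (H : ∀ l ∈ T₀, ∀ l' ∈ T₀, l < l' → (∀ k ∈ T₀, l < k → ¬ k < l') →
      ∃ k ∈ T, l ≤ k ∧ k < l' ∧ 1 ≤ g k) : (T₀.card : ℝ) ≤ 1 + ∑ k ∈ T, g k := by
  suffices h : ∀ b, (∀ l ∈ T₀, l ≤ b) → (T₀.card : ℝ) ≤ 1 + ∑ k ∈ T with k < b, g k by
    obtain ⟨b, hb⟩ := T₀.bddAbove
    exact (h b fun l hl => hb hl).trans (add_le_add_right (Finset.sum_le_sum_of_subset_of_nonneg
      (Finset.filter_subset _ _) fun k _ _ => hg k) _)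
  induction T₀ using Finset.induction_on_max with
  | empty => exact fun b _ => by simpa using add_nonneg zero_le_one (Finset.sum_nonneg fun k _ => hg k)
  | insert a s ha ih =>
    intro b hb
    rw [Finset.card_insert_of_notMem fun h => lt_irrefl _ (ha a h)]
    rcases s.eq_empty_or_nonempty with rfl | hs
    · simpa using Finset.sum_nonneg fun k _ => hg k
    have h1 := ih (fun l hl l' hl' h h' => H l (Finset.mem_insert_of_mem hl) l'
      (Finset.mem_insert_of_mem hl') h fun k hk => by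
        rcases Finset.mem_insert.1 hk with rfl | hk
        · exact fun _ => (ha l' hl').not_gt
        · exact h' k hk) (s.max' hs) fun l hl => s.le_max' l hl
    obtain ⟨k, k1, k2, k3, k4⟩ := H _ (Finset.mem_insert_of_mem (s.max'_mem hs)) a
      (Finset.mem_insert_self _ _) (ha _ (s.max'_mem hs)) fun k hk => by
        rcases Finset.mem_insert.1 hk with rfl | hk
        · exact fun _ => lt_irrefl _
        · exact fun h => absurd h (s.le_max' k hk).not_gt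
    have h2 : k < b := k3.trans_le (hb a (Finset.mem_insert_self _ _))
    have h3 : ∑ j ∈ insert k (T.filter (· < s.max' hs)), g j ≤ ∑ j ∈ T with j < b, g j :=
      Finset.sum_le_sum_of_subset_of_nonneg (Finset.insert_subset (Finset.mem_filter.2 ⟨k1, h2⟩)
        fun j hj => Finset.mem_filter.2 ⟨(Finset.mem_filter.1 hj).1,
          (Finset.mem_filter.1 hj).2.trans (k2.trans_lt h2)⟩) fun j _ _ => hg j
    rw [Finset.sum_insert (by simp [k2])] at h3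
    push_cast
    linarith

theorem tri {u v w : E} (hu : ‖u‖ = 1) (hv : ‖v‖ = 1) (hw : ‖w‖ = 1) :
    1 - ⟪u, w⟫ ^ 2 ≤ 2 * (1 - ⟪u, v⟫ ^ 2) + 2 * (1 - ⟪v, w⟫ ^ 2) := by
  have e : ∀ {a b : E} (t : ℝ), ‖a‖ = 1 → ‖b‖ = 1 → ‖a - t • b‖ ^ 2 = 1 - 2 * t * ⟪a, b⟫ + t ^ 2 :=
    fun t ha hb => by
      rw [norm_sub_sq_real, real_inner_smul_right, norm_smul, ha, hb, mul_one, Real.norm_eq_abs,
        sq_abs]
      ring
  have h1 := norm_add_sq_le (u - ⟪u, v⟫ • v) (⟪u, v⟫ • (v - ⟪v, w⟫ • w))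
  rw [norm_smul, mul_pow, Real.norm_eq_abs, sq_abs, e _ hu hv, e _ hv hw, smul_sub, smul_smul,
    sub_add_sub_cancel, e _ hu hw] at h1
  have h2 := inner_sq_le u v
  have h3 := inner_sq_le v w
  rw [hu, hv] at h2
  rw [hv, hw] at h3
  nlinarith [sq_nonneg (⟪u, v⟫ * ⟪v, w⟫ - ⟪u, w⟫), mul_nonneg (sub_nonneg.2 h2) (sub_nonneg.2 h3)]

variable {S : Sf} {π : Par} {Λ : ℝ}

theorem cd_n (hS : S.Ok) {x : E} (hx : S.g x ≠ 0) : ContDiffAt ℝ 0 S.n x := by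
  have h : ContDiffAt ℝ 0 S.g x := c0 hS.sg.continuous x
  exact (((c0 continuous_norm _).comp x h).inv (norm_ne_zero_iff.2 hx)).smul h

theorem meas_n (hS : S.Ok) : Measurable S.n :=
  hS.sg.continuous.measurable.norm.inv.smul hS.sg.continuous.measurable

theorem cd_cc (hS : S.Ok) {x : E} (hx : S.g x ≠ 0) (θ : E) :
    ContDiffAt ℝ 0 (fun y => S.cc y θ) x := (cd_n hS hx).inner ℝ contDiffAt_const

/-- the integrand -/
def FF (S : Sf) (π : Par) (z : Q) : ℝ := π.pt z.1 ^ 2 * S.o0 π z ^ 2 * G0 (S.tt π z)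

theorem FF_nn (z : Q) : 0 ≤ FF S π z := by
  unfold FF G0
  positivity

theorem sg0_zero (hπ : π.Rg) {c : ℝ} (h : c ≤ π.η ^ 2) : π.sg0 c = 0 := by
  rw [Par.sg0, ct_one ((div_le_one (pow_pos hπ.η0 2)).2 h), sub_self, mul_zero]

theorem FF_cl (nsc : NSC) (hS : S.Ok) (hπ : π.Rg) : S.Cl π 0 (FF S π) := by
  have η2 := pow_pos hπ.η0 2
  have c1 : ∀ z ∈ S.O, ContDiffAt ℝ 0 (fun z : Q => S.cc z.1 z.2.1) z := fun z hz =>
    ((cd_n hS (Sf.O.g1 hz)).comp z contDiffAt_fst).inner ℝ contDiffAt_snd.fst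
  have c2 : ∀ z ∈ S.O, ContDiffAt ℝ 0 S.cs2 z := fun z hz =>
    (((cd_n hS (Sf.O.g2 hz)).comp z (c0 (by unfold yy; fun_prop) z)).inner ℝ
      contDiffAt_snd.fst).pow 2
  refine ⟨fun z hz => ?_, fun z _ _ hb => ?_⟩
  · have c3 : ContDiffAt ℝ 0 (S.N π) z :=
      nsc.sm S π 0 (fun z' => π.sg0 (S.cs2 z') ^ 2) hS hπ ⟨fun z hz =>
        (c0 (f := fun c => π.sg0 c ^ 2) (by unfold Par.sg0; fun_prop) _).comp z (c2 z hz),
        fun z _ h => by rw [sg0_zero hπ (by linarith), sq, zero_mul]⟩ z hz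
    have d1 : ContDiffAt ℝ 0 (fun z : Q => π.pt z.1) z := c0 (by unfold Par.pt; fun_prop) z
    have d2 : ContDiffAt ℝ 0 (fun z => π.B0 (S.cs1 z)) z :=
      (c0 (f := π.B0) (by unfold Par.B0; fun_prop) _).comp z ((c1 z hz).pow 2)
    have d3 : ContDiffAt ℝ 0 (fun z => Par.K0 (S.cs2 z)) z :=
      (c0 (f := Par.K0) (by unfold Par.K0; fun_prop) _).comp z (c2 z hz)
    have d4 : ContDiffAt ℝ 0 (fun z => ct (2 * S.N π z)) z :=
      (c0 ct_cont _).comp z (contDiffAt_const.mul c3)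
    have d5 : ContDiffAt ℝ 0 (fun z : Q => π.xi z.2.2) z := c0 (by unfold Par.xi; fun_prop) z
    have d6 : ContDiffAt ℝ 0 (fun z => G0 (S.tt π z)) z :=
      (c0 (f := G0) (by unfold G0; fun_prop) _).comp z
        ((contDiffAt_snd.snd.mul ((c0 continuous_abs _).comp z (c1 z hz))).div_const π.ε)
    exact ((d1.pow 2).mul ((((d2.mul d3).mul d4).mul d5).pow 2)).mul d6
  have R1 := hπ.R1
  have α2 := pow_pos hπ.α0 2
  have η1 := pow_le_pow_left₀ hπ.η0.le hπ.η1 2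
  have α1 := pow_le_pow_left₀ hπ.α0.le hπ.α1 2
  by_contra h
  simp only [FF, Sf.o0, mul_eq_zero, pow_eq_zero_iff two_ne_zero, not_or] at h
  obtain ⟨⟨h1, ⟨⟨h2, h3⟩, -⟩, h4⟩, h5⟩ := h
  have a1 : 1 / 2 ≤ S.cs1 z := by_contra fun e => h2 (ct_zero (by
    rw [le_div_iff₀ α2]
    linarith [not_le.1 e]))
  refine hb ⟨by_contra fun e => h1 (ct_zero ?_), by_contra fun e => h4 ?_, by_contra fun e => h5 ?_,
    a1, by_contra fun e => h3 ?_⟩
  · rw [le_div_iff₀ (by positivity)]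
    nlinarith [not_le.1 e]
  · rw [Par.xi, ct_one (by rw [div_le_one hπ.ρ0]; linarith [not_le.1 e]), sub_self]
  · have : 1 ≤ S.tt π z := by
      rw [Sf.tt, one_le_div hπ.ε0]
      nlinarith [S.kk_sq z, S.kk_nonneg z, not_le.1 e, hπ.ε1]
    rw [G0, max_eq_right (by linarith), zero_pow (by norm_num)]
  · rw [Par.K0, ct_one (by linarith [not_le.1 e]), sub_self]

/-- the transversal hits of a line in the big ball -/
theorem hits (hG : Good S π Λ) (p : E) {θ : E} (hθ : ‖θ‖ = 1) : ∃ T : Finset ℝ, ∀ l, l ∈ T ↔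
    S.w (p + l • θ) = 0 ∧ ‖p + l • θ‖ ≤ 3 * π.R + 2 ∧ π.η ^ 2 / 2 ≤ S.cc (p + l • θ) θ ^ 2 := by
  have ρ0 := hG.rg.ρ0
  refine ⟨Set.Finite.toFinset (s := {l | _}) ?_, fun l => Set.Finite.mem_toFinset _⟩
  refine Set.Finite.of_injOn (f := fun l => ⌊l / π.ρ⌋) (t := Icc ⌊-(3 * π.R + 2 + ‖p‖) / π.ρ⌋
    ⌊(3 * π.R + 2 + ‖p‖) / π.ρ⌋) (fun l hl => ?_) ?_ (finite_Icc _ _)
  · have h1 : |l| ≤ 3 * π.R + 2 + ‖p‖ := by
      have := norm_sub_le (p + l • θ) p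
      rw [add_sub_cancel_left, norm_smul, hθ, mul_one, Real.norm_eq_abs] at this
      linarith [hl.2.1]
    exact ⟨Int.floor_mono (div_le_div_of_nonneg_right (abs_le.1 h1).1 ρ0.le),
      Int.floor_mono (div_le_div_of_nonneg_right (abs_le.1 h1).2 ρ0.le)⟩
  refine injOn_iff_injective.2 (.of_lt_imp_ne fun ⟨l, hl⟩ ⟨l', hl'⟩ h e => ?_)
  replace h : l < l' := h
  have y : yy (p + l • θ, θ, l' - l) = p + l' • θ := by simp [yy, sub_smul]
  have h1 := hG.sp.sep (p + l • θ, θ, l' - l) ⟨hl.1, hθ, sub_pos.2 h, by rw [y]; exact hl'.1⟩ hl.2.1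
    hl.2.2 (by rw [Sf.cs2, y]; exact hl'.2.2)
  have h2 := (abs_lt.1 (Int.abs_sub_lt_one_of_floor_eq_floor e)).1
  rw [← sub_div, lt_div_iff₀ ρ0] at h2
  simp only at h1
  linarith

theorem fsum {p θ : E} {T : Finset ℝ} (f : ℝ → ℝ) (h1 : ∀ l ∈ T, S.w (p + l • θ) = 0)
    (h2 : ∀ l, S.w (p + l • θ) = 0 → f l ≠ 0 → l ∈ T) :
    ∑ᶠ (l : ℝ) (_ : S.w (p + l • θ) = 0), f l = ∑ l ∈ T, f l :=
  finsum_cond_eq_sum_of_cond_iff f fun h => ⟨fun e => h2 _ e h, h1 _⟩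

theorem RS_nn (x θ : E) : 0 ≤ S.RS (FF S π) x θ :=
  finsum_nonneg fun _ => finsum_nonneg fun _ => FF_nn _

theorem box_of (nsc : NSC) (hG : Good S π Λ) {z : Q} (hx : S.g z.1 ≠ 0) (hy : S.w (yy z) = 0)
    (h : FF S π z ≠ 0) : S.Box π z :=
  by_contra fun e => h ((FF_cl nsc hG.ok hG.rg).bx z hx (hG.ok.reg _ hy) e)

theorem le_RS (nsc : NSC) (hG : Good S π Λ) {z : Q} (hz : S.Hit z) :
    FF S π z ≤ S.RS (FF S π) z.1 z.2.1 := by
  obtain ⟨T, hT⟩ := hits hG z.1 hz.2.1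
  have h : ∀ l, S.w (z.1 + l • z.2.1) = 0 → FF S π (z.1, z.2.1, l) ≠ 0 → l ∈ T := fun l h1 h2 => by
    have b := box_of nsc hG (z := (z.1, z.2.1, l)) (hG.ok.reg _ hz.1) h1 h2
    refine (hT l).2 ⟨h1, (norm_add_le _ _).trans ?_, b.2.2.2.2⟩
    have := b.2.1
    rw [norm_smul, hz.2.1, mul_one, Real.norm_of_nonneg (by linarith [hG.rg.ρ0])]
    exact add_le_add b.1 b.2.2.1
  rw [Sf.RS, fsum _ (fun l hl => ((hT l).1 hl).1) h]
  by_cases e : FF S π z = 0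
  · rw [e]
    exact Finset.sum_nonneg fun _ _ => FF_nn _
  · exact Finset.single_le_sum (f := fun l => FF S π (z.1, z.2.1, l)) (fun _ _ => FF_nn _)
      (h _ hz.2.2.2 e)

theorem RS_zero (nsc : NSC) (hG : Good S π Λ) {x θ : E} (hx : S.g x ≠ 0)
    (h : S.cc x θ ^ 2 < 1 / 2) : S.RS (FF S π) x θ = 0 :=
  (fsum (T := ∅) _ (by simp) fun l h1 h2 =>
    absurd (box_of nsc hG (z := (x, θ, l)) hx h1 h2).2.2.2.1 h.not_ge).trans Finset.sum_empty

/-- two aligned neighbours: a good pair, or a hit in between -/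
theorem pair (K : Kit) (hG : Good S π Λ) {z : Q} (hz : S.Hit z) (h1 : ‖z.1‖ ≤ π.R)
    (h2 : 5 * z.2.2 ≤ π.ε) (h3 : 1 - S.cs1 z ≤ π.α ^ 2 / 2) (h4 : 1 - S.cs2 z ≤ π.α ^ 2 / 2) :
    1 ≤ 4 * S.RS (FF S π) z.1 z.2.1 ∨ ∃ l, 0 < l ∧ l < z.2.2 ∧ S.w (z.1 + l • z.2.1) = 0 ∧
      π.η ^ 2 < S.cc (z.1 + l • z.2.1) z.2.1 ^ 2 := by
  have hπ := hG.rg
  have R1 := hπ.R1
  have α2 := pow_pos hπ.α0 2
  have η1 := pow_le_pow_left₀ hπ.η0.le hπ.η1 2
  have α1 := pow_le_pow_left₀ hπ.α0.le hπ.α1 2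
  have d1 := hG.sp.sep z hz (by linarith) (by linarith) (by linarith)
  have b : S.Box π z :=
    ⟨by linarith, by linarith [hπ.ρ0], by linarith [hπ.ε1], by linarith, by linarith⟩
  obtain ⟨T, hT, hN⟩ := K.unq.ns S π Λ z hG hz b
  by_cases e : ∃ l ∈ T, π.η ^ 2 < S.cs2 (z.1, z.2.1, l)
  · obtain ⟨l, l1, l2⟩ := e
    exact .inr ⟨l, ((hT l).1 l1).1, ((hT l).1 l1).2.1, ((hT l).1 l1).2.2.1, l2⟩
  have n0 : S.N π z = 0 := by
    rw [Sf.N, hN _ fun z' _ h => by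
      rw [sg0_zero hπ (by linarith [sq_nonneg π.η]), sq, zero_mul]]
    exact Finset.sum_eq_zero fun l hl => by
      rw [sg0_zero hπ (not_lt.1 fun h => e ⟨l, hl, h⟩), sq, zero_mul]
  have a1 : π.pt z.1 = 1 := ct_one (by
    rw [div_le_one (by positivity)]
    nlinarith [norm_nonneg z.1])
  have a2 : π.B0 (S.cs1 z) = 1 := ct_one (by rw [div_le_one α2]; linarith)
  have a3 : Par.K0 (S.cs2 z) = 1 := by rw [Par.K0, ct_zero (by linarith), sub_zero]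
  have a4 : S.tt π z ≤ 1 / 5 := by
    rw [Sf.tt, div_le_iff₀ hπ.ε0]
    nlinarith [S.kk_le hz.2.1, hz.2.2.1]
  have a5 : (4 / 5 : ℝ) ^ 6 ≤ G0 (S.tt π z) :=
    pow_le_pow_left₀ (by norm_num) (le_max_of_le_left (by linarith)) 6
  have := le_RS K.nsc hG hz
  rw [FF, Sf.o0, a1, a2, a3, n0, (K.unq.xi1 S π Λ z hG hz b).2.1, ct_one (by norm_num)] at this
  left
  linarith

end Vale.Agent.P218M1.Lc
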