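import Vale.Agent.P218M1.Cut

/-!
# P218M1: scalar inequalities for the main term
-/

open MeasureTheory Metric Filter Topology Set
open scoped ContDiff RealInnerProductSpace ENNReal

noncomputable section

namespace Vale.Agent.P218M1.Ma

theorem amgm {x A B : ℝ} (hA : 0 ≤ A) (hB : 0 ≤ B) (h : x ^ 2 ≤ 4 * A * B) : x ≤ A + B :=
  (abs_le_of_sq_le_sq' (by nlinarith [sq_nonneg (A - B)]) (by positivity)).2

theorem young {r g1 g2 a2 l2 u2 Y q : ℝ} (hr0 : 0 ≤ r) (hr : r ≤ 1) (h1 : g1 ^ 2 ≤ 2 * g2)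
    (h36 : g1 ^ 2 ≤ 36) (ha : 0 ≤ a2) (hl : 0 ≤ l2) (hu0 : 0 ≤ u2) (hu : u2 ≤ 4 * a2 + 2 * l2)
    (hq : 0 ≤ q) (hY : Y ^ 2 ≤ q * u2) :
    r * g1 * Y ≤ r ^ 2 * g2 * a2 / 140 + l2 + 280 * q := by
  have hr2 : r ^ 2 ≤ 1 := by nlinarith
  have hA : 0 ≤ r ^ 2 * g1 ^ 2 := by positivity
  have h2 : r * g1 * Y ≤ r ^ 2 * g1 ^ 2 * u2 / 1120 + 280 * q := by
    refine amgm (by positivity) (by positivity) ?_
    calc (r * g1 * Y) ^ 2 = r ^ 2 * g1 ^ 2 * Y ^ 2 := by ring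
      _ ≤ r ^ 2 * g1 ^ 2 * (q * u2) := by gcongr
      _ = _ := by ring
  have h3 : r ^ 2 * g1 ^ 2 * u2 ≤ r ^ 2 * g1 ^ 2 * (4 * a2 + 2 * l2) := by gcongr
  have h4 : r ^ 2 * g1 ^ 2 * a2 ≤ r ^ 2 * (2 * g2) * a2 := by gcongr
  have h5 : r ^ 2 * g1 ^ 2 * l2 ≤ 1 * 36 * l2 := by gcongr
  nlinarith

theorem young8 {r g2 t a2 l2 c : ℝ} (hr0 : 0 ≤ r) (hr : r ≤ 1) (h0 : 0 ≤ g2) (h30 : g2 ≤ 30)
    (ht0 : 0 ≤ t) (ht : t ≤ 1) (ha : 0 ≤ a2) (hl : 0 ≤ l2) (hc : c ^ 2 ≤ l2 * a2) :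
    r ^ 2 * g2 * (t * c) ≤ r ^ 2 * g2 * a2 / 20 + 150 * l2 := by
  have hr2 : r ^ 2 ≤ 1 := by nlinarith
  have ht2 : t ^ 2 ≤ 1 := by nlinarith
  have h2 : t * c ≤ a2 / 20 + 5 * l2 := by
    refine amgm (by positivity) (by positivity) ?_
    calc (t * c) ^ 2 = t ^ 2 * c ^ 2 := by ring
      _ ≤ 1 * (l2 * a2) := by gcongr
      _ = _ := by ring
  have h3 : r ^ 2 * g2 * (t * c) ≤ r ^ 2 * g2 * (a2 / 20 + 5 * l2) := by gcongr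
  have h4 : r ^ 2 * g2 * l2 ≤ 1 * 30 * l2 := by gcongr
  nlinarith

/-- the algebra of the main term -/
theorem alg {r o w0 ex pV xV xU b0 b1 k0 cn cd xi e eV th td zV g1 g2 t a2 c ll cs NV kT kT2 er
    l2 u2 q1 q2 q3 q4 q5 q7 nb : ℝ} (ho : o = b0 * k0 * cn * xi) (hr' : r = w0 * o * e * th)
    (hr0 : 0 ≤ r) (hr : r ≤ 1)
    (h1 : g1 ^ 2 ≤ 2 * g2) (h36 : g1 ^ 2 ≤ 36) (hg1 : g1 ≤ 0) (h30 : g2 ≤ 30)
    (ht0 : 0 ≤ t) (ht : t ≤ 1) (ha : 0 ≤ a2) (hl : 0 ≤ l2) (hu0 : 0 ≤ u2)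
    (hu : u2 ≤ 4 * a2 + 2 * l2) (hc : c ^ 2 ≤ l2 * a2) (hll : 0 ≤ ll) (hb0 : 0 ≤ b0)
    (hb1 : 0 ≤ b1) (hcs : 0 ≤ cs)
    (p1 : 0 ≤ q1) (y1 : kT2 ^ 2 ≤ q1 * u2) (p2 : 0 ≤ q2) (y2 : ((xV - xU) / 2) ^ 2 ≤ q2 * u2)
    (p3 : 0 ≤ q3) (y3 : (o * e * th * (2 * ex * pV)) ^ 2 ≤ q3 * u2)
    (p4 : 0 ≤ q4) (y4 : (w0 * o * th * (2 * eV)) ^ 2 ≤ q4 * u2)
    (p5 : 0 ≤ q5) (y5 : (w0 * o * e * (4 * td * zV)) ^ 2 ≤ q5 * u2)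
    (y6 : (c - t * ll) ^ 2 ≤ l2 * u2) (p7 : 0 ≤ q7) (y7 : er ^ 2 ≤ q7 * u2)
    (hN : -(g1 * (w0 * (b0 * k0 * xi) * e * th) ^ 2 * (4 * cn * cd * NV)) ≤ nb) :
    r ^ 2 * g1 * (kT + kT2 + (t - xU) / 2) + r ^ 2 * (t * -g1) / 2 + 9 / 10 * (r ^ 2 * g2 * a2) +
      r * g1 * (w0 * (k0 * cn * xi) * e * th * (4 * b1 * cs) * c) -
      (2 * r * ((((-(w0 * xV / 4) + ex * pV) * o + w0 * (b1 * (2 * cs * (c - t * ll)) * k0 * cn * xi +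
        b0 * k0 * (cd * (2 * NV)) * xi)) * e + w0 * o * eV) * th + w0 * o * e * (td * (2 * zV))) * g1 +
        r ^ 2 * (g2 * (a2 - t * c)) + r ^ 2 * g1 * (kT + (c - t * ll) + er)) ≤
      280 * (q1 + q2 + q3 + q4 + q5 + q7) + 437 * l2 + nb := by
  have hr2 : r ^ 2 ≤ 1 := by nlinarith
  have g20 : 0 ≤ g2 := by nlinarith [sq_nonneg g1]
  have sc : ∀ {Y q : ℝ}, 0 ≤ q → Y ^ 2 ≤ q * u2 → (r * Y) ^ 2 ≤ q * u2 := fun {Y q} hq hY => by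
    calc (r * Y) ^ 2 = r ^ 2 * Y ^ 2 := by ring
      _ ≤ 1 * (q * u2) := by gcongr
      _ = _ := one_mul _
  have ng : ∀ {Y q : ℝ}, Y ^ 2 ≤ q * u2 → (-Y) ^ 2 ≤ q * u2 := fun hY => by rwa [neg_sq]
  have z1 := young hr0 hr h1 h36 ha hl hu0 hu p1 (sc p1 y1)
  have z2 := young hr0 hr h1 h36 ha hl hu0 hu p2 (sc p2 y2)
  have z3 := young hr0 hr h1 h36 ha hl hu0 hu p3 (ng y3)
  have z4 := young hr0 hr h1 h36 ha hl hu0 hu p4 (ng y4)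
  have z5 := young hr0 hr h1 h36 ha hl hu0 hu p5 (ng y5)
  have z6 := young hr0 hr h1 h36 ha hl hu0 hu hl (ng (sc hl y6))
  have z7 := young hr0 hr h1 h36 ha hl hu0 hu p7 (ng (sc p7 y7))
  have z8 := young8 hr0 hr g20 h30 ht0 ht ha hl hc
  have z9 : (w0 * (k0 * cn * xi) * e * th) ^ 2 * (4 * b0 * b1 * cs * (t * ll)) * g1 ≤ 0 :=
    mul_nonpos_of_nonneg_of_nonpos (by positivity) hg1
  refine le_trans (le_of_eq (b := r * g1 * (r * kT2) + r * g1 * (r * ((xV - xU) / 2)) +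
    r * g1 * -(o * e * th * (2 * ex * pV)) + r * g1 * -(w0 * o * th * (2 * eV)) +
    r * g1 * -(w0 * o * e * (4 * td * zV)) + r * g1 * -(r * (c - t * ll)) + r * g1 * -(r * er) +
    r ^ 2 * g2 * (t * c) - r ^ 2 * g2 * a2 / 10 +
    (w0 * (k0 * cn * xi) * e * th) ^ 2 * (4 * b0 * b1 * cs * (t * ll)) * g1 +
    -(g1 * (w0 * (b0 * k0 * xi) * e * th) ^ 2 * (4 * cn * cd * NV))) ?_) (by linarith)
  rw [hr', ho]
  ring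

/-- the term with the derivative of the occlusion -/
theorem occ {g1 y cn cd N NV n2 u2 d ε : ℝ} (hg : |g1| ≤ 6) (hy0 : 0 ≤ y) (hy : y ≤ 1)
    (hc0 : 0 ≤ cn) (hc : cn ≤ 1) (hcd : |cd| ≤ Cc) (hN0 : 0 ≤ N) (hN : cd ≠ 0 → 1 < 2 * N)
    (hn : 0 ≤ n2) (hV : NV ^ 2 ≤ n2 * u2) (hd : 0 ≤ d) (hu : u2 ≤ d ^ 2 / ε ^ 2) :
    -(g1 * y ^ 2 * (4 * cn * cd * NV)) ≤ 12 * Cc * d * (n2 + 2 * N / ε ^ 2) := by
  have hC := Cc_pos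
  by_cases h0 : cd = 0
  · rw [h0]; simp only [mul_zero, zero_mul, neg_zero]; positivity
  have h1 : |NV| ≤ d * n2 / 2 + d * (1 / ε ^ 2) / 2 := by
    refine amgm (by positivity) (by positivity) ?_
    calc |NV| ^ 2 = NV ^ 2 := sq_abs _
      _ ≤ n2 * (d ^ 2 / ε ^ 2) := hV.trans (by gcongr)
      _ = _ := by ring
  have h2 : 1 / ε ^ 2 ≤ 2 * N / ε ^ 2 := by gcongr; exact (hN h0).le
  have h3 : y ^ 2 ≤ 1 := pow_le_one₀ hy0 hy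
  calc _ ≤ |g1 * y ^ 2 * (4 * cn * cd * NV)| := neg_le_abs _
    _ = |g1| * y ^ 2 * (4 * cn * |cd| * |NV|) := by
      simp only [abs_mul, abs_of_nonneg hc0, abs_of_nonneg hy0, abs_pow, Nat.abs_ofNat]
    _ ≤ 6 * 1 * (4 * 1 * Cc * (d * n2 / 2 + d * (2 * N / ε ^ 2) / 2)) := by
      gcongr
      exact h1.trans (by gcongr)
    _ = _ := by ring

/-- the function is differentiable and the derivative in the direction `ξ` is `a` -/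
def Dv (ξ z : Q) (f : Q → ℝ) (a : ℝ) : Prop := DifferentiableAt ℝ f z ∧ fderiv ℝ f z ξ = a

variable {ξ z : Q} {f g : Q → ℝ} {a b : ℝ}

theorem Dv.mul (hf : Dv ξ z f a) (hg : Dv ξ z g b) :
    Dv ξ z (fun z => f z * g z) (a * g z + f z * b) := by
  refine ⟨hf.1.mul hg.1, ?_⟩
  rw [fderiv_fun_mul hf.1 hg.1, ← hf.2, ← hg.2]
  simp only [add_apply, smul_apply, smul_eq_mul]
  ring

theorem Dv.comp {φ : ℝ → ℝ} {c : ℝ} (hf : Dv ξ z f a) (hφ : HasDerivAt φ c (f z)) :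
    Dv ξ z (fun z => φ (f z)) (c * a) := by
  have h := hφ.comp_hasFDerivAt z hf.1.hasFDerivAt
  refine ⟨h.differentiableAt, ?_⟩
  rw [← hf.2]
  exact congrArg (fun L => L ξ) h.fderiv

theorem Dv.sq (hf : Dv ξ z f a) : Dv ξ z (fun z => f z ^ 2) (2 * f z * a) := by
  simpa using hf.comp (hasDerivAt_pow 2 (f z))

theorem Dv.two (hf : Dv ξ z f a) : Dv ξ z (fun z => 2 * f z) (2 * a) :=
  hf.comp (φ := fun s => 2 * s) (by simpa using (hasDerivAt_id (f z)).const_mul 2)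

end Vale.Agent.P218M1.Ma
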