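import Vale.Agent.P218M1.MaA

/-!
# P218M1: the pointwise form of the main term
-/

open MeasureTheory Metric Filter Topology Set
open scoped ContDiff RealInnerProductSpace ENNReal

noncomputable section

namespace Vale.Agent.P218M1.Ma

open Sf

variable (S : Sf) (π : Par) (η : E → ℝ) (th : ℝ → ℝ)

/-- the square root of the weight -/
def rr (z : Q) : ℝ := π.W0 z.1 * S.o0 π z * η z.1 * th (S.sq z)
def ff (i : Fin 3) (z : Q) : ℝ := rr S π η th z ^ 2 * G1 (S.tt π z) * S.P z.1 (S.Uv π z) i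
def m0 (z : Q) : ℝ := S.Mm π z * (η z.1 ^ 2 * th (S.sq z) ^ 2)
def s1 (z : Q) : ℝ := S.ze π η th z * (S.tt π z * -G1 (S.tt π z)) / 2
def s2 (z : Q) : ℝ := S.ze π η th z * G2 (S.tt π z) * ⟪S.P z.1 (S.gt π z), S.gt π z⟫
def et (z : Q) : ℝ := π.W z.1 * (Par.K0 (S.cs2 z) * ct (2 * S.N π z) * π.xi z.2.2) ^ 2 *
    (η z.1 ^ 2 * th (S.sq z) ^ 2) * (deriv (fun c => π.B0 c ^ 2) (S.cs1 z) * (2 * S.cs1 z)) *
    G1 (S.tt π z) * ⟪S.P z.1 (S.lv z), S.gt π z⟫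
def tb (κ : ℝ) (gb : ℝ → ℝ) (z : Q) : ℝ :=
  (S.za π z * (1 + S.tt π z) ^ (-κ)) ^ 2 * gb (S.sq z) * hs (S.Z z)
/-- the part which lives on proper pairs -/
def h0 (z : Q) : ℝ := m0 S π η th z + s1 S π η th z + 9 / 10 * s2 S π η th z + et S π η th z -
  ∑ i, S.D (ee i) (ff S π η th i) z

/-- differentiability of the ingredients -/
structure Df (z : Q) : Prop where
  c1 : DifferentiableAt ℝ S.cs1 z
  c2 : DifferentiableAt ℝ S.cs2 z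
  N : DifferentiableAt ℝ (S.N π) z
  sq : DifferentiableAt ℝ S.sq z
  tt : DifferentiableAt ℝ (S.tt π) z
  PU : ∀ i, DifferentiableAt ℝ (fun z => S.P z.1 (S.Uv π z) i) z

variable {S π η th} {z : Q}

theorem D_lin (S : Sf) (f : Q → ℝ) (z : Q) (v : E) : S.D v f z = ∑ i, S.D (ee i) f z * v i := by
  have h : S.VD v z = ∑ i, v i • S.VD (ee i) z := by
    simp only [VD, Prod.ext_iff, Prod.fst_sum, Prod.snd_sum, Prod.smul_mk, smul_zero,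
      Finset.sum_const_zero, true_and, smul_eq_mul, inner_ee]
    exact ⟨map_eq_sum _ v, by rw [inner_eq_sum]; simp only [mul_comm]⟩
  simp only [D, h, map_sum, map_smul, smul_eq_mul, mul_comm]

theorem D_sq_le (S : Sf) (f : Q → ℝ) (z : Q) (v : E) :
    S.D v f z ^ 2 ≤ ‖S.DG f z‖ ^ 2 * ‖v‖ ^ 2 := by
  rw [D_lin, ← inner_sum_ee]; exact inner_sq_le _ _

theorem dv_rr (gd : GD) (hS : S.Ok) (hz : z ∈ S.O) (hd : Df S π z) (hη : Differentiable ℝ η)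
    (hth : Differentiable ℝ th) {V : E} (hV : ⟪S.g z.1, V⟫ = 0) :
    Dv (S.VD V z) z (rr S π η th)
      (((fderiv ℝ π.W0 z.1 V * S.o0 π z + π.W0 z.1 *
        ((((deriv π.B0 (S.cs1 z) * (2 * S.cs1 z * ⟪S.lv z, V⟫) * Par.K0 (S.cs2 z) +
          π.B0 (S.cs1 z) * (deriv Par.K0 (S.cs2 z) * S.D V S.cs2 z)) * ct (2 * S.N π z) +
          π.B0 (S.cs1 z) * Par.K0 (S.cs2 z) * (deriv ct (2 * S.N π z) * (2 * S.D V (S.N π) z))) *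
          π.xi z.2.2 + π.B0 (S.cs1 z) * Par.K0 (S.cs2 z) * ct (2 * S.N π z) *
          (deriv π.xi z.2.2 * ⟪S.Pv z, V⟫)))) * η z.1 +
        π.W0 z.1 * S.o0 π z * fderiv ℝ η z.1 V) * th (S.sq z) +
        π.W0 z.1 * S.o0 π z * η z.1 * (deriv th (S.sq z) * (2 * ⟪S.Z z (S.Pv z), V⟫))) := by
  have hx : ∀ f : E → ℝ, Differentiable ℝ f → Dv (S.VD V z) z (fun z => f z.1) (fderiv ℝ f z.1 V) :=
    fun f hf => ⟨(hf _).comp z differentiableAt_fst, by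
      have := gd.Dx S z V f hz (hf _)
      rwa [Pi_tan hV] at this⟩
  have d1 : Dv (S.VD V z) z S.cs1 _ := ⟨hd.c1, gd.Dc1 S z V hS hz⟩
  have d2 : Dv (S.VD V z) z S.cs2 (S.D V S.cs2 z) := ⟨hd.c2, rfl⟩
  have d3 : Dv (S.VD V z) z (S.N π) (S.D V (S.N π) z) := ⟨hd.N, rfl⟩
  have d4 : Dv (S.VD V z) z (fun z => z.2.2) _ := ⟨by fun_prop, gd.Dd S z V⟩
  have d5 : Dv (S.VD V z) z S.sq _ := ⟨hd.sq, gd.Dsq S z V hS hz⟩
  have d6 : Dv (S.VD V z) z (S.o0 π) _ :=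
    (((d1.comp (π.B0_smooth.differentiable (by simp) _).hasDerivAt).mul
      (d2.comp (Par.K0_smooth.differentiable (by simp) _).hasDerivAt)).mul
      (d3.two.comp (hasDerivAt_ct _))).mul
      (d4.comp (π.xi_smooth.differentiable (by simp) _).hasDerivAt)
  exact (((hx _ (π.W0_smooth.differentiable (by simp))).mul d6).mul (hx _ hη)).mul
    (d5.comp (hth _).hasDerivAt)

theorem sum_D (gd : GD) (hS : S.Ok) (hz : z ∈ S.O) (hd : Df S π z) {a : ℝ}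
    (hr : Dv (S.VD (S.P z.1 (S.Uv π z)) z) z (rr S π η th) a) :
    ∑ i, S.D (ee i) (ff S π η th i) z =
      2 * rr S π η th z * a * G1 (S.tt π z) +
      rr S π η th z ^ 2 * (G2 (S.tt π z) * ⟪S.gt π z, S.P z.1 (S.Uv π z)⟫) +
      rr S π η th z ^ 2 * G1 (S.tt π z) *
        ∑ i, S.D (ee i) (fun z => S.P z.1 (S.Uv π z) i) z := by
  have d1 : Dv (S.VD (S.P z.1 (S.Uv π z)) z) z (S.tt π) _ := ⟨hd.tt, gd.Dt S π z _ hS hz⟩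
  have d2 := hr.sq.mul (d1.comp (hasDerivAt_G1 _))
  have d3 : ∀ i, S.D (ee i) (ff S π η th i) z = _ := fun i =>
    (Dv.mul (ξ := S.VD (ee i) z) ⟨d2.1, rfl⟩ ⟨hd.PU i, rfl⟩).2
  have d4 := D_lin S (fun z => rr S π η th z ^ 2 * G1 (S.tt π z)) z (S.P z.1 (S.Uv π z))
  rw [← d2.2, Finset.sum_congr rfl fun i _ => d3 i, Finset.sum_add_distrib, Finset.mul_sum]
  exact congrArg₂ (· + ·) d4.symm rfl

theorem h0_eq (gd : GD) (hS : S.Ok) (hz : z ∈ S.O) (hd : Df S π z) {a : ℝ}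
    (hr : Dv (S.VD (S.P z.1 (S.Uv π z)) z) z (rr S π η th) a) :
    h0 S π η th z = rr S π η th z ^ 2 * G1 (S.tt π z) *
        (S.kk z / π.ε * (S.vs (yy z) z.2.1 - S.vs z.1 z.2.1)) +
      rr S π η th z ^ 2 * (S.tt π z * -G1 (S.tt π z)) / 2 +
      9 / 10 * (rr S π η th z ^ 2 * G2 (S.tt π z) * ⟪S.P z.1 (S.gt π z), S.gt π z⟫) +
      rr S π η th z * G1 (S.tt π z) * (π.W0 z.1 *
        (Par.K0 (S.cs2 z) * ct (2 * S.N π z) * π.xi z.2.2) * η z.1 * th (S.sq z) *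
        (4 * deriv π.B0 (S.cs1 z) * S.cs1 z) * ⟪S.P z.1 (S.lv z), S.gt π z⟫) -
      (2 * rr S π η th z * a * G1 (S.tt π z) +
      rr S π η th z ^ 2 * (G2 (S.tt π z) * ⟪S.gt π z, S.P z.1 (S.Uv π z)⟫) +
      rr S π η th z ^ 2 * G1 (S.tt π z) *
        ∑ i, S.D (ee i) (fun z => S.P z.1 (S.Uv π z) i) z) := by
  have h1 : deriv (fun c => π.B0 c ^ 2) (S.cs1 z) = 2 * π.B0 (S.cs1 z) * deriv π.B0 (S.cs1 z) := by
    simpa using ((π.B0_smooth.differentiable (by simp) (S.cs1 z)).hasDerivAt.fun_pow 2).deriv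
  rw [h0, sum_D gd hS hz hd hr, et, h1]
  simp only [m0, s1, s2, Mm, ze, Wt, Par.W, rr, o0]
  ring

theorem o0_mem (S : Sf) (π : Par) (z : Q) : 0 ≤ S.o0 π z ∧ S.o0 π z ≤ 1 :=
  ⟨mul_nonneg (mul_nonneg (mul_nonneg (Par.B0_nonneg _) (Par.K0_nonneg _)) (ct_nonneg _))
    (Par.xi_nonneg _), mul_le_one₀ (mul_le_one₀ (mul_le_one₀ (Par.B0_le _) (Par.K0_nonneg _)
    (Par.K0_le _)) (ct_nonneg _) (ct_le_one _)) (Par.xi_nonneg _) (Par.xi_le _)⟩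

theorem sq3 {a b c y : ℝ} (ha : 0 ≤ a ∧ a ≤ 1) (hb : 0 ≤ b ∧ b ≤ 1) (hc : 0 ≤ c ∧ c ≤ 1) :
    (a * b * c * y) ^ 2 ≤ y ^ 2 := by
  have h1 : (a * b * c) ^ 2 ≤ 1 := pow_le_one₀ (mul_nonneg (mul_nonneg ha.1 hb.1) hc.1)
    (mul_le_one₀ (mul_le_one₀ ha.2 hb.1 hb.2) hc.1 hc.2)
  rw [mul_pow]
  exact mul_le_of_le_one_left (sq_nonneg _) h1

/-- what the support of the weight gives -/
structure Su (S : Sf) (π : Par) (d₁ : ℝ) (z : Q) : Prop where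
  x : ‖z.1‖ ^ 2 ≤ 2 * π.R ^ 2
  c1 : 1 - S.cs1 z ≤ π.α ^ 2
  c2 : 1 / 2 ≤ S.cs2 z
  N : S.N π z < 1
  sq : S.sq z ≤ d₁ ^ 2
  t0 : 0 ≤ S.tt π z
  t1 : S.tt π z ≤ 1
  d : z.2.2 ≤ 2 * π.ε

variable {Cw d₁ d₂ L κ Λ : ℝ} {gb ga ch : ℝ → ℝ}

theorem su (hπ : π.Rg) (hW : Win Cw d₁ d₂ L th gb ga ch) (hz : z ∈ S.O) (hθ : ‖z.2.1‖ = 1)
    (hr : rr S π η th z ≠ 0) (ht : S.tt π z < 1) : Su S π d₁ z := by
  simp only [rr, o0, mul_ne_zero_iff] at hr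
  obtain ⟨⟨⟨h1, ⟨⟨h2, h3⟩, h4⟩, -⟩, -⟩, h5⟩ := hr
  have h6 : S.sq z < d₁ ^ 2 := not_le.1 fun h => h5 (hW.thz _ h)
  have h7 := hπ.B0_ne h2
  have h8 := hπ.α2.2
  have h9 : d₁ ^ 2 ≤ 1 / 4 := by nlinarith [hW.d0, hW.d12, hW.d1h]
  have hε := hπ.ε0
  refine ⟨(hπ.W0_ne h1).le, h7.le, not_lt.1 fun h => ?_, by linarith [lt_of_ct_ne h4], h6.le,
    div_nonneg (mul_nonneg hz.2.2.le (kk_nonneg S z)) hε.le, ht.le, ?_⟩
  · linarith [O.sq_ge hz hθ (by linarith) h.le]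
  · have := (div_lt_one hε).1 ht
    nlinarith [cs1_le_kk S hθ, hz.2.2]

theorem y1 (gx : GX) (hS : S.Ok) (hπ : π.Rg) (hz : z ∈ S.O) (hθ : ‖z.2.1‖ = 1) (h : Su S π d₁ z) :
    (S.kk z / π.ε * trc ((S.P (yy z) - S.P z.1) ∘L S.X2 z)) ^ 2 ≤
      6400 * (π.α ^ 2 + d₁ ^ 2) * S.A2 (yy z) * ‖S.Uv π z‖ ^ 2 := by
  have h1 := gx.pp S z hS hz hθ (by linarith [h.c1, hπ.α2.2])
  have h2 := hS.hs_X2_le hz hθ (by linarith [h.c2])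
  have h3 := sq_nonneg' S z
  have h4 := hs_nonneg (S.X2 z)
  have h5 := cs1_nonneg S z
  rw [norm_Uv, mul_pow, div_pow, kk_sq]
  calc _ ≤ S.cs1 z / π.ε ^ 2 * (100 * (π.α ^ 2 + d₁ ^ 2) * S.sq z * (64 * S.A2 (yy z))) := by
        gcongr
        refine h1.trans ?_
        gcongr
        exacts [h.c1, h.sq]
    _ = _ := by ring

theorem y2 (hz : z ∈ S.O) (hθ : ‖z.2.1‖ = 1) (h : Su S π d₁ z) :
    ((⟪z.1, S.P z.1 (S.Uv π z)⟫ - ⟪z.1, S.Uv π z⟫) / 2) ^ 2 ≤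
      π.α ^ 2 * π.R ^ 2 / 2 * ‖S.Uv π z‖ ^ 2 := by
  have h1 : ⟪S.n z.1, S.Uv π z⟫ ^ 2 ≤ π.α ^ 2 * ‖S.Uv π z‖ ^ 2 :=
    (n_perp (O.g1 hz) hθ (O.Uv_θ hz π)).trans (mul_le_mul_of_nonneg_right h.c1 (sq_nonneg _))
  have h2 : ⟪z.1, S.n z.1⟫ ^ 2 ≤ 2 * π.R ^ 2 := by
    simpa [norm_n (O.g1 hz)] using (inner_sq_le z.1 (S.n z.1)).trans
      (mul_le_mul_of_nonneg_right h.x (sq_nonneg _))
  rw [P_apply, inner_sub_right, real_inner_smul_right]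
  calc _ = ⟪S.n z.1, S.Uv π z⟫ ^ 2 * ⟪z.1, S.n z.1⟫ ^ 2 / 4 := by ring
    _ ≤ π.α ^ 2 * ‖S.Uv π z‖ ^ 2 * (2 * π.R ^ 2) / 4 := by gcongr
    _ = _ := by ring

theorem y3 (hπ : π.Rg) (x V : E) : (2 * Real.exp (-‖x‖ ^ 2 / 8) * fderiv ℝ π.ps x V) ^ 2 ≤
      32 * Cc ^ 2 * Real.exp (-π.R ^ 2 / 4) / π.R ^ 2 * ‖V‖ ^ 2 := by
  by_cases h0 : fderiv ℝ π.ps x V = 0
  · rw [h0, mul_zero, zero_pow two_ne_zero]; positivity
  have h1 : Real.exp (-‖x‖ ^ 2 / 8) ^ 2 ≤ Real.exp (-π.R ^ 2 / 4) := by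
    rw [← Real.exp_nat_mul]
    exact Real.exp_le_exp.2 (by push_cast; linarith [(hπ.fderiv_ps_ne h0).1])
  have h2 := hπ.fderiv_ps_sq x V
  calc _ = 4 * Real.exp (-‖x‖ ^ 2 / 8) ^ 2 * fderiv ℝ π.ps x V ^ 2 := by ring
    _ ≤ 4 * Real.exp (-π.R ^ 2 / 4) * (8 * Cc ^ 2 / π.R ^ 2 * ‖V‖ ^ 2) := by gcongr
    _ = _ := by ring

theorem y5 (hπ : π.Rg) (hW : Win Cw d₁ d₂ L th gb ga ch) (h : Su S π d₁ z) (hκ : κ ≤ 1)
    {a b : ℝ} (ha : 0 ≤ a ∧ a ≤ 1) (hb : 0 ≤ b ∧ b ≤ 1) (V : E) :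
    (a * S.o0 π z * b * (4 * deriv th (S.sq z) * ⟪S.Z z (S.Pv z), V⟫)) ^ 2 ≤
      64 * |Cw| * tb S π κ gb z * ‖V‖ ^ 2 := by
  have h1 : S.sq z * deriv th (S.sq z) ^ 2 ≤ |Cw| * gb (S.sq z) := by
    rcases (sq_nonneg' S z).eq_or_lt with h0 | h0
    · rw [← h0, zero_mul]; exact mul_nonneg (abs_nonneg _) (hW.gb0 _)
    · exact (hW.thg _ h0).trans (mul_le_mul_of_nonneg_right (le_abs_self _) (hW.gb0 _))
  have h2 : S.za π z = S.o0 π z := by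
    rw [za, hπ.pt_one h.x, ct_one (by linarith [h.d, hπ.ε1]), one_mul, mul_one]
  have h3 : 1 / 2 ≤ (1 + S.tt π z) ^ (-κ) := by
    refine le_trans ?_ (Real.rpow_le_rpow_of_exponent_le (by linarith [h.t0]) (neg_le_neg hκ))
    rw [Real.rpow_neg_one, one_div]
    exact inv_anti₀ (by linarith [h.t0]) (by linarith [h.t1])
  have h4 : 1 ≤ 4 * ((1 + S.tt π z) ^ (-κ)) ^ 2 := by nlinarith
  have h5 := inner_apply_sq_le (S.Z z) (S.Pv z) V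
  have h6 : (a * b) ^ 2 ≤ 1 := pow_le_one₀ (mul_nonneg ha.1 hb.1) (mul_le_one₀ ha.2 hb.1 hb.2)
  have h7 := hs_nonneg (S.Z z)
  have h8 := hW.gb0 (S.sq z)
  calc _ = 16 * (a * b) ^ 2 * S.o0 π z ^ 2 * deriv th (S.sq z) ^ 2 * ⟪S.Z z (S.Pv z), V⟫ ^ 2 := by
        ring
    _ ≤ 16 * 1 * S.o0 π z ^ 2 * deriv th (S.sq z) ^ 2 * (hs (S.Z z) * S.sq z * ‖V‖ ^ 2) := by
        gcongr
        exact h5
    _ = 16 * S.o0 π z ^ 2 * 1 * (S.sq z * deriv th (S.sq z) ^ 2) * hs (S.Z z) * ‖V‖ ^ 2 := by ring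
    _ ≤ 16 * S.o0 π z ^ 2 * (4 * ((1 + S.tt π z) ^ (-κ)) ^ 2) * (|Cw| * gb (S.sq z)) *
          hs (S.Z z) * ‖V‖ ^ 2 := by
        have := sq_nonneg' S z
        gcongr
    _ = _ := by rw [tb, h2]; ring

theorem tb_nonneg (hW : Win Cw d₁ d₂ L th gb ga ch) (z : Q) : 0 ≤ tb S π κ gb z :=
  mul_nonneg (mul_nonneg (sq_nonneg _) (hW.gb0 _)) (hs_nonneg _)

/-- the pointwise bound on the support of the weight -/
theorem pt (gd : GD) (gx : GX) (hS : S.Ok) (hπ : π.Rg) (hW : Win Cw d₁ d₂ L th gb ga ch)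
    (hη : Differentiable ℝ η) (η01 : ∀ x, 0 ≤ η x ∧ η x ≤ 1) (hz : z ∈ S.O) (hθ : ‖z.2.1‖ = 1)
    (hd : Df S π z) (h : Su S π d₁ z) (hκ : κ ≤ 1) (hxi : deriv π.xi z.2.2 = 0)
    (hN : 0 ≤ S.N π z) :
    h0 S π η th z ≤ 280 * (6400 * (π.α ^ 2 + d₁ ^ 2) * S.A2 (yy z) + π.α ^ 2 * π.R ^ 2 / 2 +
      32 * Cc ^ 2 * Real.exp (-π.R ^ 2 / 4) / π.R ^ 2 + 4 * ‖gradient η z.1‖ ^ 2 +
      64 * |Cw| * tb S π κ gb z + 100 * π.α ^ 2 * S.A2 z.1) + 437 * ‖S.lv z‖ ^ 2 +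
      12 * Cc * d₁ * (‖S.DG (S.N π) z‖ ^ 2 + 2 * S.N π z / π.ε ^ 2) := by
  have hg := O.g1 hz
  have hc : 1 / 2 ≤ S.cs1 z := by linarith [h.c1, hπ.α2.2]
  have hU : S.Uv π z = S.gt π z - S.tt π z • S.lv z := by rw [gt, add_sub_cancel_right]
  have hV := norm_P_le hg (S.Uv π z)
  have e1 : ⟪S.gt π z, S.P z.1 (S.Uv π z)⟫ =
      ⟪S.P z.1 (S.gt π z), S.gt π z⟫ - S.tt π z * ⟪S.P z.1 (S.lv z), S.gt π z⟫ := by
    rw [← P_sym, hU, inner_sub_right, real_inner_smul_right, P_sym S z.1 (S.lv z),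
      real_inner_comm (S.lv z)]
  have e2 : ⟪S.P z.1 (S.lv z), S.Uv π z⟫ =
      ⟪S.P z.1 (S.lv z), S.gt π z⟫ - S.tt π z * ⟪S.P z.1 (S.lv z), S.lv z⟫ := by
    rw [hU, inner_sub_right, real_inner_smul_right]
  have e3 : S.kk z / π.ε * (S.vs (yy z) z.2.1 - S.vs z.1 z.2.1) =
      S.kk z / π.ε * trc (S.P z.1 ∘L S.Z z) +
      S.kk z / π.ε * trc ((S.P (yy z) - S.P z.1) ∘L S.X2 z) + (S.tt π z - ⟪z.1, S.Uv π z⟫) / 2 := by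
    rw [gx.vv S z hS hz, Uv, real_inner_smul_right, tt]; ring
  obtain ⟨er, e4, y7⟩ : ∃ er, ∑ i, S.D (ee i) (fun z => S.P z.1 (S.Uv π z) i) z =
      S.kk z / π.ε * trc (S.P z.1 ∘L S.Z z) + ⟪S.P z.1 (S.lv z), S.Uv π z⟫ + er ∧
      er ^ 2 ≤ 100 * π.α ^ 2 * S.A2 z.1 * ‖S.Uv π z‖ ^ 2 :=
    ⟨_, (add_sub_cancel _ _).symm, (gx.dU S π z hS hz hθ hc).trans (by
      have := A2_nonneg S z.1
      gcongr
      exact h.c1)⟩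
  have th01 : 0 ≤ th (S.sq z) ∧ th (S.sq z) ≤ 1 := ⟨hW.th0 _, hW.th1 _⟩
  have w01 : 0 ≤ π.W0 z.1 ∧ π.W0 z.1 ≤ 1 := ⟨Par.W0_nonneg _, Par.W0_le _⟩
  have o01 := o0_mem S π z
  have hA1 := A2_nonneg S z.1
  have hA2 := A2_nonneg S (yy z)
  have htb : 0 ≤ tb S π κ gb z := tb_nonneg hW z
  have hd1 : 0 ≤ d₁ := by linarith [hW.d0, hW.d12]
  rw [h0_eq gd hS hz hd (dv_rr gd hS hz hd hη (hW.sth.differentiable (by simp)) (g_P hg _)),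
    e3, e4, e1, ← P_sym S z.1 (S.lv z), e2, hxi, Par.dK0_zero h.c2, Par.fderiv_W0]
  simp only [zero_mul, mul_zero, add_zero]
  refine le_trans (le_of_eq ?_) (alg (r := rr S π η th z) (o := S.o0 π z) rfl rfl
    (mul_nonneg (mul_nonneg (mul_nonneg w01.1 o01.1) (η01 _).1) th01.1)
    (mul_le_one₀ (mul_le_one₀ (mul_le_one₀ w01.2 o01.1 o01.2) (η01 _).1 (η01 _).2) th01.1 th01.2)
    (G1_sq_le h.t0) (by nlinarith [neg_G1_le h.t0, G1_nonpos (S.tt π z)]) (G1_nonpos _)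
    (G2_le h.t0) h.t0 h.t1 (inner_P_nonneg hg (S.gt π z)) (sq_nonneg ‖S.lv z‖)
    (sq_nonneg ‖S.Uv π z‖) ?_ (inner_P_sq_le hg (S.lv z) (S.gt π z)) (inner_P_nonneg hg (S.lv z))
    (Par.B0_nonneg _) (π.dB0_nonneg (S.cs1 z)) (cs1_nonneg S z)
    (by positivity) (y1 gx hS hπ hz hθ h) (by positivity) (y2 hz hθ h)
    (by positivity) ((sq3 o01 (η01 _) th01).trans
      ((y3 hπ z.1 (S.P z.1 (S.Uv π z))).trans (by gcongr)))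
    (eV := fderiv ℝ η z.1 (S.P z.1 (S.Uv π z))) (by positivity) ((sq3 w01 o01 th01).trans ?_)
    (by positivity) ((y5 hπ hW h hκ w01 (η01 _) (S.P z.1 (S.Uv π z))).trans (by gcongr)) ?_
    (by positivity) y7
    (kT := S.kk z / π.ε * trc (S.P z.1 ∘L S.Z z))
    (occ (abs_G1_le h.t0) ?_ ?_ (ct_nonneg _) (ct_le_one _) (abs_dct_le (2 * S.N π z)) hN
      (fun h0 => (dct_ne h0).1) (sq_nonneg _) (D_sq_le S (S.N π) z (S.P z.1 (S.Uv π z))) hd1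
      (hV.trans ?_)))
  · ring
  · rw [hU]
    have h1 := norm_sub_sq_le (S.gt π z) (S.tt π z • S.lv z)
    have h2 := O.gt_sq_le hz hθ hc π
    have h3 : S.tt π z ^ 2 ≤ 1 := pow_le_one₀ h.t0 h.t1
    rw [norm_smul, mul_pow, Real.norm_eq_abs, sq_abs] at h1
    nlinarith [sq_nonneg ‖S.lv z‖]
  · rw [← inner_grad, mul_pow]
    have := (inner_sq_le (gradient η z.1) _).trans (mul_le_mul_of_nonneg_left hV (sq_nonneg _))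
    linarith
  · rw [← e2, P_sym]
    exact (inner_sq_le _ _).trans (mul_le_mul_of_nonneg_left hV (sq_nonneg _))
  · exact mul_nonneg (mul_nonneg (mul_nonneg w01.1 (mul_nonneg (mul_nonneg (Par.B0_nonneg _)
      (Par.K0_nonneg _)) (Par.xi_nonneg _))) (η01 _).1) th01.1
  · exact mul_le_one₀ (mul_le_one₀ (mul_le_one₀ w01.2 (mul_nonneg (mul_nonneg (Par.B0_nonneg _)
      (Par.K0_nonneg _)) (Par.xi_nonneg _)) (mul_le_one₀ (mul_le_one₀ (Par.B0_le _)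
      (Par.K0_nonneg _) (Par.K0_le _)) (Par.xi_nonneg _) (Par.xi_le _))) (η01 _).1 (η01 _).2)
      th01.1 th01.2
  · rw [norm_Uv]
    have := mul_le_mul (cs1_le S hθ) h.sq (sq_nonneg' S z) zero_le_one
    gcongr
    linarith

end Vale.Agent.P218M1.Ma
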