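import Vale.Agent.P218M1.MaB
import Vale.Agent.P218M1.Swp
import Vale.Agent.P218M1.Me

/-!
# P218M1: regularity of the integrands of the main term, linearity of the integral
-/

open MeasureTheory Metric Filter Topology Set
open scoped ContDiff RealInnerProductSpace ENNReal

noncomputable section

namespace Vale.Agent.P218M1.Ma

open Sf

variable {S : Sf} {π : Par} {η : E → ℝ} {th : ℝ → ℝ} {z : Q} {k : ℕ} {a v : Q → E}

theorem cθ : ContDiffAt ℝ k (fun z : Q => z.2.1) z := by fun_prop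
theorem cd : ContDiffAt ℝ k (fun z : Q => z.2.2) z := by fun_prop
theorem cy : ContDiffAt ℝ k yy z := by unfold yy; fun_prop

theorem cf {F : Type} [NormedAddCommGroup F] [NormedSpace ℝ F] {f : E → F} (hf : ContDiff ℝ ∞ f)
    (ha : ContDiffAt ℝ k a z) : ContDiffAt ℝ k (fun z => f (a z)) z :=
  (hf.of_le (cast_le_inf k)).contDiffAt.comp z ha

theorem cr {f : ℝ → ℝ} {b : Q → ℝ} (hf : ContDiff ℝ k f) (hb : ContDiffAt ℝ k b z) :
    ContDiffAt ℝ k (fun z => f (b z)) z := hf.contDiffAt.comp z hb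

theorem cco (i : Fin 3) (hv : ContDiffAt ℝ k v z) : ContDiffAt ℝ k (fun z => v z i) z := by
  simpa only [inner_ee] using hv.inner ℝ (contDiffAt_const (c := ee i))

theorem cn (hS : S.Ok) (ha : ContDiffAt ℝ k a z) (h : S.g (a z) ≠ 0) :
    ContDiffAt ℝ k (fun z => S.n (a z)) z :=
  (((cf hS.sg ha).norm ℝ h).inv (norm_ne_zero_iff.2 h)).smul (cf hS.sg ha)

theorem ccc (hS : S.Ok) (ha : ContDiffAt ℝ k a z) (h : S.g (a z) ≠ 0) :
    ContDiffAt ℝ k (fun z => S.cc (a z) z.2.1) z := (cn hS ha h).inner ℝ cθ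

theorem cp (hS : S.Ok) (ha : ContDiffAt ℝ k a z) (h : S.s (a z) z.2.1 ≠ 0) :
    ContDiffAt ℝ k (fun z => S.p (a z) z.2.1) z :=
  (((cf hS.sg ha).inner ℝ cθ).inv h).smul (cf hS.sg ha)

theorem cP (hS : S.Ok) (ha : ContDiffAt ℝ k a z) (h : S.g (a z) ≠ 0) (hv : ContDiffAt ℝ k v z) :
    ContDiffAt ℝ k (fun z => S.P (a z) (v z)) z := by
  simp only [P_apply]
  exact hv.sub (((cn hS ha h).inner ℝ hv).smul (cn hS ha h))

theorem cX (hS : S.Ok) (ha : ContDiffAt ℝ k a z) (h : S.s (a z) z.2.1 ≠ 0)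
    (hv : ContDiffAt ℝ k v z) : ContDiffAt ℝ k (fun z => S.X (a z) z.2.1 (v z)) z := by
  have h1 : ContDiffAt ℝ k (fun z => S.D2 (a z) (S.Pi (a z) z.2.1 (v z))) z := by
    simp only [Pi_apply]
    exact (cf hS.sD2 ha).clm_apply (hv.sub (((cp hS ha h).inner ℝ hv).smul cθ))
  simp only [X_apply, Pt_apply]
  exact (((cf hS.sg ha).inner ℝ cθ).inv h).neg.smul (h1.sub ((cθ.inner ℝ h1).smul (cp hS ha h)))

theorem cvs (hS : S.Ok) (ha : ContDiffAt ℝ k a z) (h : S.s (a z) z.2.1 ≠ 0) :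
    ContDiffAt ℝ k (fun z => S.vs (a z) z.2.1) z := by
  have hg := g_ne h
  simp only [vs, φ, H, trc, A_apply]
  exact ((ContDiffAt.sum fun i _ => cco i
    ((((cf hS.sg ha).norm ℝ hg).inv (norm_ne_zero_iff.2 hg)).neg.smul (cP hS ha hg
      ((cf hS.sD2 ha).clm_apply (cP hS ha hg contDiffAt_const))))).add
    ((ha.inner ℝ (cn hS ha hg)).div_const 2)).div (ccc hS ha hg) (cc_ne h)

variable (hS : S.Ok) (hz : z ∈ S.O)
include hS hz

theorem c1 : ContDiffAt ℝ k S.cs1 z := (ccc hS contDiffAt_fst (O.g1 hz)).pow 2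
theorem c2 : ContDiffAt ℝ k S.cs2 z := (ccc hS cy (O.g2 hz)).pow 2
theorem ck : ContDiffAt ℝ k S.kk z := (ccc hS contDiffAt_fst (O.g1 hz)).abs (cc_ne hz.1)
theorem cPv : ContDiffAt ℝ k S.Pv z := (cp hS contDiffAt_fst hz.1).sub (cp hS cy hz.2.1)
theorem csq : ContDiffAt ℝ k S.sq z := (cPv hS hz).norm_sq ℝ
theorem ctt : ContDiffAt ℝ k (S.tt π) z := (cd.mul (ck hS hz)).div_const _
theorem cU : ContDiffAt ℝ k (S.Uv π) z := ((ck hS hz).div_const _).smul (cPv hS hz)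
theorem clv : ContDiffAt ℝ k S.lv z :=
  (c1 hS hz).smul (cX hS contDiffAt_fst hz.1 (cp hS contDiffAt_fst hz.1))
theorem cgt : ContDiffAt ℝ k (S.gt π) z := (cU hS hz).add ((ctt hS hz).smul (clv hS hz))
theorem chZ : ContDiffAt ℝ k (fun z => hs (S.Z z)) z :=
  ContDiffAt.sum fun _ _ => ((cX hS cy hz.2.1 contDiffAt_const).sub
    (cX hS contDiffAt_fst hz.1 contDiffAt_const)).norm_sq ℝ

theorem cN (nsc : NSC) (hπ : π.Rg) : ContDiffAt ℝ k (S.N π) z :=
  nsc.sm S π k _ hS hπ ⟨fun _ hz => (cr Par.sg0_cd (c2 hS hz)).pow 2, fun z _ h => by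
    rw [hπ.sg0_zero (by linarith [hπ.η2.1]), zero_pow two_ne_zero]⟩ z hz

theorem cct (nsc : NSC) (hπ : π.Rg) : ContDiffAt ℝ k (fun z => ct (2 * S.N π z)) z :=
  cr ct_cd (contDiffAt_const.mul (cN hS hz nsc hπ))

theorem co0 (nsc : NSC) (hπ : π.Rg) : ContDiffAt ℝ k (S.o0 π) z :=
  (((cr Par.B0_cd (c1 hS hz)).mul (cr Par.K0_cd (c2 hS hz))).mul (cct hS hz nsc hπ)).mul
    (cr Par.xi_cd cd)

theorem df (nsc : NSC) (hπ : π.Rg) : Df S π z where
  c1 := (c1 (k := 1) hS hz).differentiableAt (by simp)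
  c2 := (c2 (k := 1) hS hz).differentiableAt (by simp)
  N := (cN (k := 1) hS hz nsc hπ).differentiableAt (by simp)
  sq := (csq (k := 1) hS hz).differentiableAt (by simp)
  tt := (ctt (k := 1) hS hz).differentiableAt (by simp)
  PU i := (cco (k := 1) i (cP hS contDiffAt_fst (O.g1 hz) (cU hS hz))).differentiableAt (by simp)

omit hS hz

/-! ### the support -/

theorem box_of (hπ : π.Rg) (hx : ‖z.1‖ ≤ 2 * π.R) (h : S.o0 π z ≠ 0) (hd : z.2.2 ≤ 2) :
    S.Box π z := by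
  simp only [o0, mul_ne_zero_iff] at h
  exact ⟨by linarith [hπ.R0], (hπ.xi_ne h.2).le, hd, by linarith [hπ.B0_ne h.1.1.1, hπ.α2.2],
    by linarith [Par.K0_ne h.1.1.2, hπ.η2.2]⟩

theorem box_of' (hπ : π.Rg) (hx : π.W0 z.1 ≠ 0) (h : S.o0 π z ≠ 0) (ht : S.tt π z < 1) :
    S.Box π z := by
  refine box_of hπ (hπ.norm_le (hπ.W0_ne hx).le) h ?_
  simp only [o0, mul_ne_zero_iff] at h
  have h1 := hπ.B0_ne h.1.1.1
  have h2 := (div_lt_one hπ.ε0).1 ht
  have h3 : 1 / 2 ≤ S.kk z :=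
    (abs_le_of_sq_le_sq' (by rw [kk_sq]; linarith [hπ.α2.2]) (kk_nonneg S z)).2
  by_contra h4
  nlinarith [hπ.ε1]

/-- integrands which contain the factors `W0`, `o0` and vanish for `t ≥ 1` -/
theorem cl_of (hπ : π.Rg) {f : Q → ℝ} (h1 : S.Sm k f)
    (h2 : ∀ z, π.W0 z.1 = 0 ∨ S.o0 π z = 0 ∨ 1 ≤ S.tt π z → f z = 0) : S.Cl π k f :=
  ⟨h1, fun z _ _ hb => h2 z (by
    by_contra h
    simp only [not_or, not_le] at h
    exact hb (box_of' hπ h.1 h.2.1 h.2.2))⟩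

/-! ### linearity -/

variable {f g : Q → ℝ}

theorem cl_add (hf : S.Cl π k f) (hg : S.Cl π k g) : S.Cl π k fun z => f z + g z :=
  ⟨fun z hz => (hf.sm z hz).add (hg.sm z hz), fun z h1 h2 h3 => by
    rw [hf.bx z h1 h2 h3, hg.bx z h1 h2 h3, add_zero]⟩

theorem cl_mul (c : ℝ) (hf : S.Cl π k f) : S.Cl π k fun z => c * f z :=
  ⟨fun z hz => contDiffAt_const.mul (hf.sm z hz), fun z h1 h2 h3 => by
    rw [hf.bx z h1 h2 h3, mul_zero]⟩

theorem RS_add (hS : S.Ok) (hπ : π.Rg) (hf : S.Cl π k f) (hg : S.Cl π k g) {x : E}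
    (hx : S.g x ≠ 0) (θ : E) : S.RS (fun z => f z + g z) x θ = S.RS f x θ + S.RS g x θ := by
  have key : ∀ {f : Q → ℝ}, S.Cl π k f →
      ({d | S.w (x + d • θ) = 0} ∩ Function.support fun d => f (x, θ, d)).Finite := fun hf =>
    (Swp.fin hS x θ (π.ρ / 2) 2 (half_pos hπ.η2.1)).subset fun d hd => by
      have hb : S.Box π (x, θ, d) := by_contra fun h => hd.2 (hf.bx _ hx (hS.reg _ hd.1) h)
      exact ⟨⟨hb.2.1, hb.2.2.1⟩, hd.1, hb.2.2.2.2⟩
  exact finsum_mem_add_distrib' (key hf) (key hg)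

theorem II_add (ca : CA) (hS : S.Ok) (hπ : π.Rg) (hf : S.Cl π 0 f) (hg : S.Cl π 0 g) :
    S.II (fun z => f z + g z) = S.II f + S.II g := by
  rw [II, II, II, ← integral_add (ca.avi S π f hS hπ hf) (ca.avi S π g hS hπ hg)]
  refine integral_congr_ae (hS.sup.mono fun x hx => ?_)
  have hx := hS.reg x hx
  simp only [AV, RS_add hS hπ hf hg hx, mul_add]
  exact integral_add (ca.iu S π f x hS hπ hf hx) (ca.iu S π g x hS hπ hg hx)

theorem RS_mul (S : Sf) (c : ℝ) (f : Q → ℝ) (x θ : E) :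
    S.RS (fun z => c * f z) x θ = c * S.RS f x θ := by
  rw [RS, RS, mul_finsum]
  exact finsum_congr fun d => by by_cases h : S.w (x + d • θ) = 0 <;> simp [h]

theorem II_mul (S : Sf) (c : ℝ) (f : Q → ℝ) : S.II (fun z => c * f z) = c * S.II f := by
  simp only [II, AV, RS_mul, ← integral_const_mul]
  refine integral_congr_ae (Eventually.of_forall fun x => integral_congr_ae
    (Eventually.of_forall fun u => ?_))
  ring

end Vale.Agent.P218M1.Ma
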