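import Vale.Agent.P218M1.Spec

/-!
# P218M1: the choice of the constants in the main inequality
-/

open Set

noncomputable section

namespace Vale.Agent.P218M1.Main

theorem arith {A P S1 S2 Sg M0 Et Bb Tb Hw Mm T0 X Y t s u d a₁ a₂ a₃ q CH CS CA CB Cb CT : ℝ}
    (A0 : 0 ≤ A) (S0 : 0 ≤ S2) (t0 : 0 < t) (s0 : 0 < s) (c2 : 0 < CS)
    (c3 : 0 < CA) (c4 : 0 < CB) (hH : Hw ≤ t * (Sg + A) + CH * P) (hS : Sg ≤ 2 * S2 + CS * X)
    (hM : Mm ≤ M0 + t * X + CS / t * P) (hX : X ≤ Y * A)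
    (hA : M0 ≤ -S1 - 9 / 10 * S2 + Et + T0 + CA * ((a₁ + 2 * u) * A + Tb))
    (hE : Et ≤ S2 / 10 + CB * (a₂ * A + Bb / s + (3 * u + a₃) * A))
    (hB : Bb ≤ Cb * (P + 4 * u * A + u * S2)) (hT : Tb ≤ CT * (P / d + 5 * u * A))
    (e1 : t ≤ 1 / 20) (e2 : CB * Cb / s * u ≤ 1 / 5) (e3 : t * (1 + (CS + 1) * Y) ≤ q)
    (e4 : CA * a₁ ≤ q) (e5 : CB * a₂ ≤ q) (e6 : CB * a₃ ≤ q)
    (e7 : (2 * CA + 5 * (CA * CT) + 4 * (CB * Cb / s) + 3 * CB) * u ≤ q) :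
    Hw + Mm ≤ -S1 - S2 / 2 + T0 + 5 * q * A +
      (CH + CS / t + CA * CT / d + CB * Cb / s) * P := by
  have h1 := mul_le_mul_of_nonneg_left hS t0.le
  have h2 := mul_le_mul_of_nonneg_left hX (show 0 ≤ t * (CS + 1) by positivity)
  have h3 := mul_le_mul_of_nonneg_left hT c3.le
  have h4 := mul_le_mul_of_nonneg_left hB (show 0 ≤ CB / s by positivity)
  have h5 := mul_le_mul_of_nonneg_right e1 S0
  have h6 := mul_le_mul_of_nonneg_right e2 S0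
  have h7 := mul_le_mul_of_nonneg_right e3 A0
  have h8 := mul_le_mul_of_nonneg_right e4 A0
  have h9 := mul_le_mul_of_nonneg_right e5 A0
  have h10 := mul_le_mul_of_nonneg_right e6 A0
  have h11 := mul_le_mul_of_nonneg_right e7 A0
  simp only [div_eq_mul_inv] at *
  linarith

theorem win {u R x : ℝ} (u0 : 0 < u) (u1 : u ≤ 1 / 2) (x0 : 0 < x) (x1 : x ≤ u / (R ^ 2 + 1)) :
    x ≤ u ∧ 1 ≤ (R ^ 2 + 1) / u / x ∧ x ^ 2 * R ^ 2 ≤ u ∧ 1 / ((R ^ 2 + 1) / u / x * x) ≤ u ∧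
      R ^ 2 / ((R ^ 2 + 1) / u / x) ^ 2 + 1 / ((R ^ 2 + 1) / u / x) ^ 2 ≤ u := by
  have r := sq_nonneg R
  have D1 : u / (R ^ 2 + 1) ≤ u := div_le_self u0.le (by linarith)
  have h1 : (R ^ 2 + 1) / u ≤ (R ^ 2 + 1) / u / x := le_div_self (by positivity) x0 (by linarith)
  have h2 : 1 ≤ (R ^ 2 + 1) / u / x := le_trans (by rw [le_div_iff₀ u0]; linarith) h1
  refine ⟨x1.trans D1, h2, ?_, by rwa [div_mul_cancel₀ _ x0.ne', one_div_div], ?_⟩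
  · have := mul_le_mul_of_nonneg_left (show x ≤ 1 by linarith) (mul_nonneg x0.le r)
    rw [le_div_iff₀ (by positivity)] at x1
    linarith
  · generalize (R ^ 2 + 1) / u / x = L at h1 h2
    rw [div_le_iff₀ u0] at h1
    rw [← add_div, div_le_iff₀ (by positivity)]
    nlinarith [mul_le_mul_of_nonneg_left h2 (show 0 ≤ L * u by positivity)]

theorem arith2 {A P S1 S2 Sg M0 Et Bb Tb Hw Mm T0 GE AE En Ca t s u d x y L α ε w b R Λ de CH CS CA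
    CB Cb CT : ℝ} (A0 : 0 ≤ A) (P0 : 0 ≤ P) (S0 : 0 ≤ S2) (t0 : 0 < t) (s0 : 0 < s) (c2 : 0 < CS)
    (c3 : 0 < CA) (c4 : 0 < CB) (c5 : 0 < Cb) (c6 : 0 < CT) (u0 : 0 < u) (u1 : u ≤ 1 / 2)
    (d0 : 0 < d) (dy : d ≤ y) (x0 : 0 < x) (ε0 : 0 < ε) (b0 : 0 < b) (b1 : b ≤ 1) (α0 : 0 < α)
    (Λ0 : 0 ≤ Λ) (α1 : α ≤ b ^ 2) (b2 : (CA * R ^ 2 + CB * (1 + Λ)) * b ≤ de / 5)
    (s1 : CB * s ≤ de / 5) (ε1 : ε ≤ u) (w1 : w ≤ u * d ^ 2) (x1 : x ≤ u)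
    (x2 : x ^ 2 * R ^ 2 ≤ u) (L1 : 1 / (L * x) ≤ u) (L2 : R ^ 2 / L ^ 2 + 1 / L ^ 2 ≤ u)
    (e1 : t ≤ 1 / 20) (e3 : (1 + (CS + 1) * (Ca + 1 / d ^ 4)) * t ≤ de / 5 * α ^ 2)
    (e2 : (2 * CA + 5 * (CA * CT) + 4 * (CB * Cb / s) + 3 * CB) * u ≤ min (1 / 2) (de / 5 * α ^ 2))
    (g1 : GE ≤ u * A) (g2 : AE ≤ Ca * ε ^ 2 * A) (g3 : En ≤ u * A)
    (hH : Hw ≤ t * (Sg + A) + CH * P) (hS : Sg ≤ 2 * S2 + CS * (AE / ε ^ 2 + A / d ^ 4))
    (hM : Mm ≤ M0 + t * (AE / ε ^ 2 + A / d ^ 4) + CS / t * P)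
    (hA : M0 ≤ -S1 - 9 / 10 * S2 + Et + T0 + CA * ((α ^ 4 * R ^ 2 + x) * A + α ^ 2 * GE + Tb))
    (hE : Et ≤ S2 / 10 + CB * (s * α ^ 2 * A + Bb / s +
      (x + α ^ 2 / L ^ 2 + u * d ^ 2 / y ^ 2 + α ^ 2 * √α * (1 + Λ)) * A))
    (hB : Bb ≤ Cb * (P + A * (x ^ 2 * R ^ 2 + ε ^ 2 + 1 / L ^ 2) + x ^ 2 * GE + x ^ 2 * S2))
    (hT : Tb ≤ CT * (P / y ^ 2 + A * (R ^ 2 / L ^ 2 + w / y ^ 2 + 1 / (L * x) +
      u * d ^ 4 / y ^ 4) + En)) :
    Hw + Mm ≤ -S1 - S2 / 2 + T0 + de * α ^ 2 * A +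
      (CH + CS / t + CA * CT / d ^ 2 + CB * Cb / s) * P := by
  have y0 : 0 < y := d0.trans_le dy
  have y5 : 0 ≤ R ^ 2 / L ^ 2 := by positivity
  have y6 : 0 ≤ 1 / L ^ 2 := by positivity
  have z3 : u * d ^ 2 / y ^ 2 ≤ u := by rw [div_le_iff₀ (by positivity)]; gcongr
  have z4 : u * d ^ 4 / y ^ 4 ≤ u := by rw [div_le_iff₀ (by positivity)]; gcongr
  have z5 : w / y ^ 2 ≤ u := le_trans (by gcongr) z3
  have x3 : x ^ 2 ≤ u := (pow_le_of_le_one x0.le (by linarith only [x1, u1]) two_ne_zero).trans x1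
  have ε2 : ε ^ 2 ≤ u := (pow_le_of_le_one ε0.le (by linarith only [ε1, u1]) two_ne_zero).trans ε1
  have α5 : α ≤ b := α1.trans (pow_le_of_le_one b0.le b1 two_ne_zero)
  have α2 : α ^ 2 ≤ b := (pow_le_of_le_one α0.le (α5.trans b1) two_ne_zero).trans α5
  have α3 : √α ≤ b := Real.sqrt_le_left b0.le |>.2 α1
  have uA := mul_nonneg u0.le A0
  refine (arith (Y := Ca + 1 / d ^ 4) (u := u) (a₁ := α ^ 4 * R ^ 2) (a₃ := α ^ 2 * √α * (1 + Λ))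
    (q := de / 5 * α ^ 2) (d := d ^ 2) A0 S0 t0 s0 c2 c3 c4 hH hS hM ?_
    (hA.trans (add_le_add_right (mul_le_mul_of_nonneg_left ?_ c3.le) _))
    (hE.trans (add_le_add_right (mul_le_mul_of_nonneg_left
      (add_le_add_right (mul_le_mul_of_nonneg_right ?_ A0) _) c4.le) _))
    (hB.trans (mul_le_mul_of_nonneg_left ?_ c5.le)) (hT.trans (mul_le_mul_of_nonneg_left ?_ c6.le))
    e1 ?_ (mul_comm t _ ▸ e3) ?_ ?_ ?_ (e2.trans (min_le_right _ _))).trans_eq (by ring)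
  · rw [add_mul, one_div_mul_eq_div]
    refine add_le_add_left ?_ _
    rw [div_le_iff₀ (by positivity)]
    linarith only [g2]
  · linarith only [mul_le_mul_of_nonneg_left g1 (sq_nonneg α),
      mul_le_mul_of_nonneg_right (α2.trans b1) uA, mul_le_mul_of_nonneg_right x1 A0]
  · have : α ^ 2 / L ^ 2 ≤ 1 / L ^ 2 := by gcongr; exact α2.trans b1
    linarith only [this, x1, L2, y5, z3]
  · linarith only [mul_le_mul_of_nonneg_left g1 (sq_nonneg x), mul_le_mul_of_nonneg_right x3 S0,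
      mul_le_mul_of_nonneg_right (show x ^ 2 ≤ 1 by linarith only [x3, u1]) uA,
      mul_le_mul_of_nonneg_left (show x ^ 2 * R ^ 2 + ε ^ 2 + 1 / L ^ 2 ≤ 3 * u by
        linarith only [x2, ε2, L2, y5]) A0]
  · have : P / y ^ 2 ≤ P / d ^ 2 := by gcongr
    linarith only [this, g3, mul_le_mul_of_nonneg_left (show R ^ 2 / L ^ 2 + w / y ^ 2 +
      1 / (L * x) + u * d ^ 4 / y ^ 4 ≤ 4 * u by linarith only [L1, L2, y6, z4, z5]) A0]
  · have : 0 ≤ (2 * CA + 5 * (CA * CT) + 3 * CB) * u := by positivity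
    linarith only [this, e2.trans (min_le_left _ _)]
  · have h1 := mul_le_mul_of_nonneg_left α2 (show 0 ≤ CA * R ^ 2 by positivity)
    have h2 : 0 ≤ CB * (1 + Λ) * b := by positivity
    calc _ = CA * R ^ 2 * α ^ 2 * α ^ 2 := by ring
      _ ≤ _ := mul_le_mul_of_nonneg_right (by linarith only [h1, h2, b2]) (sq_nonneg α)
  · rw [← mul_assoc]
    exact mul_le_mul_of_nonneg_right s1 (sq_nonneg α)
  · have h1 := mul_le_mul_of_nonneg_left α3 (show 0 ≤ CB * (1 + Λ) by positivity)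
    have h2 : 0 ≤ CA * R ^ 2 * b := by positivity
    calc _ = CB * (1 + Λ) * √α * α ^ 2 := by ring
      _ ≤ _ := mul_le_mul_of_nonneg_right (by linarith only [h1, h2, b2]) (sq_nonneg α)

theorem exists_small {a b : ℝ} (ha : 0 ≤ a) (hb : 0 < b) : ∃ t, 0 < t ∧ t ≤ b ∧ a * t ≤ b :=
  ⟨b / (a + 1), by positivity, div_le_self hb.le (by linarith), by
    rw [← mul_div_assoc, div_le_iff₀ (by positivity)]; nlinarith⟩

/-- the upper ends of the windows -/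
def sq (D M : ℝ) : ℕ → ℝ
  | 0 => D
  | k + 1 => sq D M k * Real.exp (-(M / sq D M k)) / 4

variable {D M : ℝ}

theorem sq_pos (hD : 0 < D) : ∀ k, 0 < sq D M k
  | 0 => hD
  | k + 1 => by have := sq_pos hD k; unfold sq; positivity

theorem sq_anti (hD : 0 < D) (hM : 0 ≤ M) : Antitone (sq D M) :=
  antitone_nat_of_succ_le fun k => by
    have h := sq_pos (M := M) hD k
    have : Real.exp (-(M / sq D M k)) ≤ 1 := Real.exp_le_one_iff.2 (neg_nonpos.2 (by positivity))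
    rw [sq]
    nlinarith

/-- the windows are disjoint -/
theorem sum_le (hD : 0 < D) (hM : 0 ≤ M) {ch : ℕ → ℝ → ℝ} (h1 : ∀ k s, ch k s ≤ 1)
    (hz : ∀ k s, ch k s ≠ 0 → (sq D M k * Real.exp (-(M / sq D M k))) ^ 2 / 4 < s ∧
      s < 2 * sq D M k ^ 2) (n : ℕ) (s : ℝ) : ∑ k ∈ Finset.range n, ch k s ≤ 1 := by
  have key : ∀ j k, j < k → ch j s ≠ 0 → ch k s = 0 := fun j k hjk a => by_contra fun b => by
    have h2 := sq_anti hD hM (Nat.succ_le_of_lt hjk)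
    have h3 := pow_le_pow_left₀ (sq_pos hD k).le h2 2
    rw [sq, div_pow] at h3
    nlinarith [(hz j s a).1, (hz k s b).2, sq_nonneg (sq D M j * Real.exp (-(M / sq D M j)))]
  by_cases h : ∃ j, ch j s ≠ 0
  · obtain ⟨j, hj⟩ := h
    rw [Finset.sum_eq_ite j fun k _ hk => by_contra fun b =>
      (lt_or_gt_of_ne hk).elim (fun c => hj (key k j c b)) fun c => b (key j k c hj)]
    split_ifs
    exacts [h1 j s, zero_le_one]
  · push Not at h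
    simp [h]

end Vale.Agent.P218M1.Main
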