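import Vale.Agent.P218M1.Alg

/-!
# P218M1, row MB: the real inequality (helper57)
-/

set_option linter.all false

open Finset

namespace Vale.Agent.P218M1.Mb

theorem abs_sum_le {κ u : Fin 3 → ℝ} {k s : ℝ} (hκ : ∀ i, |κ i| ≤ k) (hs : ∑ i, |u i| ≤ s) :
    |∑ i, κ i * u i| ≤ k * s := by
  have hk : 0 ≤ k := (abs_nonneg _).trans (hκ 0)
  refine (abs_sum_le_sum_abs _ _).trans (le_trans (sum_le_sum fun i _ => ?_)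
    ((mul_sum _ _ _).symm.le.trans (mul_le_mul_of_nonneg_left hs hk)))
  rw [abs_mul]
  exact mul_le_mul_of_nonneg_right (hκ i) (abs_nonneg _)

theorem sum_abs_le {u : Fin 3 → ℝ} {s : ℝ} (hs : 0 ≤ s) (h : ∑ i, u i ^ 2 ≤ s ^ 2) :
    ∑ i, |u i| ≤ 2 * s := by
  rw [Fin.sum_univ_three] at h ⊢
  refine (abs_le_of_sq_le_sq' ?_ (by linarith)).2
  nlinarith [sq_abs (u 0), sq_abs (u 1), sq_abs (u 2), sq_nonneg (|u 0| - |u 1|),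
    sq_nonneg (|u 0| - |u 2|), sq_nonneg (|u 1| - |u 2|)]

theorem four (v X1 X2 X3 X4 : ℝ) :
    v * X1 + v * X2 + v * X3 + v * X4 ≤ 3 * v ^ 2 + (X1 ^ 2 + X2 ^ 2 + X3 ^ 2 + X4 ^ 2) / 3 := by
  nlinarith [sq_nonneg (3 * v - 2 * X1), sq_nonneg (3 * v - 2 * X2), sq_nonneg (3 * v - 2 * X3),
    sq_nonneg (3 * v - 2 * X4)]

theorem mul_le_of_abs {a b A B : ℝ} (ha : |a| ≤ A) (hb : |b| ≤ B) : |a * b| ≤ A * B := by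
  rw [abs_mul]
  exact mul_le_mul ha hb (abs_nonneg _) ((abs_nonneg _).trans ha)

theorem key {ω η c T y t c' G1 G2 l' l q σ γ ζ a b ρ d Cc t0 S1 S2 S3 S4 : ℝ}
    (ω0 : 0 ≤ ω) (ω1 : ω ≤ η) (η1 : η ≤ 1) (c0 : 0 ≤ c) (c1 : c ≤ 1) (T0 : 0 ≤ T) (T1 : T ≤ 1)
    (y0 : 0 ≤ y) (y1 : y ≤ 1) (g1 : |G1| ≤ 6 * y) (g2 : |G1 + t * G2| ≤ 36 * y)
    (hc : |c'| ≤ Cc) (q0 : 0 ≤ q) (σ0 : 0 ≤ σ) (γ0 : 0 ≤ γ) (l0 : 0 ≤ l) (a0 : 0 ≤ a) (b0 : 0 ≤ b)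
    (ρ0 : 0 ≤ ρ) (d0 : 0 ≤ d) (t00 : 0 < t0) (hl : |l'| ≤ l * q)
    (h1 : |S1| ≤ a * (2 * (σ * q)) + b * (2 * (σ * γ))) (h2 : |S2| ≤ ρ * (2 * (σ * q)))
    (h3 : |S3| ≤ 2 * (σ * ζ)) (h4 : |S4| ≤ d * (2 * (σ * q))) :
    ω ^ 2 * c ^ 2 * T ^ 2 * G1 * l' - (ω ^ 2 * (4 * c * c' * T ^ 2) * G1 * S1 +
      ω ^ 2 * (2 * c ^ 2 * T) * G1 * S2 + ω ^ 2 * c ^ 2 * T ^ 2 * (t * G1 * S3 + (G1 + t * G2) * S4)) ≤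
    3 * (ω * c * T * y * q) ^ 2 + ω ^ 2 * c ^ 2 * T ^ 2 * (t * G1) ^ 2 * ζ ^ 2 / t0 + t0 * σ ^ 2 +
      ((6 * l) ^ 2 + (72 * d * σ) ^ 2 + (24 * η * σ * ρ) ^ 2 + (48 * Cc * η * σ * a) ^ 2) / 3 +
      48 * Cc * η ^ 2 * (b * σ * γ) := by
  have Cc0 : 0 ≤ Cc := (abs_nonneg _).trans hc
  have η0 : 0 ≤ η := ω0.trans ω1
  set v := ω * c * T * y * q with hv
  have v0 : 0 ≤ v := by positivity
  have e1 : ω * c ≤ η := (mul_le_of_le_one_right ω0 c1).trans ω1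
  have e2 : ω * T ≤ η := (mul_le_of_le_one_right ω0 T1).trans ω1
  have e3 : ω * c * T ≤ 1 := (mul_le_of_le_one_right (by positivity) T1).trans (e1.trans η1)
  have e4 : (ω * c * T) ^ 2 ≤ 1 := pow_le_one₀ (by positivity) e3
  have p1 : ω ^ 2 * c ^ 2 * T ^ 2 * G1 * l' ≤ v * (6 * l) := by
    have := (le_abs_self _).trans (mul_le_of_abs g1 hl)
    calc _ = (ω * c * T) ^ 2 * (G1 * l') := by ring
      _ ≤ (ω * c * T) ^ 2 * (6 * y * (l * q)) := by gcongr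
      _ = v * (6 * l) * (ω * c * T) := by rw [hv]; ring
      _ ≤ v * (6 * l) := mul_le_of_le_one_right (by positivity) e3
  have p2 : -(ω ^ 2 * (4 * c * c' * T ^ 2) * G1 * S1) ≤
      v * (48 * Cc * η * σ * a) + 48 * Cc * η ^ 2 * (b * σ * γ) := by
    have := (neg_le_abs _).trans (mul_le_of_abs hc (mul_le_of_abs g1 h1))
    have e5 : (ω * T) ^ 2 * (c * y) ≤ η ^ 2 :=
      (mul_le_of_le_one_right (by positivity) (mul_le_one₀ c1 y0 y1)).trans (by gcongr)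
    calc _ = 4 * c * (ω * T) ^ 2 * -(c' * (G1 * S1)) := by ring
      _ ≤ 4 * c * (ω * T) ^ 2 * (Cc * (6 * y * (a * (2 * (σ * q)) + b * (2 * (σ * γ))))) := by
        gcongr
      _ = v * (48 * Cc * (ω * T) * σ * a) + 48 * Cc * ((ω * T) ^ 2 * (c * y)) * (b * σ * γ) := by
        rw [hv]; ring
      _ ≤ _ := by gcongr
  have p3 : -(ω ^ 2 * (2 * c ^ 2 * T) * G1 * S2) ≤ v * (24 * η * σ * ρ) := by
    have := (neg_le_abs _).trans (mul_le_of_abs g1 h2)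
    calc _ = 2 * (ω * c) ^ 2 * T * -(G1 * S2) := by ring
      _ ≤ 2 * (ω * c) ^ 2 * T * (6 * y * (ρ * (2 * (σ * q)))) := by gcongr
      _ = v * (24 * (ω * c) * σ * ρ) := by rw [hv]; ring
      _ ≤ _ := by gcongr
  have p4 : -(ω ^ 2 * c ^ 2 * T ^ 2 * (t * G1 * S3)) ≤
      ω ^ 2 * c ^ 2 * T ^ 2 * (t * G1) ^ 2 * ζ ^ 2 / t0 + t0 * σ ^ 2 := by
    have := (neg_le_abs _).trans (mul_le_of_abs (le_refl |t * G1|) h3)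
    have e5 : |t * G1| * (2 * (σ * ζ)) ≤ (t * G1) ^ 2 * ζ ^ 2 / t0 + t0 * σ ^ 2 := by
      have e6 : (t * G1) ^ 2 * ζ ^ 2 / t0 + t0 * σ ^ 2 - |t * G1| * (2 * (σ * ζ)) =
          (|t * G1| * ζ - t0 * σ) ^ 2 / t0 := by
        rw [← sq_abs (t * G1)]
        field_simp
        ring
      have : 0 ≤ (|t * G1| * ζ - t0 * σ) ^ 2 / t0 := by positivity
      linarith
    calc _ = (ω * c * T) ^ 2 * -(t * G1 * S3) := by ring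
      _ ≤ (ω * c * T) ^ 2 * ((t * G1) ^ 2 * ζ ^ 2 / t0 + t0 * σ ^ 2) := by
        gcongr
        exact this.trans e5
      _ = ω ^ 2 * c ^ 2 * T ^ 2 * (t * G1) ^ 2 * ζ ^ 2 / t0 + t0 * σ ^ 2 * (ω * c * T) ^ 2 := by
        ring
      _ ≤ _ := add_le_add le_rfl (mul_le_of_le_one_right (by positivity) e4)
  have p5 : -(ω ^ 2 * c ^ 2 * T ^ 2 * ((G1 + t * G2) * S4)) ≤ v * (72 * d * σ) := by
    have := (neg_le_abs _).trans (mul_le_of_abs g2 h4)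
    calc _ = (ω * c * T) ^ 2 * -((G1 + t * G2) * S4) := by ring
      _ ≤ (ω * c * T) ^ 2 * (36 * y * (d * (2 * (σ * q)))) := by gcongr
      _ = v * (72 * d * σ) * (ω * c * T) := by rw [hv]; ring
      _ ≤ _ := mul_le_of_le_one_right (by positivity) e3
  have p6 := four v (6 * l) (72 * d * σ) (24 * η * σ * ρ) (48 * Cc * η * σ * a)
  rw [mul_add (ω ^ 2 * c ^ 2 * T ^ 2)]
  linarith only [p1, p2, p3, p4, p5, p6]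

/-- the constant -/
def KK (Cw Cc Cn : ℝ) : ℝ := 2000 + 10 ^ 5 * Cw ^ 2 + 800 * Cc ^ 2 * (1 + Cn)

theorem key3 {η σ γ b d1 Cc Cn α s ε N1 N2 : ℝ} (η0 : 0 ≤ η) (η1 : η ≤ 1)
    (σ0 : 0 ≤ σ) (b0 : 0 ≤ b) (c1 : 1 ≤ Cc) (n0 : 0 ≤ Cn) (s0 : 0 < s) (s1 : s ≤ 1)
    (sα : s ^ 2 = α) (ε0 : 0 < ε) (d10 : 0 ≤ d1) (m1 : 0 ≤ N1) (m2 : 0 ≤ N2)
    (hγ : γ ≤ d1 / ε + 3 * α * σ) (hb : b ^ 2 ≤ Cn * N1) (hb' : b ≤ Cn * (1 / s + s ^ 5 * N2)) :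
    48 * Cc * η ^ 2 * (b * σ * γ) ≤ 24 * Cc * (d1 * σ ^ 2) +
      24 * (Cc * Cn) * (d1 / ε ^ 2 * N1) + 144 * (Cc * Cn) * (s * σ ^ 2) +
      144 * (Cc * Cn) * (α ^ 2 * s * (η ^ 2 * σ ^ 2) * N2) := by
  have α0 : 0 ≤ α := sα ▸ sq_nonneg s
  have α1 : α ≤ 1 := sα ▸ pow_le_one₀ s0.le s1
  have η2 : η ^ 2 ≤ 1 := pow_le_one₀ η0 η1
  have c4 : 0 ≤ Cc * Cn := by positivity
  have q5 : b * σ * (d1 / ε) ≤ d1 * σ ^ 2 / 2 + Cn * (d1 / ε ^ 2 * N1) / 2 := by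
    have h1 : b / ε * σ ≤ σ ^ 2 / 2 + (b / ε) ^ 2 / 2 := by nlinarith [sq_nonneg (b / ε - σ)]
    calc _ = d1 * (b / ε * σ) := by ring
      _ ≤ d1 * (σ ^ 2 / 2 + (b / ε) ^ 2 / 2) := by gcongr
      _ = d1 * σ ^ 2 / 2 + d1 / ε ^ 2 * b ^ 2 / 2 := by ring
      _ ≤ d1 * σ ^ 2 / 2 + d1 / ε ^ 2 * (Cn * N1) / 2 := by gcongr
      _ = _ := by ring
  have q6 : α * b ≤ Cn * (s + α ^ 2 * s * N2) := by
    calc _ ≤ α * (Cn * (1 / s + s ^ 5 * N2)) := by gcongr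
      _ = Cn * (s + α * (α ^ 2 * s * N2)) := by rw [← sα]; field_simp
      _ ≤ Cn * (s + 1 * (α ^ 2 * s * N2)) := by gcongr
      _ = _ := by ring
  calc _ ≤ 48 * Cc * η ^ 2 * (b * σ * (d1 / ε + 3 * α * σ)) := by gcongr
    _ = 48 * Cc * η ^ 2 * (b * σ * (d1 / ε)) + 144 * Cc * η ^ 2 * σ ^ 2 * (α * b) := by ring
    _ ≤ 48 * Cc * 1 * (d1 * σ ^ 2 / 2 + Cn * (d1 / ε ^ 2 * N1) / 2) +
        144 * Cc * η ^ 2 * σ ^ 2 * (Cn * (s + α ^ 2 * s * N2)) := by gcongr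
    _ = 24 * Cc * (d1 * σ ^ 2) + 24 * (Cc * Cn) * (d1 / ε ^ 2 * N1) +
        144 * (Cc * Cn) * (s * σ ^ 2) * η ^ 2 +
        144 * (Cc * Cn) * (α ^ 2 * s * (η ^ 2 * σ ^ 2) * N2) := by ring
    _ ≤ _ := add_le_add (add_le_add le_rfl (mul_le_of_le_one_right (by positivity) η2)) le_rfl

theorem key2 {η t0 l σ γ a b ρ d1 d2 d L Cc Cn Cw α s ε Ay N1 N2 N3 : ℝ} (η0 : 0 ≤ η) (η1 : η ≤ 1)
    (t00 : 0 < t0) (σ0 : 0 ≤ σ) (b0 : 0 ≤ b) (c1 : 1 ≤ Cc) (n0 : 0 ≤ Cn) (s0 : 0 < s) (s1 : s ≤ 1)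
    (sα : s ^ 2 = α) (ε0 : 0 < ε) (d20 : 0 < d2) (d21 : d2 ≤ 1) (d10 : 0 ≤ d1) (d11 : d1 ≤ 1)
    (A0 : 0 ≤ Ay) (m1 : 0 ≤ N1) (m2 : 0 ≤ N2) (m3 : 0 ≤ N3) (hl : l ^ 2 ≤ 8 * α ^ 2 * σ ^ 2)
    (hγ : γ ≤ d1 / ε + 3 * α * σ) (ha : a ^ 2 ≤ Cn * N3) (hb : b ^ 2 ≤ Cn * N1)
    (hb' : b ≤ Cn * (1 / s + s ^ 5 * N2))
    (hρ : ρ ^ 2 ≤ 8 * Cw ^ 2 * (64 * (d ^ 2 * Ay) / d2 ^ 2 + 16 / L ^ 2)) :
    t0 * σ ^ 2 +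
      ((6 * l) ^ 2 + (72 * d1 * σ) ^ 2 + (24 * η * σ * ρ) ^ 2 + (48 * Cc * η * σ * a) ^ 2) / 3 +
      48 * Cc * η ^ 2 * (b * σ * γ) ≤
    KK Cw Cc Cn * (t0 + s + d1 + 1 / L ^ 2) * σ ^ 2 + KK Cw Cc Cn * d1 / ε ^ 2 * N1 +
      KK Cw Cc Cn / d2 ^ 2 * (η ^ 2 * σ ^ 2) * (d ^ 2 * Ay + N3) +
      KK Cw Cc Cn * (α ^ 2 * s) * (η ^ 2 * σ ^ 2) * N2 := by
  have α0 : 0 ≤ α := sα ▸ sq_nonneg s
  have α1 : α ≤ 1 := sα ▸ pow_le_one₀ s0.le s1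
  have αs : α ^ 2 ≤ s := by rw [← sα, ← pow_mul]; exact pow_le_of_le_one s0.le s1 (by norm_num)
  have η2 : η ^ 2 ≤ 1 := pow_le_one₀ η0 η1
  have c2 : Cc ≤ Cc ^ 2 := by nlinarith
  have c3 : Cc * Cn ≤ Cc ^ 2 * Cn := by gcongr
  have w0 := sq_nonneg Cw
  have c4 : 0 ≤ Cc * Cn := by positivity
  set K := KK Cw Cc Cn with hK
  have k0 : K = 2000 + 10 ^ 5 * Cw ^ 2 + 800 * Cc ^ 2 + 800 * (Cc ^ 2 * Cn) := by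
    rw [hK, KK]; ring
  have D1 : 1 ≤ 1 / d2 ^ 2 := one_le_one_div (by positivity) (pow_le_one₀ d20.le d21)
  have q1 : (6 * l) ^ 2 / 3 ≤ 96 * (s * σ ^ 2) := by
    have : α ^ 2 * σ ^ 2 ≤ s * σ ^ 2 := by gcongr
    linarith
  have q2 : (72 * d1 * σ) ^ 2 / 3 ≤ 1728 * (d1 * σ ^ 2) := by
    have : d1 * d1 * σ ^ 2 ≤ 1 * d1 * σ ^ 2 := by gcongr
    linarith
  have q3 : (24 * η * σ * ρ) ^ 2 / 3 ≤ 98304 * Cw ^ 2 * (1 / d2 ^ 2 * (η ^ 2 * σ ^ 2) * (d ^ 2 * Ay)) +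
      24576 * Cw ^ 2 * (1 / L ^ 2 * σ ^ 2) := by
    calc _ = 192 * (η ^ 2 * σ ^ 2) * ρ ^ 2 := by ring
      _ ≤ 192 * (η ^ 2 * σ ^ 2) * (8 * Cw ^ 2 * (64 * (d ^ 2 * Ay) / d2 ^ 2 + 16 / L ^ 2)) := by
        gcongr
      _ = 98304 * Cw ^ 2 * (1 / d2 ^ 2 * (η ^ 2 * σ ^ 2) * (d ^ 2 * Ay)) +
          24576 * Cw ^ 2 * (1 / L ^ 2 * σ ^ 2) * η ^ 2 := by ring
      _ ≤ _ := add_le_add le_rfl (mul_le_of_le_one_right (by positivity) η2)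
  have q4 : (48 * Cc * η * σ * a) ^ 2 / 3 ≤
      768 * (Cc ^ 2 * Cn) * (1 / d2 ^ 2 * (η ^ 2 * σ ^ 2) * N3) := by
    calc _ = 768 * Cc ^ 2 * (1 * (η ^ 2 * σ ^ 2)) * a ^ 2 := by ring
      _ ≤ 768 * Cc ^ 2 * (1 / d2 ^ 2 * (η ^ 2 * σ ^ 2)) * (Cn * N3) := by gcongr
      _ = _ := by ring
  have q7 := key3 η0 η1 σ0 b0 c1 n0 s0 s1 sα ε0 d10 m1 m2 hγ hb hb'
  have r1 : 1 * (t0 * σ ^ 2) ≤ K * (t0 * σ ^ 2) :=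
    mul_le_mul_of_nonneg_right (by linarith only [k0, c1, c2, c3, c4, w0]) (by positivity)
  have r2 : (96 + 144 * (Cc * Cn)) * (s * σ ^ 2) ≤ K * (s * σ ^ 2) :=
    mul_le_mul_of_nonneg_right (by linarith only [k0, c1, c2, c3, c4, w0]) (by positivity)
  have r3 : (1728 + 24 * Cc) * (d1 * σ ^ 2) ≤ K * (d1 * σ ^ 2) :=
    mul_le_mul_of_nonneg_right (by linarith only [k0, c1, c2, c3, c4, w0]) (by positivity)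
  have r4 : 24576 * Cw ^ 2 * (1 / L ^ 2 * σ ^ 2) ≤ K * (1 / L ^ 2 * σ ^ 2) :=
    mul_le_mul_of_nonneg_right (by linarith only [k0, c1, c2, c3, c4, w0]) (by positivity)
  have r5 : 24 * (Cc * Cn) * (d1 / ε ^ 2 * N1) ≤ K * (d1 / ε ^ 2 * N1) :=
    mul_le_mul_of_nonneg_right (by linarith only [k0, c1, c2, c3, c4, w0]) (by positivity)
  have r6 : 98304 * Cw ^ 2 * (1 / d2 ^ 2 * (η ^ 2 * σ ^ 2) * (d ^ 2 * Ay)) ≤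
      K * (1 / d2 ^ 2 * (η ^ 2 * σ ^ 2) * (d ^ 2 * Ay)) :=
    mul_le_mul_of_nonneg_right (by linarith only [k0, c1, c2, c3, c4, w0]) (by positivity)
  have r7 : 768 * (Cc ^ 2 * Cn) * (1 / d2 ^ 2 * (η ^ 2 * σ ^ 2) * N3) ≤
      K * (1 / d2 ^ 2 * (η ^ 2 * σ ^ 2) * N3) :=
    mul_le_mul_of_nonneg_right (by linarith only [k0, c1, c2, c3, c4, w0]) (by positivity)
  have r8 : 144 * (Cc * Cn) * (α ^ 2 * s * (η ^ 2 * σ ^ 2) * N2) ≤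
      K * (α ^ 2 * s * (η ^ 2 * σ ^ 2) * N2) :=
    mul_le_mul_of_nonneg_right (by linarith only [k0, c1, c2, c3, c4, w0]) (by positivity)
  calc _ ≤ K * (t0 * σ ^ 2) + K * (s * σ ^ 2) + K * (d1 * σ ^ 2) + K * (1 / L ^ 2 * σ ^ 2) +
        K * (d1 / ε ^ 2 * N1) + K * (1 / d2 ^ 2 * (η ^ 2 * σ ^ 2) * (d ^ 2 * Ay)) +
        K * (1 / d2 ^ 2 * (η ^ 2 * σ ^ 2) * N3) + K * (α ^ 2 * s * (η ^ 2 * σ ^ 2) * N2) := by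
        linarith only [q1, q2, q3, q4, q7, r1, r2, r3, r4, r5, r6, r7, r8]
    _ = _ := by ring

end Vale.Agent.P218M1.Mb
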