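import Vale.Agent.P218M1.MbA
import Vale.Agent.P218M1.Cut

/-!
# P218M1, row MB: the rotation derivative of the test function (helper57)
-/

set_option linter.all false

open MeasureTheory Metric Filter Topology Set
open scoped ContDiff RealInnerProductSpace ENNReal

noncomputable section

namespace Vale.Agent.P218M1.Mb

variable {S : Sf} {π : Par} {η : E → ℝ} {th : ℝ → ℝ} {z : Q}

/-- the test function with a fixed vector -/
def ff (S : Sf) (π : Par) (η : E → ℝ) (th : ℝ → ℝ) (a : E) (z : Q) : ℝ :=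
  S.ze π η th z * G1 (S.tt π z) * ⟪S.gt π z, a⟫

theorem line {F : Type} [NormedAddCommGroup F] [NormedSpace ℝ F] {f : Q → F}
    (hf : DifferentiableAt ℝ f z) (V : Q) :
    HasDerivAt (fun s : ℝ => f (z + s • V)) (fderiv ℝ f z V) 0 :=
  hf.hasFDerivAt.hasLineDerivAt V

theorem line_fst (τ ν : E) (s : ℝ) : (z + s • S.VR τ ν z).1 = z.1 := by simp [Sf.VR]

theorem cmp {g : ℝ → ℝ} {f : Q → ℝ} {V : Q} {a b : ℝ} (hg : HasDerivAt g a (f z))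
    (hf : HasDerivAt (fun s : ℝ => f (z + s • V)) b 0) :
    HasDerivAt (fun s : ℝ => g (f (z + s • V))) (a * b) 0 :=
  HasDerivAt.comp (h := fun s : ℝ => f (z + s • V)) 0 (by simpa using hg) hf

/-- differentiability of the ingredients -/
structure Dif (S : Sf) (π : Par) (th : ℝ → ℝ) (z : Q) : Prop where
  c1 : DifferentiableAt ℝ S.cs1 z
  c2 : DifferentiableAt ℝ S.cs2 z
  N : DifferentiableAt ℝ (S.N π) z
  sq : DifferentiableAt ℝ S.sq z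
  tt : DifferentiableAt ℝ (S.tt π) z
  gt : DifferentiableAt ℝ (S.gt π) z
  th : Differentiable ℝ th

theorem ff_line (h : Dif S π th z) (τ ν a : E) :
    HasDerivAt (fun s : ℝ => ff S π η th a (z + s • S.VR τ ν z))
      (π.W z.1 * η z.1 ^ 2 * (2 * S.o0 π z * (deriv π.B0 (S.cs1 z) * S.R τ ν S.cs1 z *
          Par.K0 (S.cs2 z) * ct (2 * S.N π z) * π.xi z.2.2 +
        π.B0 (S.cs1 z) * (deriv Par.K0 (S.cs2 z) * S.R τ ν S.cs2 z) * ct (2 * S.N π z) *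
          π.xi z.2.2 +
        π.B0 (S.cs1 z) * Par.K0 (S.cs2 z) * (deriv ct (2 * S.N π z) * (2 * S.R τ ν (S.N π) z)) *
          π.xi z.2.2 +
        π.B0 (S.cs1 z) * Par.K0 (S.cs2 z) * ct (2 * S.N π z) *
          (deriv π.xi z.2.2 * (S.VR τ ν z).2.2)) * th (S.sq z) ^ 2 +
        S.o0 π z ^ 2 * (2 * th (S.sq z) * (deriv th (S.sq z) * S.R τ ν S.sq z))) *
          G1 (S.tt π z) * ⟪S.gt π z, a⟫ +
        S.ze π η th z * (G2 (S.tt π z) * S.R τ ν (S.tt π) z * ⟪S.gt π z, a⟫ +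
          G1 (S.tt π z) * ⟪S.R τ ν (S.gt π) z, a⟫)) 0 := by
  set V := S.VR τ ν z with hV
  have b := cmp (π.B0_smooth.differentiable (by simp) _).hasDerivAt (line h.c1 V)
  have k := cmp (Par.K0_smooth.differentiable (by simp) _).hasDerivAt (line h.c2 V)
  have c := cmp (f := fun z => 2 * S.N π z) (hasDerivAt_ct _) ((line h.N V).const_mul 2)
  have d0 : HasDerivAt (fun s : ℝ => (z + s • V).2.2) V.2.2 0 := by
    simpa using ((hasDerivAt_id (0 : ℝ)).mul_const V.2.2).const_add z.2.2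
  have d := cmp (f := fun z => z.2.2) (π.xi_smooth.differentiable (by simp) _).hasDerivAt d0
  have t := cmp (h.th _).hasDerivAt (line h.sq V)
  have g := cmp (hasDerivAt_G1 _) (line h.tt V)
  have u := (line h.gt V).inner ℝ (hasDerivAt_const (0 : ℝ) a)
  have o := ((b.mul k).mul c).mul d
  have all := ((((o.pow 2).const_mul (π.W z.1)).mul ((t.pow 2).const_mul (η z.1 ^ 2))).mul g).mul u
  refine (all.congr_of_eventuallyEq (Eventually.of_forall fun s => ?_)).congr_deriv ?_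
  · simp only [ff, Sf.ze, Sf.Wt, Sf.o0, hV, line_fst, Pi.mul_apply, Pi.pow_apply]
  · simp only [Pi.mul_apply, Pi.pow_apply, zero_smul, add_zero, inner_zero_right, zero_add, Sf.R,
      Sf.ze, Sf.Wt, Sf.o0, ← hV]
    push_cast
    ring

/-- the rotation field -/
def rr (S : Sf) (i : Fin 3) (z : Q) : E := rot (S.P z.1 (ee i)) (S.n z.1) z.2.1

/-- the test function with the moving vector -/
def ft (S : Sf) (π : Par) (η : E → ℝ) (th : ℝ → ℝ) (i : Fin 3) (z : Q) : ℝ :=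
  ff S π η th (S.A z.1 (ee i)) z

/-- the integrand with vanishing averages -/
def h0 (S : Sf) (π : Par) (η : E → ℝ) (th : ℝ → ℝ) (i : Fin 3) (z : Q) : ℝ :=
  fderiv ℝ (ft S π η th i) z (S.VR (S.P z.1 (ee i)) (S.n z.1) z) +
    ⟪S.p1 z, rr S i z⟫ * ft S π η th i z

/-- the integrand of `Et` -/
def ei (S : Sf) (π : Par) (η : E → ℝ) (th : ℝ → ℝ) (z : Q) : ℝ :=
  π.W z.1 * (Par.K0 (S.cs2 z) * ct (2 * S.N π z) * π.xi z.2.2) ^ 2 *
    (η z.1 ^ 2 * th (S.sq z) ^ 2) * (deriv (fun c => π.B0 c ^ 2) (S.cs1 z) * (2 * S.cs1 z)) *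
    G1 (S.tt π z) * ⟪S.P z.1 (S.lv z), S.gt π z⟫

theorem ft_fd {i : Fin 3} {τ ν : E} {D : ℝ} (hf : DifferentiableAt ℝ (ft S π η th i) z)
    (h : HasDerivAt (fun s : ℝ => ff S π η th (S.A z.1 (ee i)) (z + s • S.VR τ ν z)) D 0) :
    fderiv ℝ (ft S π η th i) z (S.VR τ ν z) = D :=
  (line hf _).unique (by simpa only [ft, line_fst] using h)

theorem u_eq (hS : S.Ok) (x v : E) (i : Fin 3) : ⟪v, S.A x (ee i)⟫ = S.A x v i := by
  rw [← hS.A_sym, inner_ee]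

theorem sum_p (hS : S.Ok) (hz : z ∈ S.O) (v : E) :
    ∑ i, ⟪S.p1 z, rr S i z⟫ * ⟪v, S.A z.1 (ee i)⟫ = -⟪S.P z.1 (S.lv z), v⟫ := by
  have hg := Sf.O.g1 hz
  have e (i : Fin 3) : ⟪S.p1 z, rr S i z⟫ = (S.cc z.1 z.2.1)⁻¹ * S.P z.1 z.2.1 i := by
    rw [rr, Sf.p1, Sf.p_rot hz.1 (Sf.g_P hg _), ← Sf.P_sym, inner_ee, div_eq_inv_mul]
  simp only [e, u_eq hS, mul_assoc]
  rw [← Finset.mul_sum, ← inner_eq_sum, Sf.P_sym, Sf.P_A hg, Sf.P_sym,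
    hS.lv_tan hz.1 (Sf.g_P hg _), hS.A_sym, Sf.A_P hg]
  ring

/-- the weight -/
def om (S : Sf) (π : Par) (η : E → ℝ) (z : Q) : ℝ :=
  π.W0 z.1 * η z.1 * π.B0 (S.cs1 z) * Par.K0 (S.cs2 z) * π.xi z.2.2

theorem ze_eq : S.ze π η th z = om S π η z ^ 2 * ct (2 * S.N π z) ^ 2 * th (S.sq z) ^ 2 := by
  simp only [Sf.ze, Sf.Wt, Sf.o0, om, Par.W]
  ring

theorem ident (gd : GD) (hS : S.Ok) (hz : z ∈ S.O) (h : Dif S π th z)
    (hf : ∀ i, DifferentiableAt ℝ (ft S π η th i) z) (hx : deriv π.xi z.2.2 = 0)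
    (hk : π.B0 (S.cs1 z) * th (S.sq z) * deriv Par.K0 (S.cs2 z) = 0) :
    -ei S π η th z - ∑ i, h0 S π η th i z =
      om S π η z ^ 2 * ct (2 * S.N π z) ^ 2 * th (S.sq z) ^ 2 * G1 (S.tt π z) *
        ⟪S.P z.1 (S.lv z), S.gt π z⟫ -
      (om S π η z ^ 2 * (4 * ct (2 * S.N π z) * deriv ct (2 * S.N π z) * th (S.sq z) ^ 2) *
        G1 (S.tt π z) * (∑ i, S.R (S.P z.1 (ee i)) (S.n z.1) (S.N π) z *
          ⟪S.gt π z, S.A z.1 (ee i)⟫) +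
      om S π η z ^ 2 * (2 * ct (2 * S.N π z) ^ 2 * th (S.sq z)) * G1 (S.tt π z) *
        (∑ i, deriv th (S.sq z) * S.R (S.P z.1 (ee i)) (S.n z.1) S.sq z *
          ⟪S.gt π z, S.A z.1 (ee i)⟫) +
      om S π η z ^ 2 * ct (2 * S.N π z) ^ 2 * th (S.sq z) ^ 2 *
        (S.tt π z * G1 (S.tt π z) * (∑ i, ⟪S.Z z (rr S i z), S.A z.1 (ee i)⟫) +
        (G1 (S.tt π z) + S.tt π z * G2 (S.tt π z)) *
          ∑ i, ⟪S.Pv z, rr S i z⟫ * ⟪S.gt π z, S.A z.1 (ee i)⟫)) := by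
  have hg := Sf.O.g1 hz
  have b2 : deriv (fun c => π.B0 c ^ 2) (S.cs1 z) = 2 * π.B0 (S.cs1 z) * deriv π.B0 (S.cs1 z) := by
    have := ((π.B0_smooth.differentiable (by simp) (S.cs1 z)).hasDerivAt.fun_pow 2).deriv
    simpa using this
  have sp := sum_p hS hz (S.gt π z)
  simp only [h0, fun i => ft_fd (hf i) (ff_line h (S.P z.1 (ee i)) (S.n z.1) _),
    gd.Rc1 S z _ _ hS hz, gd.Rt S π z _ _ hS hz, fun i τ ν =>
      gd.Rg S π z τ ν (S.A z.1 (ee i)) hS hz (Sf.g_A hg _), hx]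
  simp only [ei, b2, ft, ff, Sf.ze, Sf.Wt, Sf.o0, om, Par.W, rr, Fin.sum_univ_three] at sp ⊢
  linear_combination (-(π.W0 z.1 ^ 2 * η z.1 ^ 2 * th (S.sq z) ^ 2 *
      (Par.K0 (S.cs2 z) * ct (2 * S.N π z) * π.xi z.2.2) ^ 2 * G1 (S.tt π z) *
      (4 * π.B0 (S.cs1 z) * deriv π.B0 (S.cs1 z) * S.cs1 z + π.B0 (S.cs1 z) ^ 2))) * sp +
    (-(2 * π.W0 z.1 ^ 2 * η z.1 ^ 2 * th (S.sq z) * π.B0 (S.cs1 z) * Par.K0 (S.cs2 z) *
      (ct (2 * S.N π z) * π.xi z.2.2) ^ 2 * G1 (S.tt π z) *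
      (S.R (S.P z.1 (ee 0)) (S.n z.1) S.cs2 z * ⟪S.gt π z, S.A z.1 (ee 0)⟫ +
       S.R (S.P z.1 (ee 1)) (S.n z.1) S.cs2 z * ⟪S.gt π z, S.A z.1 (ee 1)⟫ +
       S.R (S.P z.1 (ee 2)) (S.n z.1) S.cs2 z * ⟪S.gt π z, S.A z.1 (ee 2)⟫))) * hk

end Vale.Agent.P218M1.Mb
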