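import Vale.Agent.P218M1.MbB

/-!
# P218M1, row MB: the pointwise bound (helper57)
-/

set_option linter.all false

open MeasureTheory Metric Filter Topology Set
open scoped ContDiff RealInnerProductSpace ENNReal

noncomputable section

namespace Vale.Agent.P218M1.Mb

variable {S : Sf} {π : Par} {η : E → ℝ} {th gb ga ch : ℝ → ℝ} {z : Q} {Λ Cw d₁ d₂ L : ℝ}

theorem NS_nonneg {f : Q → ℝ} (h : ∀ z, 0 ≤ f z) : 0 ≤ S.NS π f z :=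
  finsum_nonneg fun _ => finsum_nonneg fun _ =>
    mul_nonneg (h _) (mul_nonneg (Par.xi_nonneg _) (Par.xi_nonneg _))

theorem le_sq {a b : ℝ} (h : a ^ 2 ≤ b ^ 2) (hb : 0 ≤ b) : a ≤ b := (abs_le_of_sq_le_sq' h hb).2

theorem norm_rr (hz : z ∈ S.O) (hθ : ‖z.2.1‖ = 1) (i : Fin 3) : ‖rr S i z‖ ≤ 1 := by
  have hg := Sf.O.g1 hz
  refine le_sq ((Sf.norm_rot_le hg hθ (Sf.g_P hg _)).trans ?_) zero_le_one
  simpa [norm_ee] using Sf.norm_P_le hg (ee i)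

theorem inner_rr (hz : z ∈ S.O) (hθ : ‖z.2.1‖ = 1) (i : Fin 3) (v : E) :
    |⟪v, rr S i z⟫| ≤ ‖v‖ :=
  (abs_real_inner_le_norm _ _).trans (mul_le_of_le_one_right (norm_nonneg _) (norm_rr hz hθ i))

theorem norm_app (M : E →L[ℝ] E) (v : E) : ‖M v‖ ≤ √(hs M) * ‖v‖ :=
  le_sq (by rw [mul_pow, Real.sq_sqrt (hs_nonneg M)]; exact norm_apply_sq_le M v) (by positivity)

theorem sum_u (hS : S.Ok) (x v : E) {γ : ℝ} (h0 : 0 ≤ γ) (h : ‖S.A x v‖ ≤ √(S.A2 x) * γ) :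
    ∑ i, |⟪v, S.A x (ee i)⟫| ≤ 2 * (√(S.A2 x) * γ) := by
  refine sum_abs_le (by positivity) ?_
  simp only [u_eq hS]
  rw [← norm_sq_eq_sum]
  exact pow_le_pow_left₀ (norm_nonneg _) h 2

theorem rho (gd : GD) (hS : S.Ok) (w : Win Cw d₁ d₂ L th gb ga ch) (hz : z ∈ S.O)
    (hθ : ‖z.2.1‖ = 1) (c1 : 1 / 4 ≤ S.cs1 z) (c2 : 1 / 4 ≤ S.cs2 z) (i : Fin 3) :
    |deriv th (S.sq z) * S.R (S.P z.1 (ee i)) (S.n z.1) S.sq z| ≤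
      2 * |Cw| * (z.2.2 * √(hs (S.X2 z)) / d₂ + 4 / L) := by
  have d0 := w.d0
  have L1 := w.L1
  have z0 : 0 < z.2.2 := hz.2.2
  by_cases h : S.sq z ≤ d₂ ^ 2
  · rw [deriv_zero_Iic (deriv_smooth w.sth).continuous w.the h, zero_mul, abs_zero]
    positivity
  have hP : d₂ ≤ ‖S.Pv z‖ := le_sq (not_le.1 h).le (norm_nonneg _)
  have P0 : 0 < ‖S.Pv z‖ := d0.trans_le hP
  have p1 : ‖S.p1 z‖ ≤ 2 := le_sq (by nlinarith [Sf.O.cs1_p1 hz, sq_nonneg ‖S.p1 z‖]) two_pos.le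
  have p2 : ‖S.p2 z‖ ≤ 2 := le_sq (by nlinarith [Sf.O.cs2_p2 hz, sq_nonneg ‖S.p2 z‖]) two_pos.le
  have a1 := (inner_rr hz hθ i _).trans (norm_app (S.X2 z) (S.Pv z))
  have a2 := (inner_rr hz hθ i _).trans p1
  have a3 := mul_le_of_abs ((abs_real_inner_le_norm (S.Pv z) (S.p2 z)).trans
    (mul_le_mul_of_nonneg_left p2 P0.le)) (inner_rr hz hθ i (S.Pv z))
  have b1 := mul_le_of_abs (abs_of_pos z0).le a1
  have b2 := mul_le_of_abs (abs_of_nonneg (S.sq_nonneg' z)).le a2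
  have b3 : |S.R (S.P z.1 (ee i)) (S.n z.1) S.sq z| ≤
      2 * (z.2.2 * (√(hs (S.X2 z)) * ‖S.Pv z‖) + 4 * ‖S.Pv z‖ ^ 2) := by
    rw [gd.Rsq S z _ _ hS hz, abs_mul, abs_two]
    refine mul_le_mul_of_nonneg_left ((abs_sub _ _).trans
      ((add_le_add (abs_sub _ _) le_rfl).trans ?_)) two_pos.le
    have : S.sq z = ‖S.Pv z‖ ^ 2 := rfl
    simp only [rr] at b1 b2 a3
    linarith
  have b4 : |deriv th (S.sq z)| ≤ |Cw| / (L * ‖S.Pv z‖ ^ 2) :=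
    (w.thd _ (pow_pos P0 2)).trans (div_le_div_of_nonneg_right (le_abs_self _) (by positivity))
  refine (mul_le_of_abs b4 b3).trans ?_
  have e : |Cw| / (L * ‖S.Pv z‖ ^ 2) *
      (2 * (z.2.2 * (√(hs (S.X2 z)) * ‖S.Pv z‖) + 4 * ‖S.Pv z‖ ^ 2)) =
      2 * |Cw| * (z.2.2 * √(hs (S.X2 z)) / (L * ‖S.Pv z‖) + 4 / L) := by
    field_simp
  rw [e]
  gcongr
  exact hP.trans (le_mul_of_one_le_left P0.le L1)

theorem supp (hπ : π.Rg) (w : Win Cw d₁ d₂ L th gb ga ch) (hz : z ∈ S.O) (hθ : ‖z.2.1‖ = 1)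
    (hB : π.B0 (S.cs1 z) ≠ 0) (hT : th (S.sq z) ≠ 0) : S.sq z < d₁ ^ 2 ∧ 1 / 2 < S.cs2 z := by
  have h1 : S.sq z < d₁ ^ 2 := not_le.1 fun h => hT (w.thz _ h)
  refine ⟨h1, not_le.1 fun h => ?_⟩
  have := Sf.O.sq_ge hz hθ (by linarith [hπ.B0_ne hB, hπ.α2.2]) h
  nlinarith [w.d1h, w.d0, w.d12]

theorem G_le {t : ℝ} (t0 : 0 ≤ t) (t1 : t < 1) :
    |G1 t| ≤ 6 * max (1 - t) 0 ^ 2 ∧ |G1 t + t * G2 t| ≤ 36 * max (1 - t) 0 ^ 2 := by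
  obtain ⟨m0, m1⟩ := mx_mem t0
  set m := max (1 - t) 0 with hm
  have m5 : m ^ 5 ≤ m ^ 2 := pow_le_pow_of_le_one m0 m1 (by norm_num)
  have m4 : t * m ^ 4 ≤ m ^ 2 := (mul_le_of_le_one_left (by positivity) t1.le).trans
    (pow_le_pow_of_le_one m0 m1 (by norm_num))
  have g1 : |G1 t| ≤ 6 * m ^ 2 := by
    rw [abs_of_nonpos (G1_nonpos _), G1]
    linarith
  refine ⟨g1, (abs_add_le _ _).trans ?_⟩
  rw [abs_of_nonneg (mul_nonneg t0 (G2_nonneg _)), G2]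
  linarith

theorem lv_le (hS : S.Ok) (hz : z ∈ S.O) (hθ : ‖z.2.1‖ = 1) (c1 : 1 / 2 ≤ S.cs1 z)
    (B1 : 1 - S.cs1 z < π.α ^ 2) : ‖S.lv z‖ ^ 2 ≤ 8 * π.α ^ 2 * √(S.A2 z.1) ^ 2 := by
  rw [Real.sq_sqrt (S.A2_nonneg z.1)]
  refine (hS.norm_lv_le hz hθ c1).trans ?_
  gcongr
  exact S.A2_nonneg _

theorem gt_le (hπ : π.Rg) (hθ : ‖z.2.1‖ = 1) (t0 : 0 ≤ S.tt π z) (t1 : S.tt π z < 1)
    (Pd : ‖S.Pv z‖ ≤ d₁) {σ : ℝ} (σ0 : 0 ≤ σ) (l2 : ‖S.lv z‖ ^ 2 ≤ 8 * π.α ^ 2 * σ ^ 2) :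
    ‖S.gt π z‖ ≤ d₁ / π.ε + 3 * π.α * σ := by
  have ε0 := hπ.ε0
  have α0 := hπ.α0
  have k0 := S.kk_nonneg z
  refine (norm_add_le _ _).trans (add_le_add ?_ ?_)
  · rw [Sf.Uv, norm_smul, Real.norm_of_nonneg (by positivity), div_mul_eq_mul_div]
    gcongr
    exact (mul_le_of_le_one_left (norm_nonneg _) (S.kk_le hθ)).trans Pd
  · rw [norm_smul, Real.norm_of_nonneg t0]
    refine (mul_le_of_le_one_left (norm_nonneg _) t1.le).trans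
      (le_sq (l2.trans ?_) (by positivity))
    nlinarith only [sq_nonneg (π.α * σ)]

theorem om_mem {e₀ : ℝ} (he : S.Eta π e₀ η) : 0 ≤ om S π η z ∧ om S π η z ≤ η z.1 := by
  refine ⟨mul_nonneg (mul_nonneg (mul_nonneg (mul_nonneg (Par.W0_nonneg _)
    (he.nn _)) (Par.B0_nonneg _)) (Par.K0_nonneg _)) (Par.xi_nonneg _), ?_⟩
  calc om S π η z ≤ 1 * η z.1 * 1 * 1 * 1 := by
        unfold om
        have := he.nn z.1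
        have := Par.B0_nonneg (π := π) (S.cs1 z)
        have := Par.K0_nonneg (S.cs2 z)
        have := Par.xi_nonneg (π := π) z.2.2
        gcongr
        exacts [Par.W0_le _, Par.B0_le _, Par.K0_le _, Par.xi_le _]
    _ = _ := by ring

theorem rho_sq (hS : S.Ok) (hz : z ∈ S.O) (hθ : ‖z.2.1‖ = 1) (c2 : 1 / 4 ≤ S.cs2 z) :
    (2 * |Cw| * (z.2.2 * √(hs (S.X2 z)) / d₂ + 4 / L)) ^ 2 ≤
      8 * Cw ^ 2 * (64 * (z.2.2 ^ 2 * S.A2 (yy z)) / d₂ ^ 2 + 16 / L ^ 2) := by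
  have e1 : (z.2.2 * √(hs (S.X2 z)) / d₂) ^ 2 ≤ 64 * (z.2.2 ^ 2 * S.A2 (yy z)) / d₂ ^ 2 := by
    rw [div_pow, mul_pow, Real.sq_sqrt (hs_nonneg _), mul_left_comm]
    gcongr
    exact hS.hs_X2_le hz hθ c2
  have e2 : 16 / L ^ 2 = (4 / L) ^ 2 := by ring
  rw [mul_pow, mul_pow, sq_abs, e2]
  calc _ ≤ 2 ^ 2 * Cw ^ 2 * (2 * ((z.2.2 * √(hs (S.X2 z)) / d₂) ^ 2 + (4 / L) ^ 2)) := by
        gcongr
        exact add_sq_le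
    _ ≤ 2 ^ 2 * Cw ^ 2 * (2 * (64 * (z.2.2 ^ 2 * S.A2 (yy z)) / d₂ ^ 2 + (4 / L) ^ 2)) := by
        gcongr
    _ = _ := by ring

theorem sum_Z (hz : z ∈ S.O) (hθ : ‖z.2.1‖ = 1) :
    |∑ i, ⟪S.Z z (rr S i z), S.A z.1 (ee i)⟫| ≤ 2 * (√(S.A2 z.1) * √(hs (S.Z z))) := by
  refine (Finset.abs_sum_le_sum_abs _ _).trans ((Finset.sum_le_sum (g := fun i =>
    √(hs (S.Z z)) * |‖S.A z.1 (ee i)‖|) fun i _ => ?_).trans ?_)
  · refine (abs_real_inner_le_norm _ _).trans ?_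
    rw [abs_norm]
    exact mul_le_mul_of_nonneg_right ((norm_app _ _).trans (mul_le_of_le_one_right
      (Real.sqrt_nonneg _) (norm_rr hz hθ i))) (norm_nonneg _)
  · rw [← Finset.mul_sum]
    exact (mul_le_mul_of_nonneg_left (sum_abs_le (u := fun i => ‖S.A z.1 (ee i)‖)
      (Real.sqrt_nonneg (S.A2 z.1)) (Real.sq_sqrt (S.A2_nonneg z.1)).ge)
      (Real.sqrt_nonneg _)).trans_eq (by ring)

/-- the integrand to which the master estimate is applied -/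
def hh (S : Sf) (π : Par) (η : E → ℝ) (th : ℝ → ℝ) (t0 : ℝ) (z : Q) : ℝ :=
  -ei S π η th z - ∑ i, h0 S π η th i z -
    S.ze π η th z * G2 (S.tt π z) * ⟪S.P z.1 (S.gt π z), S.gt π z⟫ / 10 -
    S.ze π η th z * (S.tt π z * G1 (S.tt π z)) ^ 2 * hs (S.Z z) / t0

theorem hk (hπ : π.Rg) (w : Win Cw d₁ d₂ L th gb ga ch) (hz : z ∈ S.O) (hθ : ‖z.2.1‖ = 1) :
    π.B0 (S.cs1 z) * th (S.sq z) * deriv Par.K0 (S.cs2 z) = 0 := by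
  by_cases hB : π.B0 (S.cs1 z) = 0
  · simp [hB]
  by_cases hT : th (S.sq z) = 0
  · simp [hT]
  rw [Par.dK0_zero (supp hπ w hz hθ hB hT).2.le, mul_zero]

theorem nz (gd : GD) (hG : Good S π Λ) (w : Win Cw d₁ d₂ L th gb ga ch) {t0 : ℝ}
    (hθ : ‖z.2.1‖ = 1) (hz : z ∈ S.O) (h : Dif S π th z)
    (hf : ∀ i, DifferentiableAt ℝ (ft S π η th i) z) (hx : deriv π.xi z.2.2 = 0)
    (pos : 0 < hh S π η th t0 z) :
    om S π η z ≠ 0 ∧ ct (2 * S.N π z) ≠ 0 ∧ th (S.sq z) ≠ 0 ∧ S.tt π z < 1 := by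
  rw [hh, ident gd hG.ok hz h hf hx (hk hG.rg w hz hθ), ze_eq] at pos
  exact ⟨fun e => by simp [e] at pos, fun e => by simp [e] at pos, fun e => by simp [e] at pos,
    not_le.1 fun e => by simp [G1_zero e, G2_zero e] at pos⟩

theorem bound (gd : GD) (unq : UNQ) {Cn e₀ t0 : ℝ} (n0 : 0 ≤ Cn) (hG : Good S π Λ)
    (he : S.Eta π e₀ η) (w : Win Cw d₁ d₂ L th gb ga ch) (t00 : 0 < t0) (hi : S.Hit z)
    (hb : S.Box π z) (hz : z ∈ S.O) (h : Dif S π th z)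
    (hf : ∀ i, DifferentiableAt ℝ (ft S π η th i) z)
    (nb : S.N π z ≤ 4 → ∃ a b : ℝ, 0 ≤ a ∧ 0 ≤ b ∧
      (∀ τ ν, |S.R τ ν (S.N π) z| ≤ ‖rot τ ν z.2.1‖ * (a + b)) ∧
      a ^ 2 ≤ Cn * S.NS π (fun z' => π.cu (S.cs2 z') * (z'.2.2 ^ 2 * S.A2 (yy z'))) z ∧
      b ^ 2 ≤ Cn * S.NS π (fun z' => π.sgb (S.cs2 z') / S.cs2 z') z ∧
      ∀ t, 0 < t → b ≤ Cn * (1 / t + t ^ 5 * S.NS π (fun z' => π.cu (S.cs2 z') * S.cs2 z') z))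
    (pos : 0 < hh S π η th t0 z) :
    S.Sq π z ∧ hh S π η th t0 z ≤ KK Cw Cc Cn * (t0 + √π.α + d₁ + 1 / L ^ 2) * S.A2 z.1 +
      KK Cw Cc Cn * d₁ / π.ε ^ 2 * S.NS π (fun z' => π.sgb (S.cs2 z') / S.cs2 z') z +
      KK Cw Cc Cn / d₂ ^ 2 * (η z.1 ^ 2 * S.A2 z.1) * (z.2.2 ^ 2 * S.A2 (yy z) +
        S.NS π (fun z' => π.cu (S.cs2 z') * (z'.2.2 ^ 2 * S.A2 (yy z'))) z) +
      KK Cw Cc Cn * (π.α ^ 2 * √π.α) * (η z.1 ^ 2 * S.A2 z.1) *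
        S.NS π (fun z' => π.cu (S.cs2 z') * S.cs2 z') z := by
  have hS := hG.ok
  have hπ := hG.rg
  have hθ := hi.2.1
  have hg := Sf.O.g1 hz
  have hx := (unq.xi1 S π Λ z hG hi hb).2.2
  obtain ⟨ω0, c0, T0, t1⟩ := nz gd hG w hθ hz h hf hx pos
  clear pos
  simp only [om, ne_eq, mul_eq_zero, not_or] at ω0
  obtain ⟨⟨⟨⟨hW, -⟩, hB⟩, hK⟩, -⟩ := ω0
  obtain ⟨s1, s2⟩ := supp hπ w hz hθ hB T0
  have B1 := hπ.B0_ne hB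
  have N1 : S.N π z < 1 := by linarith only [lt_of_ct_ne c0]
  have ε0 := hπ.ε0
  have α2 := hπ.α2
  have z0 : 0 < z.2.2 := hz.2.2
  have k0 := S.kk_nonneg z
  have t0' : 0 ≤ S.tt π z := by unfold Sf.tt; positivity
  have d10 : 0 < d₁ := w.d0.trans_le w.d12
  refine ⟨⟨(hπ.W0_ne hW).le, by linarith only [B1, α2.1], by linarith only [s2], N1, ?_⟩, ?_⟩
  · have e := (div_lt_one ε0).1 t1
    have e' : 1 / 2 ≤ S.kk z := hb.2.2.2.1.trans (S.cs1_le_kk hθ)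
    nlinarith only [e, e', z0]
  obtain ⟨a, b, a0, b0, r1, r2, r3, r4⟩ := nb (by linarith only [N1])
  obtain ⟨m0, m1⟩ := mx_mem t0'
  obtain ⟨g1, g2⟩ := G_le t0' t1
  have PA : ‖S.A z.1 (S.gt π z)‖ ≤ √(S.A2 z.1) * ‖S.P z.1 (S.gt π z)‖ := by
    rw [← Sf.A_P hg]
    exact norm_app _ _
  have u1 := sum_u hS z.1 (S.gt π z) (norm_nonneg _) PA
  have u2 := sum_u hS z.1 (S.gt π z) (norm_nonneg _) (norm_app _ _)
  have Pd : ‖S.Pv z‖ ≤ d₁ := le_sq s1.le d10.le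
  have σ2 := Real.sq_sqrt (S.A2_nonneg z.1)
  have l2 := lv_le hS hz hθ hb.2.2.2.1 B1
  have c1 : 1 / 4 ≤ S.cs1 z := by linarith only [hb.2.2.2.1]
  have c2 : 1 / 4 ≤ S.cs2 z := by linarith only [s2]
  have ρ0 : 0 ≤ 2 * |Cw| * (z.2.2 * √(hs (S.X2 z)) / d₂ + 4 / L) := by
    have := w.d0
    have := w.L1
    positivity
  have h1 : |∑ i, S.R (S.P z.1 (ee i)) (S.n z.1) (S.N π) z * ⟪S.gt π z, S.A z.1 (ee i)⟫| ≤
      a * (2 * (√(S.A2 z.1) * ‖S.P z.1 (S.gt π z)‖)) + b * (2 * (√(S.A2 z.1) * ‖S.gt π z‖)) := by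
    refine (abs_sum_le (k := a + b) (fun i => (r1 _ _).trans
      (mul_le_of_le_one_left (add_nonneg a0 b0) (norm_rr hz hθ i))) le_rfl).trans ?_
    rw [add_mul]
    exact add_le_add (mul_le_mul_of_nonneg_left u1 a0) (mul_le_mul_of_nonneg_left u2 b0)
  have K1 := key (l' := ⟪S.P z.1 (S.lv z), S.gt π z⟫) (om_mem he).1 (om_mem he).2 (he.le z.1)
    (ct_nonneg (2 * S.N π z)) (ct_le_one _) (w.th0 (S.sq z)) (w.th1 _) (sq_nonneg _)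
    (pow_le_one₀ m0 m1) g1 g2 (abs_dct_le (2 * S.N π z)) (norm_nonneg _) (Real.sqrt_nonneg _)
    (norm_nonneg _) (norm_nonneg (S.lv z)) a0 b0 ρ0 d10.le t00
    (by rw [Sf.P_sym]; exact abs_real_inner_le_norm _ _) h1
    (abs_sum_le (rho gd hS w hz hθ c1 c2) u1) (sum_Z hz hθ)
    (abs_sum_le (fun i => (inner_rr hz hθ i _).trans Pd) u1)
  have K2 := key2 (he.nn z.1) (he.le _) t00 (Real.sqrt_nonneg (S.A2 z.1)) b0 one_le_Cc n0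
    (Real.sqrt_pos.2 hπ.α0) (Real.sqrt_le_one.2 (by linarith only [hπ.α1])) (Real.sq_sqrt hπ.α0.le)
    ε0 w.d0 (by linarith only [w.d12, w.d1h]) d10.le (by linarith only [w.d1h])
    (S.A2_nonneg (yy z)) (NS_nonneg fun z => div_nonneg (Par.sgb_nonneg _) (S.cs2_nonneg _))
    (NS_nonneg fun z => mul_nonneg (Par.cu_nonneg _) (S.cs2_nonneg _))
    (NS_nonneg fun z => mul_nonneg (Par.cu_nonneg _) (mul_nonneg (sq_nonneg _) (S.A2_nonneg _)))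
    l2 (gt_le hπ hθ t0' t1 Pd (Real.sqrt_nonneg _) l2) r2 r3 (r4 _ (Real.sqrt_pos.2 hπ.α0))
    (rho_sq (Cw := Cw) (d₂ := d₂) (L := L) hS hz hθ c2)
  rw [σ2] at K2
  rw [Real.sq_sqrt (hs_nonneg _), σ2] at K1
  have e3 : om S π η z ^ 2 * ct (2 * S.N π z) ^ 2 * th (S.sq z) ^ 2 * G2 (S.tt π z) *
      ⟪S.P z.1 (S.gt π z), S.gt π z⟫ / 10 = 3 * (om S π η z * ct (2 * S.N π z) * th (S.sq z) *
        max (1 - S.tt π z) 0 ^ 2 * ‖S.P z.1 (S.gt π z)‖) ^ 2 := by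
    rw [← Sf.norm_P_sq hg, G2]
    ring
  rw [hh, ident gd hS hz h hf hx (hk hπ w hz hθ), ze_eq, e3]
  linarith only [K1, K2]

end Vale.Agent.P218M1.Mb
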