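import Vale.Agent.P218M1.Alg

/-!
# P218M1: the first variation for local fields, and the lower density bound
-/

open MeasureTheory Metric Filter Topology Set
open scoped ContDiff RealInnerProductSpace ENNReal Manifold

noncomputable section

namespace Vale.Agent.P218M1

namespace Mono

variable {S : Sf} {x : E}

theorem closed (hS : S.Ok) : IsClosed {x | S.w x = 0} :=
  isClosed_eq hS.sm.continuous continuous_const

theorem cn (hS : S.Ok) (hx : S.g x ≠ 0) : ContinuousAt S.n x :=
  ((hS.sg.continuous.continuousAt.norm).inv₀ (norm_ne_zero_iff.2 hx)).smul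
    hS.sg.continuous.continuousAt

theorem cP (hS : S.Ok) (hx : S.g x ≠ 0) : ContinuousAt S.P x :=
  continuousAt_const.sub
    ((((ContinuousLinearMap.smulRightL ℝ E E).continuous.continuousAt.comp
      ((innerSL ℝ).continuous.continuousAt.comp (cn hS hx))).clm_apply (cn hS hx)))

theorem ctrc : Continuous trc := by unfold trc; fun_prop

theorem cH (hS : S.Ok) (hx : S.g x ≠ 0) : ContinuousAt S.H x :=
  ctrc.continuousAt.comp
    (((hS.sg.continuous.continuousAt.norm).inv₀ (norm_ne_zero_iff.2 hx)).neg.smul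
      ((cP hS hx).clm_comp (hS.sD2.continuous.continuousAt.clm_comp (cP hS hx))))

/-- continuous on the surface with compact support -/
theorem intg (hS : S.Ok) {f : E → ℝ} {K : Set E} (hK : IsCompact K)
    (hf : ∀ x, S.w x = 0 → ContinuousAt f x) (h0 : ∀ x, S.w x = 0 → x ∉ K → f x = 0) :
    Integrable f S.μ := by
  have := hS.fin
  have h1 := hK.inter_right (closed hS)
  have h2 : IntegrableOn f (K ∩ {x | S.w x = 0}) S.μ :=
    ContinuousOn.integrableOn_compact h1 fun x hx => (hf x hx.2).continuousWithinAt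
  refine ((integrable_indicator_iff h1.measurableSet).2 h2).congr (hS.sup.mono fun x hx => ?_)
  by_cases h : x ∈ K
  · exact indicator_of_mem (show x ∈ K ∩ {x | S.w x = 0} from ⟨h, hx⟩) f
  · rw [indicator_of_notMem fun a => h a.1, h0 x hx h]

theorem ofReal_int_le {μ : Measure E} {f : E → ℝ} (hf : Integrable f μ) :
    ENNReal.ofReal (∫ x, f x ∂μ) ≤ ∫⁻ x, ENNReal.ofReal (f x) ∂μ := by
  refine (ENNReal.ofReal_le_ofReal (integral_mono hf hf.pos_part fun x => le_max_left _ _)).trans ?_
  rw [ofReal_integral_eq_lintegral_ofReal hf.pos_part (.of_forall fun x => le_max_right _ _)]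
  exact le_of_eq (lintegral_congr fun x => by simp)

theorem sct : ContDiff ℝ ∞ ct := Real.smoothTransition.contDiff.comp (contDiff_const.sub contDiff_id)
theorem ct0 (t : ℝ) : 0 ≤ ct t := Real.smoothTransition.nonneg _
theorem ct1 (t : ℝ) : ct t ≤ 1 := Real.smoothTransition.le_one _
theorem ct_one {t : ℝ} (h : t ≤ 1) : ct t = 1 := Real.smoothTransition.one_of_one_le (by linarith)
theorem ct_zero {t : ℝ} (h : 2 ≤ t) : ct t = 0 := Real.smoothTransition.zero_of_nonpos (by linarith)
theorem dct (t : ℝ) : HasDerivAt ct (deriv ct t) t := (sct.differentiable (by simp) t).hasDerivAt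
theorem cdct : Continuous (deriv ct) := sct.continuous_deriv (by simp)
theorem dct_le (t : ℝ) : deriv ct t ≤ 0 :=
  Antitone.deriv_nonpos fun _ _ h => Real.smoothTransition.monotone (by linarith)
theorem dct_zero {t : ℝ} (h : 2 < t) : deriv ct t = 0 := by
  have : ct =ᶠ[𝓝 t] fun _ => 0 := (lt_mem_nhds h).mono fun s a => ct_zero a.le
  rw [this.deriv_eq, deriv_const]

theorem hsq (x y : E) : HasFDerivAt (fun y : E => ‖y - x‖ ^ 2) ((2 : ℝ) • innerSL ℝ (y - x)) y := by
  refine ((hasFDerivAt_id y).sub_const x).norm_sq.congr_fderiv ?_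
  ext v
  simp

/-- the limit integrand -/
def G (n z : E) : ℝ := -4 * deriv ct (2 * ‖z‖ ^ 2) * max (-⟪n, z⟫) 0

theorem far {z : E} (hz : z ∉ closedBall (0 : E) 1) : deriv ct (2 * ‖z‖ ^ 2) = 0 :=
  dct_zero (by have : 1 < ‖z‖ := by simpa using hz
               nlinarith)

theorem G_pos : 0 < ∫ z, G (ee 0) z := by
  obtain ⟨t, ht, h⟩ := exists_deriv_eq_slope ct one_lt_two sct.continuous.continuousOn
    (sct.differentiable (by simp)).differentiableOn
  rw [ct_one le_rfl, ct_zero le_rfl] at h
  have h0 : 0 < √(t / 2) := Real.sqrt_pos.2 (by linarith [ht.1])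
  have hc := cdct
  refine Continuous.integral_pos_of_hasCompactSupport_nonneg_nonzero (x := -√(t / 2) • ee 0)
    (by unfold G; fun_prop) (HasCompactSupport.intro (isCompact_closedBall 0 1) fun z hz => by
      rw [G, far hz]; simp) (fun z => ?_) ?_
  · exact mul_nonneg (by linarith [dct_le (2 * ‖z‖ ^ 2)]) (le_max_right _ _)
  · rw [G, norm_smul, norm_ee, mul_one, Real.norm_eq_abs, sq_abs, neg_sq,
      Real.sq_sqrt (by linarith [ht.1]), show 2 * (t / 2) = t by ring, h, real_inner_smul_right,
      real_inner_self_eq_norm_sq, norm_ee, max_eq_left (by linarith)]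
    linarith

theorem G_inv {n : E} (hn : ‖n‖ = 1) : ∫ z, G n z = ∫ z, G (ee 0) z := by
  let Q := (ℝ ∙ (ee 0 - n))ᗮ.reflection
  have h : Q (ee 0) = n := Submodule.reflection_sub (by rw [norm_ee, hn])
  rw [← Q.measurePreserving.integral_comp Q.toHomeomorph.measurableEmbedding]
  exact integral_congr_ae (.of_forall fun z => by
    simp only [G, ← h, LinearIsometryEquiv.inner_map_map, LinearIsometryEquiv.norm_map])

/-- the lower density bound -/
theorem dens : ∃ c : ℝ, 0 < c ∧ ∀ (S : Sf) (x : E), S.Ok → S.w x = 0 →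
    ∀ᶠ s in 𝓝[>] (0 : ℝ), ENNReal.ofReal (c * s ^ 2) ≤ S.μ (ball x s) := by
  refine ⟨(∫ z, G (ee 0) z) / 2, half_pos G_pos, fun S x hS hx => ?_⟩
  have hg := hS.reg x hx
  have hc := cdct
  have := hS.fin
  let g : E → ℝ := fun z => 4 * deriv ct (2 * ‖z‖ ^ 2) * ⟪S.n x, z⟫
  have cg : Continuous g := by fun_prop
  have ig : Integrable g := cg.integrable_of_hasCompactSupport
    (HasCompactSupport.intro (isCompact_closedBall 0 1) fun z hz => by simp [g, far hz])
  have ms : ∀ s : ℝ, MeasurableSet {z : E | S.w (x + s • z) < 0} := fun s =>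
    (isOpen_lt (hS.sm.continuous.comp (by fun_prop)) continuous_const).measurableSet
  have h1 : Tendsto (fun s : ℝ => ∫ z, indicator {z : E | S.w (x + s • z) < 0} g z) (𝓝[>] 0)
      (𝓝 (∫ z, G (S.n x) z)) := by
    refine tendsto_integral_filter_of_dominated_convergence (fun z => ‖g z‖)
      (.of_forall fun s => cg.aestronglyMeasurable.indicator (ms s))
      (.of_forall fun s => .of_forall fun z => norm_indicator_le_norm_self _ _) ig.norm
      (.of_forall fun z => ?_)
    have hd : HasDerivAt (fun s : ℝ => S.w (x + s • z)) (‖S.g x‖ * ⟪S.n x, z⟫) 0 := by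
      have := (show HasFDerivAt S.w _ (x + (0 : ℝ) • z) by simpa using hS.hw x).comp_hasDerivAt
        (0 : ℝ) (((hasDerivAt_id (0 : ℝ)).smul_const z).const_add x)
      rw [← real_inner_smul_left, ← S.g_eq]
      simpa using! this
    have h2 := hd.tendsto_slope_zero_right
    simp only [zero_add, zero_smul, add_zero, hx, sub_zero, smul_eq_mul] at h2
    have h3 := norm_pos_iff.2 hg
    refine tendsto_const_nhds.congr' ?_
    rcases lt_trichotomy ⟪S.n x, z⟫ 0 with h | h | h
    · filter_upwards [h2.eventually (gt_mem_nhds (mul_neg_of_pos_of_neg h3 h)),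
        self_mem_nhdsWithin] with s a b
      rw [indicator_of_mem (show z ∈ {z : E | S.w (x + s • z) < 0} from
        neg_of_mul_neg_right a (inv_pos.2 b).le), G, max_eq_left (by linarith)]
      ring
    · exact .of_forall fun s => by simp [G, indicator, g, h]
    · filter_upwards [h2.eventually (lt_mem_nhds (mul_pos h3 h)), self_mem_nhdsWithin] with s a b
      rw [indicator_of_notMem (show z ∉ {z : E | S.w (x + s • z) < 0} from
        not_lt.2 (pos_of_mul_pos_right a (inv_pos.2 b).le).le), G, max_eq_right (by linarith),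
        mul_zero]
  rw [G_inv (Sf.norm_n hg)] at h1
  filter_upwards [h1.eventually (lt_mem_nhds (half_lt_self G_pos)), self_mem_nhdsWithin] with s a hs
  have hs : 0 < s := hs
  have sf : ContDiff ℝ 1 fun y : E => ct (2 / s ^ 2 * ‖y - x‖ ^ 2) :=
    (sct.of_le (by simp)).comp (contDiff_const.mul ((contDiff_id.sub contDiff_const).norm_sq ℝ))
  have z0 : ∀ y ∉ ball x s, ct (2 / s ^ 2 * ‖y - x‖ ^ 2) = 0 := fun y hy => ct_zero (by
    have : s ≤ ‖y - x‖ := by simpa [dist_eq_norm] using hy
    rw [div_mul_eq_mul_div, le_div_iff₀ (by positivity)]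
    gcongr)
  have h2 := hS.div (fun y => ct (2 / s ^ 2 * ‖y - x‖ ^ 2) • S.n x) (sf.smul contDiff_const)
    (HasCompactSupport.intro (isCompact_closedBall x s) fun y hy => by
      rw [z0 y fun a => hy (ball_subset_closedBall a), zero_smul])
  have h3 : ∀ z, dvg (fun y => ct (2 / s ^ 2 * ‖y - x‖ ^ 2) • S.n x) (x + s • z) = s⁻¹ * g z := by
    intro z
    have h3 : HasFDerivAt (fun y => ct (2 / s ^ 2 * ‖y - x‖ ^ 2) • S.n x) _ (x + s • z) :=
      ((dct _).comp_hasFDerivAt _ ((hsq x (x + s • z)).const_mul (2 / s ^ 2))).smul_const (S.n x)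
    rw [dvg, h3.fderiv, trc_smulRight]
    simp only [add_sub_cancel_left, norm_smul, mul_pow, Real.norm_eq_abs, sq_abs, smul_apply,
      innerSL_apply_apply, smul_eq_mul, real_inner_smul_left, g, real_inner_comm z]
    rw [show 2 / s ^ 2 * (s ^ 2 * ‖z‖ ^ 2) = 2 * ‖z‖ ^ 2 by field_simp]
    field_simp
    ring
  have h4 : ∫ y in {y | S.w y < 0}, dvg (fun y => ct (2 / s ^ 2 * ‖y - x‖ ^ 2) • S.n x) y =
      s ^ 2 * ∫ z, indicator {z : E | S.w (x + s • z) < 0} g z := by
    have h5 := Measure.integral_comp_smul volume (fun z => indicator {y | S.w y < 0}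
      (dvg fun y => ct (2 / s ^ 2 * ‖y - x‖ ^ 2) • S.n x) (x + z)) s
    rw [integral_add_left_eq_self, integral_indicator
      (isOpen_lt hS.sm.continuous continuous_const).measurableSet, finrank_euclideanSpace_fin,
      abs_of_pos (by positivity), smul_eq_mul] at h5
    have h6 : ∀ z, indicator {y | S.w y < 0}
        (dvg fun y => ct (2 / s ^ 2 * ‖y - x‖ ^ 2) • S.n x) (x + s • z) =
        s⁻¹ * indicator {z : E | S.w (x + s • z) < 0} g z := fun z => by
      by_cases h : S.w (x + s • z) < 0 <;> simp [indicator, h, h3]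
    simp only [h6, integral_const_mul] at h5
    rw [← mul_inv_cancel_left₀ (pow_pos hs 3).ne' (∫ y in _, _), ← h5]
    field_simp
  have h5 : ∫ y, ⟪S.n y, ct (2 / s ^ 2 * ‖y - x‖ ^ 2) • S.n x⟫ ∂S.μ ≤ S.μ.real (ball x s) := by
    have fb : S.μ (ball x s) < ⊤ :=
      (measure_mono ball_subset_closedBall).trans_lt (isCompact_closedBall x s).measure_lt_top
    rw [← integral_indicator_one measurableSet_ball]
    refine (Real.le_norm_self _).trans (norm_integral_le_of_norm_le (g := indicator (ball x s) 1)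
      ((integrable_indicator_iff measurableSet_ball).2 (integrableOn_const (C := (1 : ℝ)) fb.ne))
      (.of_forall fun y => ?_))
    by_cases h : y ∈ ball x s
    · rw [indicator_of_mem h]
      refine (norm_inner_le_norm _ _).trans ?_
      rw [norm_smul, Sf.norm_n hg, mul_one, Real.norm_of_nonneg (ct0 _)]
      exact mul_le_one₀ (S.norm_n_le y) (ct0 _) (ct1 _)
    · simp [z0 y h, h]
  rw [h2, h4] at h5
  refine (ENNReal.ofReal_le_ofReal (le_trans ?_ h5)).trans ENNReal.ofReal_toReal_le
  rw [mul_comm]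
  gcongr

end Mono

open Mono in
theorem fvn : FVN := by
  rintro S Y hS ⟨h1, K, hK, h2⟩
  obtain ⟨R, hR⟩ := hK.isBounded.subset_ball 0
  have hU : IsOpen {x | ContDiffAt ℝ 1 Y x} :=
    isOpen_iff_mem_nhds.2 fun x hx => ContDiffAt.eventually hx (by simp)
  obtain ⟨χ, c0, c1, -⟩ := exists_contMDiffMap_zero_one_nhds_of_isClosed (n := 1) 𝓘(ℝ, E)
    (hU.inter (isOpen_ball (x := (0 : E)) (ε := R))).isClosed_compl
    (hK.isClosed.inter (closed hS)) (disjoint_left.2 fun x a b => a ⟨h1 x b.2, hR b.1⟩)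
  have sχ : ContDiff ℝ 1 χ := χ.contMDiff.contDiff
  have e : ∀ x, S.w x = 0 → (fun y => χ y • Y y) =ᶠ[𝓝 x] Y := fun x hx => by
    by_cases h : x ∈ K
    · exact (eventually_nhdsSet_iff_forall.1 c1 x ⟨h, hx⟩).mono fun y a => by simp [a]
    · exact (h2 x hx h).mono fun y a => by simp [a]
  refine Eq.trans ?_ (hS.fv (fun y => χ y • Y y) (contDiff_iff_contDiffAt.2 fun x => ?_)
    (HasCompactSupport.intro (isCompact_closedBall 0 R) fun x hx => by
      rw [c0.self_of_nhdsSet x fun a => hx (ball_subset_closedBall a.2), zero_smul]))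
  · exact integral_congr_ae (hS.sup.mono fun x hx => by
      simp only [(e x hx).fderiv_eq, (e x hx).self_of_nhds])
  · by_cases h : ContDiffAt ℝ 1 Y x
    · exact sχ.contDiffAt.smul h
    · exact (contDiffAt_const (c := 0)).congr_of_eventuallyEq
        ((eventually_nhdsSet_iff_forall.1 c0 x fun a => h a.1).mono fun y a => by simp [a])

end Vale.Agent.P218M1
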