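import Vale.Agent.P218M1.Spec

/-!
# P218M1: the Poincare inequality on a convex set
-/

open MeasureTheory Metric Filter Topology Set
open scoped ContDiff RealInnerProductSpace ENNReal

noncomputable section

namespace Vale.Agent.P218M1

namespace Poi

variable {K : Set E} {U : E → ℝ} {D : ℝ} {g : E → ℝ≥0∞}

/-- the integral along the second half of the segment -/
def ph (g : E → ℝ≥0∞) (u v : E) : ℝ≥0∞ := ∫⁻ s in Icc (1 / 2 : ℝ) 1, g ((1 - s) • u + s • v)

theorem ph_meas (hg : Measurable g) : Measurable fun p : E × E => ph g p.1 p.2 :=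
  Measurable.lintegral_prod_right' (f := fun q : (E × E) × ℝ => g ((1 - q.2) • q.1.1 + q.2 • q.1.2))
    (hg.comp (by fun_prop))

theorem ph_int (hg : Measurable g) (u : E) : ∫⁻ v, ph g u v ≤ 8 * ∫⁻ v, g v := by
  unfold ph
  rw [lintegral_lintegral_swap (f := fun (v : E) (s : ℝ) => g ((1 - s) • u + s • v)) (hg.comp
    (by fun_prop : Measurable fun q : E × ℝ => (1 - q.2) • u + q.2 • q.1)).aemeasurable]
  refine (setLIntegral_mono' (g := fun _ => 8 * ∫⁻ v, g v) measurableSet_Icc fun s hs => ?_).trans ?_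
  · have s0 : 0 < s := by linarith [hs.1]
    rw [← lintegral_map (f := fun v => g ((1 - s) • u + v)) (hg.comp (by fun_prop))
      (measurable_const_smul s), Measure.map_addHaar_smul _ s0.ne', lintegral_smul_measure,
      lintegral_add_left_eq_self, smul_eq_mul]
    gcongr
    rw [finrank_euclideanSpace_fin, abs_of_pos (by positivity), ENNReal.ofReal_le_ofNat,
      inv_le_comm₀ (by positivity) (by norm_num)]
    exact le_trans (by norm_num) (pow_le_pow_left₀ (by norm_num) hs.1 3)
  · rw [setLIntegral_const, Real.volume_Icc]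
    exact mul_le_of_le_one_right' (by norm_num)

theorem half (hK : Convex ℝ K) (hD : ∀ u ∈ K, ∀ v ∈ K, ‖u - v‖ ≤ D)
    (hU : ∀ u ∈ K, ContDiffAt ℝ 1 U u) {u v : E} (hu : u ∈ K) (hv : v ∈ K) :
    ‖U v - U ((1 / 2 : ℝ) • u + (1 / 2 : ℝ) • v)‖ₑ ≤
      .ofReal D * ph (K.indicator fun u => ‖fderiv ℝ U u‖ₑ) u v := by
  have m : ∀ s ∈ Icc (1 / 2 : ℝ) 1, (1 - s) • u + s • v ∈ K := fun s hs =>
    hK hu hv (by linarith [hs.2]) (by linarith [hs.1]) (by ring)
  have := enorm_sub_le_lintegral_deriv_of_contDiffOn_Icc (f := fun s : ℝ => U ((1 - s) • u + s • v))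
    (a := 1 / 2) (b := 1) (fun s hs => ((hU _ (m s hs)).comp s (by fun_prop)).contDiffWithinAt)
    (by norm_num)
  rw [sub_self, zero_smul, zero_add, one_smul, show (1 : ℝ) - 1 / 2 = 1 / 2 by norm_num] at this
  rw [ph, ← lintegral_const_mul' _ _ ENNReal.ofReal_ne_top]
  refine this.trans (setLIntegral_mono' measurableSet_Icc fun s hs => ?_)
  have d : HasDerivAt (fun s : ℝ => (1 - s) • u + s • v) (v - u) s :=
    ((((hasDerivAt_id s).const_sub 1).smul_const u).add
      ((hasDerivAt_id s).smul_const v)).congr_deriv (by simp [sub_eq_neg_add])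
  have d' := ((hU _ (m s hs)).differentiableAt one_ne_zero).hasFDerivAt.comp_hasDerivAt s d
  rw [show deriv (fun s : ℝ => U ((1 - s) • u + s • v)) s = _ from d'.deriv,
    indicator_of_mem (m s hs), mul_comm, ← ofReal_norm,
    ← ofReal_norm, ← ENNReal.ofReal_mul (norm_nonneg _)]
  exact ENNReal.ofReal_le_ofReal (ContinuousLinearMap.le_opNorm_of_le _ (hD v hv u hu))

end Poi

open Poi in
/-- **POI** -/
theorem poi : POI := by
  intro K U D hK hc hD hU
  rcases K.eq_empty_or_nonempty with rfl | ⟨x, hx⟩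
  · simp
  have D0 : 0 ≤ D := (norm_nonneg _).trans (hD x hx x hx)
  have mK := hc.measurableSet
  set g := K.indicator fun u => ‖fderiv ℝ U u‖ₑ
  have mg : Measurable g := (measurable_fderiv ℝ U).enorm.indicator mK
  have eg : ∫⁻ v, g v = .ofReal (∫ u in K, ‖fderiv ℝ U u‖) := by
    rw [lintegral_indicator mK, ofReal_integral_norm_eq_lintegral_enorm
      (ContinuousOn.integrableOn_compact hc fun u hu =>
        ((hU u hu).continuousAt_fderiv one_ne_zero).continuousWithinAt)]
  have A : ∫⁻ u in K, ∫⁻ v in K, ph g u v ≤ 8 * (∫⁻ v, g v) * volume K := by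
    rw [← setLIntegral_const]
    exact lintegral_mono fun u => (setLIntegral_le_lintegral _ _).trans (ph_int mg u)
  have m1 := ph_meas mg
  have m2 := m1.comp measurable_swap
  refine (le_abs_self _).trans ((ENNReal.ofReal_le_ofReal_iff (by positivity)).1 ?_)
  calc _ = ‖∫ u in K, ∫ v in K, |U u - U v|‖ₑ := (Real.enorm_eq_ofReal_abs _).symm
    _ ≤ ∫⁻ u in K, ∫⁻ v in K, .ofReal D * (ph g u v + ph g v u) := by
      refine (enorm_integral_le_lintegral_enorm _).trans (setLIntegral_mono' mK fun u hu =>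
        (enorm_integral_le_lintegral_enorm _).trans (setLIntegral_mono' mK fun v hv => ?_))
      rw [Real.enorm_abs, mul_add, ← edist_eq_enorm_sub]
      refine (edist_triangle_right _ _ (U ((1 / 2 : ℝ) • u + (1 / 2 : ℝ) • v))).trans ?_
      rw [edist_eq_enorm_sub, edist_eq_enorm_sub, add_comm]
      exact add_le_add (half hK hD hU hu hv) (add_comm ((1 / 2 : ℝ) • v) _ ▸ half hK hD hU hv hu)
    _ = .ofReal D * ((∫⁻ u in K, ∫⁻ v in K, ph g u v) + ∫⁻ u in K, ∫⁻ v in K, ph g v u) := by
      simp only [lintegral_const_mul' _ _ ENNReal.ofReal_ne_top]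
      rw [← lintegral_add_left m1.lintegral_prod_right']
      congr 2 with u
      exact lintegral_add_left (m1.comp measurable_prodMk_left) _
    _ ≤ .ofReal D * (8 * (∫⁻ v, g v) * volume K + 8 * (∫⁻ v, g v) * volume K) := by
      rw [lintegral_lintegral_swap (f := fun u v => ph g v u) m2.aemeasurable]
      gcongr
    _ = _ := by
      rw [eg, ENNReal.ofReal_mul (by positivity), ENNReal.ofReal_mul (by positivity),
        ENNReal.ofReal_mul (by positivity), ofReal_measureReal hc.measure_lt_top.ne,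
        ENNReal.ofReal_ofNat]
      ring

end Vale.Agent.P218M1
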