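import Vale.Agent.P218M1.Alg
import Vale.Agent.P218M1.Spec

/-!
# P218M1, row PSIT: derivatives along moving configurations
-/

open MeasureTheory Metric Filter Topology Set
open scoped ContDiff RealInnerProductSpace

noncomputable section

namespace Vale.Agent.P218M1

namespace Psit

variable {S : ℝ → Sf} {I : Set ℝ} {τ : ℝ}

/-- the defining function, in space and time -/
def Wj (S : ℝ → Sf) (p : ℝ × E) : ℝ := (S p.1).w p.2

theorem sW (F : Fam S I) (h : τ ∈ I) (a : E) : ContDiffAt ℝ ∞ (Wj S) (τ, a) :=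
  F.sm.contDiffAt ((F.op.prod isOpen_univ).mem_nhds ⟨h, trivial⟩)

theorem sG (F : Fam S I) (h : τ ∈ I) (a : E) :
    ContDiffAt ℝ ∞ (fun p : ℝ × E => (S p.1).g p.2) (τ, a) :=
  (InnerProductSpace.toDual ℝ E).symm.toContinuousLinearEquiv.contDiff.contDiffAt.comp _
    (ContDiffAt.fderiv (f := fun (p : ℝ × E) x => Wj S (p.1, x)) (g := Prod.snd) (n := ∞)
      ((sW F h a).comp ((τ, a), a) (f := fun q : (ℝ × E) × E => (q.1.1, q.2)) (by fun_prop))
      contDiffAt_snd (by simp))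

theorem dW (F : Fam S I) (h : τ ∈ I) (a : E) : HasFDerivAt (Wj S) (fderiv ℝ (Wj S) (τ, a)) (τ, a) :=
  ((sW F h a).differentiableAt (by simp)).hasFDerivAt

theorem wd_eq (F : Fam S I) (h : τ ∈ I) (a : E) : wd S τ a = fderiv ℝ (Wj S) (τ, a) (1, 0) :=
  (HasFDerivAt.comp_hasDerivAt τ (f := fun σ => (σ, a)) (dW F h a)
    ((hasDerivAt_id τ).prodMk (hasDerivAt_const τ a))).deriv

theorem g_eq (F : Fam S I) (h : τ ∈ I) (a e : E) :
    ⟪(S τ).g a, e⟫ = fderiv ℝ (Wj S) (τ, a) (0, e) :=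
  DFunLike.congr_fun (((F.ok τ h).hw a).unique
    ((dW F h a).comp a (hasFDerivAt_prodMk_right τ a))) e

theorem swd (F : Fam S I) (h : τ ∈ I) : ContDiff ℝ ∞ (wd S τ) := by
  rw [show wd S τ = _ from funext (wd_eq F h)]
  exact contDiff_iff_contDiffAt.2 fun a => (((sW F h a).fderiv_right (m := ∞) (by simp)).comp a
    (f := fun x => (τ, x)) (by fun_prop)).clm_apply contDiffAt_const

theorem line {V : Type} [NormedAddCommGroup V] [NormedSpace ℝ V] (q u : V) :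
    HasDerivAt (fun t : ℝ => q + t • u) u 0 := by
  simpa using ((hasDerivAt_id (0 : ℝ)).smul_const u).const_add q

theorem chain {V W : Type} [NormedAddCommGroup V] [NormedSpace ℝ V] [NormedAddCommGroup W]
    [NormedSpace ℝ W] {f : V → W} {L : V →L[ℝ] W} {q u : V} {γ : ℝ → V} (h : HasFDerivAt f L q)
    (d : HasDerivAt γ u 0) (e : γ 0 = q) : HasDerivAt (fun t => f (γ t)) (L u) 0 :=
  h.comp_hasDerivAt_of_eq 0 d e.symm

/-- the gradient along a moving point -/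
theorem der_g (F : Fam S I) (h : τ ∈ I) {σ : ℝ → ℝ} {a : ℝ → E} {a₀ b : E} (hσ : HasDerivAt σ 1 0)
    (σ0 : σ 0 = τ) (ha : HasDerivAt a b 0) (a0 : a 0 = a₀) :
    HasDerivAt (fun t => (S (σ t)).g (a t)) (gradient (wd S τ) a₀ + (S τ).D2 a₀ b) 0 := by
  have hD := (((sW F h a₀).fderiv_right (m := ∞) (by simp)).differentiableAt
    (by simp)).hasFDerivAt
  have sy := ((sW F h a₀).of_le (cast_le_inf 2)).isSymmSndFDerivAt (by simp)
  set D := fderiv ℝ (fderiv ℝ (Wj S)) (τ, a₀)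
  have k0 : ∀ {p : ℝ → ℝ × E} {u}, HasDerivAt p u 0 → p 0 = (τ, a₀) → ∀ e,
      HasDerivAt (fun t => fderiv ℝ (Wj S) (p t) e) (D u e) 0 := fun d e v => by
    simpa using (chain hD d e).clm_apply (hasDerivAt_const 0 v)
  have k : ∀ {p : ℝ → ℝ × E} {u G}, HasDerivAt p u 0 → p 0 = (τ, a₀) →
      HasDerivAt (fun t => (S (p t).1).g (p t).2) G 0 → ∀ e, ⟪G, e⟫ = D u (0, e) :=
    fun {p u G} d e g v => by
      refine HasDerivAt.unique (by simpa using g.inner ℝ (hasDerivAt_const 0 v))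
        ((k0 d e (0, v)).congr_of_eventuallyEq ?_)
      filter_upwards [(continuous_fst.continuousAt.comp d.continuousAt).eventually
        (F.op.mem_nhds (by simpa [e] using h))] with t ht using g_eq F ht _ v
  have d := chain ((sG F h a₀).differentiableAt (by simp)).hasFDerivAt (hσ.prodMk ha)
    (by rw [σ0, a0])
  refine d.congr_deriv (ext_inner_right ℝ fun e => ?_)
  have l := fun b => (hasDerivAt_const (0 : ℝ) τ).prodMk (line a₀ b)
  have h1 := k (l b) (by simp) (chain ((F.ok τ h).hg a₀) (line a₀ b) (by simp) :) e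
  have h2 := (chain ((swd F h).differentiable (by simp) a₀).hasFDerivAt (line a₀ e) (by simp)).unique
    ((k0 (l e) (by simp) (1, 0)).congr_of_eventuallyEq (.of_forall fun t => wd_eq F h _))
  rw [k (hσ.prodMk ha) (by rw [σ0, a0]) d, inner_add_left, h1, inner_grad, h2, sy.eq (0, e),
    ← add_apply, ← map_add]
  simp [D]

theorem der_cs {g θ : ℝ → E} {G : E} (hg : HasDerivAt g G 0) (hθ : HasDerivAt θ 0 0)
    (h : ⟪g 0, θ 0⟫ ≠ 0) : HasDerivAt (fun t => ⟪‖g t‖⁻¹ • g t, θ t⟫ ^ 2)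
      (2 * ⟪‖g 0‖⁻¹ • g 0, θ 0⟫ ^ 2 * (⟪G, θ 0⟫ / ⟪g 0, θ 0⟫ - ⟪g 0, G⟫ / ‖g 0‖ ^ 2)) 0 := by
  have g0 : ‖g 0‖ ≠ 0 := norm_ne_zero_iff.2 fun a => h (by simp [a])
  simp only [real_inner_smul_left, ← div_eq_inv_mul, div_pow]
  refine (((hg.inner ℝ hθ).fun_pow 2).fun_div hg.norm_sq (pow_ne_zero 2 g0)).congr_deriv ?_
  simp only [inner_zero_right, zero_add]
  field_simp
  ring

variable {T : Sf} {v : E → ℝ} {z : Q}

/-- the derivative of the gradient -/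
def GG (T : Sf) (v : E → ℝ) (a θ : E) : E := gradient v a + T.D2 a ((-v a / T.s a θ) • θ)

/-- the logarithmic derivative of the cosine -/
def mu (T : Sf) (v : E → ℝ) (a θ : E) : ℝ :=
  ⟪GG T v a θ, θ⟫ / T.s a θ - ⟪T.g a, GG T v a θ⟫ / ‖T.g a‖ ^ 2

theorem der_v (hT : T.Ok) (hv : ContDiff ℝ ∞ v) {a θ : ℝ → E} {a₀ θ₀ : E} (h : T.s a₀ θ₀ ≠ 0)
    (ha : HasDerivAt a (T.Pi a₀ θ₀ (T.p a₀ θ₀)) 0) (a0 : a 0 = a₀) (hθ : HasDerivAt θ 0 0)
    (θ0 : θ 0 = θ₀) {c : ℝ} (hc : HasDerivAt (fun t => -v (a t) / T.s (a t) (θ t)) c 0) :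
    T.cc a₀ θ₀ ^ 2 * c = mu T v a₀ θ₀ := by
  subst a0 θ0
  rw [hc.unique ((chain (hv.differentiable (by simp) _).hasFDerivAt ha rfl).fun_neg.fun_div
    ((chain (hT.hg _) ha rfl).inner ℝ hθ) h)]
  have g0 := norm_ne_zero_iff.2 (Sf.g_ne h)
  have e : ∀ u, ⟪u, T.Pi (a 0) (θ 0) (T.p (a 0) (θ 0))⟫ = ⟪T.g (a 0), u⟫ / T.s (a 0) (θ 0) -
      ‖T.g (a 0)‖ ^ 2 / T.s (a 0) (θ 0) ^ 2 * ⟪u, θ 0⟫ := fun u => by
    rw [Sf.Pi_apply, inner_sub_right, real_inner_smul_right, Sf.p_inner, Sf.p,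
      real_inner_smul_right, real_inner_smul_right, real_inner_self_eq_norm_sq, real_inner_comm]
    field_simp
  rw [← inner_grad, hT.D2_sym, real_inner_comm (T.D2 _ _), e, e, Sf.cc_eq]
  simp only [mu, GG, map_smul, inner_add_left, inner_add_right, real_inner_smul_left,
    real_inner_smul_right, inner_zero_right]
  field_simp
  ring

section parts

variable {V : Type} [NormedAddCommGroup V] [NormedSpace ℝ V] {W : Type} [NormedAddCommGroup W]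
  [NormedSpace ℝ W] {γ : ℝ → V × W} {u : V × W}

theorem d1 (h : HasDerivAt γ u 0) : HasDerivAt (fun t => (γ t).1) u.1 0 :=
  chain hasFDerivAt_fst h rfl

theorem d2 (h : HasDerivAt γ u 0) : HasDerivAt (fun t => (γ t).2) u.2 0 :=
  chain hasFDerivAt_snd h rfl

theorem dy {γ : ℝ → Q} {a : E} {c : ℝ} (h : HasDerivAt γ (a, 0, c) 0) :
    HasDerivAt (fun t => yy (γ t)) (a + c • (γ 0).2.1) 0 := by
  exact ((d1 h).fun_add ((d2 (d2 h)).fun_smul (d1 (d2 h)))).congr_deriv (by simp)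

end parts

theorem sv (hT : T.Ok) (hv : ContDiff ℝ ∞ v) {y : Q → E} (hy : ContDiff ℝ ∞ y)
    (h : T.s (y z) z.2.1 ≠ 0) : ContDiffAt ℝ ∞ (fun z => -v (y z) / T.s (y z) z.2.1) z :=
  (hv.comp hy).neg.contDiffAt.div ((hT.sg.comp hy).inner ℝ (by fun_prop)).contDiffAt h

theorem syy : ContDiff ℝ ∞ yy := by unfold yy; fun_prop

theorem Dv1 (hT : T.Ok) (hv : ContDiff ℝ ∞ v) (hz : z ∈ T.O) :
    T.cs1 z * T.D (T.p1 z) (T.v1 v) z = mu T v z.1 z.2.1 := by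
  have l := line z (T.VD (T.p1 z) z)
  exact der_v hT hv hz.1 (d1 l) (by simp) (d1 (d2 l)) (by simp)
    (chain ((sv hT hv contDiff_fst hz.1).differentiableAt (by simp)).hasFDerivAt l (by simp))

theorem Dv2 (hT : T.Ok) (hv : ContDiff ℝ ∞ v) (hz : z ∈ T.O) :
    T.cs2 z * T.D (T.p2 z) (T.v2 v) z = mu T v (yy z) z.2.1 := by
  have l := line z (T.VD (T.p2 z) z)
  refine der_v hT hv hz.2.1 ((dy l).congr_deriv ?_) (by simp) (d1 (d2 l)) (by simp)
    (chain ((sv hT hv syy hz.2.1).differentiableAt (by simp)).hasFDerivAt l (by simp))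
  simp only [Sf.Pi_apply, Sf.Pv, Sf.p1, Sf.p2, inner_sub_left, sub_smul, zero_smul, add_zero]
  abel

/-- moving configurations -/
structure Mv (S : ℝ → Sf) (τ : ℝ) (z : Q) (γ : ℝ → ℝ × Q) : Prop where
  e : γ 0 = (τ, z)
  d : HasDerivAt γ (1, (S τ).VT (wd S τ) z) 0

namespace Mv

variable {γ : ℝ → ℝ × Q} (m : Mv S τ z γ) (F : Fam S I) (h : τ ∈ I) (hz : z ∈ (S τ).O)
include m

theorem x : HasDerivAt (fun t => (γ t).2.1) ((S τ).v1 (wd S τ) z • z.2.1) 0 := d1 (d2 m.d)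

theorem dd : HasDerivAt (fun t => (γ t).2.2.2) ((S τ).v2 (wd S τ) z - (S τ).v1 (wd S τ) z) 0 :=
  d2 (d2 (d2 m.d))

theorem y : HasDerivAt (fun t => yy (γ t).2) ((S τ).v2 (wd S τ) z • z.2.1) 0 :=
  (dy (d2 m.d)).congr_deriv (by simp [m.e, sub_smul])

include F h hz

theorem cs1 : HasDerivAt (fun t => (S (γ t).1).cs1 (γ t).2) ((S τ).Tc1 (wd S τ) z) 0 := by
  refine (der_cs (der_g F h (d1 m.d) (by rw [m.e]) m.x rfl) (d1 (d2 (d2 m.d)))
    (by rw [m.e]; exact hz.1)).congr_deriv ?_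
  rw [Sf.Tc1, sq ((S τ).cs1 z), mul_assoc 2 (_ * _), mul_assoc _ ((S τ).cs1 z),
    Dv1 (F.ok τ h) (swd F h) hz, m.e, mul_assoc]
  rfl

theorem cs2 : HasDerivAt (fun t => (S (γ t).1).cs2 (γ t).2) ((S τ).Tc2 (wd S τ) z) 0 := by
  refine (der_cs (der_g F h (d1 m.d) (by rw [m.e]) m.y rfl) (d1 (d2 (d2 m.d)))
    (by rw [m.e]; exact hz.2.1)).congr_deriv ?_
  rw [Sf.Tc2, sq ((S τ).cs2 z), mul_assoc 2 (_ * _), mul_assoc _ ((S τ).cs2 z),
    Dv2 (F.ok τ h) (swd F h) hz, m.e, mul_assoc]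
  rfl

theorem tt (π : Par) : HasDerivAt (fun t => (S (γ t).1).tt π (γ t).2)
    ((S τ).kk z / π.ε * ((S τ).v2 (wd S τ) z - (S τ).v1 (wd S τ) z) + (S τ).tt π z * (S τ).cs1 z *
      (S τ).D ((S τ).p1 z) ((S τ).v1 (wd S τ)) z) 0 := by
  have e : ∀ (T : Sf) z, T.kk z = √(T.cs1 z) := fun T z => (Real.sqrt_sq_eq_abs _).symm
  have k := (Sf.O.kk_pos hz).ne'
  simp only [Sf.tt, e]
  refine ((m.dd.fun_mul ((m.cs1 F h hz).sqrt (by
    rw [m.e]; exact (Sf.O.cs1_pos hz).ne'))).div_const _).congr_deriv ?_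
  simp only [m.e, Sf.Tc1]
  rw [← e, ← (S τ).kk_sq]
  field_simp

end Mv

end Psit

end Vale.Agent.P218M1
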