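import Vale.Agent.P218M1.PsitA
import Vale.Agent.P218M1.Cut

/-!
# P218M1, row PSIT: the occlusion and the weight in space and time
-/

open MeasureTheory Metric Filter Topology Set
open scoped ContDiff RealInnerProductSpace

noncomputable section

namespace Vale.Agent.P218M1

namespace Psit

variable {S : ℝ → Sf} {I : Set ℝ} {τ : ℝ} {π : Par} {z : Q} {Λ : ℝ}

theorem scc (F : Fam S I) {X : Type} [NormedAddCommGroup X] [NormedSpace ℝ X] {σ : X → ℝ}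
    {a θ : X → E} {q : X} (hσ : ContDiff ℝ ∞ σ) (ha : ContDiff ℝ ∞ a) (hθ : ContDiff ℝ ∞ θ)
    (h : σ q ∈ I) (hg : (S (σ q)).g (a q) ≠ 0) :
    ContDiffAt ℝ ∞ (fun q => (S (σ q)).cc (a q) (θ q)) q := by
  have := (sG F h (a q)).comp q (f := fun q => (σ q, a q)) (hσ.prodMk ha).contDiffAt
  exact (((this.norm ℝ hg).inv (norm_ne_zero_iff.2 hg)).smul this).inner ℝ hθ.contDiffAt

theorem sc1 (F : Fam S I) (h : τ ∈ I) (hg : (S τ).g z.1 ≠ 0) :
    ContDiffAt ℝ ∞ (fun q : ℝ × Q => (S q.1).cc q.2.1 q.2.2.1) (τ, z) :=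
  scc F contDiff_fst (by fun_prop) (by fun_prop) h hg

theorem sc2 (F : Fam S I) (h : τ ∈ I) (hg : (S τ).g (yy z) ≠ 0) :
    ContDiffAt ℝ ∞ (fun q : ℝ × Q => (S q.1).cs2 q.2) (τ, z) :=
  (scc F (q := (τ, z)) contDiff_fst (syy.comp contDiff_snd) (by fun_prop) h hg).pow 2

/-- the configuration with the new distance -/
def pj (p : (ℝ × Q) × ℝ) : ℝ × Q := (p.1.1, p.1.2.1, p.1.2.2.1, p.2)

theorem spj : ContDiff ℝ ∞ pj := by unfold pj; fun_prop

def FJ (S : ℝ → Sf) (p : (ℝ × Q) × ℝ) : ℝ := Wj S (p.1.1, yy (pj p).2)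

def hJ (S : ℝ → Sf) (π : Par) (q : ℝ × Q) : ℝ := π.sg0 ((S q.1).cs2 q.2) ^ 2

def fJ (S : ℝ → Sf) (π : Par) (p : (ℝ × Q) × ℝ) : ℝ :=
  hJ S π (pj p) * (π.xi p.2 * π.xi (p.1.2.2.2 - p.2))

theorem FJ_fd (F : Fam S I) (h : τ ∈ I) (l : ℝ) (v : (ℝ × Q) × ℝ) (hv : v.1.2.2.1 = 0) :
    fderiv ℝ (FJ S) ((τ, z), l) v = v.1.1 * wd S τ (yy (z.1, z.2.1, l)) +
      ⟪(S τ).g (yy (z.1, z.2.1, l)), v.1.2.1 + v.2 • z.2.1⟫ := by
  have c := line ((τ, z), l) v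
  have s : ContDiffAt ℝ ∞ (FJ S) ((τ, z), l) := (sW F h _).comp _
    (f := fun p : (ℝ × Q) × ℝ => (p.1.1, yy (pj p).2))
    (contDiff_fst.fst.prodMk (syy.comp spj.snd)).contDiffAt
  have e := chain (dW F h (yy (z.1, z.2.1, l))) ((d1 (d1 c)).prodMk (dy ((d1 (d2 (d1 c))).prodMk
    ((hv ▸ d1 (d2 (d2 (d1 c)))).prodMk (d2 c))))) (by simp)
  rw [(chain (s.differentiableAt (by simp)).hasFDerivAt c (by simp)).unique e, wd_eq F h, g_eq F h,
    ← smul_eq_mul, ← map_smul, ← map_add]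
  simp

theorem van1 (hπ : π.Rg) {p : (ℝ × Q) × ℝ} (h : p.2 < π.ρ / 2 ∨ p.1.2.2.2 - p.2 < π.ρ / 2) :
    fJ S π =ᶠ[𝓝 p] 0 := by
  rcases h with h | h
  · filter_upwards [ContinuousAt.eventually_lt (f := fun p : (ℝ × Q) × ℝ => p.2) (by fun_prop)
      continuousAt_const h] with q hq
    simp [fJ, hπ.xi_zero hq.le]
  · filter_upwards [ContinuousAt.eventually_lt (f := fun p : (ℝ × Q) × ℝ => p.1.2.2.2 - p.2)
      (by fun_prop) continuousAt_const h] with q hq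
    simp [fJ, hπ.xi_zero hq.le]

theorem van2 (F : Fam S I) (hπ : π.Rg) (h : τ ∈ I) {l : ℝ} (hl : FJ S ((τ, z), l) = 0)
    (hc : (S τ).cs2 (z.1, z.2.1, l) < π.η ^ 2) : fJ S π =ᶠ[𝓝 ((τ, z), l)] 0 := by
  filter_upwards [((sc2 F h ((F.ok τ h).reg _ hl)).continuousAt.comp (x := ((τ, z), l))
    spj.continuous.continuousAt).eventually_lt continuousAt_const hc] with q hq
  have : π.sg0 ((S (pj q).1).cs2 (pj q).2) = 0 := hπ.sg0_zero hq.le
  simp [fJ, hJ, this]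

theorem shJ (F : Fam S I) (h : τ ∈ I) {l : ℝ} (hg : (S τ).g (yy (z.1, z.2.1, l)) ≠ 0) :
    ContDiffAt ℝ ∞ (fun p => hJ S π (pj p)) ((τ, z), l) :=
  ContDiffAt.comp ((τ, z), l) (g := hJ S π) (f := pj)
    ((π.sg0_smooth.contDiffAt.comp (τ, z.1, z.2.1, l) (sc2 F h hg)).pow 2) spj.contDiffAt

theorem keyN (fs : FS) (F : Fam S I) (hπ : π.Rg) (h : τ ∈ I) (z : Q) :
    ContDiffAt ℝ 1 (fun q : ℝ × Q => (S q.1).N π q.2) (τ, z) ∧
      ∀ v, fderiv ℝ (fun q : ℝ × Q => (S q.1).N π q.2) (τ, z) v =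
        ∑ᶠ (l : ℝ) (_ : FJ S ((τ, z), l) = 0), fderiv ℝ (fJ S π) ((τ, z), l) (v,
          -(fderiv ℝ (FJ S) ((τ, z), l) (v, 0) / fderiv ℝ (FJ S) ((τ, z), l) (0, 1))) := by
  have hρ := hπ.ρ0
  refine (fs (ℝ × Q) ℝ (FJ S) (fJ S π) (τ, z) (π.ρ / 2) (z.2.2 + 1) 1 (fun l _ => (sW F h _).comp _
    (f := fun p : (ℝ × Q) × ℝ => (p.1.1, yy (pj p).2))
    (contDiff_fst.fst.prodMk (syy.comp spj.snd)).contDiffAt) ?_ fun l hl => ?_).imp id
    fun k => k le_rfl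
  · filter_upwards [ContinuousAt.eventually_lt (f := fun q : ℝ × Q => q.2.2.2) (by fun_prop)
      continuousAt_const (lt_add_one z.2.2)] with q hq l _ hl
    rw [mem_Icc, not_and_or, not_le, not_le] at hl
    exact (van1 hπ (p := (q, l)) (hl.imp id fun a => by dsimp only; linarith)).self_of_nhds
  · by_cases h1 : l ∈ Icc (π.ρ / 2) (z.2.2 + 1)
    swap
    · rw [mem_Icc, not_and_or, not_le, not_le] at h1
      exact .inr (van1 hπ (h1.imp id fun a => by dsimp only; linarith))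
    rcases lt_or_ge ((S τ).cs2 (z.1, z.2.1, l)) (π.η ^ 2) with h3 | h3
    · exact .inr (van2 F hπ h hl h3)
    refine .inl ⟨h1, ?_, ?_⟩
    · rw [FJ_fd F h _ _ rfl]
      simpa [Sf.s] using Sf.s_ne_of_sq hπ.η2.1 h3
    · exact ((shJ F h ((F.ok τ h).reg _ hl)).mul ((π.xi_smooth.comp contDiff_snd).mul
        (π.xi_smooth.comp (f := fun p : (ℝ × Q) × ℝ => p.1.2.2.2 - p.2)
          (by fun_prop))).contDiffAt).of_le (cast_le_inf 1)

theorem box_O (hπ : π.Rg) {T : Sf} (hb : T.Box π z) : z ∈ T.O :=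
  ⟨Sf.s_ne_of_sq (by norm_num) hb.2.2.2.1,
    Sf.s_ne_of_sq (half_pos hπ.η2.1) hb.2.2.2.2, (half_pos hπ.ρ0).trans_le hb.2.1⟩

theorem derN (fs : FS) (F : Fam S I) (h : τ ∈ I) (hG : Good (S τ) π Λ) (hz : (S τ).Hit z)
    (hb : (S τ).Box π z) : fderiv ℝ (fun q : ℝ × Q => (S q.1).N π q.2) (τ, z)
      (1, (S τ).VT (wd S τ) z) = (S τ).TN π (wd S τ) z := by
  have hπ := hG.rg
  have hρ := hπ.ρ0
  have hη := hπ.η2
  rw [(keyN fs F hπ h z).2]
  refine finsum_congr fun l => finsum_congr fun hl => ?_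
  dsimp only
  by_cases h1 : l < π.ρ / 2 ∨ z.2.2 - l < π.ρ / 2
  · rw [(van1 hπ (p := ((τ, z), l)) h1).fderiv_eq]
    rcases h1 with h1 | h1 <;> simp [hπ.xi_zero h1.le]
  rw [not_or, not_lt, not_lt] at h1
  rcases lt_or_ge ((S τ).cs2 (z.1, z.2.1, l)) (π.η ^ 2) with h3 | h3
  · rw [(van2 F hπ h hl h3).fderiv_eq, deriv_zero_Iic (c := 0)
      (deriv_smooth (π.sg0_smooth.pow 2)).continuous (fun t ht => by simp [hπ.sg0_zero ht]) h3.le]
    simp
  have hO : (z.1, z.2.1, l) ∈ (S τ).O := ⟨(box_O hπ hb).1, Sf.s_ne_of_sq hη.1 h3, by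
    dsimp only; linarith⟩
  have a1 : 2 * π.ρ ≤ l := hG.sp.sep (z.1, z.2.1, l) ⟨hz.1, hz.2.1, hO.2.2, hl⟩
    (by linarith [hb.1]) (le_trans (by linarith) hb.2.2.2.1) (by linarith)
  have e1 : yy (yy (z.1, z.2.1, l), z.2.1, z.2.2 - l) = yy z := by
    simp only [yy, sub_smul]; abel
  have a2 : 2 * π.ρ ≤ z.2.2 - l := by
    refine hG.sp.sep (yy (z.1, z.2.1, l), z.2.1, z.2.2 - l)
      ⟨hl, hz.2.1, by dsimp only; linarith, by rw [e1]; exact hz.2.2.2⟩ ?_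
      (le_trans (by linarith) h3) (by rw [Sf.cs2, e1]; exact hb.2.2.2.2)
    have := norm_add_le z.1 (l • z.2.1)
    rw [norm_smul, hz.2.1, Real.norm_of_nonneg (by linarith)] at this
    change ‖z.1 + l • z.2.1‖ ≤ _
    linarith [hb.1, hb.2.2.1]
  have he : fJ S π =ᶠ[𝓝 ((τ, z), l)] fun p => hJ S π (pj p) := by
    filter_upwards [ContinuousAt.eventually_lt (g := fun p : (ℝ × Q) × ℝ => p.1.2.2.2 - p.2)
      continuousAt_const (by fun_prop) (show π.ρ < z.2.2 - l by linarith),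
      ContinuousAt.eventually_lt (g := fun p : (ℝ × Q) × ℝ => p.2) continuousAt_const (by fun_prop)
        (show π.ρ < l by linarith)] with q a b
    rw [fJ, hπ.xi_one a.le, hπ.xi_one b.le, mul_one, mul_one]
  rw [he.fderiv_eq, hπ.xi_one (d := l) (by linarith), hπ.xi_one (d := z.2.2 - l) (by linarith),
    mul_one, mul_one, FJ_fd F h _ _ rfl, FJ_fd F h _ _ rfl]
  set V : (ℝ × Q) × ℝ := ((1, (S τ).VT (wd S τ) z), _) with hV
  have c := line ((τ, z), l) V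
  have m : Mv S τ (z.1, z.2.1, l) fun t => pj (((τ, z), l) + t • V) := ⟨by simp [pj],
    ((d1 (d1 c)).prodMk ((d1 (d2 (d1 c))).prodMk ((d1 (d2 (d2 (d1 c)))).prodMk (d2 c)))).congr_deriv
      (by
        have := hO.2.1
        simp only [hV, Sf.VT, Sf.v1, Sf.v2, Sf.s, Prod.mk.injEq, true_and, zero_smul, add_zero,
          real_inner_smul_right, Prod.fst_zero, Prod.snd_zero, zero_mul, zero_add, one_smul] at this ⊢
        field_simp
        ring)⟩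
  refine (chain ((shJ F h (Sf.O.g2 hO)).differentiableAt (by simp)).hasFDerivAt c
    (by simp)).unique ?_
  exact ((π.sg0_smooth.pow 2).differentiable (by simp) _).hasDerivAt.comp_of_eq 0 (m.cs2 F h hO)
    (by simp [pj])

theorem sPsi (fs : FS) (F : Fam S I) (hπ : π.Rg) (h : τ ∈ I) (hz : z ∈ (S τ).O) :
    ContDiffAt ℝ 1 (fun q : ℝ × Q => (S q.1).Wt π q.2) (τ, z) ∧
      ContDiffAt ℝ 1 (fun q : ℝ × Q => (S q.1).tt π q.2) (τ, z) ∧
      ContDiffAt ℝ 1 (fun q : ℝ × Q => (S q.1).kk q.2) (τ, z) := by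
  have h1 := (sc1 F h (Sf.O.g1 hz)).of_le (cast_le_inf 1)
  have h2 := (sc2 F h (Sf.O.g2 hz)).of_le (cast_le_inf 1)
  have h3 := (keyN fs F hπ h z).1
  have h4 := h1.abs (Sf.cc_ne hz.1)
  exact ⟨(Par.W_cd.contDiffAt.comp _ contDiffAt_snd.fst).mul (((((Par.B0_cd.contDiffAt.comp _
    (h1.pow 2)).mul (Par.K0_cd.contDiffAt.comp _ h2)).mul (ct_cd.contDiffAt.comp _
      (contDiffAt_const.mul h3))).mul (Par.xi_cd.contDiffAt.comp _ contDiffAt_snd.snd.snd)).pow 2),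
    (contDiffAt_snd.snd.snd.mul h4).div_const _, h4⟩

/-- the main term, with the speeds of the family -/
def Mn (T : Sf) (π : Par) (v : E → ℝ) (z : Q) : ℝ :=
  T.Wt π z * G1 (T.tt π z) * (T.kk z / π.ε) * (T.v2 v z - T.v1 v z)

theorem derPsi (fs : FS) (F : Fam S I) (h : τ ∈ I) (hG : Good (S τ) π Λ) (hz : (S τ).Hit z)
    (hb : (S τ).Box π z) : fderiv ℝ (fun q : ℝ × Q => (S q.1).Psi π q.2) (τ, z)
      (1, (S τ).VT (wd S τ) z) = (S τ).Hw π (wd S τ) z + Mn (S τ) π (wd S τ) z := by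
  have hπ := hG.rg
  have hO := box_O hπ hb
  have s := sPsi fs F hπ h hO
  have c := line (τ, z) (1, (S τ).VT (wd S τ) z)
  set γ := fun t : ℝ => (τ, z) + t • ((1 : ℝ), (S τ).VT (wd S τ) z)
  have m : Mv S τ z γ := ⟨by simp [γ], c⟩
  have dN := chain ((keyN fs F hπ h z).1.differentiableAt (by simp)).hasFDerivAt c m.e
  rw [derN fs F h hG hz hb] at dN
  have x0 : deriv π.xi z.2.2 = 0 := hπ.dxi_ge (by
    linarith [hπ.ρ0, hG.sp.sep z hz (by linarith [hb.1])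
      (le_trans (by linarith [hπ.η2.2]) hb.2.2.2.1) hb.2.2.2.2])
  have k : ∀ {f : ℝ → ℝ}, ContDiff ℝ ∞ f → ∀ {g : ℝ → ℝ} {g'}, HasDerivAt g g' 0 →
      HasDerivAt (fun t => f (g t)) (deriv f (g 0) * g') 0 := fun hf _ _ hg =>
    (hf.differentiable (by simp) _).hasDerivAt.comp 0 hg
  refine (chain ((s.1.mul ((G0_cd (k := 1) (by norm_num)).contDiffAt.comp _ s.2.1)).differentiableAt
    (by simp)).hasFDerivAt c m.e).unique ((((chain (π.W_smooth.differentiable (by simp)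
      _).hasFDerivAt m.x rfl).fun_mul (((((k π.B0_smooth (m.cs1 F h hO)).fun_mul
        (k Par.K0_smooth (m.cs2 F h hO))).fun_mul (k ct_smooth (dN.const_mul 2))).fun_mul
          (k π.xi_smooth m.dd)).fun_pow 2)).fun_mul
            ((hasDerivAt_G0 _).comp 0 (m.tt F h hO π))).congr_deriv ?_)
  simp only [m.e, Function.comp_apply, x0, map_smul, smul_eq_mul, Sf.Hw, Mn, Sf.Wt, Sf.o0]
  push_cast
  ring

theorem off (hπ : π.Rg) {T : Sf} (hb : ¬ T.Box π z) :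
    (π.W z.1 = 0 ∧ fderiv ℝ π.W z.1 = 0) ∨ T.o0 π z = 0 ∨ 1 ≤ T.tt π z := by
  by_cases h1 : T.cs1 z < 1 / 2
  · exact .inr (.inl (by simp [Sf.o0, hπ.B0_zero (c := T.cs1 z) (by linarith [hπ.α2.2])]))
  simp only [Sf.Box, not_and_or, not_le] at hb
  rcases hb with hb | hb | hb | hb | hb
  · have : π.W =ᶠ[𝓝 z.1] 0 := (continuousAt_const.eventually_lt continuous_norm.continuousAt hb).mono
      fun x hx => by_contra fun a => by nlinarith [hπ.W_ne a, hπ.R0]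
    exact .inl ⟨this.self_of_nhds, by simp [this.fderiv_eq]⟩
  · exact .inr (.inl (by simp [Sf.o0, hπ.xi_zero hb.le]))
  · refine .inr (.inr ((one_le_div hπ.ε0).2 ?_))
    have : 1 / 2 ≤ T.kk z := by nlinarith [T.kk_sq z, T.kk_nonneg z]
    nlinarith [hπ.ε1]
  · exact (h1 hb).elim
  · exact .inr (.inl (by simp [Sf.o0, Par.K0_zero (c := T.cs2 z) (by linarith [hπ.η2.2])]))

theorem off' (hπ : π.Rg) {T : Sf} (hb : ¬ T.Box π z) (v : E → ℝ) :
    T.Psi π z = 0 ∧ T.Hw π v z = 0 ∧ T.Mm π z = 0 ∧ Mn T π v z = 0 := by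
  rcases off hπ hb with h | h | h
  · simp [Sf.Psi, Sf.Hw, Sf.Mm, Mn, Sf.Wt, h]
  · simp [Sf.Psi, Sf.Hw, Sf.Mm, Mn, Sf.Wt, h]
  · simp [Sf.Psi, Sf.Hw, Sf.Mm, Mn, G0_zero h, G1_zero h]

theorem offT (F : Fam S I) (hπ : π.Rg) (h : τ ∈ I) (h1 : (S τ).g z.1 ≠ 0) (h2 : (S τ).g (yy z) ≠ 0)
    (hb : ¬ (S τ).Box π z) : fderiv ℝ (fun q : ℝ × Q => (S q.1).Psi π q.2) (τ, z) = 0 := by
  have c1 : ContinuousAt (fun q : ℝ × Q => (S q.1).cs1 q.2) (τ, z) :=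
    ((sc1 F h h1).pow 2).continuousAt
  have c2 := (sc2 F h h2).continuousAt
  have c3 : ContinuousAt (fun q : ℝ × Q => ‖q.2.1‖) (τ, z) := by fun_prop
  have c4 : ContinuousAt (fun q : ℝ × Q => q.2.2.2) (τ, z) := by fun_prop
  have : ∀ᶠ q : ℝ × Q in 𝓝 (τ, z), ¬ (S q.1).Box π q.2 := by
    simp only [Sf.Box, not_and_or, not_le] at hb
    rcases hb with hb | hb | hb | hb | hb
    · filter_upwards [c3.eventually (lt_mem_nhds hb)] with q a b using a.not_ge b.1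
    · filter_upwards [c4.eventually (gt_mem_nhds hb)] with q a b using a.not_ge b.2.1
    · filter_upwards [c4.eventually (lt_mem_nhds hb)] with q a b using a.not_ge b.2.2.1
    · filter_upwards [c1.eventually (gt_mem_nhds hb)] with q a b using a.not_ge b.2.2.2.1
    · filter_upwards [c2.eventually (gt_mem_nhds hb)] with q a b using a.not_ge b.2.2.2.2
  have e : (fun q : ℝ × Q => (S q.1).Psi π q.2) =ᶠ[𝓝 (τ, z)] fun _ => 0 :=
    this.mono fun q hq => (off' hπ hq 0).1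
  rw [e.fderiv_eq]
  simp

theorem II_congr {T : Sf} (hT : T.Ok) {f g : Q → ℝ}
    (h : ∀ z, T.w z.1 = 0 → ‖z.2.1‖ = 1 → T.w (yy z) = 0 → f z = g z) : T.II f = T.II g := by
  refine integral_congr_ae (hT.sup.mono fun x hx => integral_congr_ae (.of_forall fun u => ?_))
  by_cases hu : u = 0
  · simp [hu, gam_zero]
  · have : T.RS f x (un u) = T.RS g x (un u) :=
      finsum_congr fun d => finsum_congr fun hd => h (x, un u, d) hx (norm_un hu) hd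
    simp only [this]

end Psit

end Vale.Agent.P218M1
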