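import Vale.Agent.P218M1.Cut

/-!
# P218M1: the energy in a window, pointwise inequalities
-/

open MeasureTheory Metric Filter Topology Set
open scoped ContDiff RealInnerProductSpace ENNReal

noncomputable section

namespace Vale.Agent.P218M1

namespace Tb

variable {Cw d₁ d₂ L κ : ℝ} {th gb ga ch : ℝ → ℝ}

theorem Cw_nonneg (W : Win Cw d₁ d₂ L th gb ga ch) : 0 ≤ Cw := by
  have h1 := (W.ga0 0).trans (W.gal 0)
  have h2 : 0 < L := by linarith [W.L1]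
  by_contra h
  exact absurd h1 (not_le.2 (div_neg_of_neg_of_pos (not_le.1 h) h2))

/-- the cross term -/
theorem cross (W : Win Cw d₁ d₂ L th gb ga ch) {s z G H I : ℝ} (hG : 0 ≤ G) (hH : 0 ≤ H)
    (hI : I ^ 2 ≤ G * (8 * H * s)) (hs : d₂ ^ 2 / 2 < s) :
    (ch s = 1 ∧ ga s / s * (2 * z * I) ≤ z ^ 2 * gb s * H / 4 + 32 * Cw * G) ∨
      ga s / s * (2 * z * I) ≤ Cw / (L * d₁) * (8 * (z ^ 2 * H) + G) := by
  have hC := Cw_nonneg W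
  have hd := W.d0
  have hd1 : 0 < d₁ := hd.trans_le W.d12
  have hL : 0 < L := by linarith [W.L1]
  have hs0 : 0 < s := lt_trans (by positivity) hs
  have hg := W.gb0 s
  rcases le_total s (d₁ ^ 2) with h | h
  · refine Or.inl ⟨W.che s hs.le h, ?_⟩
    have h1 := W.gag s hs0 h
    have h2 : (ga s / s * (2 * z * I)) ^ 2 ≤ 4 * (z ^ 2 * gb s * H / 4) * (32 * Cw * G) := by
      calc _ = ga s ^ 2 * I ^ 2 * (4 * z ^ 2 / s ^ 2) := by field_simp; ring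
        _ ≤ Cw * (s * gb s) * (G * (8 * H * s)) * (4 * z ^ 2 / s ^ 2) := by gcongr
        _ = _ := by field_simp; ring
    have h3 : 0 ≤ z ^ 2 * gb s * H / 4 := by positivity
    have h4 : 0 ≤ 32 * Cw * G := by positivity
    exact (abs_le_of_sq_le_sq' (by nlinarith [sq_nonneg (z ^ 2 * gb s * H / 4 - 32 * Cw * G)])
      (by positivity)).2
  · right
    have h1 : ga s ^ 2 ≤ (Cw / L) ^ 2 := pow_le_pow_left₀ (W.ga0 s) (W.gal s) 2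
    have h2 : (ga s / s * (2 * z * I)) ^ 2 ≤ (Cw / (L * d₁)) ^ 2 * (4 * (8 * (z ^ 2 * H)) * G) := by
      calc _ = ga s ^ 2 * I ^ 2 * (4 * z ^ 2 / s ^ 2) := by field_simp; ring
        _ ≤ (Cw / L) ^ 2 * (G * (8 * H * s)) * (4 * z ^ 2 / s ^ 2) := by gcongr
        _ = (Cw / L) ^ 2 * (4 * (8 * (z ^ 2 * H)) * G) / s := by field_simp
        _ ≤ (Cw / L) ^ 2 * (4 * (8 * (z ^ 2 * H)) * G) / d₁ ^ 2 := by gcongr
        _ = _ := by field_simp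
    refine (abs_le_of_sq_le_sq' (h2.trans ?_) (by positivity)).2
    rw [mul_pow]
    gcongr
    nlinarith [sq_nonneg (8 * (z ^ 2 * H) - G)]

theorem dq {d t ε : ℝ} (hd : 0 < d) (hd1 : d ≤ 1) (ht : 0 ≤ t) (h : d ≤ 2 * ε * (1 + t))
    (hκ1 : κ ≤ 1) (hκ : 0 < κ) : (d * (1 + t) ^ (-κ)) ^ 2 ≤ (2 * ε) ^ (2 * κ) := by
  have h1 : 0 < 1 + t := by linarith
  have h2 : d ≤ d ^ κ := by
    simpa using Real.rpow_le_rpow_of_exponent_ge hd hd1 hκ1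
  have h3 : d / (1 + t) ≤ 2 * ε := (div_le_iff₀ h1).2 h
  have h4 : d * (1 + t) ^ (-κ) ≤ (2 * ε) ^ κ := by
    calc _ ≤ d ^ κ * (1 + t) ^ (-κ) := by gcongr
      _ = (d / (1 + t)) ^ κ := by
        rw [Real.div_rpow hd.le h1.le, Real.rpow_neg h1.le, div_eq_mul_inv]
      _ ≤ _ := by gcongr
  have h5 : 0 ≤ 2 * ε := le_trans (by positivity) h3
  rw [mul_comm 2 κ, Real.rpow_mul h5, Real.rpow_two]
  gcongr

/-- the trace term -/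
theorem t1 {g s z tr H fx fy ay d x u e E1 l : ℝ} (hg : 0 ≤ g) (hs : 0 ≤ s) (hz : z ^ 2 ≤ 1)
    (hay : 0 ≤ ay) (he : 0 ≤ e) (h2 : g * s ≤ l) (h4 : g ≤ 2 * u) (h5 : l ≤ E1)
    (h6 : l * x ^ 2 ≤ 4 * E1) (hd : z ^ 2 * d ^ 2 ≤ e)
    (htr : tr ^ 2 ≤ H / 10 + 10 ^ 7 * (fx ^ 2 + fy ^ 2 + s * ay + d ^ 2 + x ^ 2 * s)) :
    z ^ 2 * g * tr ^ 2 ≤ z ^ 2 * g * H / 10 +
      10 ^ 7 * (2 * u * fx ^ 2 + 2 * u * fy ^ 2 + E1 * ay + 2 * (e * u) + 4 * E1) := by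
  have h6' : z ^ 2 * g ≤ 2 * u := (mul_le_of_le_one_left hg hz).trans h4
  have h7 : z ^ 2 * (g * s) ≤ l := (mul_le_of_le_one_left (mul_nonneg hg hs) hz).trans h2
  have h8 := mul_le_mul hd h4 hg he
  have h9 := (mul_le_mul_of_nonneg_right h7 (sq_nonneg x)).trans h6
  have h10 := mul_le_mul_of_nonneg_left htr (by positivity : 0 ≤ z ^ 2 * g)
  have h11 := mul_le_mul_of_nonneg_right h6' (sq_nonneg fx)
  have h12 := mul_le_mul_of_nonneg_right h6' (sq_nonneg fy)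
  have h13 := mul_le_mul_of_nonneg_right (h7.trans h5) hay
  linarith

theorem t2 {X z g H G A ig ax ay c u E3 E4 : ℝ} (hC : 0 ≤ Cw) (hκ : 0 < κ) (hκ1 : κ ≤ 1)
    (hg : 0 ≤ g) (hH : 0 ≤ H) (hA : 0 ≤ A) (hig : 0 ≤ ig) (hax : 0 ≤ ax) (hay : 0 ≤ ay)
    (hc : 0 ≤ c) (hz : z ^ 2 ≤ 1) (u1 : 1 ≤ u) (e4 : E4 = κ * u ^ 2) (p3 : 0 ≤ E3) (e3 : E3 ≤ u)
    (hH1 : H ≤ 128 * ay + 16 * ax) (h1 : G ≤ 2 * A + κ ^ 2 * (48 * ig * u + 32 * ax))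
    (h : (c = 1 ∧ X ≤ z ^ 2 * g * H / 4 + 32 * Cw * G) ∨ X ≤ Cw * E3 * (8 * (z ^ 2 * H) + G)) :
    X ≤ z ^ 2 * g * H / 4 + 64 * Cw * (c * A) + 2 * Cw * E3 * A + 1536 * Cw * E4 * ig +
      Cw * (1024 * E4 * ax + E3 * (1024 * ay + 160 * ax)) := by
  have u0 : 0 ≤ u := by linarith
  have p4 : 0 ≤ E4 := by rw [e4]; positivity
  have k1 : κ ^ 2 ≤ κ := by nlinarith
  have k2 : κ ^ 2 * u ≤ E4 := by
    rw [e4]; exact mul_le_mul k1 (by nlinarith) u0 hκ.le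
  have k3 : κ ^ 2 ≤ E4 := (le_mul_of_one_le_right (sq_nonneg κ) u1).trans k2
  have n1 : 0 ≤ Cw * E3 := by positivity
  rcases h with ⟨h2, h3⟩ | h3
  · have h4 : G ≤ 2 * A + 48 * E4 * ig + 32 * E4 * ax := by
      linarith [mul_le_mul_of_nonneg_right k2 hig, mul_le_mul_of_nonneg_right k3 hax]
    have h5 := mul_le_mul_of_nonneg_left h4 hC
    have h6 : 0 ≤ Cw * E3 * A := by positivity
    have h7 : 0 ≤ Cw * (E3 * (1024 * ay + 160 * ax)) := by positivity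
    rw [h2]
    linarith
  · have h5 : z ^ 2 * H ≤ 128 * ay + 16 * ax := (mul_le_of_le_one_left hH hz).trans hH1
    have h6 : G ≤ 2 * A + κ * u * (48 * ig) + 32 * ax := by
      linarith [mul_le_mul_of_nonneg_right k1 (by positivity : 0 ≤ 48 * ig * u),
        mul_le_mul_of_nonneg_right (k1.trans hκ1) hax]
    have h7 : E3 * (κ * u) ≤ E4 := by
      rw [e4]; linarith [mul_le_mul_of_nonneg_right e3 (by positivity : 0 ≤ κ * u)]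
    have h8 := mul_le_mul_of_nonneg_left (add_le_add (mul_le_mul_of_nonneg_left h5
      (by norm_num : (0 : ℝ) ≤ 8)) h6) n1
    have h9 := mul_le_mul_of_nonneg_left h7 (by positivity : 0 ≤ Cw * (48 * ig))
    have h10 : 0 ≤ z ^ 2 * g * H := by positivity
    have h11 : 0 ≤ Cw * (c * A) := by positivity
    have h12 : 0 ≤ Cw * E4 * ig := by positivity
    have h13 : 0 ≤ Cw * (E4 * ax) := by positivity
    linarith

theorem t3 {fx fy ax ay u E1 E2 E3 E4 : ℝ} (hC : 0 ≤ Cw) (hax : 0 ≤ ax) (hay : 0 ≤ ay) (u0 : 0 ≤ u)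
    (p1 : 0 ≤ E1) (p2 : 0 ≤ E2) (p3 : 0 ≤ E3) (p4 : 0 ≤ E4) :
    10 ^ 7 * (2 * u * fx ^ 2 + 2 * u * fy ^ 2 + E1 * ay + 2 * E2 + 4 * E1) +
      Cw * (1024 * E4 * ax + E3 * (1024 * ay + 160 * ax)) ≤
      10 ^ 8 * (1 + Cw) * (u * fx ^ 2 + (E1 + E2 + E3 + E4) * (1 + ax)) +
      10 ^ 8 * (1 + Cw) * (u * fy ^ 2 + (E1 + E2 + E3 + E4) * (1 + ay)) := by
  have q1 : 0 ≤ u * fx ^ 2 := by positivity
  have q2 : 0 ≤ Cw * (u * fx ^ 2) := by positivity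
  have q3 : 0 ≤ (E1 + E2 + E3 + E4) * (1 + ax) := by positivity
  have q4 : 0 ≤ Cw * ((E1 + E2 + E3 + E4) + (E1 + E2) * ax) := by positivity
  have q5 : 0 ≤ Cw * (E3 * ax) := by positivity
  have q6 : 0 ≤ Cw * (E4 * ax) := by positivity
  have q7 : 0 ≤ u * fy ^ 2 := by positivity
  have q8 : 0 ≤ Cw * (u * fy ^ 2) := by positivity
  have q9 : 0 ≤ E1 * ay := by positivity
  have q10 : 0 ≤ Cw * ((E1 + E2 + E3 + E4) + (E1 + E2 + E4) * ay) := by positivity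
  have q11 : 0 ≤ Cw * (E3 * ay) := by positivity
  have q12 : 0 ≤ (E2 + E3 + E4) * ay := by positivity
  linarith

/-- the numerical inequality -/
theorem num (W : Win Cw d₁ d₂ L th gb ga ch) (hκ : 0 < κ) (hκ1 : κ ≤ 1)
    {s a q H tr G I A ig d R e x fx fy ax ay c : ℝ} (hs : 0 ≤ s) (ha : 0 ≤ a) (ha1 : a ≤ 1)
    (hq : 0 ≤ q) (hq1 : q ≤ 1) (hH : 0 ≤ H) (hG : 0 ≤ G) (hA : 0 ≤ A) (hig : 0 ≤ ig)
    (hax : 0 ≤ ax) (hay : 0 ≤ ay) (hR : 1 ≤ R) (he : 0 ≤ e) (hc : 1 / 4 ≤ c)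
    (htr : tr ^ 2 ≤ H / 10 + 10 ^ 7 * (fx ^ 2 + fy ^ 2 + s * ay + d ^ 2 + x ^ 2 * s))
    (hx : x ^ 2 ≤ 4 * R ^ 2) (hd : (d * q) ^ 2 ≤ e) (hI : I ^ 2 ≤ G * (8 * H * s))
    (hH1 : H ≤ 128 * ay + 16 * ax)
    (hG1 : d₂ ^ 2 / 2 < s → G ≤ 2 * A + κ ^ 2 * (48 * ig / d₂ ^ 2 + 32 * ax)) :
    1 / 2 * ((a * q) ^ 2 * gb s * H) + ((a * q) ^ 2 * (gb s * (tr ^ 2 - H)) +
      ga s / s * (2 * (a * q) * I)) - 64 * Cw * (ch s * A) - 2 * Cw / (L * d₁) * A -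
      1536 * Cw * κ / d₂ ^ 4 * ig ≤
      c ^ 4 * (256 * (10 ^ 8 * (1 + Cw) * (1 / d₂ ^ 2 * fx ^ 2 + (R ^ 2 / L ^ 2 + e / d₂ ^ 2 +
        1 / (L * d₁) + κ / d₂ ^ 4) * (1 + ax))) + 0) +
      10 ^ 8 * (1 + Cw) * (1 / d₂ ^ 2 * fy ^ 2 + (R ^ 2 / L ^ 2 + e / d₂ ^ 2 +
        1 / (L * d₁) + κ / d₂ ^ 4) * (1 + ay)) := by
  have hC := Cw_nonneg W
  have hd2 := W.d0
  have hd1 : 0 < d₁ := hd2.trans_le W.d12
  have hL1 := W.L1
  have hL : 0 < L := by linarith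
  have hg := W.gb0 s
  have hch := W.ch0 s
  have hd21 : d₂ ≤ 1 := by linarith [W.d12, W.d1h]
  have hd22 : d₂ ^ 2 ≤ 1 := pow_le_one₀ hd2.le hd21
  have hz1 : (a * q) ^ 2 ≤ 1 := pow_le_one₀ (by positivity) (mul_le_one₀ ha1 hq hq1)
  have u1 : 1 ≤ 1 / d₂ ^ 2 := by rw [le_div_iff₀ (by positivity)]; linarith
  have e4 : κ / d₂ ^ 4 = κ * (1 / d₂ ^ 2) ^ 2 := by field_simp
  have e3 : 1 / (L * d₁) ≤ 1 / d₂ ^ 2 := by
    apply one_div_le_one_div_of_le (by positivity)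
    calc d₂ ^ 2 = d₂ * d₂ := sq d₂
      _ ≤ L * d₁ := mul_le_mul (hd21.trans hL1) W.d12 hd2.le hL.le
  have a1 : (a * q) ^ 2 * gb s * tr ^ 2 ≤ (a * q) ^ 2 * gb s * H / 10 +
      10 ^ 7 * (2 * (1 / d₂ ^ 2) * fx ^ 2 + 2 * (1 / d₂ ^ 2) * fy ^ 2 + R ^ 2 / L ^ 2 * ay +
        2 * (e * (1 / d₂ ^ 2)) + 4 * (R ^ 2 / L ^ 2)) := by
    by_cases h0 : gb s = 0
    · rw [h0]; simp only [mul_zero, zero_mul, zero_div, zero_add]; positivity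
    have h1 := (W.gbz s h0).1
    have hs0 : 0 < s := lt_of_lt_of_le (by positivity) h1
    have h2 : gb s * s ≤ 1 / L ^ 2 := by
      have := W.gbl s hs0
      rwa [← div_div, le_div_iff₀ hs0] at this
    have h3 : 1 / L ^ 2 ≤ 1 := by rw [div_le_one (by positivity)]; exact one_le_pow₀ hL1
    refine t1 hg hs hz1 hay he h2 ?_ ?_ ?_ ?_ htr
    · rw [mul_one_div, le_div_iff₀ (by positivity)]
      linarith [mul_le_mul_of_nonneg_left h1 hg]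
    · gcongr
      exact one_le_pow₀ hR
    · calc _ ≤ 1 / L ^ 2 * (4 * R ^ 2) := by gcongr
        _ = _ := by ring
    · calc _ = a ^ 2 * (d * q) ^ 2 := by ring
        _ ≤ 1 * e := by gcongr; exact pow_le_one₀ ha ha1
        _ = e := one_mul e
  have a2 : ga s / s * (2 * (a * q) * I) ≤ (a * q) ^ 2 * gb s * H / 4 + 64 * Cw * (ch s * A) +
      2 * Cw * (1 / (L * d₁)) * A + 1536 * Cw * (κ / d₂ ^ 4) * ig +
      Cw * (1024 * (κ / d₂ ^ 4) * ax + 1 / (L * d₁) * (1024 * ay + 160 * ax)) := by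
    by_cases h0 : s ≤ d₂ ^ 2 / 2
    · rw [W.gaz s h0, zero_div, zero_mul]; positivity
    refine t2 (G := G) hC hκ hκ1 hg hH hA hig hax hay hch hz1 u1 e4 (by positivity) e3 hH1 ?_ ?_
    · rw [mul_one_div]; exact hG1 (not_le.1 h0)
    · rw [mul_one_div]; exact cross W hG hH hI (not_le.1 h0)
  have a3 := t3 (fx := fx) (fy := fy) (u := 1 / d₂ ^ 2) (E1 := R ^ 2 / L ^ 2)
    (E2 := e * (1 / d₂ ^ 2)) (E3 := 1 / (L * d₁)) (E4 := κ / d₂ ^ 4) hC hax hay (by positivity)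
    (by positivity) (by positivity) (by positivity) (by positivity)
  have c4 : 1 ≤ c ^ 4 * 256 := by
    have : (1 / 4 : ℝ) ^ 4 ≤ c ^ 4 := by gcongr
    linarith
  have f1 := le_mul_of_one_le_left (by positivity : 0 ≤ 10 ^ 8 * (1 + Cw) * (1 / d₂ ^ 2 * fx ^ 2 +
    (R ^ 2 / L ^ 2 + e * (1 / d₂ ^ 2) + 1 / (L * d₁) + κ / d₂ ^ 4) * (1 + ax))) c4
  have f4 : 0 ≤ (a * q) ^ 2 * gb s * H := by positivity
  rw [div_eq_mul_one_div e, div_eq_mul_one_div (2 * Cw), mul_div_assoc (1536 * Cw), add_zero,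
    ← mul_assoc (c ^ 4)]
  linarith

end Tb

end Vale.Agent.P218M1
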